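import Mathlib

/-!
# P259 (D4): cube lemmas for the collapse

Cones on boundaries of cubes, homotopy extension to the interior, and filling of a prism from its
bottom and sides with prescribed top.
-/

open Set Topology
open scoped unitInterval

noncomputable section

namespace Vale.Agent.P259

namespace CubeLemma

variable {ι : Type} [Fintype ι] {Y : Type} [TopologicalSpace Y]

theorem isClosed_boundary : IsClosed (Cube.boundary ι) := by
  have : Cube.boundary ι = ⋃ i : ι, {y : ι → I | y i = 0} ∪ {y | y i = 1} := by
    ext y; simp [Cube.boundary]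
  rw [this]
  exact isClosed_iUnion_of_finite fun i =>
    (isClosed_eq (continuous_apply i) continuous_const).union
      (isClosed_eq (continuous_apply i) continuous_const)

instance : CompactSpace (Cube.boundary ι) :=
  isCompact_iff_compactSpace.mp isClosed_boundary.isCompact

theorem abs_sub_half_le (t : I) : |(t : ℝ) - 1 / 2| ≤ 1 / 2 := by
  rw [abs_le]; constructor <;> linarith [t.2.1, t.2.2]

theorem exists_abs_eq (a : Cube.boundary ι) : ∃ i, |(a.1 i : ℝ) - 1 / 2| = 1 / 2 := by
  obtain ⟨a, i, hi | hi⟩ := a <;> exact ⟨i, by norm_num [hi]⟩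

/-- The cone map onto the cube, `(s, a) ↦ 1/2 + s (a - 1/2)`. -/
def cone (ι : Type) : C(I × Cube.boundary ι, ι → I) where
  toFun q i := ⟨1 / 2 + (q.1 : ℝ) * ((q.2.1 i : ℝ) - 1 / 2), by
    have h1 := q.1.2
    have h2 := (q.2.1 i).2
    constructor <;> nlinarith [h1.1, h1.2, h2.1, h2.2]⟩
  continuous_toFun := continuous_pi fun i => Continuous.subtype_mk
    (continuous_const.add ((continuous_subtype_val.comp continuous_fst).mul
      ((continuous_subtype_val.comp ((continuous_apply i).comp
        (continuous_subtype_val.comp continuous_snd))).sub continuous_const))) _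

theorem cone_val (s : I) (a : Cube.boundary ι) (i : ι) :
    ((cone ι (s, a) i : I) : ℝ) = 1 / 2 + (s : ℝ) * ((a.1 i : ℝ) - 1 / 2) := rfl

theorem cone_one (a : Cube.boundary ι) : cone ι (1, a) = a.1 := by
  funext i; apply Subtype.ext; rw [cone_val]; simp

theorem cone_zero_eq (a a' : Cube.boundary ι) : cone ι (0, a) = cone ι (0, a') := by
  funext i; apply Subtype.ext; simp [cone_val]

theorem cone_fibre {s s' : I} {a a' : Cube.boundary ι} (h : cone ι (s, a) = cone ι (s', a')) :
    (s = 0 ∧ s' = 0) ∨ (s = s' ∧ a = a') := by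
  have hi : ∀ i, (s : ℝ) * ((a.1 i : ℝ) - 1 / 2) = (s' : ℝ) * ((a'.1 i : ℝ) - 1 / 2) :=
    fun i => add_left_cancel (congrArg (fun y : ι → I => (y i : ℝ)) h)
  have habs : ∀ (s s' : I) (a a' : Cube.boundary ι),
      (∀ i, (s : ℝ) * ((a.1 i : ℝ) - 1 / 2) = (s' : ℝ) * ((a'.1 i : ℝ) - 1 / 2)) →
        (s : ℝ) ≤ s' := by
    intro s s' a a' hi
    obtain ⟨i, hat⟩ := exists_abs_eq a
    have h2 := congrArg abs (hi i)
    rw [abs_mul, abs_mul, hat, abs_of_nonneg s.2.1, abs_of_nonneg s'.2.1] at h2
    nlinarith [abs_sub_half_le (a'.1 i), s'.2.1]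
  obtain rfl : s = s' := Subtype.ext (le_antisymm (habs s s' a a' hi)
    (habs s' s a' a fun i => (hi i).symm))
  by_cases h0 : s = 0
  · exact Or.inl ⟨h0, h0⟩
  · refine Or.inr ⟨rfl, Subtype.ext (funext fun i => Subtype.ext ?_)⟩
    have hs : (s : ℝ) ≠ 0 := fun e => h0 (Subtype.ext e)
    linarith [mul_left_cancel₀ hs (hi i)]

theorem cone_surjective [Nonempty ι] : Function.Surjective (cone ι) := by
  intro y
  obtain ⟨i₀, -, hmax⟩ := Finset.exists_max_image (Finset.univ : Finset ι)
    (fun i => |(y i : ℝ) - 1 / 2|) Finset.univ_nonempty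
  set r := |(y i₀ : ℝ) - 1 / 2| with hr
  have hr1 : r ≤ 1 / 2 := abs_sub_half_le _
  by_cases h0 : r = 0
  · refine ⟨(0, ⟨fun _ => 0, i₀, Or.inl rfl⟩), ?_⟩
    funext i
    apply Subtype.ext
    have := hmax i (Finset.mem_univ i)
    rw [h0, abs_nonpos_iff, sub_eq_zero] at this
    simp [cone_val, this]
  · have hpos : 0 < r := lt_of_le_of_ne (abs_nonneg _) (Ne.symm h0)
    let a : ι → I := fun i => ⟨1 / 2 + ((y i : ℝ) - 1 / 2) / (2 * r), by
      have := abs_le.mp (hmax i (Finset.mem_univ i))
      have h1 : ((y i : ℝ) - 1 / 2) / (2 * r) ≤ 1 / 2 := by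
        rw [div_le_iff₀ (by positivity)]; linarith [this.2]
      have h2 : -(1 / 2) ≤ ((y i : ℝ) - 1 / 2) / (2 * r) := by
        rw [le_div_iff₀ (by positivity)]; linarith [this.1]
      constructor <;> linarith⟩
    have ha : a ∈ Cube.boundary ι := by
      refine ⟨i₀, ?_⟩
      rcases abs_choice ((y i₀ : ℝ) - 1 / 2) with h | h
      · refine Or.inr (Subtype.ext ?_)
        have e : (y i₀ : ℝ) - 1 / 2 = r := h.symm
        show 1 / 2 + ((y i₀ : ℝ) - 1 / 2) / (2 * r) = 1
        rw [e]; field_simp; ring
      · refine Or.inl (Subtype.ext ?_)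
        have e : (y i₀ : ℝ) - 1 / 2 = -r := by rw [hr, h]; ring
        show 1 / 2 + ((y i₀ : ℝ) - 1 / 2) / (2 * r) = 0
        rw [e]; field_simp; ring
    refine ⟨(⟨2 * r, by constructor <;> linarith⟩, ⟨a, ha⟩), ?_⟩
    funext i
    apply Subtype.ext
    show 1 / 2 + 2 * r * (1 / 2 + ((y i : ℝ) - 1 / 2) / (2 * r) - 1 / 2) = (y i : ℝ)
    field_simp
    ring

/-- A map on the boundary of a cube homotopic to a restriction extends to the cube. -/
theorem exists_extension_of_homotopic [Nonempty ι] (F₀ : C(ι → I, Y))
    (f : C(Cube.boundary ι, Y))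
    (H : (F₀.comp ⟨Subtype.val, continuous_subtype_val⟩).Homotopy f) :
    ∃ F : C(ι → I, Y), ∀ a : Cube.boundary ι, F a.1 = f a := by
  classical
  let G : I × Cube.boundary ι → Y := fun q => if (q.1 : ℝ) ≤ 1 / 2
    then F₀ (cone ι (Set.projIcc 0 1 zero_le_one (2 * (q.1 : ℝ)), q.2))
    else H (Set.projIcc 0 1 zero_le_one (2 * (q.1 : ℝ) - 1), q.2)
  have hG : Continuous G := by
    have hp : Continuous fun q : I × Cube.boundary ι => (q.1 : ℝ) :=
      continuous_subtype_val.comp continuous_fst
    refine Continuous.if_le ?_ ?_ hp continuous_const fun q hq => ?_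
    · exact F₀.continuous.comp ((cone ι).continuous.comp
        ((continuous_projIcc.comp (continuous_const.mul hp)).prodMk continuous_snd))
    · exact H.continuous.comp
        ((continuous_projIcc.comp ((continuous_const.mul hp).sub continuous_const)).prodMk
          continuous_snd)
    · have e1 : Set.projIcc 0 1 zero_le_one (2 * (q.1 : ℝ)) = (1 : I) := by
        rw [hq]; norm_num [Set.projIcc]
      have e0 : Set.projIcc 0 1 zero_le_one (2 * (q.1 : ℝ) - 1) = (0 : I) := by
        rw [hq]; norm_num [Set.projIcc]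
      rw [e1, e0, cone_one, H.apply_zero]
      rfl
  have hqm : IsQuotientMap (cone ι) :=
    (cone ι).continuous.isClosedMap.isQuotientMap (cone ι).continuous cone_surjective
  have hfac : Function.FactorsThrough (⟨G, hG⟩ : C(_, Y)) (cone ι) := by
    rintro ⟨s, a⟩ ⟨s', a'⟩ h
    rcases cone_fibre h with ⟨rfl, rfl⟩ | ⟨rfl, rfl⟩
    · show G (0, a) = G (0, a')
      simp only [G, Set.Icc.coe_zero, mul_zero]
      rw [if_pos (by norm_num), if_pos (by norm_num)]
      have : Set.projIcc (0 : ℝ) 1 zero_le_one 0 = (0 : I) := Set.projIcc_left _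
      rw [this, cone_zero_eq a a']
    · rfl
  refine ⟨hqm.lift ⟨G, hG⟩ hfac, fun a => ?_⟩
  have := congrArg (fun φ : C(I × Cube.boundary ι, Y) => φ (1, a)) (hqm.lift_comp ⟨G, hG⟩ hfac)
  simp only [ContinuousMap.comp_apply, cone_one] at this
  rw [this]
  show G (1, a) = f a
  simp only [G, Set.Icc.coe_one]
  rw [if_neg (by norm_num)]
  have : Set.projIcc (0 : ℝ) 1 zero_le_one (2 * 1 - 1) = (1 : I) := by
    norm_num [Set.projIcc]
  rw [this, H.apply_one]

/-- The bottom and sides of the prism on a cube. -/
def openBox (ι : Type) : Set ((ι → I) × I) := {q | q.2 = 0 ∨ q.1 ∈ Cube.boundary ι}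

theorem isClosed_openBox : IsClosed (openBox ι) :=
  (isClosed_eq continuous_snd continuous_const).union (isClosed_boundary.preimage continuous_fst)

/-- The scale of the central projection from `(1/2, ..., 1/2, 2)`. -/
def scale (q : (ι → I) × I) : ℝ :=
  max ((2 - (q.2 : ℝ)) / 2) (2 * ‖fun i => (q.1 i : ℝ) - 1 / 2‖)

theorem scale_pos (q : (ι → I) × I) : 0 < scale q :=
  lt_of_lt_of_le (by linarith [q.2.2.2] : (0 : ℝ) < (2 - (q.2 : ℝ)) / 2) (le_max_left _ _)

theorem scale_le_one (q : (ι → I) × I) : scale q ≤ 1 := by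
  refine max_le (by linarith [q.2.2.1]) ?_
  have : ‖fun i => (q.1 i : ℝ) - 1 / 2‖ ≤ 1 / 2 := (pi_norm_le_iff_of_nonneg (by norm_num)).mpr
    fun i => by rw [Real.norm_eq_abs]; exact abs_sub_half_le _
  linarith

theorem continuous_scale : Continuous (scale (ι := ι)) :=
  ((continuous_const.sub (continuous_subtype_val.comp continuous_snd)).div_const _).max
    (continuous_const.mul (continuous_norm.comp (continuous_pi fun i =>
      (continuous_subtype_val.comp ((continuous_apply i).comp continuous_fst)).sub
        continuous_const)))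

/-- The central projection of the prism onto bottom and sides. -/
def retract (ι : Type) [Fintype ι] : C((ι → I) × I, openBox ι) where
  toFun q := ⟨(fun i => ⟨1 / 2 + ((q.1 i : ℝ) - 1 / 2) / scale q, by
      have hs := scale_pos q
      have h : |(q.1 i : ℝ) - 1 / 2| ≤ scale q / 2 := by
        have h1 : |(q.1 i : ℝ) - 1 / 2| ≤ ‖fun j => (q.1 j : ℝ) - 1 / 2‖ := by
          simpa using norm_le_pi_norm (fun j => (q.1 j : ℝ) - 1 / 2) i
        have h2 : 2 * ‖fun j => (q.1 j : ℝ) - 1 / 2‖ ≤ scale q := le_max_right _ _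
        linarith
      have h' : |((q.1 i : ℝ) - 1 / 2) / scale q| ≤ 1 / 2 := by
        rw [abs_div, abs_of_pos hs, div_le_iff₀ hs]; linarith
      rw [abs_le] at h'
      constructor <;> linarith⟩,
    ⟨2 + ((q.2 : ℝ) - 2) / scale q, by
      have hs := scale_pos q
      have h1 : (2 - (q.2 : ℝ)) / 2 ≤ scale q := le_max_left _ _
      have h2 : -2 ≤ ((q.2 : ℝ) - 2) / scale q := by rw [le_div_iff₀ hs]; linarith
      have h3 : ((q.2 : ℝ) - 2) / scale q ≤ -1 := by
        rw [div_le_iff₀ hs]; linarith [scale_le_one q, q.2.2.2]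
      constructor <;> linarith⟩), by
    have hs := scale_pos q
    rcases max_choice ((2 - (q.2 : ℝ)) / 2) (2 * ‖fun i => (q.1 i : ℝ) - 1 / 2‖) with h | h
    · refine Or.inl (Subtype.ext ?_)
      show 2 + ((q.2 : ℝ) - 2) / scale q = 0
      have e : scale q = (2 - (q.2 : ℝ)) / 2 := h
      rw [e]
      have : (2 : ℝ) - q.2 ≠ 0 := by linarith [q.2.2.2]
      field_simp
      ring
    · refine Or.inr ?_
      have e : scale q = 2 * ‖fun i => (q.1 i : ℝ) - 1 / 2‖ := h
      rcases isEmpty_or_nonempty ι with hι | hι
      · exfalso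
        have : ‖fun i => (q.1 i : ℝ) - 1 / 2‖ = 0 := by
          rw [norm_eq_zero]; exact funext fun i => isEmptyElim i
        rw [this, mul_zero] at e
        exact hs.ne' e
      · obtain ⟨i, hi⟩ : ∃ i, ‖fun j => (q.1 j : ℝ) - 1 / 2‖ = |(q.1 i : ℝ) - 1 / 2| := by
          obtain ⟨i, -, hi⟩ := Finset.exists_max_image (Finset.univ : Finset ι)
            (fun i => |(q.1 i : ℝ) - 1 / 2|) Finset.univ_nonempty
          refine ⟨i, le_antisymm ((pi_norm_le_iff_of_nonneg (abs_nonneg _)).mpr fun j => ?_) ?_⟩
          · rw [Real.norm_eq_abs]; exact hi j (Finset.mem_univ j)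
          · simpa using norm_le_pi_norm (fun j => (q.1 j : ℝ) - 1 / 2) i
        rw [hi] at e
        refine ⟨i, ?_⟩
        rcases abs_choice ((q.1 i : ℝ) - 1 / 2) with hc | hc
        · refine Or.inr (Subtype.ext ?_)
          show 1 / 2 + ((q.1 i : ℝ) - 1 / 2) / scale q = 1
          have hne : (q.1 i : ℝ) - 1 / 2 ≠ 0 := fun h0 => by
            rw [hc, h0] at e; linarith
          rw [e, hc]
          generalize (q.1 i : ℝ) - 1 / 2 = D at hne ⊢
          have : D / (2 * D) = 1 / 2 := by field_simp
          rw [this]; norm_num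
        · refine Or.inl (Subtype.ext ?_)
          show 1 / 2 + ((q.1 i : ℝ) - 1 / 2) / scale q = 0
          have hne : (q.1 i : ℝ) - 1 / 2 ≠ 0 := fun h0 => by
            rw [hc, h0] at e; linarith
          rw [e, hc]
          generalize (q.1 i : ℝ) - 1 / 2 = D at hne ⊢
          have : D / (2 * -D) = -(1 / 2) := by field_simp
          rw [this]; norm_num⟩
  continuous_toFun := by
    have hs : Continuous (scale (ι := ι)) := continuous_scale
    have hne : ∀ q : (ι → I) × I, scale q ≠ 0 := fun q => (scale_pos q).ne'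
    refine Continuous.subtype_mk (Continuous.prodMk (continuous_pi fun i => ?_) ?_) _
    · exact Continuous.subtype_mk (continuous_const.add
        (((continuous_subtype_val.comp ((continuous_apply i).comp continuous_fst)).sub
          continuous_const).div hs hne)) _
    · exact Continuous.subtype_mk (continuous_const.add
        (((continuous_subtype_val.comp continuous_snd).sub continuous_const).div hs hne)) _

theorem retract_eq (q : openBox ι) : retract ι q.1 = q := by
  obtain ⟨⟨u, t⟩, hq⟩ := q
  have hs : scale (u, t) = 1 := by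
    refine le_antisymm (scale_le_one _) ?_
    rcases hq with h | h
    · refine le_trans ?_ (le_max_left _ _)
      obtain rfl : t = 0 := h
      norm_num
    · obtain ⟨i, hi⟩ := exists_abs_eq ⟨u, h⟩
      refine le_trans ?_ (le_max_right _ _)
      have := norm_le_pi_norm (fun j => (u j : ℝ) - 1 / 2) i
      rw [Real.norm_eq_abs] at this
      simp only at hi
      rw [hi] at this
      show (1 : ℝ) ≤ 2 * ‖fun j => (u j : ℝ) - 1 / 2‖
      linarith
  apply Subtype.ext
  refine Prod.ext (funext fun i => Subtype.ext ?_) (Subtype.ext ?_)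
  · show 1 / 2 + ((u i : ℝ) - 1 / 2) / scale (u, t) = (u i : ℝ)
    rw [hs]; ring
  · show 2 + ((t : ℝ) - 2) / scale (u, t) = (t : ℝ)
    rw [hs]; ring

/-- Fill a prism with prescribed bottom and sides and a top homotopic rel boundary to the
projection of bottom and sides. -/
theorem exists_prism_fill (pres : C(openBox ι, Y)) (c : C(ι → I, Y))
    (H : (pres.comp ((retract ι).comp
      ⟨fun u => (u, 1), continuous_id.prodMk continuous_const⟩)).HomotopyRel c
        (Cube.boundary ι)) :
    ∃ G : C((ι → I) × I, Y), (∀ q : openBox ι, G q.1 = pres q) ∧ ∀ u, G (u, 1) = c u := by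
  classical
  -- the prism as a cube
  let e : C((ι → I) × I, Option ι → I) :=
    ⟨fun q o => o.elim q.2 q.1, continuous_pi fun o => by
      cases o with
      | none => exact continuous_snd
      | some i => exact (continuous_apply i).comp continuous_fst⟩
  let e' : C(Option ι → I, (ι → I) × I) :=
    ⟨fun y => (fun i => y (some i), y none),
      (continuous_pi fun i => continuous_apply (some i)).prodMk (continuous_apply none)⟩
  have he : ∀ q, e' (e q) = q := fun q => rfl
  let F₀ : C(Option ι → I, Y) := pres.comp ((retract ι).comp e')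
  let f : Cube.boundary (Option ι) → Y := fun y =>
    if y.1 none = 1 then c (fun i => y.1 (some i)) else F₀ y.1
  have hbd : ∀ y : Cube.boundary (Option ι), y.1 none ≠ 1 → e' y.1 ∈ openBox ι := by
    rintro ⟨y, o, ho⟩ h
    cases o with
    | none => exact Or.inl (ho.resolve_right h)
    | some i => exact Or.inr ⟨i, ho⟩
  let K : I × Cube.boundary (Option ι) → Y := fun p =>
    if p.2.1 none = 1 then H (p.1, fun i => p.2.1 (some i)) else F₀ p.2.1
  have hKc : Continuous K := by
    let A : Set (I × Cube.boundary (Option ι)) := {p | p.2.1 none = 1}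
    let B : Set (I × Cube.boundary (Option ι)) := {p | e' p.2.1 ∈ openBox ι}
    have hA : IsClosed A := isClosed_eq
      ((continuous_apply none).comp (continuous_subtype_val.comp continuous_snd)) continuous_const
    have hB : IsClosed B :=
      isClosed_openBox.preimage (e'.continuous.comp (continuous_subtype_val.comp continuous_snd))
    have hcov : A ∪ B = Set.univ := Set.eq_univ_of_forall fun p => by
      by_cases h : p.2.1 none = 1
      exacts [Or.inl h, Or.inr (hbd p.2 h)]
    rw [← continuousOn_univ, ← hcov]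
    refine ContinuousOn.union_of_isClosed ?_ ?_ hA hB
    · refine ContinuousOn.congr (Continuous.continuousOn ?_) fun p hp => if_pos hp
      exact H.continuous.comp (continuous_fst.prodMk (continuous_pi fun i =>
        (continuous_apply (some i)).comp (continuous_subtype_val.comp continuous_snd)))
    · have hF0 : Continuous fun p : I × Cube.boundary (Option ι) => F₀ p.2.1 :=
        F₀.continuous.comp (continuous_subtype_val.comp continuous_snd)
      refine ContinuousOn.congr hF0.continuousOn fun p hp => ?_
      by_cases h : p.2.1 none = 1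
      · have hu : (fun i => p.2.1 (some i)) ∈ Cube.boundary ι :=
          hp.resolve_left fun h0 => by
            have : p.2.1 none = 0 := h0
            rw [h] at this
            exact one_ne_zero this
        simp only [K, if_pos h]
        rw [H.eq_fst _ hu]
        show pres (retract ι (fun i => p.2.1 (some i), 1)) =
          pres (retract ι (fun i => p.2.1 (some i), p.2.1 none))
        rw [h]
      · exact if_neg h
  have hf : Continuous f := by
    have : f = fun y => K (1, y) := funext fun y => by
      simp only [f, K, H.apply_one]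
    rw [this]
    exact hKc.comp (continuous_const.prodMk continuous_id)
  obtain ⟨F, hF⟩ := exists_extension_of_homotopic F₀ ⟨f, hf⟩
    { toFun := K
      continuous_toFun := hKc
      map_zero_left := fun y => by
        show K (0, y) = F₀ y.1
        by_cases h : y.1 none = 1
        · simp only [K, if_pos h, H.apply_zero]
          show pres (retract ι (fun i => y.1 (some i), 1)) =
            pres (retract ι (fun i => y.1 (some i), y.1 none))
          rw [h]
        · exact if_neg h
      map_one_left := fun y => by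
        show K (1, y) = f y
        simp only [f, K, H.apply_one] }
  refine ⟨F.comp e, fun q => ?_, fun u => ?_⟩
  · have hq : e q.1 ∈ Cube.boundary (Option ι) := by
      rcases q.2 with h | ⟨i, hi⟩
      · exact ⟨none, Or.inl h⟩
      · exact ⟨some i, hi⟩
    refine (hF ⟨_, hq⟩).trans ?_
    show (if q.1.2 = 1 then c q.1.1 else pres (retract ι q.1)) = pres q
    rw [retract_eq]
    split_ifs with h
    · have hu : q.1.1 ∈ Cube.boundary ι := q.2.resolve_left fun h0 => by
        rw [h] at h0; exact one_ne_zero h0
      rw [← H.apply_one, H.eq_fst _ hu]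
      show pres (retract ι (q.1.1, 1)) = pres q
      rw [← h, retract_eq]
    · rfl
  · refine (hF ⟨e (u, 1), none, Or.inr rfl⟩).trans ?_
    exact if_pos rfl

end CubeLemma

end Vale.Agent.P259
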