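import Vale.Agent.P259.GridCells

/-!
# P259 (D4): sections of diagrams of spaces over the grid

A `CellSpaces d N` is a space for every grid cell with maps along faces.  A section over a
subcomplex is a compatible family of maps from the cells.  Sections extend when the boundary maps
extend, so two sections with values in contractible spaces are compatibly homotopic; the homotopy
is a section on the grid one dimension higher.
-/

open Set Topology
open scoped unitInterval

noncomputable section

namespace Vale.Agent.P259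

variable {d N : ℕ}

/-- A diagram of spaces on the grid cells. -/
structure CellSpaces (d N : ℕ) where
  X : GridCell d N → Type
  top : ∀ e, TopologicalSpace (X e)
  map : ∀ {e f : GridCell d N}, e ≤ f → C(X e, X f)
  map_refl : ∀ e x, map (le_refl e) x = x
  map_map : ∀ {e f g : GridCell d N} (h : e ≤ f) (h' : f ≤ g) x,
    map h' (map h x) = map (h.trans h') x

attribute [instance] CellSpaces.top

namespace CellSpaces

/-- The constant diagram. -/
def const (d N : ℕ) (Y : Type) [TopologicalSpace Y] : CellSpaces d N where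
  X _ := Y
  top _ := inferInstance
  map _ := ContinuousMap.id Y
  map_refl _ _ := rfl
  map_map _ _ _ := rfl

/-- The diagram pulled back along a monotone map of cells. -/
def pull {d' N' : ℕ} (D : CellSpaces d N) (π : GridCell d' N' → GridCell d N) (hπ : Monotone π) :
    CellSpaces d' N' where
  X e := D.X (π e)
  top _ := inferInstance
  map h := D.map (hπ h)
  map_refl e x := D.map_refl (π e) x
  map_map h h' x := D.map_map (hπ h) (hπ h') x

/-- A natural family of maps of diagrams. -/
structure Hom (D D' : CellSpaces d N) where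
  app : ∀ e, C(D.X e, D'.X e)
  natural : ∀ {e f : GridCell d N} (h : e ≤ f) x, app f (D.map h x) = D'.map h (app e x)

/-- A section over a set of cells. -/
structure Sec (D : CellSpaces d N) (S : Set (GridCell d N)) where
  app : ∀ e, e ∈ S → C(e.set, D.X e)
  compat : ∀ {e f : GridCell d N} (h : e ≤ f) (he : e ∈ S) (hf : f ∈ S) (x : e.set),
    app f hf (GridCell.incl h x) = D.map h (app e he x)

namespace Sec

variable {D D' : CellSpaces d N} {S S' : Set (GridCell d N)}

/-- Restriction to fewer cells. -/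
def res (s : Sec D S) (h : S' ⊆ S) : Sec D S' where
  app e he := s.app e (h he)
  compat h' he hf x := s.compat h' (h he) (h hf) x

/-- Composition with a natural family. -/
def push (s : Sec D S) (η : Hom D D') : Sec D' S where
  app e he := (η.app e).comp (s.app e he)
  compat h he hf x := by
    simp only [ContinuousMap.comp_apply, s.compat h he hf x, η.natural]

theorem ext' {s t : Sec D S} (h : ∀ e he x, s.app e he x = t.app e he x) : s = t := by
  obtain ⟨a, ha⟩ := s
  obtain ⟨b, hb⟩ := t
  obtain rfl : a = b := funext fun e => funext fun he => ContinuousMap.ext (h e he)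
  rfl

/-- Values of a section at a common point of two cells, in a third. -/
theorem agree (hN : 0 < N) (hS : IsLowerSet S) (s : Sec D S) {e f g : GridCell d N} (he : e ∈ S)
    (hf : f ∈ S) (heg : e ≤ g) (hfg : f ≤ g) (x : e.set) (y : f.set) (hxy : x.1 = y.1) :
    D.map heg (s.app e he x) = D.map hfg (s.app f hf y) := by
  obtain ⟨k, hke, hkf, hk⟩ := GridCell.exists_inf hN x.2 (hxy ▸ y.2 : x.1 ∈ f.set)
  have hx : x = GridCell.incl hke ⟨x.1, hk⟩ := rfl
  have hy : y = GridCell.incl hkf ⟨x.1, hk⟩ := Subtype.ext hxy.symm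
  have hkS : k ∈ S := hS hke he
  rw [hx, hy, s.compat hke hkS he, s.compat hkf hkS hf, D.map_map, D.map_map]

/-- A section of a constant diagram on all cells glues to a map on the cube. -/
theorem exists_glue {Y : Type} [TopologicalSpace Y] (hN : 0 < N)
    (s : Sec (CellSpaces.const d N Y) Set.univ) :
    ∃ F : C(Fin d → I, Y), ∀ (e : GridCell d N) (x : e.set), F x.1 = s.app e trivial x := by
  have hmem : ∀ x : Fin d → I, ∃ e : GridCell d N, x ∈ e.set := GridCell.exists_mem_set hN
  choose c hc using hmem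
  let F : (Fin d → I) → Y := fun x => s.app (c x) trivial ⟨x, hc x⟩
  have key : ∀ (e : GridCell d N) (x : e.set), F x.1 = s.app e trivial x := by
    intro e x
    obtain ⟨k, hk1, hk2, hk⟩ := GridCell.exists_inf hN (hc x.1) x.2
    exact (s.compat hk1 trivial trivial ⟨x.1, hk⟩).trans
      (s.compat hk2 trivial trivial ⟨x.1, hk⟩).symm
  refine ⟨⟨F, (locallyFinite_of_finite fun e : GridCell d N => e.set).continuous
    (GridCell.iUnion_set hN) (fun e => e.isClosed_set) fun e => ?_⟩, key⟩
  rw [continuousOn_iff_continuous_domRestrict]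
  have : e.set.domRestrict F = s.app e trivial := funext fun x => key e x
  rw [this]
  exact ContinuousMap.continuous _

/-- Two sections which agree on common cells, over lower sets, glue. -/
def union (s : Sec D S) (t : Sec D S') (hS : IsLowerSet S) (hS' : IsLowerSet S')
    (hagree : ∀ e (he : e ∈ S) (he' : e ∈ S') x, s.app e he x = t.app e he' x) :
    Sec D (S ∪ S') :=
  open scoped Classical in
  { app := fun e he => if h : e ∈ S then s.app e h else t.app e (he.resolve_left h)
    compat := fun {e f} h he hf x => by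
      by_cases h1 : f ∈ S
      · simp only [dif_pos h1, dif_pos (hS h h1)]
        exact s.compat h _ _ x
      · simp only [dif_neg h1]
        have hf' : f ∈ S' := hf.resolve_left h1
        have he' : e ∈ S' := hS' h hf'
        by_cases h2 : e ∈ S
        · simp only [dif_pos h2, hagree e h2 he' x]
          exact t.compat h he' hf' x
        · simp only [dif_neg h2]
          exact t.compat h _ _ x }

theorem union_left (s : Sec D S) (t : Sec D S') (hS hS') (hagree) (e) (he : e ∈ S) (he') :
    (s.union t hS hS' hagree).app e he' = s.app e he := dif_pos he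

theorem union_right (s : Sec D S) (t : Sec D S') (hS hS') (hagree) (e) (he : e ∈ S') (he') (x) :
    (s.union t hS hS' hagree).app e he' x = t.app e he x := by
  classical
  by_cases h : e ∈ S
  · rw [union_left _ _ _ _ _ e h]; exact hagree e h he x
  · show (dite _ _ _ : C(e.set, D.X e)) x = _
    rw [dif_neg h]

/-! ### Adding one cell -/

/-- The boundary of a cell, inside it. -/
def _root_.Vale.Agent.P259.GridCell.bd (e : GridCell d N) : Set e.set :=
  {x | ∃ f : GridCell d N, f < e ∧ x.1 ∈ f.set}

theorem exists_boundary_map (hN : 0 < N) (hS : IsLowerSet S) (s : Sec D S) (e : GridCell d N)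
    (hfaces : ∀ f, f < e → f ∈ S) :
    ∃ a : C(e.bd, D.X e), ∀ (f : GridCell d N) (hf : f < e) (x : e.bd) (hx : x.1.1 ∈ f.set),
      a x = D.map hf.le (s.app f (hfaces f hf) ⟨x.1.1, hx⟩) := by
  have hmem : ∀ x : e.bd, ∃ f : GridCell d N, f < e ∧ x.1.1 ∈ f.set := fun x => x.2
  choose c hc hcx using hmem
  let a : e.bd → D.X e := fun x =>
    D.map (hc x).le (s.app (c x) (hfaces _ (hc x)) ⟨x.1.1, hcx x⟩)
  have key : ∀ (f : GridCell d N) (hf : f < e) (x : e.bd) (hx : x.1.1 ∈ f.set),
      a x = D.map hf.le (s.app f (hfaces f hf) ⟨x.1.1, hx⟩) := fun f hf x hx =>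
    s.agree hN hS _ _ (hc x).le hf.le _ _ rfl
  let C' : {f : GridCell d N // f < e} → Set e.bd := fun f => {x | x.1.1 ∈ f.1.set}
  refine ⟨⟨a, (locallyFinite_of_finite C').continuous ?_ (fun f => ?_) fun f => ?_⟩, key⟩
  · exact Set.eq_univ_of_forall fun x => Set.mem_iUnion.mpr ⟨⟨c x, hc x⟩, hcx x⟩
  · exact f.1.isClosed_set.preimage (continuous_subtype_val.comp continuous_subtype_val)
  · rw [continuousOn_iff_continuous_domRestrict]
    have h : (C' f).domRestrict a = fun x : C' f =>
        D.map f.2.le (s.app f.1 (hfaces f.1 f.2) ⟨x.1.1.1, x.2⟩) :=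
      funext fun x => key f.1 f.2 x.1 x.2
    rw [h]
    exact (D.map _).continuous.comp ((ContinuousMap.continuous _).comp
      (((continuous_subtype_val.comp continuous_subtype_val).comp
        continuous_subtype_val).subtype_mk _))

/-- A section and a map on a further cell agreeing on its boundary. -/
theorem exists_insert (hS : IsLowerSet S) (s : Sec D S) (e : GridCell d N) (heS : e ∉ S)
    (hfaces : ∀ f, f < e → f ∈ S) (b : C(e.set, D.X e))
    (hb : ∀ (f : GridCell d N) (hf : f < e) (x : f.set),
      b (GridCell.incl hf.le x) = D.map hf.le (s.app f (hfaces f hf) x)) :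
    ∃ s' : Sec D (insert e S), (∀ f (hf : f ∈ S), s'.app f (Or.inr hf) = s.app f hf) ∧
      s'.app e (Or.inl rfl) = b := by
  classical
  let app : ∀ f, f ∈ insert e S → C(f.set, D.X f) := fun f hf =>
    if h : f ∈ S then s.app f h else (hf.resolve_right h).symm ▸ b
  have h1 : ∀ f (hf : f ∈ S) hf', app f hf' = s.app f hf := fun f hf hf' => dif_pos hf
  have h2 : ∀ he, app e he = b := fun he => dif_neg heS
  refine ⟨⟨app, fun {f g} h hf hg x => ?_⟩, fun f hf => h1 f hf (Or.inr hf), h2 (Or.inl rfl)⟩
  rcases hg with rfl | hgS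
  · rw [h2 (Or.inl rfl)]
    rcases hf with rfl | hfS
    · rw [h2 (Or.inl rfl), D.map_refl]; rfl
    · rw [h1 f hfS (Or.inr hfS)]
      exact hb f (lt_of_le_of_ne h fun e' => heS (e' ▸ hfS)) x
  · have hfS : f ∈ S := hS h hgS
    rw [h1 g hgS (Or.inr hgS), h1 f hfS (Or.inr hfS)]
    exact s.compat h hfS hgS x

theorem isLowerSet_insert (hS : IsLowerSet S) {e : GridCell d N}
    (hfaces : ∀ f, f < e → f ∈ S) : IsLowerSet (insert e S) := by
  intro f g hgf hf
  rcases hf with rfl | hf
  · rcases eq_or_lt_of_le hgf with rfl | hlt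
    exacts [Or.inl rfl, Or.inr (hfaces g hlt)]
  · exact Or.inr (hS hgf hf)

end Sec

/-- Maps on boundaries of cubes extend. -/
def CubeExt (Y : Type) [TopologicalSpace Y] : Prop :=
  ∀ (ι : Type) [Fintype ι] (a : C(Cube.boundary ι, Y)),
    ∃ b : C(ι → I, Y), ∀ u : Cube.boundary ι, b u.1 = a u

end CellSpaces

namespace GridCell

theorem chart_mem_bd {e : GridCell d N} (u : Cube.boundary ↥e.free) : e.chart u.1 ∈ e.bd := by
  obtain ⟨i, hi⟩ := u.2
  have hfree := (Finset.mem_filter.mp i.2).2
  refine exists_face_of_boundary (e.chart u.1).2 hfree ?_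
  rw [chart_apply_free]
  rcases hi with h | h
  · exact Or.inl (by rw [h]; norm_num)
  · refine Or.inr ?_
    rw [h, hi_eq_of_free hfree]
    norm_num

theorem unchart_mem_boundary (hN : 0 < N) {e : GridCell d N} {x : e.set} (hx : x ∈ e.bd) :
    e.unchart hN x ∈ Cube.boundary ↥e.free := by
  obtain ⟨f, hf, hxf⟩ := hx
  have hN' : (N : ℝ) ≠ 0 := Nat.cast_ne_zero.mpr hN.ne'
  obtain ⟨i, hi⟩ : ∃ i, e.lo i < f.lo i ∨ f.hi i < e.hi i := by
    by_contra! h
    exact hf.ne (le_antisymm hf.le fun i => ⟨(h i).1, (h i).2⟩)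
  have := hf.le i
  have := e.hi_le i
  have := f.lo_le i
  have hfree : i ∈ e.free := Finset.mem_filter.mpr ⟨Finset.mem_univ _, by omega⟩
  have hcase : (f.lo i = e.hi i ∧ f.hi i = e.hi i) ∨ (f.lo i = e.lo i ∧ f.hi i = e.lo i) := by omega
  refine ⟨⟨i, hfree⟩, ?_⟩
  have hval : ((e.unchart hN x ⟨i, hfree⟩ : I) : ℝ) = (x.1 i : ℝ) * N - e.lo i := rfl
  rcases hcase with ⟨h1, h2⟩ | ⟨h1, h2⟩
  · refine Or.inr (Subtype.ext ?_)
    have hxi : (x.1 i : ℝ) = (e.hi i : ℝ) / N := le_antisymm (h2 ▸ (hxf i).2) (h1 ▸ (hxf i).1)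
    rw [hval, hxi, hi_eq_of_free (Finset.mem_filter.mp hfree).2]
    push_cast
    field_simp
    ring
  · refine Or.inl (Subtype.ext ?_)
    have hxi : (x.1 i : ℝ) = (e.lo i : ℝ) / N := le_antisymm (h2 ▸ (hxf i).2) (h1 ▸ (hxf i).1)
    rw [hval, hxi]
    show _ = (0 : ℝ)
    field_simp
    ring

end GridCell

namespace CellSpaces

variable {D : CellSpaces d N} {S : Set (GridCell d N)}

/-- One step of extension. -/
theorem Sec.exists_extend_step (hN : 0 < N) (hS : IsLowerSet S) (s : Sec D S) (e : GridCell d N)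
    (heS : e ∉ S) (hfaces : ∀ f, f < e → f ∈ S)
    (hext : ∀ a : C(Cube.boundary ↥e.free, D.X e),
      ∃ b : C(↥e.free → I, D.X e), ∀ u : Cube.boundary ↥e.free, b u.1 = a u) :
    ∃ s' : Sec D (insert e S), ∀ f (hf : f ∈ S), s'.app f (Or.inr hf) = s.app f hf := by
  obtain ⟨a, ha⟩ := s.exists_boundary_map hN hS e hfaces
  let a' : C(Cube.boundary ↥e.free, D.X e) :=
    a.comp ⟨fun u => ⟨e.chart u.1, GridCell.chart_mem_bd u⟩,
      (e.chart.continuous.comp continuous_subtype_val).subtype_mk _⟩
  obtain ⟨b, hb⟩ := hext a'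
  obtain ⟨s', hs', -⟩ := s.exists_insert hS e heS hfaces (b.comp (e.unchart hN)) fun f hf x => by
    have hbd : GridCell.incl hf.le x ∈ e.bd := ⟨f, hf, x.2⟩
    have h1 := hb ⟨_, GridCell.unchart_mem_boundary hN hbd⟩
    refine h1.trans ?_
    have h2 : (⟨e.chart (e.unchart hN (GridCell.incl hf.le x)),
        GridCell.chart_mem_bd ⟨_, GridCell.unchart_mem_boundary hN hbd⟩⟩ : e.bd)
        = ⟨GridCell.incl hf.le x, hbd⟩ := Subtype.ext (GridCell.chart_unchart hN e _)
    exact (congrArg a h2).trans (ha f hf ⟨GridCell.incl hf.le x, hbd⟩ x.2)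
  exact ⟨s', hs'⟩

/-- Sections over a subcomplex extend when all boundary maps outside it extend. -/
theorem Sec.exists_extend (hN : 0 < N) (hS : IsLowerSet S) (s : Sec D S)
    (hext : ∀ e, e ∉ S → CubeExt (D.X e)) :
    ∃ s' : Sec D Set.univ, ∀ f (hf : f ∈ S), s'.app f trivial = s.app f hf := by
  classical
  suffices h : ∀ (k : ℕ) (T : Set (GridCell d N)), Tᶜ.ncard = k → IsLowerSet T → S ⊆ T →
      ∀ t : Sec D T, (∀ f (hf : f ∈ S) (hf' : f ∈ T), t.app f hf' = s.app f hf) →
      ∃ s' : Sec D Set.univ, ∀ f (hf : f ∈ S), s'.app f trivial = s.app f hf from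
    h _ S rfl hS subset_rfl s fun f hf hf' => rfl
  intro k
  induction k using Nat.strong_induction_on with
  | _ k ih =>
    intro T hk hT hST t ht
    by_cases hall : T = Set.univ
    · subst hall
      exact ⟨t, fun f hf => ht f hf trivial⟩
    · obtain ⟨e, heT, hemin⟩ := (Set.toFinite Tᶜ).exists_minimal
        (Set.nonempty_compl.mpr hall)
      have hfaces : ∀ f, f < e → f ∈ T := fun f hf => by
        by_contra hfT
        exact hf.not_ge (hemin hfT hf.le)
      obtain ⟨t', ht'⟩ := t.exists_extend_step hN hT e heT hfaces (hext e (fun h => heT (hST h)) _)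
      refine ih _ ?_ (insert e T) rfl (Sec.isLowerSet_insert hT hfaces)
        (hST.trans (Set.subset_insert _ _)) t' fun f hf hf' => ?_
      · rw [← hk]
        refine Set.ncard_lt_ncard ⟨Set.compl_subset_compl.mpr (Set.subset_insert _ _), fun h => ?_⟩
          (Set.toFinite _)
        exact (h heT) (Set.mem_insert e T)
      · rw [ht' f (hST hf)]; exact ht f hf _

end CellSpaces

end Vale.Agent.P259
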