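import Vale.Agent.P259.BHomotopy
import Vale.Agent.P259.ApproxSpaces

/-!
# P259 (D): interface of the lifting lemma

`LiftBox` is the lifting lemma proved in `ApproxLift.lean`; `LiftSub` is its absolute version on
the boundary of a cube.
-/

open CategoryTheory Set Topology
open scoped unitInterval

noncomputable section

namespace Vale.Agent.P259

/-- Lifting of cubes up to homotopy relative to their boundary, in dimension `k`. -/
def RelLift (k : ℕ) {A B : Type} [TopologicalSpace A] [TopologicalSpace B] (φ : C(A, B)) : Prop :=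
  ∀ (ι : Type) [Fintype ι], Fintype.card ι = k →
    ∀ (a : C(Cube.boundary ι, A)) (b : C(ι → I, B)), (∀ u : Cube.boundary ι, b u.1 = φ (a u)) →
      ∃ a' : C(ι → I, A), (∀ u : Cube.boundary ι, a' u.1 = a u) ∧
        (φ.comp a').HomotopicRel b (Cube.boundary ι)

/-- Boundary maps of cubes of dimension at most `n` extend. -/
def CubeExtLE (n : ℕ) (Y : Type) [TopologicalSpace Y] : Prop :=
  ∀ (ι : Type) [Fintype ι], Fintype.card ι ≤ n →
    ∀ a : C(Cube.boundary ι, Y), ∃ b : C(ι → I, Y), ∀ u : Cube.boundary ι, b u.1 = a u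

/-- All faces of the cube but `x (last) = 1`. -/
def boxSet (m : ℕ) : Set (Fin (m + 1) → I) :=
  {x | x (Fin.last m) = 0 ∨ Fin.init x ∈ Cube.boundary (Fin m)}

theorem snoc_one_mem_boxSet {m : ℕ} (u : Cube.boundary (Fin m)) :
    (Fin.snoc u.1 1 : Fin (m + 1) → I) ∈ boxSet m :=
  Or.inr (by rw [Fin.init_snoc]; exact u.2)

/-- The comparison of comma categories of a commutative square. -/
def commaCan {T T' Z P : Type} [SmallCategory T] [SmallCategory T'] [SmallCategory Z]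
    [SmallCategory P] {q : T' ⥤ T} {z : Z ⥤ T} {π : P ⥤ Z} {ρ : P ⥤ T'} (hsq : ρ ⋙ q = π ⋙ z)
    (a : Z) : CostructuredArrow π a ⥤ CostructuredArrow q (z.obj a) where
  obj w := CostructuredArrow.mk (Y := ρ.obj w.left)
    (eqToHom (Functor.congr_obj hsq w.left) ≫ z.map w.hom)
  map {w w'} φ := CostructuredArrow.homMk (ρ.map φ.left) (by
    have h : q.map (ρ.map φ.left) ≫ eqToHom (Functor.congr_obj hsq w'.left)
        = eqToHom (Functor.congr_obj hsq w.left) ≫ z.map (π.map φ.left) := by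
      have := Functor.congr_hom hsq φ.left
      simp only [Functor.comp_map] at this
      rw [this]
      simp
    simp only [CostructuredArrow.mk_hom_eq_self]
    rw [← Category.assoc, h, Category.assoc, ← z.map_comp, CostructuredArrow.w φ])
  map_id w := CostructuredArrow.hom_ext _ _ (ρ.map_id _)
  map_comp φ ψ := CostructuredArrow.hom_ext _ _ (ρ.map_comp _ _)

/-- The lifting lemma. -/
def LiftBox : Prop :=
  ∀ (T T' Z P : Type) [SmallCategory T] [SmallCategory T'] [SmallCategory Z] [SmallCategory P]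
    (q : T' ⥤ T) (z : Z ⥤ T) (π : P ⥤ Z) (ρ : P ⥤ T') (hsq : ρ ⋙ q = π ⋙ z),
    (∀ a, ∃ η : CostructuredArrow q (z.obj a) ⥤ CostructuredArrow π a,
      commaCan hsq a ⋙ η = 𝟭 _ ∧ η ⋙ commaCan hsq a = 𝟭 _) →
    ∀ (m : ℕ), (∀ {c c' : T} (h : c ⟶ c') (k : ℕ), k ≤ m →
      RelLift k (BSp.map (CostructuredArrow.map (S := q) h))) →
    ∀ (f : C(Fin (m + 1) → I, BSp T)) (g₀ : C(boxSet m, BSp T')),
      (∀ x : boxSet m, BSp.map q (g₀ x) = f x.1) →
    ∀ (f₁ : C(Fin m → I, BSp Z)), (∀ x, f (Fin.snoc x 1) = BSp.map z (f₁ x)) →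
    ∀ (g₀₀ : C(Cube.boundary (Fin m), BSp P)), (∀ u, BSp.map π (g₀₀ u) = f₁ u.1) →
      (∀ u, BSp.map ρ (g₀₀ u) = g₀ ⟨Fin.snoc u.1 1, snoc_one_mem_boxSet u⟩) →
    ∃ (g : C(Fin (m + 1) → I, BSp T')) (g₁ : C(Fin m → I, BSp P)),
      (∀ x : boxSet m, g x.1 = g₀ x) ∧ (∀ x, g (Fin.snoc x 1) = BSp.map ρ (g₁ x)) ∧
      (∀ u : Cube.boundary (Fin m), g₁ u.1 = g₀₀ u) ∧
      ∃ (H₁ : ((BSp.map π).comp g₁).HomotopyRel f₁ (Cube.boundary (Fin m)))
        (H : ((BSp.map q).comp g).Homotopy f),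
        (∀ t, ∀ x ∈ boxSet m, H (t, x) = f x) ∧
        ∀ t x, H (t, Fin.snoc x 1) = BSp.map z (H₁ (t, x))

/-- Absolute lifting of maps from the boundary of a cube. -/
def LiftSub : Prop :=
  ∀ (T T' : Type) [SmallCategory T] [SmallCategory T'] (q : T' ⥤ T) (n : ℕ),
    (∀ c : T, CubeExtLE n (BSp (CostructuredArrow q c))) →
    ∀ sg : C(Cube.boundary (Fin (n + 1)), BSp T),
      ∃ tg : C(Cube.boundary (Fin (n + 1)), BSp T'), ((BSp.map q).comp tg).Homotopic sg

end Vale.Agent.P259
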