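import Vale.Agent.P259.ApproxGlue
import Vale.Agent.P259.ApproxCube
import Vale.Agent.P259.ApproxLiftDefs

/-!
# P259 (D4): extending sections by collapsing the grid onto its bottom and sides
-/

open Set Topology
open scoped unitInterval

noncomputable section

namespace Vale.Agent.P259

variable {d N : ℕ}

namespace GridCell

theorem init_mem_of_mem {c : GridCell d N} {j k : ℕ} {h1 h2 h3} {x : Fin (d + 1) → I}
    (hx : x ∈ (cellOver c j k h1 h2 h3).set) : Fin.init x ∈ c.set := fun i => by
  have := hx i.castSucc
  simpa [cellOver, Fin.init] using this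

theorem last_mem_of_mem {c : GridCell d N} {j k : ℕ} {h1 h2 h3} {x : Fin (d + 1) → I}
    (hx : x ∈ (cellOver c j k h1 h2 h3).set) :
    (j : ℝ) / N ≤ (x (Fin.last d) : ℝ) ∧ (x (Fin.last d) : ℝ) ≤ (k : ℝ) / N := by
  have := hx (Fin.last d)
  simpa [cellOver] using this

/-- The prism over a cell. -/
abbrev prism (c : GridCell d N) (i : ℕ) (hi : i + 1 ≤ N) : GridCell (d + 1) N :=
  cellOver c i (i + 1) (Nat.le_succ i) le_rfl hi

/-- The top of the prism over a cell. -/
abbrev lid (c : GridCell d N) (i : ℕ) (hi : i + 1 ≤ N) : GridCell (d + 1) N :=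
  cellOver c (i + 1) (i + 1) le_rfl (Nat.le_succ _) hi

theorem lid_le_prism (c : GridCell d N) (i : ℕ) (hi : i + 1 ≤ N) : lid c i hi ≤ prism c i hi :=
  le_iff_base.mpr ⟨by simp, by simp⟩

/-- The chart of a prism. -/
def prismPt (c : GridCell d N) (i : ℕ) (hi : i + 1 ≤ N) :
    C((↥c.free → I) × I, (prism c i hi).set) where
  toFun q := ⟨Fin.snoc (c.chart q.1).1 ⟨((i : ℝ) + q.2) / N, by
      have hN : (0 : ℝ) < N := Nat.cast_pos.mpr (by omega)
      have h : (i : ℝ) + 1 ≤ N := by exact_mod_cast hi
      exact ⟨div_nonneg (add_nonneg (Nat.cast_nonneg _) q.2.2.1) hN.le,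
        (div_le_one hN).mpr (by linarith [q.2.2.2])⟩⟩,
    snoc_mem_cellOver (c.chart q.1).2
      (div_le_div_of_nonneg_right (by linarith [q.2.2.1]) (Nat.cast_nonneg _))
      (div_le_div_of_nonneg_right (by push_cast; linarith [q.2.2.2]) (Nat.cast_nonneg _))⟩
  continuous_toFun := Continuous.subtype_mk (continuous_pi fun j => by
    refine Fin.lastCases ?_ (fun j => ?_) j
    · simp only [Fin.snoc_last]
      exact Continuous.subtype_mk ((continuous_const.add
        (continuous_subtype_val.comp continuous_snd)).div_const _) _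
    · simp only [Fin.snoc_castSucc]
      exact (continuous_apply j).comp
        (continuous_subtype_val.comp (c.chart.continuous.comp continuous_fst))) _

/-- The coordinates in a prism. -/
def prismCoord (c : GridCell d N) (i : ℕ) (hi : i + 1 ≤ N) :
    C((prism c i hi).set, (↥c.free → I) × I) where
  toFun x := (c.unchart (by omega) ⟨Fin.init x.1, init_mem_of_mem x.2⟩,
    ⟨(x.1 (Fin.last d) : ℝ) * N - i, by
      have hN : (0 : ℝ) < N := Nat.cast_pos.mpr (by omega)
      have h := last_mem_of_mem x.2
      have h1 := (div_le_iff₀ hN).mp h.1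
      have h2 := (le_div_iff₀ hN).mp h.2
      push_cast at h2
      constructor <;> linarith⟩)
  continuous_toFun := ((ContinuousMap.continuous _).comp (Continuous.subtype_mk
    (continuous_pi fun j : Fin d =>
      (continuous_apply (A := fun _ : Fin (d + 1) => I) j.castSucc).comp
        continuous_subtype_val) _)).prodMk
    (Continuous.subtype_mk (((continuous_subtype_val.comp ((continuous_apply (Fin.last d)).comp
      continuous_subtype_val)).mul continuous_const).sub continuous_const) _)

theorem prismPt_prismCoord (c : GridCell d N) (i : ℕ) (hi : i + 1 ≤ N) (x : (prism c i hi).set) :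
    prismPt c i hi (prismCoord c i hi x) = x := by
  have hN : (0 : ℝ) < N := Nat.cast_pos.mpr (by omega)
  refine Subtype.ext (funext fun j => ?_)
  refine Fin.lastCases ?_ (fun j => ?_) j
  · show Fin.snoc (α := fun _ => I) _ _ (Fin.last d) = _
    rw [Fin.snoc_last]
    refine Subtype.ext ?_
    show ((i : ℝ) + ((x.1 (Fin.last d) : ℝ) * N - i)) / N = _
    field_simp
    ring
  · show Fin.snoc (α := fun _ => I) _ _ j.castSucc = _
    rw [Fin.snoc_castSucc]
    show (c.chart (c.unchart _ _)).1 j = _
    rw [chart_unchart]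
    rfl

end GridCell

namespace CellSpaces

open GridCell

namespace Sec

variable {D : CellSpaces d N} {S : Set (GridCell d N)}

/-- The part of a cell covered by a subcomplex. -/
def coveredPart (T : Set (GridCell d N)) (e : GridCell d N) : Set e.set :=
  {x | ∃ f, f ≤ e ∧ f ∈ T ∧ x.1 ∈ f.set}

/-- The values of a section on the faces of a cell in its subcomplex, pushed to the cell. -/
theorem exists_covered_map (hN : 0 < N) (hS : IsLowerSet S) (s : Sec D S) (e : GridCell d N) :
    ∃ a : C(coveredPart S e, D.X e), ∀ (f : GridCell d N) (hf : f ≤ e) (hfS : f ∈ S)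
      (x : coveredPart S e) (hx : x.1.1 ∈ f.set), a x = D.map hf (s.app f hfS ⟨x.1.1, hx⟩) := by
  have hmem : ∀ x : coveredPart S e, ∃ f : GridCell d N, f ≤ e ∧ f ∈ S ∧ x.1.1 ∈ f.set :=
    fun x => x.2
  choose c hc hcS hcx using hmem
  let a : coveredPart S e → D.X e := fun x => D.map (hc x) (s.app (c x) (hcS x) ⟨x.1.1, hcx x⟩)
  have key : ∀ (f : GridCell d N) (hf : f ≤ e) (hfS : f ∈ S) (x : coveredPart S e)
      (hx : x.1.1 ∈ f.set), a x = D.map hf (s.app f hfS ⟨x.1.1, hx⟩) :=
    fun f hf hfS x hx => s.agree hN hS _ _ (hc x) hf _ _ rfl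
  let C' : {f : GridCell d N // f ≤ e ∧ f ∈ S} → Set (coveredPart S e) :=
    fun f => {x | x.1.1 ∈ f.1.set}
  refine ⟨⟨a, (locallyFinite_of_finite C').continuous ?_ (fun f => ?_) fun f => ?_⟩, key⟩
  · exact Set.eq_univ_of_forall fun x =>
      Set.mem_iUnion.mpr ⟨⟨c x, hc x, hcS x⟩, hcx x⟩
  · exact f.1.isClosed_set.preimage (continuous_subtype_val.comp continuous_subtype_val)
  · rw [continuousOn_iff_continuous_domRestrict]
    have h : (C' f).domRestrict a = fun x : C' f =>
        D.map f.2.1 (s.app f.1 f.2.2 ⟨x.1.1.1, x.2⟩) :=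
      funext fun x => key f.1 f.2.1 f.2.2 x.1 x.2
    rw [h]
    exact (D.map _).continuous.comp ((ContinuousMap.continuous _).comp
      (((continuous_subtype_val.comp continuous_subtype_val).comp
        continuous_subtype_val).subtype_mk _))

end Sec

variable {D : CellSpaces (d + 1) N}

/-- Adding a prism and its lid. -/
theorem Sec.exists_collapse_step {T : Set (GridCell (d + 1) N)} (hT : IsLowerSet T) (t : Sec D T)
    (c : GridCell d N) (i : ℕ) (hi : i + 1 ≤ N) (hlid : lid c i hi ∉ T)
    (hprism : prism c i hi ∉ T)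
    (hfaces : ∀ f, f < prism c i hi → f ≠ lid c i hi → f ∈ T)
    (hlift : RelLift c.dim (D.map (lid_le_prism c i hi))) :
    ∃ t' : Sec D (insert (prism c i hi) (insert (lid c i hi) T)),
      IsLowerSet (insert (prism c i hi) (insert (lid c i hi) T)) ∧
      ∀ f (hf : f ∈ T), t'.app f (Or.inr (Or.inr hf)) = t.app f hf := by
  have hN : 0 < N := by omega
  have hN' : (N : ℝ) ≠ 0 := Nat.cast_ne_zero.mpr hN.ne'
  set e := prism c i hi
  set l := lid c i hi
  -- proper faces of the lid
  have hlidfaces : ∀ f, f < l → f ∈ T := fun f hf =>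
    hfaces f (hf.trans_le (lid_le_prism c i hi)) hf.ne
  have hside : ∀ f, f < c → ∀ j k h1 h2 h3, i ≤ j → k ≤ i + 1 →
      cellOver f j k h1 h2 h3 ∈ T := by
    intro f hf j k h1 h2 h3 hj hk
    refine hfaces _ (lt_of_le_of_ne (le_iff_base.mpr ⟨?_, ?_⟩) fun h => ?_) fun h => ?_
    · simpa [e] using hf.le
    · simpa [e] using And.intro hj hk
    · exact hf.ne (by simpa [e] using congrArg GridCell.base h)
    · exact hf.ne (by simpa [l] using congrArg GridCell.base h)
  obtain ⟨ae, hae⟩ := t.exists_covered_map hN hT e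
  obtain ⟨al, hal⟩ := t.exists_covered_map hN hT l
  -- points of the open box are covered
  have hbox : ∀ q : CubeLemma.openBox ↥c.free, prismPt c i hi q.1 ∈ coveredPart T e := by
    rintro ⟨⟨u, s⟩, hq⟩
    rcases hq with hs | hu
    · obtain rfl : s = 0 := hs
      refine ⟨cellOver c i i le_rfl (Nat.le_succ _) (by omega),
        le_iff_base.mpr ⟨by simp [e], by simp [e]⟩, hfaces _ ?_ ?_, ?_⟩
      · refine lt_of_le_of_ne (le_iff_base.mpr ⟨by simp [e], by simp [e]⟩) fun h => ?_
        have := congrArg (fun g => g.hi (Fin.last d)) h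
        simp [e] at this
      · intro h
        have := congrArg (fun g => g.hi (Fin.last d)) h
        simp [l] at this
      · exact snoc_mem_cellOver (c.chart u).2 (by simp) (by simp)
    · obtain ⟨f, hf, hxf⟩ := chart_mem_bd ⟨u, hu⟩
      refine ⟨cellOver f i (i + 1) (Nat.le_succ i) le_rfl hi,
        le_iff_base.mpr ⟨by simpa [e] using hf.le, by simp [e]⟩,
        hside f hf _ _ _ _ _ le_rfl le_rfl, ?_⟩
      have h := last_mem_of_mem (prismPt c i hi (u, s)).2
      exact snoc_mem_cellOver hxf (by simpa [prismPt] using h.1) (by simpa [prismPt] using h.2)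
  let pres : C(CubeLemma.openBox ↥c.free, D.X e) :=
    ae.comp ⟨fun q => ⟨prismPt c i hi q.1, hbox q⟩,
      ((prismPt c i hi).continuous.comp continuous_subtype_val).subtype_mk _⟩
  -- the boundary of the lid
  let lpt : C(↥c.free → I, l.set) :=
    ⟨fun u => ⟨Fin.snoc (c.chart u).1 ⟨((i : ℝ) + 1) / N, by
        have h : (i : ℝ) + 1 ≤ N := by exact_mod_cast hi
        exact ⟨div_nonneg (by positivity) (Nat.cast_nonneg _),
          (div_le_one (Nat.cast_pos.mpr hN)).mpr h⟩⟩,
      snoc_mem_cellOver (c.chart u).2 (by simp) (by simp)⟩,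
      Continuous.subtype_mk (continuous_pi fun j => by
        refine Fin.lastCases ?_ (fun j => ?_) j
        · simp only [Fin.snoc_last]
          exact continuous_const
        · simp only [Fin.snoc_castSucc]
          exact (continuous_apply j).comp (continuous_subtype_val.comp c.chart.continuous)) _⟩
  have hlpt : ∀ u : Cube.boundary ↥c.free, lpt u.1 ∈ coveredPart T l := by
    intro u
    obtain ⟨f, hf, hxf⟩ := chart_mem_bd u
    exact ⟨cellOver f (i + 1) (i + 1) le_rfl (Nat.le_succ _) hi,
      le_iff_base.mpr ⟨by simpa [l] using hf.le, by simp [l]⟩,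
      hside f hf _ _ _ _ _ (Nat.le_succ i) le_rfl,
      snoc_mem_cellOver hxf (by simp) (by simp)⟩
  let a : C(Cube.boundary ↥c.free, D.X l) :=
    al.comp ⟨fun u => ⟨lpt u.1, hlpt u⟩, (lpt.continuous.comp continuous_subtype_val).subtype_mk _⟩
  let b : C(↥c.free → I, D.X e) := pres.comp ((CubeLemma.retract ↥c.free).comp
    ⟨fun u => (u, 1), continuous_id.prodMk continuous_const⟩)
  have hab : ∀ u : Cube.boundary ↥c.free, b u.1 = D.map (lid_le_prism c i hi) (a u) := by
    intro u
    obtain ⟨f, hf, hfT, hx⟩ := hlpt u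
    show pres (CubeLemma.retract _ (u.1, 1)) = D.map _ (al _)
    rw [CubeLemma.retract_eq ⟨(u.1, 1), Or.inr u.2⟩, hal f hf hfT _ hx, D.map_map]
    have hpt : (prismPt c i hi (u.1, 1)).1 = (lpt u.1).1 := rfl
    exact hae f (hf.trans (lid_le_prism c i hi)) hfT ⟨_, hbox ⟨(u.1, 1), Or.inr u.2⟩⟩ (hpt ▸ hx)
  obtain ⟨a', ha', ⟨H⟩⟩ := hlift ↥c.free (Fintype.card_coe _) a b hab
  obtain ⟨G, hGbox, hGtop⟩ :=
    CubeLemma.exists_prism_fill pres ((D.map (lid_le_prism c i hi)).comp a') H.symm
  -- insert the lid
  have hbd : ∀ f : GridCell (d + 1) N, f ≤ e → f.base < c → ∀ x : f.set,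
      ∀ hx : Fin.init x.1 ∈ c.set, c.unchart hN ⟨Fin.init x.1, hx⟩ ∈ Cube.boundary ↥c.free :=
    fun f hf hlt x hx => unchart_mem_boundary hN ⟨f.base, hlt, (f.proj x).2⟩
  let bl : C(l.set, D.X l) := a'.comp ((c.unchart hN).comp
    ⟨fun x => ⟨Fin.init x.1, init_mem_of_mem x.2⟩, (continuous_pi fun j =>
      (continuous_apply j.castSucc).comp continuous_subtype_val).subtype_mk _⟩)
  have hbl : ∀ (f : GridCell (d + 1) N) (hf : f < l) (x : f.set),
      bl (incl hf.le x) = D.map hf.le (t.app f (hlidfaces f hf) x) := by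
    intro f hf x
    have hb : f.base < c := by
      refine lt_of_le_of_ne (by simpa [l] using base_mono hf.le) fun h => hf.ne ?_
      have h' := le_iff_base.mp hf.le
      simp only [l, base_cellOver, cellOver_lo_last, cellOver_hi_last] at h'
      have := f.lo_le (Fin.last d)
      refine eq_of_base (by simpa [l] using h) ?_ ?_ <;> simp [l] <;> omega
    have hu := hbd f (hf.le.trans (lid_le_prism c i hi)) hb x
      (init_mem_of_mem (incl hf.le x).2)
    refine (ha' ⟨_, hu⟩).trans ?_
    have hpt : lpt (c.unchart hN ⟨Fin.init (incl hf.le x).1, init_mem_of_mem (incl hf.le x).2⟩) =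
        incl hf.le x := by
      refine Subtype.ext (funext fun j => ?_)
      refine Fin.lastCases ?_ (fun j => ?_) j
      · show Fin.snoc (α := fun _ => I) _ _ (Fin.last d) = _
        rw [Fin.snoc_last]
        refine Subtype.ext ?_
        have h := last_mem_of_mem (incl hf.le x).2
        push_cast at h
        exact le_antisymm h.1 h.2
      · show Fin.snoc (α := fun _ => I) _ _ j.castSucc = _
        rw [Fin.snoc_castSucc, chart_unchart]
        rfl
    show al ⟨lpt _, _⟩ = _
    have hmem : (lpt (c.unchart hN ⟨Fin.init (incl hf.le x).1,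
        init_mem_of_mem (incl hf.le x).2⟩)).1 ∈ f.set := by rw [hpt]; exact x.2
    exact (hal f hf.le (hlidfaces f hf) ⟨_, hlpt ⟨_, hu⟩⟩ hmem).trans
      (congrArg (fun z => D.map hf.le (t.app f (hlidfaces f hf) z))
        (Subtype.ext (congrArg Subtype.val hpt :)))
  obtain ⟨t₁, ht₁, ht₁l⟩ := t.exists_insert hT l hlid hlidfaces bl hbl
  have hT₁ : IsLowerSet (insert l T) := Sec.isLowerSet_insert hT hlidfaces
  have hefaces : ∀ f, f < e → f ∈ insert l T := fun f hf => by
    by_cases h : f = l
    exacts [Or.inl h, Or.inr (hfaces f hf h)]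
  have he₁ : e ∉ insert l T := by
    rintro (h | h)
    · have := congrArg (fun g => g.lo (Fin.last d)) h
      simp [e, l] at this
    · exact hprism h
  obtain ⟨t₂, ht₂, -⟩ := t₁.exists_insert hT₁ e he₁ hefaces (G.comp (prismCoord c i hi)) fun f hf x => by
    by_cases hfl : f = l
    · subst hfl
      have hone : (prismCoord c i hi (incl hf.le x)).2 = 1 := by
        refine Subtype.ext ?_
        show (x.1 (Fin.last d) : ℝ) * N - i = 1
        have h := last_mem_of_mem x.2
        push_cast at h
        rw [le_antisymm h.2 h.1]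
        field_simp
        ring
      show G (prismCoord c i hi (incl hf.le x)) = _
      rw [show prismCoord c i hi (incl hf.le x) =
        ((prismCoord c i hi (incl hf.le x)).1, 1) from Prod.ext rfl hone, hGtop, ht₁l]
      rfl
    · have hfT := hfaces f hf hfl
      have hq : prismCoord c i hi (incl hf.le x) ∈ CubeLemma.openBox ↥c.free := by
        have h' := le_iff_base.mp hf.le
        simp only [e, base_cellOver, cellOver_lo_last, cellOver_hi_last] at h'
        rcases eq_or_lt_of_le h'.1 with hb | hb
        · refine Or.inl (Subtype.ext ?_)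
          show (x.1 (Fin.last d) : ℝ) * N - i = 0
          have hlo := f.lo_le (Fin.last d)
          have hne1 : ¬(f.lo (Fin.last d) = i + 1) := fun h => hfl (eq_of_base (by simpa [l] using hb)
            (by simpa [l] using h) (by simp [l]; omega))
          have hne2 : ¬(f.hi (Fin.last d) = i + 1) := fun h => hf.ne (eq_of_base
            (by simpa [e] using hb) (by simp [e]; omega) (by simpa [e] using h))
          have h1 : f.lo (Fin.last d) = i := by omega
          have h2 : f.hi (Fin.last d) = i := by omega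
          have hx := x.2 (Fin.last d)
          rw [h1, h2] at hx
          rw [le_antisymm hx.2 hx.1]
          field_simp
          ring
        · exact Or.inr (hbd f hf.le hb x _)
      refine (hGbox ⟨_, hq⟩).trans ?_
      have hpt := prismPt_prismCoord c i hi (incl hf.le x)
      show ae ⟨prismPt c i hi _, _⟩ = _
      rw [ht₁ f hfT]
      have hmem : (prismPt c i hi (prismCoord c i hi (incl hf.le x))).1 ∈ f.set := by
        rw [hpt]; exact x.2
      exact (hae f hf.le hfT ⟨_, hbox ⟨_, hq⟩⟩ hmem).trans
        (congrArg (fun z => D.map hf.le (t.app f hfT z))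
          (Subtype.ext (congrArg Subtype.val hpt :)))
  refine ⟨t₂, Sec.isLowerSet_insert hT₁ hefaces, fun f hf => ?_⟩
  exact (ht₂ f (Or.inr hf)).trans (ht₁ f hf)

/-- Sections extend from the bottom and sides when the lids lift. -/
theorem Sec.exists_collapse (hN : 0 < N) {L : Set (GridCell d N)} (hL : IsLowerSet L)
    (s : Sec D (bottomCells d N ∪ GridCell.base ⁻¹' L))
    (hlift : ∀ c, c ∉ L → ∀ i (hi : i + 1 ≤ N),
      RelLift c.dim (D.map (lid_le_prism c i hi))) :
    ∃ s' : Sec D Set.univ, ∀ f (hf : f ∈ bottomCells d N ∪ GridCell.base ⁻¹' L),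
      s'.app f trivial = s.app f hf := by
  classical
  let S₀ : Set (GridCell (d + 1) N) := bottomCells d N ∪ GridCell.base ⁻¹' L
  have hS₀ : IsLowerSet S₀ := isLowerSet_bottomCells.union (isLowerSet_preimage_base hL)
  suffices h : ∀ (k : ℕ) (T : Set (GridCell (d + 1) N)), Tᶜ.ncard = k → IsLowerSet T → S₀ ⊆ T →
      (∀ c i (hi : i + 1 ≤ N), lid c i hi ∈ T → prism c i hi ∈ T) →
      ∀ t : Sec D T, (∀ f (hf : f ∈ S₀) (hf' : f ∈ T), t.app f hf' = s.app f hf) →
      ∃ s' : Sec D Set.univ, ∀ f (hf : f ∈ S₀), s'.app f trivial = s.app f hf by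
    refine h _ S₀ rfl hS₀ subset_rfl (fun c i hi h => ?_) s fun f hf hf' => rfl
    rcases h with h | h
    · simp [bottomCells, lid] at h
    · refine Or.inr ?_
      simpa [lid, prism] using h
  intro k
  induction k using Nat.strong_induction_on with
  | _ k ih =>
    intro T hk hT hST hinv t ht
    by_cases hall : ∀ c i (hi : i + 1 ≤ N), prism c i hi ∈ T
    · obtain rfl : T = Set.univ := by
        refine Set.eq_univ_of_forall fun e => ?_
        have h1 := e.lo_le (Fin.last d)
        have h2 := e.hi_le (Fin.last d)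
        have h3 := e.hi_le_N (Fin.last d)
        refine hT (le_iff_base.mpr ⟨?_, ?_⟩) (hall e.base (min (e.lo (Fin.last d)) (N - 1))
          (by omega))
        · simp
        · simp; omega
      exact ⟨t, fun f hf => ht f hf trivial⟩
    · push Not at hall
      obtain ⟨c₀, i₀, hi₀, hmiss⟩ := hall
      let P : ℕ → Prop := fun i => ∃ (hi : i + 1 ≤ N), ∃ c, prism c i hi ∉ T
      have hP : ∃ i, P i := ⟨i₀, hi₀, c₀, hmiss⟩
      set i := Nat.find hP
      obtain ⟨hi, c₁, hc₁⟩ := Nat.find_spec hP
      obtain ⟨c, hc, hcmin⟩ := (Set.toFinite {c | prism c i hi ∉ T}).exists_minimal ⟨c₁, hc₁⟩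
      have hcL : c ∉ L := fun h => hc (hST (Or.inr (by simpa [prism] using h)))
      have hbase : cellOver c i i le_rfl (Nat.le_succ _) (by omega) ∈ T := by
        by_cases hi0 : i = 0
        · exact hST (Or.inl (by simp [bottomCells, hi0]))
        · have hlt : i - 1 < i := by omega
          have := Nat.find_min hP hlt
          have hprev : prism c (i - 1) (by omega) ∈ T := by
            by_contra h
            exact this ⟨by omega, c, h⟩
          refine hT (le_iff_base.mpr ⟨by simp, by simp; omega⟩) hprev
      have hfaces : ∀ f, f < prism c i hi → f ≠ lid c i hi → f ∈ T := by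
        intro f hf hne
        have h' := le_iff_base.mp hf.le
        simp only [base_cellOver, cellOver_lo_last, cellOver_hi_last] at h'
        rcases eq_or_lt_of_le h'.1 with hb | hb
        · have hlo := f.lo_le (Fin.last d)
          have hne1 : ¬(f.lo (Fin.last d) = i + 1) := fun h => hne (eq_of_base (by simpa using hb)
            (by simpa using h) (by simp; omega))
          have hne2 : ¬(f.hi (Fin.last d) = i + 1) := fun h => hf.ne (eq_of_base
            (by simpa using hb) (by simp; omega) (by simpa using h))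
          refine hT (le_iff_base.mpr ⟨by simp [hb], ?_⟩) hbase
          simp
          omega
        · have hmem : prism f.base i hi ∈ T := by
            by_contra h
            exact hb.not_ge (hcmin h hb.le)
          refine hT (le_iff_base.mpr ⟨by simp, ?_⟩) hmem
          simp
          omega
      have hlid : lid c i hi ∉ T := fun h => hc (hinv c i hi h)
      obtain ⟨t', hlow, ht'⟩ :=
        t.exists_collapse_step hT c i hi hlid hc hfaces (hlift c hcL i hi)
      refine ih _ ?_ _ rfl hlow (hST.trans fun f hf => Or.inr (Or.inr hf)) ?_ t' fun f hf hf' => ?_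
      · rw [← hk]
        refine Set.ncard_lt_ncard
          ⟨fun f hf h => hf (Or.inr (Or.inr h)), fun h => h hlid (Or.inr (Or.inl rfl))⟩
          (Set.toFinite _)
      · intro c' i' hi' h
        rcases h with h | h | h
        · have := congrArg (fun g => g.lo (Fin.last d)) h
          have h2 := congrArg (fun g => g.hi (Fin.last d)) h
          simp at this h2
          omega
        · have h1 : c' = c := by simpa using congrArg GridCell.base h
          have h2 : i' = i := by simpa using congrArg (fun g => g.lo (Fin.last d)) h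
          subst h1
          refine Or.inl ?_
          exact eq_of_base (by simp) (by simp [h2]) (by simp [h2])
        · exact Or.inr (Or.inr (hinv c' i' hi' h))
      · rw [ht' f (hST hf)]; exact ht f hf _

end CellSpaces

end Vale.Agent.P259
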