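import Vale.Agent.P259.ApproxCube

/-!
# P259 (D4): homotopy extension on cubes, with parameters

`hep` extends a homotopy on the boundary of a cube, starting at a map on the cube, by an explicit
formula in cone coordinates; so it commutes with maps of the target.
-/

open Set Topology
open scoped unitInterval

noncomputable section

namespace Vale.Agent.P259

namespace CubeLemma

variable {ι : Type} [Fintype ι] {S : Type} [TopologicalSpace S] [CompactSpace S] [T2Space S]
  {Y : Type} [TopologicalSpace Y]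

/-- The value of the extension in cone coordinates. -/
def hepVal (F : C(S × (ι → I), Y)) (K : C(S × I × Cube.boundary ι, Y))
    (q : S × I × (I × Cube.boundary ι)) : Y :=
  if (q.2.2.1 : ℝ) ≤ 1 - (q.2.1 : ℝ) / 2
  then F (q.1, cone ι (Set.projIcc 0 1 zero_le_one ((q.2.2.1 : ℝ) / (1 - (q.2.1 : ℝ) / 2)), q.2.2.2))
  else K (q.1, Set.projIcc 0 1 zero_le_one ((q.2.1 : ℝ) - 2 * (1 - (q.2.2.1 : ℝ))), q.2.2.2)

theorem continuous_hepVal (F : C(S × (ι → I), Y)) (K : C(S × I × Cube.boundary ι, Y))
    (hFK : ∀ s u, K (s, 0, u) = F (s, u.1)) : Continuous (hepVal F K) := by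
  have ht : Continuous fun q : S × I × (I × Cube.boundary ι) => (q.2.1 : ℝ) :=
    continuous_subtype_val.comp (continuous_fst.comp continuous_snd)
  have hr : Continuous fun q : S × I × (I × Cube.boundary ι) => (q.2.2.1 : ℝ) :=
    continuous_subtype_val.comp (continuous_fst.comp (continuous_snd.comp continuous_snd))
  have hu : Continuous fun q : S × I × (I × Cube.boundary ι) => q.2.2.2 :=
    continuous_snd.comp (continuous_snd.comp continuous_snd)
  have hd : Continuous fun q : S × I × (I × Cube.boundary ι) => 1 - (q.2.1 : ℝ) / 2 :=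
    continuous_const.sub (ht.div_const _)
  refine Continuous.if_le ?_ ?_ hr hd fun q hq => ?_
  · exact F.continuous.comp (continuous_fst.prodMk ((cone ι).continuous.comp
      ((continuous_projIcc.comp (hr.div hd fun q => by linarith [q.2.1.2.2])).prodMk hu)))
  · exact K.continuous.comp (continuous_fst.prodMk ((continuous_projIcc.comp
      (ht.sub (continuous_const.mul (continuous_const.sub hr)))).prodMk hu))
  · have h2 : (0 : ℝ) < 1 - (q.2.1 : ℝ) / 2 := by linarith [q.2.1.2.2]
    have e1 : Set.projIcc 0 1 zero_le_one ((q.2.2.1 : ℝ) / (1 - (q.2.1 : ℝ) / 2)) = (1 : I) := by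
      rw [hq, div_self h2.ne']; exact Set.projIcc_right _
    have e0 : Set.projIcc 0 1 zero_le_one ((q.2.1 : ℝ) - 2 * (1 - (q.2.2.1 : ℝ))) = (0 : I) := by
      rw [hq, show (q.2.1 : ℝ) - 2 * (1 - (1 - (q.2.1 : ℝ) / 2)) = 0 by ring]
      exact Set.projIcc_left _
    rw [e1, e0, cone_one, hFK]

/-- Cone coordinates with parameters. -/
def coneP (S : Type) [TopologicalSpace S] (ι : Type) :
    C(S × I × (I × Cube.boundary ι), S × I × (ι → I)) :=
  ⟨fun q => (q.1, q.2.1, cone ι q.2.2), continuous_fst.prodMk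
    ((continuous_fst.comp continuous_snd).prodMk
      ((cone ι).continuous.comp (continuous_snd.comp continuous_snd)))⟩

theorem exists_hep (F : C(S × (ι → I), Y)) (K : C(S × I × Cube.boundary ι, Y))
    (hFK : ∀ s u, K (s, 0, u) = F (s, u.1)) :
    ∃ G : C(S × I × (ι → I), Y), (∀ q, G (coneP S ι q) = hepVal F K q) ∧
      (IsEmpty ι → ∀ s t x, G (s, t, x) = F (s, x)) := by
  rcases isEmpty_or_nonempty ι with hι | hι
  · refine ⟨F.comp ⟨fun q => (q.1, q.2.2),
      continuous_fst.prodMk (continuous_snd.comp continuous_snd)⟩, fun q => ?_, fun _ _ _ _ => rfl⟩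
    exact q.2.2.2.2.elim fun i _ => isEmptyElim i
  · have hsur : Function.Surjective (coneP S ι) := by
      rintro ⟨s, t, x⟩
      obtain ⟨p, hp⟩ := cone_surjective x
      exact ⟨(s, t, p), by simp [coneP, hp]⟩
    have hqm : IsQuotientMap (coneP S ι) :=
      (coneP S ι).continuous.isClosedMap.isQuotientMap (coneP S ι).continuous hsur
    have hfac : Function.FactorsThrough (⟨hepVal F K, continuous_hepVal F K hFK⟩ : C(_, Y))
        (coneP S ι) := by
      rintro ⟨s, t, r, u⟩ ⟨s', t', r', u'⟩ h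
      obtain ⟨rfl, h'⟩ : s = s' ∧ (t, cone ι (r, u)) = (t', cone ι (r', u')) :=
        ⟨congrArg Prod.fst h, congrArg Prod.snd h⟩
      obtain ⟨rfl, hc⟩ := Prod.mk.injEq _ _ _ _ ▸ h'
      rcases cone_fibre hc with ⟨rfl, rfl⟩ | ⟨rfl, rfl⟩
      · show hepVal F K _ = hepVal F K _
        have h0 : ((0 : I) : ℝ) ≤ 1 - (t : ℝ) / 2 := by
          simp only [Set.Icc.coe_zero]; linarith [t.2.2]
        have hp : Set.projIcc (0 : ℝ) 1 zero_le_one (((0 : I) : ℝ) / (1 - (t : ℝ) / 2)) = (0 : I) := by
          simp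
        simp only [hepVal, if_pos h0, hp]
        rw [cone_zero_eq u u']
      · rfl
    refine ⟨hqm.lift _ hfac, fun q => ?_, fun h => (not_isEmpty_of_nonempty ι h).elim⟩
    exact congrArg (fun φ : C(_, Y) => φ q) (hqm.lift_comp _ hfac)

/-- Extension of a homotopy of the boundary. -/
def hep (F : C(S × (ι → I), Y)) (K : C(S × I × Cube.boundary ι, Y))
    (hFK : ∀ s u, K (s, 0, u) = F (s, u.1)) : C(S × I × (ι → I), Y) :=
  (exists_hep F K hFK).choose

theorem hep_cone (F : C(S × (ι → I), Y)) (K) (hFK) (s : S) (t r : I) (u : Cube.boundary ι) :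
    hep F K hFK (s, t, cone ι (r, u)) = hepVal F K (s, t, r, u) :=
  (exists_hep F K hFK).choose_spec.1 (s, t, r, u)

theorem hep_of_isEmpty [IsEmpty ι] (F : C(S × (ι → I), Y)) (K) (hFK) (s : S) (t : I)
    (x : ι → I) : hep F K hFK (s, t, x) = F (s, x) :=
  (exists_hep F K hFK).choose_spec.2 inferInstance s t x

theorem hep_zero (F : C(S × (ι → I), Y)) (K) (hFK) (s : S) (x : ι → I) :
    hep F K hFK (s, 0, x) = F (s, x) := by
  rcases isEmpty_or_nonempty ι with hι | hι
  · exact hep_of_isEmpty F K hFK s 0 x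
  · obtain ⟨⟨r, u⟩, rfl⟩ := cone_surjective x
    rw [hep_cone]
    have h : (r : ℝ) ≤ 1 - ((0 : I) : ℝ) / 2 := by simpa using r.2.2
    have e : Set.projIcc 0 1 zero_le_one ((r : ℝ) / (1 - ((0 : I) : ℝ) / 2)) = r := by
      simp
    simp only [hepVal, if_pos h, e]

theorem hep_boundary (F : C(S × (ι → I), Y)) (K) (hFK) (s : S) (t : I) (u : Cube.boundary ι) :
    hep F K hFK (s, t, u.1) = K (s, t, u) := by
  rw [← cone_one u, hep_cone]
  simp only [hepVal, Set.Icc.coe_one, sub_self, mul_zero, sub_zero, Set.projIcc_val]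
  split_ifs with h
  · obtain rfl : t = 0 := Subtype.ext (le_antisymm (by show (t : ℝ) ≤ 0; linarith) t.2.1)
    simp only [Set.Icc.coe_zero, zero_div, sub_zero, div_one, Set.projIcc_right]
    exact (congrArg (fun y => F (s, y)) (cone_one u)).trans (hFK s u).symm
  · rfl

/-- The extension at a parameter only depends on the data at that parameter. -/
theorem hep_congr {S' : Type} [TopologicalSpace S'] [CompactSpace S'] [T2Space S']
    (F : C(S × (ι → I), Y)) (K) (hFK) (F' : C(S' × (ι → I), Y)) (K') (hFK') {s : S} {s' : S'}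
    (hF : ∀ x, F (s, x) = F' (s', x)) (hK : ∀ t u, K (s, t, u) = K' (s', t, u)) (t : I)
    (x : ι → I) : hep F K hFK (s, t, x) = hep F' K' hFK' (s', t, x) := by
  rcases isEmpty_or_nonempty ι with hι | hι
  · rw [hep_of_isEmpty, hep_of_isEmpty, hF]
  · obtain ⟨⟨r, u⟩, rfl⟩ := cone_surjective x
    rw [hep_cone, hep_cone]
    simp only [hepVal, hF, hK]

/-- The extension commutes with maps of the target. -/
theorem map_hep {Y' : Type} [TopologicalSpace Y'] (φ : C(Y, Y')) (F : C(S × (ι → I), Y)) (K)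
    (hFK) (q : S × I × (ι → I)) :
    φ (hep F K hFK q) = hep (φ.comp F) (φ.comp K) (fun s u => congrArg φ (hFK s u)) q := by
  obtain ⟨s, t, x⟩ := q
  rcases isEmpty_or_nonempty ι with hι | hι
  · rw [hep_of_isEmpty, hep_of_isEmpty]; rfl
  · obtain ⟨⟨r, u⟩, rfl⟩ := cone_surjective x
    rw [hep_cone, hep_cone]
    exact apply_ite φ _ _ _

/-- The restriction of a homotopy to the boundary, shifted in time by the parameter. -/
def shiftK (M : C(I × (ι → I), Y)) : C(I × I × Cube.boundary ι, Y) :=
  M.comp ⟨fun q => (Set.projIcc 0 1 zero_le_one ((q.1 : ℝ) + q.2.1), q.2.2.1),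
    (continuous_projIcc.comp ((continuous_subtype_val.comp continuous_fst).add
      (continuous_subtype_val.comp (continuous_fst.comp continuous_snd)))).prodMk
      (continuous_subtype_val.comp (continuous_snd.comp continuous_snd))⟩

theorem shiftK_apply (M : C(I × (ι → I), Y)) (a t : I) (u : Cube.boundary ι) :
    shiftK M (a, t, u) = M (Set.projIcc 0 1 zero_le_one ((a : ℝ) + t), u.1) := rfl

theorem shiftK_zero (M : C(I × (ι → I), Y)) (a : I) (u : Cube.boundary ι) :
    shiftK M (a, 0, u) = M (a, u.1) := by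
  rw [shiftK_apply]; simp

/-- A homotopy swept from time `a` through time `a + t` on the boundary. -/
def sweep (M : C(I × (ι → I), Y)) : C(I × I × (ι → I), Y) :=
  hep M (shiftK M) (shiftK_zero M)

theorem sweep_zero (M : C(I × (ι → I), Y)) (a : I) (x : ι → I) : sweep M (a, 0, x) = M (a, x) :=
  hep_zero _ _ _ _ _

theorem sweep_boundary (M : C(I × (ι → I), Y)) (a t : I) (u : Cube.boundary ι) :
    sweep M (a, t, u.1) = M (Set.projIcc 0 1 zero_le_one ((a : ℝ) + t), u.1) :=
  (hep_boundary _ _ _ _ _ _).trans (shiftK_apply M a t u)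

/-- At parameter zero the sweep only depends on the start and the boundary. -/
theorem sweep_start (M : C(I × (ι → I), Y)) (F : C(S × (ι → I), Y))
    (K : C(S × I × Cube.boundary ι, Y)) (hFK) (s : S) (hF : ∀ x, F (s, x) = M (0, x))
    (hK : ∀ t u, K (s, t, u) = M (t, u.1)) (t : I) (x : ι → I) :
    sweep M (0, t, x) = hep F K hFK (s, t, x) :=
  hep_congr _ _ _ _ _ _ (fun x => (hF x).symm)
    (fun t u => by rw [shiftK_apply, hK]; simp) t x

end CubeLemma

end Vale.Agent.P259
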