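import Vale.Agent.P259.ApproxLabels
import Vale.Agent.P259.ApproxCollapse
import Vale.Agent.P259.ApproxHep

/-!
# P259 (D4): the cells of the boundary of a cube, and small lemmas for the lifting lemma
-/

open CategoryTheory Set Topology
open scoped unitInterval

noncomputable section

namespace Vale.Agent.P259

variable {d N : ℕ}

namespace GridCell

/-- The cells in the boundary of the cube. -/
def bdCells (d N : ℕ) : Set (GridCell d N) := {e | ∃ i, e.hi i = 0 ∨ e.lo i = N}

theorem isLowerSet_bdCells : IsLowerSet (bdCells d N) := fun e f h ⟨i, hi⟩ => by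
  refine ⟨i, hi.imp (fun h0 => ?_) fun h1 => ?_⟩
  · have := (h i).2
    omega
  · have := (h i).1
    have := f.lo_le i
    have := f.hi_le_N i
    omega

theorem mem_boundary_of_bdCells (hN : 0 < N) {e : GridCell d N} (he : e ∈ bdCells d N)
    {x : Fin d → I} (hx : x ∈ e.set) : x ∈ Cube.boundary (Fin d) := by
  obtain ⟨i, hi⟩ := he
  have hN' : (N : ℝ) ≠ 0 := Nat.cast_ne_zero.mpr hN.ne'
  refine ⟨i, hi.imp (fun h => ?_) fun h => ?_⟩
  · refine Subtype.ext (le_antisymm ?_ (x i).2.1)
    have := (hx i).2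
    rw [h] at this
    simpa using this
  · refine Subtype.ext (le_antisymm (x i).2.2 ?_)
    have := (hx i).1
    rw [h, div_self hN'] at this
    simpa using this

theorem exists_bdCell (hN : 0 < N) {x : Fin d → I} (hx : x ∈ Cube.boundary (Fin d)) :
    ∃ e ∈ bdCells d N, x ∈ e.set := by
  obtain ⟨i, hi⟩ := hx
  obtain ⟨e, he⟩ := exists_mem_set hN x
  obtain ⟨k, hk, hkx, hkN⟩ : ∃ k : ℕ, (k = 0 ∨ k = N) ∧ ((x i : ℝ) = (k : ℝ) / N) ∧ k ≤ N := by
    rcases hi with h | h
    · exact ⟨0, Or.inl rfl, by rw [h]; simp, Nat.zero_le _⟩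
    · exact ⟨N, Or.inr rfl, by rw [h, div_self (Nat.cast_ne_zero.mpr hN.ne')]; rfl, le_rfl⟩
  let g : GridCell d N :=
    ⟨Function.update e.lo i k, Function.update e.hi i k,
      fun j => by by_cases h : j = i <;> simp [h, e.lo_le j],
      fun j => by by_cases h : j = i <;> simp [h, e.hi_le j],
      fun j => by by_cases h : j = i <;> simp [h, hkN, e.hi_le_N j]⟩
  refine ⟨g, ⟨i, hk.imp (fun h => by simp [g, h]) fun h => by simp [g, h]⟩, fun j => ?_⟩
  by_cases h : j = i
  · subst h; simp [g, hkx]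
  · simpa [g, Function.update_of_ne h] using he j

/-- The cells of the bottom and sides. -/
def boxCells (m N : ℕ) : Set (GridCell (m + 1) N) := bottomCells m N ∪ base ⁻¹' bdCells m N

theorem isLowerSet_boxCells : IsLowerSet (boxCells d N) :=
  isLowerSet_bottomCells.union (isLowerSet_preimage_base isLowerSet_bdCells)

theorem mem_boxSet_of_boxCells (hN : 0 < N) {e : GridCell (d + 1) N} (he : e ∈ boxCells d N)
    {x : Fin (d + 1) → I} (hx : x ∈ e.set) : x ∈ boxSet d := by
  rcases he with h | h
  · refine Or.inl (Subtype.ext (le_antisymm ?_ (x _).2.1))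
    have := (hx (Fin.last d)).2
    rw [(h : e.hi (Fin.last d) = 0)] at this
    simpa using this
  · exact Or.inr (mem_boundary_of_bdCells hN h (e.proj ⟨x, hx⟩).2)

theorem exists_boxCell (hN : 0 < N) {x : Fin (d + 1) → I} (hx : x ∈ boxSet d) :
    ∃ e ∈ boxCells d N, x ∈ e.set := by
  have hxe : (Fin.snoc (Fin.init x) (x (Fin.last d)) : Fin (d + 1) → I) = x := Fin.snoc_init_self x
  rcases hx with h | h
  · obtain ⟨c, hc⟩ := exists_mem_set hN (Fin.init x)
    refine ⟨cellOver c 0 0 le_rfl (Nat.zero_le _) (Nat.zero_le _),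
      Or.inl (cellOver_hi_last _ _ _ _ _ _), ?_⟩
    rw [← hxe]
    exact snoc_mem_cellOver hc (by rw [h]; simp) (by rw [h]; simp)
  · obtain ⟨c, hc, hxc⟩ := exists_bdCell hN h
    obtain ⟨τ, hτ⟩ := exists_mem_set (d := 1) hN (fun _ => x (Fin.last d))
    refine ⟨cellOver c (τ.lo 0) (τ.hi 0) (τ.lo_le 0) (τ.hi_le 0) (τ.hi_le_N 0),
      Or.inr (by simpa using hc), ?_⟩
    rw [← hxe]
    exact snoc_mem_cellOver hxc (hτ 0).1 (hτ 0).2

/-- The cell at height `1` over a cell. -/
abbrev topCell (c : GridCell d N) : GridCell (d + 1) N :=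
  cellOver c N N le_rfl (Nat.le_succ _) le_rfl

theorem topCell_mem (c : GridCell d N) : topCell c ∈ topCells d N := cellOver_lo_last _ _ _ _ _ _

theorem topCell_mono {c c' : GridCell d N} (h : c ≤ c') : topCell c ≤ topCell c' :=
  le_iff_base.mpr ⟨by simpa using h, by simp⟩

theorem eq_topCell {e : GridCell (d + 1) N} (he : e ∈ topCells d N) : e = topCell e.base := by
  have h1 : e.lo (Fin.last d) = N := he
  have := e.lo_le (Fin.last d)
  have := e.hi_le_N (Fin.last d)
  exact eq_of_base (by simp) (by simp [h1]) (by simp; omega)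

theorem snoc_mem_topCell (hN : 0 < N) {c : GridCell d N} {y : Fin d → I} (hy : y ∈ c.set) :
    (Fin.snoc y 1 : Fin (d + 1) → I) ∈ (topCell c).set := by
  have hN' : ((N : ℕ) : ℝ) / N = 1 := div_self (Nat.cast_ne_zero.mpr hN.ne')
  exact snoc_mem_cellOver hy (by rw [hN']; simp) (by rw [hN']; simp)

theorem snoc_le_of_top {c : GridCell d N} {e : GridCell (d + 1) N}
    (hb : ∀ i : Fin d, c.lo i = e.lo i.castSucc ∧ c.hi i = e.hi i.castSucc)
    (he : e ∈ topCells d N) {v : Grid.Vert (Fin d) N} (hv : vertex v ≤ c) :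
    vertex (Fin.snoc v (Fin.last N) : Grid.Vert (Fin (d + 1)) N) ≤ e := by
  intro i
  refine Fin.lastCases ?_ (fun j => ?_) i
  · have h1 : e.lo (Fin.last d) = N := he
    have := e.lo_le (Fin.last d)
    simp [vertex]
    omega
  · have := hv j
    have := hb j
    simp only [vertex] at *
    simp
    omega

theorem last_eq_of_top {e : GridCell (d + 1) N} (he : e ∈ topCells d N)
    {w : Grid.Vert (Fin (d + 1)) N} (hw : vertex w ≤ e) :
    w (Fin.last d) = Fin.last N ∧ vertex (Fin.init w) ≤ e.base := by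
  refine ⟨Fin.ext ?_, fun i => hw i.castSucc⟩
  have h1 : e.lo (Fin.last d) = N := he
  have h2 := (hw (Fin.last d)).1
  have h3 := (w (Fin.last d)).2
  simp only [vertex] at h2
  simp only [Fin.val_last]
  omega

/-- Forgetting the penultimate coordinate. -/
def sel (m : ℕ) : Fin (m + 1) → Fin (m + 2) :=
  Fin.snoc (fun i => i.castSucc.castSucc) (Fin.last (m + 1))

@[simp] theorem sel_castSucc (i : Fin d) : sel d i.castSucc = i.castSucc.castSucc := by simp [sel]

@[simp] theorem sel_last : sel d (Fin.last d) = Fin.last (d + 1) := by simp [sel]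

/-- The cell without its penultimate coordinate. -/
def squash (e : GridCell (d + 2) N) : GridCell (d + 1) N :=
  ⟨fun i => e.lo (sel d i), fun i => e.hi (sel d i), fun _ => e.lo_le _, fun _ => e.hi_le _,
    fun _ => e.hi_le_N _⟩

theorem squash_mono : Monotone (squash (d := d) (N := N)) := fun _ _ h i => h (sel d i)

theorem base_squash (e : GridCell (d + 2) N) : (squash e).base = e.base.base := by
  ext i <;> simp [squash, base]

/-- The point without its penultimate coordinate. -/
def squashPt (d : ℕ) : C(Fin (d + 2) → I, Fin (d + 1) → I) :=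
  ⟨fun x i => x (sel d i), continuous_pi fun i => continuous_apply (sel d i)⟩

theorem squashPt_snoc (y : Fin d → I) (a t : I) :
    squashPt d (Fin.snoc (Fin.snoc y a : Fin (d + 1) → I) t) = Fin.snoc y t := by
  funext i
  refine Fin.lastCases ?_ (fun j => ?_) i <;> simp [squashPt]

theorem init_squashPt (x : Fin (d + 2) → I) :
    Fin.init (squashPt d x) = Fin.init (Fin.init x) := by
  funext i; simp [squashPt, Fin.init]

end GridCell

/-- Relative lifting passes to spaces of maps from a point. -/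
theorem RelLift.of_pi {k : ℕ} {A B : Type} [TopologicalSpace A] [TopologicalSpace B] {φ : C(A, B)}
    (h : RelLift k φ) {p p' : Prop} (hp : p) (hp' : p') (ψ : C(PLift p → A, PLift p' → B))
    (hψ : ∀ x y, ψ x y = φ (x ⟨hp⟩)) : RelLift k ψ := by
  intro ι _ hι a b hab
  obtain ⟨a', ha', ⟨H⟩⟩ := h ι hι
    ⟨fun u => a u ⟨hp⟩, (continuous_apply _).comp a.continuous⟩
    ⟨fun x => b x ⟨hp'⟩, (continuous_apply _).comp b.continuous⟩
    fun u => by
      show b u.1 _ = _
      rw [hab u, hψ]
      rfl
  refine ⟨⟨fun x _ => a' x, continuous_pi fun _ => a'.continuous⟩, fun u => funext fun _ => ha' u,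
    ⟨{ toFun := fun x _ => H x
       continuous_toFun := continuous_pi fun _ => H.continuous
       map_zero_left := fun x => funext fun y => by
         show H (0, x) = ψ _ y
         rw [H.apply_zero, hψ]; rfl
       map_one_left := fun x => funext fun y => H.apply_one x
       prop' := fun t x hx => funext fun y => by
         show H (t, x) = ψ _ y
         rw [H.eq_fst t hx, hψ]; rfl }⟩⟩

namespace BSp

variable {T : Type} [SmallCategory T]

theorem isChain_union_of_subset {z w : BSp T} (h : z.wt.support ⊆ w.wt.support) :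
    IsChain (· ≤ ·) ((z.wt.support : Set (Chain T)) ∪ (w.wt.support : Set (Chain T))) :=
  w.isChain.mono (Set.union_subset (Finset.coe_subset.mpr h) subset_rfl)

theorem lineComb_congr {z z' w w' : BSp T} (hz : z = z') (hw : w = w') (h) (h') (t : I) :
    lineComb z w h t = lineComb z' w' h' t := by
  subst hz hw; rfl

end BSp

/-- Waiting for half of the time. -/
def wait (t : I) : I := Set.projIcc 0 1 zero_le_one (2 * (t : ℝ) - 1)

theorem continuous_wait : Continuous wait :=
  continuous_projIcc.comp ((continuous_const.mul continuous_subtype_val).sub continuous_const)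

theorem wait_of_le {t : I} (h : (t : ℝ) ≤ 1 / 2) : wait t = 0 :=
  Set.projIcc_of_le_left _ (by linarith)

theorem wait_of_gt {t : I} (h : ¬(t : ℝ) ≤ 1 / 2) (h') : wait t = ⟨2 * (t : ℝ) - 1, h'⟩ :=
  Set.projIcc_of_mem _ h'

theorem wait_zero : wait 0 = 0 := wait_of_le (by norm_num)

theorem wait_one : wait 1 = 1 := Set.projIcc_of_right_le _ (by norm_num)

theorem isClosed_boxSet (m : ℕ) : IsClosed (boxSet m) :=
  (isClosed_eq (continuous_apply _) continuous_const).union
    (CubeLemma.isClosed_boundary.preimage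
      (continuous_pi fun i : Fin m =>
        (continuous_apply (A := fun _ : Fin (m + 1) => I) i.castSucc)))

instance (m : ℕ) : CompactSpace (boxSet m) :=
  isCompact_iff_compactSpace.mp (isClosed_boxSet m).isCompact

theorem boxSet_subset_boundary {m : ℕ} : boxSet m ⊆ Cube.boundary (Fin (m + 1)) := by
  rintro x (h | ⟨i, hi⟩)
  exacts [⟨_, Or.inl h⟩, ⟨i.castSucc, hi⟩]

theorem snoc_one_mem_boundary {m : ℕ} (y : Fin m → I) :
    (Fin.snoc y 1 : Fin (m + 1) → I) ∈ Cube.boundary (Fin (m + 1)) :=
  ⟨Fin.last m, Or.inr (Fin.snoc_last (α := fun _ => I) _ _)⟩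

/-- Families on the bottom and sides and on the free face glue. -/
theorem exists_surface {m : ℕ} {X Y : Type} [TopologicalSpace X] [TopologicalSpace Y]
    (A : C(X × boxSet m, Y)) (B : C(X × (Fin m → I), Y))
    (hAB : ∀ s (u : Cube.boundary (Fin m)),
      A (s, ⟨_, snoc_one_mem_boxSet u⟩) = B (s, u.1)) :
    ∃ K : C(X × Cube.boundary (Fin (m + 1)), Y),
      (∀ s (x : boxSet m) hx, K (s, ⟨x.1, hx⟩) = A (s, x)) ∧
      ∀ s y hy, K (s, ⟨Fin.snoc y 1, hy⟩) = B (s, y) := by
  classical
  let K : X × Cube.boundary (Fin (m + 1)) → Y := fun q =>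
    if h : q.2.1 ∈ boxSet m then A (q.1, ⟨q.2.1, h⟩) else B (q.1, Fin.init q.2.1)
  have h1 : ∀ s (x : boxSet m) hx, K (s, ⟨x.1, hx⟩) = A (s, x) := fun s x hx => dif_pos x.2
  have h2 : ∀ s y hy, K (s, ⟨Fin.snoc y 1, hy⟩) = B (s, y) := fun s y hy => by
    by_cases h : (Fin.snoc y 1 : Fin (m + 1) → I) ∈ boxSet m
    · have hy' : y ∈ Cube.boundary (Fin m) := by
        rcases h with h | h
        · simp at h
        · simpa using h
      exact (dif_pos h).trans (hAB s ⟨y, hy'⟩)
    · exact (dif_neg h).trans (congrArg (fun z => B (s, z)) (Fin.init_snoc ..))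
  have hsplit : ∀ x : Cube.boundary (Fin (m + 1)), x.1 ∈ boxSet m ∨ x.1 (Fin.last m) = 1 := by
    rintro ⟨x, i, hi⟩
    revert hi
    refine Fin.lastCases (fun hi => ?_) (fun j hj => ?_) i
    · exact hi.imp Or.inl id
    · exact Or.inl (Or.inr ⟨j, hj⟩)
  let C1 : Set (X × Cube.boundary (Fin (m + 1))) := {q | q.2.1 ∈ boxSet m}
  let C2 : Set (X × Cube.boundary (Fin (m + 1))) := {q | q.2.1 (Fin.last m) = 1}
  have hv : Continuous fun q : X × Cube.boundary (Fin (m + 1)) => q.2.1 :=
    continuous_subtype_val.comp continuous_snd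
  have hc1 : ContinuousOn K C1 := by
    rw [continuousOn_iff_continuous_domRestrict]
    have : C1.domRestrict K = fun q : C1 => A (q.1.1, ⟨q.1.2.1, q.2⟩) :=
      funext fun q => dif_pos q.2
    rw [this]
    exact A.continuous.comp ((continuous_fst.comp continuous_subtype_val).prodMk
      ((hv.comp continuous_subtype_val).subtype_mk _))
  have hc2 : ContinuousOn K C2 := by
    have hB : Continuous fun q : X × Cube.boundary (Fin (m + 1)) => B (q.1, Fin.init q.2.1) :=
      B.continuous.comp (continuous_fst.prodMk (continuous_pi fun i : Fin m =>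
        (continuous_apply (A := fun _ : Fin (m + 1) => I) i.castSucc).comp hv))
    refine hB.continuousOn.congr fun q hq => ?_
    have hx : q.2.1 = Fin.snoc (Fin.init q.2.1) 1 := by
      rw [← (hq : q.2.1 (Fin.last m) = 1), Fin.snoc_init_self]
    have := h2 q.1 (Fin.init q.2.1) (hx ▸ q.2.2)
    have hq' : q = (q.1, (⟨Fin.snoc (Fin.init q.2.1) 1, hx ▸ q.2.2⟩ : Cube.boundary (Fin (m + 1)))) :=
      Prod.ext rfl (Subtype.ext hx)
    exact (congrArg K hq').trans this
  refine ⟨⟨K, ?_⟩, h1, h2⟩
  have hcov : C1 ∪ C2 = Set.univ :=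
    Set.eq_univ_of_forall fun q => hsplit q.2
  rw [← continuousOn_univ, ← hcov]
  exact hc1.union_of_isClosed hc2 ((isClosed_boxSet m).preimage hv)
    (isClosed_eq ((continuous_apply _).comp hv) continuous_const)

end Vale.Agent.P259
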