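import Vale.Agent.P259.ApproxLiftDefs

/-!
# P259 (D3): combinations of vertices and lifts of chains to comma categories

`BSp.comb` is the map with prescribed vertices and weights.  A chain whose image lies under `P`
lifts canonically to the comma category over the top object of `P`.
-/

open CategoryTheory Set Topology
open scoped unitInterval

noncomputable section

namespace Vale.Agent.P259

variable {T : Type} [SmallCategory T] {T' : Type} [SmallCategory T']

/-! ## Combinations of vertices -/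

namespace BSp

variable {X : Type*} [TopologicalSpace X] {ι : Type*} [Fintype ι]

/-- The map with vertices `ℓ` and weights `w`. -/
def comb (w : ι → C(X, ℝ)) (hw : ∀ i x, 0 ≤ w i x) (hs : ∀ x, ∑ i, w i x = 1) (ℓ : ι → Chain T)
    (hc : ∀ x i j, w i x ≠ 0 → w j x ≠ 0 → ℓ i ≤ ℓ j ∨ ℓ j ≤ ℓ i) : C(X, BSp T) where
  toFun x :=
    { wt := ∑ i, Finsupp.single (ℓ i) (w i x)
      nonneg := fun p => by
        classical
        rw [Finsupp.finsetSum_apply]
        refine Finset.sum_nonneg fun i _ => ?_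
        rw [Finsupp.single_apply]
        split_ifs
        exacts [hw i x, le_rfl]
      sum_eq := by
        rw [← Finsupp.sum_finsetSum_index (fun _ => rfl) (fun _ _ _ => rfl)]
        simp only [Finsupp.sum_single_index]
        exact hs x
      isChain := by
        classical
        have key : ∀ p ∈ (∑ i, Finsupp.single (ℓ i) (w i x)).support,
            ∃ i, w i x ≠ 0 ∧ ℓ i = p := by
          intro p hp
          obtain ⟨i, -, hi⟩ := Finset.mem_biUnion.mp (Finsupp.support_finsetSum hp)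
          have := Finsupp.support_single_subset hi
          refine ⟨i, fun h0 => ?_, (Finset.mem_singleton.mp this).symm⟩
          rw [h0, Finsupp.single_zero] at hi
          simp at hi
        intro p hp q hq _
        obtain ⟨i, hi, rfl⟩ := key p hp
        obtain ⟨j, hj, rfl⟩ := key q hq
        exact hc x i j hi hj }
  continuous_toFun := by
    classical
    refine continuous_into (Finset.univ.image ℓ) (fun x p hp => ?_) (fun p _ => ?_)
    · obtain ⟨i, -, hi⟩ := Finset.mem_biUnion.mp (Finsupp.support_finsetSum hp)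
      exact Finset.mem_image.mpr
        ⟨i, Finset.mem_univ _, (Finset.mem_singleton.mp (Finsupp.support_single_subset hi)).symm⟩
    · simp only [Finsupp.finsetSum_apply, Finsupp.single_apply]
      refine continuous_finsetSum _ fun i _ => ?_
      split_ifs
      exacts [(w i).continuous, continuous_const]

theorem comb_wt (w : ι → C(X, ℝ)) (hw hs) (ℓ : ι → Chain T) (hc) (x : X) :
    (comb w hw hs ℓ hc x).wt = ∑ i, Finsupp.single (ℓ i) (w i x) := rfl

theorem exists_mem_support_comb {w : ι → C(X, ℝ)} {hw hs} {ℓ : ι → Chain T} {hc} {x : X}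
    {p : Chain T} (hp : p ∈ (comb w hw hs ℓ hc x).wt.support) : ∃ i, w i x ≠ 0 ∧ ℓ i = p := by
  classical
  rw [comb_wt] at hp
  obtain ⟨i, -, hi⟩ := Finset.mem_biUnion.mp (Finsupp.support_finsetSum hp)
  refine ⟨i, fun h0 => ?_, (Finset.mem_singleton.mp (Finsupp.support_single_subset hi)).symm⟩
  rw [h0, Finsupp.single_zero] at hi
  simp at hi

/-- Combinations over two spaces agree where the weights and the relevant labels agree. -/
theorem comb_eq {Y : Type*} [TopologicalSpace Y] {w : ι → C(X, ℝ)} {hw hs} {ℓ : ι → Chain T} {hc}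
    {w' : ι → C(Y, ℝ)} {hw' hs'} {ℓ' : ι → Chain T} {hc'} {x : X} {y : Y}
    (hxy : ∀ i, w i x = w' i y) (h : ∀ i, w i x ≠ 0 → ℓ i = ℓ' i) :
    comb w hw hs ℓ hc x = comb w' hw' hs' ℓ' hc' y := by
  refine BSp.ext ?_
  rw [comb_wt, comb_wt]
  refine Finset.sum_congr rfl fun i _ => ?_
  rw [← hxy i]
  by_cases h0 : w i x = 0
  · rw [h0, Finsupp.single_zero, Finsupp.single_zero]
  · rw [h i h0]

theorem map_comb (F : T ⥤ T') (w : ι → C(X, ℝ)) (hw hs) (ℓ : ι → Chain T) (hc) (x : X) :
    map F (comb w hw hs ℓ hc x) = comb w hw hs (fun i => (ℓ i).map F)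
      (fun x i j hi hj => (hc x i j hi hj).imp (fun h => Chain.map_mono F h)
        (fun h => Chain.map_mono F h)) x := by
  refine BSp.ext ?_
  rw [map_wt, comb_wt, comb_wt, Finsupp.mapDomain_finsetSum]
  simp only [Finsupp.mapDomain_single]

theorem map_lineComb (F : T ⥤ T') (z w : BSp T) (h) (h') (t : I) :
    map F (lineComb z w h t) = lineComb (map F z) (map F w) h' t := by
  refine BSp.ext ?_
  show ((1 - (t : ℝ)) • z.wt + (t : ℝ) • w.wt).mapDomain (Chain.map F) = _
  rw [Finsupp.mapDomain_add, Finsupp.mapDomain_smul, Finsupp.mapDomain_smul]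
  rfl

/-- The weight of the image of a vertex is at least the weight of the vertex. -/
theorem wt_le_map_wt (F : T ⥤ T') (z : BSp T) (p : Chain T) :
    z.wt p ≤ (map F z).wt (p.map F) := by
  classical
  show z.wt p ≤ (pushMono (Chain.map F) (Chain.map_mono F) z).wt (p.map F)
  rw [pushMono_wt_sum _ _ _ (Finset.subset_insert p z.wt.support)]
  refine le_trans (le_of_eq (if_pos rfl).symm) (Finset.single_le_sum
    (f := fun q => if q.map F = p.map F then z.wt q else 0) (fun q _ => ?_)
    (Finset.mem_insert_self _ _))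
  split_ifs
  exacts [z.nonneg q, le_rfl]

theorem comparable (z : BSp T) {p q : Chain T} (hp : 0 < z.wt p) (hq : 0 < z.wt q) :
    p ≤ q ∨ q ≤ p :=
  z.isChain.total ((z.mem_support_iff p).mpr hp) ((z.mem_support_iff q).mpr hq)

end BSp

/-! ## Lifts of chains to comma categories -/

theorem caFunctor_ext {J : Type*} [Category J] {S : T' ⥤ T} {c : T}
    {F G : J ⥤ CostructuredArrow S c}
    (h : F ⋙ CostructuredArrow.proj S c = G ⋙ CostructuredArrow.proj S c)
    (h2 : ∀ j, S.map (eqToHom (Functor.congr_obj h j)) ≫ (G.obj j).hom = (F.obj j).hom) :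
    F = G := by
  refine CategoryTheory.Functor.ext
    (fun j => CostructuredArrow.obj_ext _ _ (Functor.congr_obj h j) (h2 j)) fun i j f => ?_
  refine CostructuredArrow.hom_ext _ _ ?_
  have := Functor.congr_hom h f
  simp only [Functor.comp_map, CostructuredArrow.proj_map] at this
  rw [this]
  simp [CostructuredArrow.eqToHom_left]
  rfl

theorem caFunctor_extHEq {J : Type*} [Category J] {S : T' ⥤ T} {c : T}
    {F G : J ⥤ CostructuredArrow S c}
    (h : F ⋙ CostructuredArrow.proj S c = G ⋙ CostructuredArrow.proj S c)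
    (h2 : ∀ j, (F.obj j).hom ≍ (G.obj j).hom) : F = G := by
  refine caFunctor_ext h fun j => ?_
  rw [eqToHom_map]
  exact eq_of_heq (((eqToHom_comp_heq _ _).trans (h2 j).symm))

namespace Chain

/-- The morphism from an object of a chain to the top object of a bigger chain. -/
def homTop {p P : Chain T} (h : p ≤ P) (i : p.levels) : p.fct.obj i ⟶ P.top :=
  eqToHom (obj_eq h i) ≫ P.fct.map (homOfLE (Finset.le_max' _ _ (h.1 i.2) :
    (⟨i.1, h.1 i.2⟩ : P.levels) ≤ P.topLevel))

theorem map_homTop {p P : Chain T} (h : p ≤ P) {i j : p.levels} (f : i ⟶ j) :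
    p.fct.map f ≫ homTop h j = homTop h i := by
  obtain ⟨s, hs, F⟩ := p
  have hsub : s ⊆ P.levels := h.1
  obtain rfl : F = levelIncl hsub ⋙ P.fct := h.2.symm
  refine (congrArg _ (Category.id_comp _)).trans ?_
  refine Eq.trans ?_ (Category.id_comp _).symm
  exact (P.fct.map_comp _ _).symm

theorem homTop_topHom {p P P' : Chain T} (h : p ≤ P) (h' : P ≤ P') (i : p.levels) :
    homTop h i ≫ topHom h' = homTop (h.trans h') i := by
  obtain ⟨s, hs, F⟩ := p
  obtain ⟨t, ht, G⟩ := P
  have ht' : t ⊆ P'.levels := h'.1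
  obtain rfl : G = levelIncl ht' ⋙ P'.fct := h'.2.symm
  have hsub : s ⊆ t := h.1
  obtain rfl : F = levelIncl hsub ⋙ (levelIncl ht' ⋙ P'.fct) := h.2.symm
  refine (congrArg₂ (fun f g => f ≫ g) (Category.id_comp _) (Category.id_comp _)).trans ?_
  refine Eq.trans ?_ (Category.id_comp _).symm
  exact (P'.fct.map_comp _ _).symm

theorem homTop_sub {p p' P : Chain T} (h : p ≤ p') (h' : p' ≤ P) (i : p.levels) :
    eqToHom (obj_eq h i) ≫ homTop h' ⟨i.1, h.1 i.2⟩ = homTop (h.trans h') i := by
  exact eqToHom_trans_assoc _ _ _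

theorem homTop_congr {p p' P : Chain T} (e : p = p') (h : p ≤ P) (h' : p' ≤ P) (i : p.levels)
    (i' : p'.levels) (hi : i.1 = i'.1) (e' : p.fct.obj i = p'.fct.obj i') :
    eqToHom e' ≫ homTop h' i' = homTop h i := by
  subst e
  obtain rfl : i = i' := Subtype.ext hi
  simp

theorem homTop_map {Z : Type} [SmallCategory Z] (F : Z ⥤ T) {p P : Chain Z} (h : p ≤ P)
    (i : p.levels) :
    homTop (map_mono F h) i = F.map (homTop h i) := by
  obtain ⟨s, hs, G⟩ := p
  have hsub : s ⊆ P.levels := h.1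
  obtain rfl : G = levelIncl hsub ⋙ P.fct := h.2.symm
  refine (Category.id_comp _).trans ?_
  exact (congrArg F.map (Category.id_comp _)).symm

/-- The lift of a chain with image under `P` to the comma category over the top of `P`. -/
def cLift (q : T' ⥤ T) (p' : Chain T') {P : Chain T} (h : p'.map q ≤ P) :
    Chain (CostructuredArrow q P.top) where
  levels := p'.levels
  nonempty := p'.nonempty
  fct :=
    { obj := fun i => CostructuredArrow.mk (Y := p'.fct.obj i) (homTop h i)
      map := fun f => CostructuredArrow.homMk (p'.fct.map f) (map_homTop h f)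
      map_id := fun i => CostructuredArrow.hom_ext _ _ (p'.fct.map_id i)
      map_comp := fun f g => CostructuredArrow.hom_ext _ _ (p'.fct.map_comp f g) }

theorem cLift_proj (q : T' ⥤ T) (p' : Chain T') {P : Chain T} (h : p'.map q ≤ P) :
    (cLift q p' h).map (CostructuredArrow.proj q P.top) = p' := rfl

theorem cLift_mono (q : T' ⥤ T) {p p' : Chain T'} (hpp : p ≤ p') {P : Chain T}
    (h : p'.map q ≤ P) (h0 : p.map q ≤ P) : cLift q p h0 ≤ cLift q p' h := by
  refine ⟨hpp.1, caFunctor_extHEq hpp.2 fun i => ?_⟩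
  exact ((eqToHom_comp_heq _ _).symm.trans (heq_of_eq (homTop_sub (map_mono q hpp) h i)))

theorem cLift_comparable (q : T' ⥤ T) {p p' : Chain T'} {P : Chain T} (h0 : p.map q ≤ P)
    (h : p'.map q ≤ P) (hpp : p ≤ p' ∨ p' ≤ p) :
    cLift q p h0 ≤ cLift q p' h ∨ cLift q p' h ≤ cLift q p h0 :=
  hpp.imp (fun e => cLift_mono q e h h0) (fun e => cLift_mono q e h0 h)

theorem cLift_map (q : T' ⥤ T) (p' : Chain T') {P P' : Chain T} (h : p'.map q ≤ P) (hP : P ≤ P') :
    (cLift q p' h).map (CostructuredArrow.map (topHom hP)) = cLift q p' (h.trans hP) := by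
  show Chain.mk _ _ _ = Chain.mk _ _ _
  congr 1
  refine caFunctor_extHEq rfl fun i => heq_of_eq ?_
  exact homTop_topHom h hP i

/-- Forgetting the comma structure to the slice. -/
def toId (q : T' ⥤ T) (c : T) : CostructuredArrow q c ⥤ CostructuredArrow (𝟭 T) c where
  obj x := CostructuredArrow.mk (Y := q.obj x.left) x.hom
  map f := CostructuredArrow.homMk (q.map f.left) (CostructuredArrow.w f)
  map_id x := CostructuredArrow.hom_ext _ _ (q.map_id _)
  map_comp f g := CostructuredArrow.hom_ext _ _ (q.map_comp _ _)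

theorem cLift_toId (q : T' ⥤ T) (p' : Chain T') {P : Chain T} (h : p'.map q ≤ P) :
    (cLift q p' h).map (toId q P.top) = cLift (𝟭 T) (p'.map q) h := rfl

/-- The slice of `Z` maps to the slice of the image. -/
def idPost {Z : Type} [SmallCategory Z] (z : Z ⥤ T) (a : Z) :
    CostructuredArrow (𝟭 Z) a ⥤ CostructuredArrow (𝟭 T) (z.obj a) where
  obj x := CostructuredArrow.mk (Y := z.obj x.left) (z.map x.hom)
  map f := CostructuredArrow.homMk (z.map f.left) (by
    have := CostructuredArrow.w f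
    simp only [Functor.id_map] at this
    simp [← z.map_comp, this])
  map_id x := CostructuredArrow.hom_ext _ _ (z.map_id _)
  map_comp f g := CostructuredArrow.hom_ext _ _ (z.map_comp _ _)

theorem cLift_idPost {Z : Type} [SmallCategory Z] (z : Z ⥤ T) (p : Chain Z) {Q : Chain Z}
    (h : p ≤ Q) :
    (cLift (𝟭 Z) p (P := Q) h).map (idPost z Q.top) =
      cLift (𝟭 T) (p.map z) (P := Q.map z) (map_mono z h) := by
  show Chain.mk _ _ _ = Chain.mk _ _ _
  congr 1
  refine caFunctor_extHEq rfl fun i => heq_of_eq ?_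
  exact (homTop_map z h i).symm

theorem cLift_commaCan {Z P₀ : Type} [SmallCategory Z] [SmallCategory P₀] {q : T' ⥤ T}
    {z : Z ⥤ T} {π : P₀ ⥤ Z} {ρ : P₀ ⥤ T'} (hsq : ρ ⋙ q = π ⋙ z) (r : Chain P₀) {Q : Chain Z}
    (h : r.map π ≤ Q) (h' : (r.map ρ).map q ≤ Q.map z) :
    (cLift π r h).map (commaCan hsq Q.top) = cLift q (r.map ρ) (P := Q.map z) h' := by
  show Chain.mk _ _ _ = Chain.mk _ _ _
  congr 1
  refine caFunctor_extHEq rfl fun i => heq_of_eq ?_
  show eqToHom _ ≫ z.map (homTop h i) = homTop h' i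
  rw [← homTop_map z h i]
  have e : (r.map ρ).map q = (r.map π).map z := by rw [map_map, map_map, hsq]
  exact homTop_congr e h' (map_mono z h) i i rfl _

end Chain

theorem commaCan_map {Z P₀ : Type} [SmallCategory Z] [SmallCategory P₀] {q : T' ⥤ T}
    {z : Z ⥤ T} {π : P₀ ⥤ Z} {ρ : P₀ ⥤ T'} (hsq : ρ ⋙ q = π ⋙ z) {a a' : Z} (h : a ⟶ a') :
    CostructuredArrow.map (S := π) h ⋙ commaCan hsq a' =
      commaCan hsq a ⋙ CostructuredArrow.map (S := q) (z.map h) := by
  refine caFunctor_extHEq rfl fun w => heq_of_eq ?_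
  simp [commaCan]

theorem caMap_comp {q : T' ⥤ T} {a b c : T} (f : a ⟶ b) (g : b ⟶ c) :
    CostructuredArrow.map (S := q) f ⋙ CostructuredArrow.map g =
      CostructuredArrow.map (S := q) (f ≫ g) := by
  refine caFunctor_extHEq rfl fun w => heq_of_eq ?_
  simp

theorem caMap_id {q : T' ⥤ T} {a : T} :
    CostructuredArrow.map (S := q) (𝟙 a) = 𝟭 (CostructuredArrow q a) := by
  refine caFunctor_extHEq rfl fun w => heq_of_eq ?_
  simp

theorem caMap_proj {q : T' ⥤ T} {a b : T} (f : a ⟶ b) :
    CostructuredArrow.map (S := q) f ⋙ CostructuredArrow.proj q b =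
      CostructuredArrow.proj q a := rfl

theorem toId_map {q : T' ⥤ T} {a b : T} (f : a ⟶ b) :
    CostructuredArrow.map (S := q) f ⋙ Chain.toId q b =
      Chain.toId q a ⋙ CostructuredArrow.map (S := 𝟭 T) f := by
  refine caFunctor_extHEq rfl fun w => heq_of_eq ?_
  simp [Chain.toId]

theorem idPost_map {Z : Type} [SmallCategory Z] (z : Z ⥤ T) {a b : Z} (f : a ⟶ b) :
    CostructuredArrow.map (S := 𝟭 Z) f ⋙ Chain.idPost z b =
      Chain.idPost z a ⋙ CostructuredArrow.map (S := 𝟭 T) (z.map f) := by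
  refine caFunctor_extHEq rfl fun w => heq_of_eq ?_
  simp [Chain.idPost]

/-- A natural inverse of the comparison functors. -/
theorem eta_natural {Z P₀ : Type} [SmallCategory Z] [SmallCategory P₀] {q : T' ⥤ T}
    {z : Z ⥤ T} {π : P₀ ⥤ Z} {ρ : P₀ ⥤ T'} (hsq : ρ ⋙ q = π ⋙ z)
    (η : ∀ a, CostructuredArrow q (z.obj a) ⥤ CostructuredArrow π a)
    (h1 : ∀ a, commaCan hsq a ⋙ η a = 𝟭 _) (h2 : ∀ a, η a ⋙ commaCan hsq a = 𝟭 _)
    {a a' : Z} (h : a ⟶ a') :
    CostructuredArrow.map (S := q) (z.map h) ⋙ η a' = η a ⋙ CostructuredArrow.map (S := π) h := by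
  calc CostructuredArrow.map (S := q) (z.map h) ⋙ η a'
      = (η a ⋙ commaCan hsq a) ⋙ CostructuredArrow.map (S := q) (z.map h) ⋙ η a' := by
        rw [h2]; rfl
    _ = η a ⋙ (CostructuredArrow.map (S := π) h ⋙ commaCan hsq a') ⋙ η a' := by
        rw [commaCan_map]; rfl
    _ = η a ⋙ CostructuredArrow.map (S := π) h ⋙ (commaCan hsq a' ⋙ η a') := rfl
    _ = η a ⋙ CostructuredArrow.map (S := π) h := by rw [h1]; rfl

theorem eta_proj {Z P₀ : Type} [SmallCategory Z] [SmallCategory P₀] {q : T' ⥤ T}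
    {z : Z ⥤ T} {π : P₀ ⥤ Z} {ρ : P₀ ⥤ T'} (hsq : ρ ⋙ q = π ⋙ z)
    (η : ∀ a, CostructuredArrow q (z.obj a) ⥤ CostructuredArrow π a)
    (h2 : ∀ a, η a ⋙ commaCan hsq a = 𝟭 _) (a : Z) :
    η a ⋙ CostructuredArrow.proj π a ⋙ ρ = CostructuredArrow.proj q (z.obj a) := by
  calc η a ⋙ CostructuredArrow.proj π a ⋙ ρ
      = (η a ⋙ commaCan hsq a) ⋙ CostructuredArrow.proj q (z.obj a) := rfl
    _ = CostructuredArrow.proj q (z.obj a) := by rw [h2]; rfl

namespace BSp

theorem map_map (F : T ⥤ T') {T'' : Type} [SmallCategory T''] (G : T' ⥤ T'') (x : BSp T) :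
    map G (map F x) = map (F ⋙ G) x := by rw [map_comp]; rfl

/-- Boundary maps of cubes extend in the space of a slice. -/
theorem cubeExt_slice (c : T) :
    CellSpaces.CubeExt (BSp (CostructuredArrow (𝟭 T) c)) := fun _ _ a =>
  exists_extension_cube (CostructuredArrow.mkIdTerminal (S := 𝟭 T) (Y := c)) a

end BSp

end Vale.Agent.P259
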