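import Vale.Agent.P259.ApproxSpaces

/-!
# P259 (D4): homotopies of sections as sections one dimension higher

The grid on `I^(d+1)` projects to the grid on `I^d` by forgetting the last coordinate.  Two
sections which agree on a subcomplex, with values in spaces to which boundary maps of cubes extend
off it, are joined by a section of the pulled back diagram.
-/

open Set Topology
open scoped unitInterval

noncomputable section

namespace Vale.Agent.P259

variable {d N : ℕ}

namespace GridCell

/-- The projection of a cell forgetting the last coordinate. -/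
def base (e : GridCell (d + 1) N) : GridCell d N :=
  ⟨fun i => e.lo i.castSucc, fun i => e.hi i.castSucc, fun _ => e.lo_le _, fun _ => e.hi_le _,
    fun _ => e.hi_le_N _⟩

theorem base_mono : Monotone (base (d := d) (N := N)) := fun _ _ h i => h i.castSucc

/-- The projection on points. -/
def proj (e : GridCell (d + 1) N) : C(e.set, e.base.set) where
  toFun x := ⟨Fin.init x.1, fun i => x.2 i.castSucc⟩
  continuous_toFun := (continuous_pi fun i =>
    (continuous_apply i.castSucc).comp continuous_subtype_val).subtype_mk _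

/-- The cell cellOver `c` with last coordinate in `[j, k]`. -/
def cellOver (c : GridCell d N) (j k : ℕ) (h1 : j ≤ k) (h2 : k ≤ j + 1) (h3 : k ≤ N) :
    GridCell (d + 1) N where
  lo := Fin.snoc c.lo j
  hi := Fin.snoc c.hi k
  lo_le i := by
    refine Fin.lastCases ?_ (fun i => ?_) i
    · simpa using h1
    · simpa using c.lo_le i
  hi_le i := by
    refine Fin.lastCases ?_ (fun i => ?_) i
    · simpa using h2
    · simpa using c.hi_le i
  hi_le_N i := by
    refine Fin.lastCases ?_ (fun i => ?_) i
    · simpa using h3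
    · simpa using c.hi_le_N i

@[simp] theorem cellOver_lo_last (c : GridCell d N) (j k : ℕ) (h1 h2 h3) :
    (cellOver c j k h1 h2 h3).lo (Fin.last d) = j := by simp [cellOver]

@[simp] theorem cellOver_hi_last (c : GridCell d N) (j k : ℕ) (h1 h2 h3) :
    (cellOver c j k h1 h2 h3).hi (Fin.last d) = k := by simp [cellOver]

@[simp] theorem base_cellOver (c : GridCell d N) (j k : ℕ) (h1 h2 h3) :
    (cellOver c j k h1 h2 h3).base = c := by
  ext i <;> simp [cellOver, base]

theorem le_iff_base {e f : GridCell (d + 1) N} :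
    e ≤ f ↔ e.base ≤ f.base ∧
      f.lo (Fin.last d) ≤ e.lo (Fin.last d) ∧ e.hi (Fin.last d) ≤ f.hi (Fin.last d) := by
  refine ⟨fun h => ⟨base_mono h, h _⟩, fun h i => ?_⟩
  refine Fin.lastCases ?_ (fun i => ?_) i
  exacts [h.2, h.1 i]

theorem eq_of_base {e f : GridCell (d + 1) N} (hb : e.base = f.base)
    (hl : e.lo (Fin.last d) = f.lo (Fin.last d)) (hh : e.hi (Fin.last d) = f.hi (Fin.last d)) :
    e = f :=
  le_antisymm (le_iff_base.mpr ⟨hb.le, hl.ge, hh.le⟩) (le_iff_base.mpr ⟨hb.ge, hl.le, hh.ge⟩)

theorem eq_cellOver (e : GridCell (d + 1) N) :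
    e = cellOver e.base (e.lo (Fin.last d)) (e.hi (Fin.last d)) (e.lo_le _) (e.hi_le _)
      (e.hi_le_N _) :=
  eq_of_base (base_cellOver _ _ _ _ _ _).symm (cellOver_lo_last _ _ _ _ _ _).symm
    (cellOver_hi_last _ _ _ _ _ _).symm

theorem snoc_mem_cellOver {c : GridCell d N} {j k : ℕ} {h1 h2 h3} {x : Fin d → I} {t : I}
    (hx : x ∈ c.set) (ht1 : (j : ℝ) / N ≤ t) (ht2 : (t : ℝ) ≤ (k : ℝ) / N) :
    (Fin.snoc x t : Fin (d + 1) → I) ∈ (cellOver c j k h1 h2 h3).set := by
  intro i
  refine Fin.lastCases ?_ (fun i => ?_) i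
  · simpa [cellOver] using And.intro ht1 ht2
  · simpa [cellOver] using hx i

/-- The cells at time `0`. -/
def bottomCells (d N : ℕ) : Set (GridCell (d + 1) N) := {e | e.hi (Fin.last d) = 0}

/-- The cells at time `1`. -/
def topCells (d N : ℕ) : Set (GridCell (d + 1) N) := {e | e.lo (Fin.last d) = N}

theorem isLowerSet_bottomCells : IsLowerSet (bottomCells d N) := fun _ f h he =>
  Nat.le_zero.mp (he ▸ (h (Fin.last d)).2 : f.hi (Fin.last d) ≤ 0)

theorem isLowerSet_topCells : IsLowerSet (topCells d N) := fun e f h he => by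
  have he' : e.lo (Fin.last d) = N := he
  have h1 : N ≤ f.lo (Fin.last d) := le_of_eq_of_le he'.symm (h (Fin.last d)).1
  exact le_antisymm ((f.lo_le _).trans (f.hi_le_N _)) h1

theorem disjoint_bottom_top (hN : 0 < N) {e : GridCell (d + 1) N} (h0 : e ∈ bottomCells d N)
    (h1 : e ∈ topCells d N) : False := by
  have := e.lo_le (Fin.last d)
  have h0' : e.hi (Fin.last d) = 0 := h0
  have h1' : e.lo (Fin.last d) = N := h1
  omega

theorem isLowerSet_preimage_base {L : Set (GridCell d N)} (hL : IsLowerSet L) :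
    IsLowerSet (base ⁻¹' L : Set (GridCell (d + 1) N)) := fun _ _ h he => hL (base_mono h) he

end GridCell

namespace CellSpaces

variable {D : CellSpaces d N} {S : Set (GridCell d N)}

/-- The diagram on the higher grid. -/
abbrev cyl (D : CellSpaces d N) : CellSpaces (d + 1) N := D.pull GridCell.base GridCell.base_mono

/-- A section pulled back to the higher grid. -/
def Sec.pullBase (a : Sec D S) : Sec D.cyl (GridCell.base ⁻¹' S) where
  app e he := (a.app e.base he).comp e.proj
  compat h he hf x := a.compat (GridCell.base_mono h) he hf (GridCell.proj _ x)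

/-- A natural family pulled back to the higher grid. -/
def Hom.pullBase {Y : Type} [TopologicalSpace Y] (η : Hom D (CellSpaces.const d N Y)) :
    Hom D.cyl (CellSpaces.const (d + 1) N Y) where
  app e := η.app e.base
  natural h x := η.natural (GridCell.base_mono h) x

/-- Two sections agreeing on a subcomplex `L`, with extension properties off it, are joined by a
section on the higher grid which is constant cellOver `L`. -/
theorem Sec.exists_homotopy (hN : 0 < N) (a b : Sec D Set.univ) {L : Set (GridCell d N)}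
    (hL : IsLowerSet L) (hab : ∀ e ∈ L, ∀ x, a.app e trivial x = b.app e trivial x)
    (hext : ∀ e, e ∉ L → CubeExt (D.X e)) :
    ∃ H : Sec D.cyl Set.univ,
      (∀ e ∈ GridCell.bottomCells d N, ∀ x,
        H.app e trivial x = a.app e.base trivial (e.proj x)) ∧
      (∀ e ∈ GridCell.topCells d N, ∀ x,
        H.app e trivial x = b.app e.base trivial (e.proj x)) ∧
      (∀ e, e.base ∈ L → ∀ x, H.app e trivial x = a.app e.base trivial (e.proj x)) := by
  let A := a.pullBase
  let B := b.pullBase
  let S₀ : Set (GridCell (d + 1) N) := GridCell.bottomCells d N ∪ GridCell.base ⁻¹' L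
  have hS₀ : IsLowerSet S₀ :=
    GridCell.isLowerSet_bottomCells.union (GridCell.isLowerSet_preimage_base hL)
  let s₀ : Sec D.cyl S₀ := A.res (S' := S₀) (fun _ _ => trivial)
  let s₁ : Sec D.cyl (GridCell.topCells d N) := B.res (fun _ _ => trivial)
  have hag : ∀ e (he : e ∈ S₀) (he' : e ∈ GridCell.topCells d N) x,
      s₀.app e he x = s₁.app e he' x := by
    intro e he he' x
    rcases he with h | h
    · exact (GridCell.disjoint_bottom_top hN h he').elim
    · exact hab e.base h (e.proj x)
  let s := s₀.union s₁ hS₀ GridCell.isLowerSet_topCells hag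
  obtain ⟨H, hH⟩ := s.exists_extend hN (hS₀.union GridCell.isLowerSet_topCells) fun e he =>
    hext e.base fun h => he (Or.inl (Or.inr h))
  refine ⟨H, fun e he x => ?_, fun e he x => ?_, fun e he x => ?_⟩
  · rw [hH e (Or.inl (Or.inl he))]
    exact (DFunLike.congr_fun (Sec.union_left s₀ s₁ hS₀ GridCell.isLowerSet_topCells hag e
      (show e ∈ S₀ from (Or.inl he)) _) x).trans rfl
  · rw [hH e (Or.inr he)]
    exact (Sec.union_right s₀ s₁ hS₀ GridCell.isLowerSet_topCells hag e he _ x).trans rfl
  · rw [hH e (Or.inl (Or.inr he))]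
    exact (DFunLike.congr_fun (Sec.union_left s₀ s₁ hS₀ GridCell.isLowerSet_topCells hag e
      (show e ∈ S₀ from (Or.inr he)) _) x).trans rfl

/-- The glued maps of two such sections are homotopic relative to the subcomplex. -/
theorem Sec.exists_homotopyRel (hN : 0 < N) {Y : Type} [TopologicalSpace Y]
    (η : Hom D (CellSpaces.const d N Y)) (a b : Sec D Set.univ) {L : Set (GridCell d N)}
    (hL : IsLowerSet L) (hab : ∀ e ∈ L, ∀ x, a.app e trivial x = b.app e trivial x)
    (hext : ∀ e, e ∉ L → CubeExt (D.X e)) (fa fb : C(Fin d → I, Y))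
    (hfa : ∀ e (x : e.set), fa x.1 = η.app e (a.app e trivial x))
    (hfb : ∀ e (x : e.set), fb x.1 = η.app e (b.app e trivial x)) :
    fa.HomotopicRel fb (⋃ e ∈ L, e.set) := by
  obtain ⟨H, h0, h1, hc⟩ := a.exists_homotopy hN b hL hab hext
  obtain ⟨F, hF⟩ := Sec.exists_glue hN (H.push η.pullBase)
  have hN' : (0 : ℝ) < N := Nat.cast_pos.mpr hN
  have h00 : ((0 : ℕ) : ℝ) / N = 0 := by simp
  have hNN : ((N : ℕ) : ℝ) / N = 1 := div_self hN'.ne'
  have hinit : ∀ (x : Fin d → I) (t : I), Fin.init (Fin.snoc x t : Fin (d + 1) → I) = x :=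
    fun x t => Fin.init_snoc ..
  have key : ∀ (e : GridCell (d + 1) N) (x : Fin d → I) (t : I)
      (he : (Fin.snoc x t : Fin (d + 1) → I) ∈ e.set) (s : Sec D Set.univ)
      (hs : ∀ y, H.app e trivial y = s.app e.base trivial (e.proj y)) (fs : C(Fin d → I, Y))
      (hfs : ∀ e (x : e.set), fs x.1 = η.app e (s.app e trivial x)),
      F (Fin.snoc x t) = fs x := by
    intro e x t he s hs fs hfs
    refine (hF e ⟨_, he⟩).trans ?_
    show η.app e.base (H.app e trivial ⟨_, he⟩) = fs x
    rw [hs, ← hfs]
    exact congrArg fs (hinit x t)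
  refine ⟨{
    toFun := fun q => F (Fin.snoc q.2 q.1)
    continuous_toFun := F.continuous.comp (continuous_pi fun i => by
      refine Fin.lastCases ?_ (fun i => ?_) i
      · simpa using! continuous_fst
      · simpa using! (continuous_apply i).comp continuous_snd)
    map_zero_left := fun x => ?_
    map_one_left := fun x => ?_
    prop' := fun t x hx => ?_ }⟩
  · obtain ⟨c, hc'⟩ := GridCell.exists_mem_set hN x
    exact key (c.cellOver 0 0 le_rfl (Nat.zero_le _) (Nat.zero_le _)) x 0
      (GridCell.snoc_mem_cellOver hc' (by simp) (by simp)) a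
      (h0 _ (GridCell.cellOver_hi_last _ _ _ _ _ _)) fa hfa
  · obtain ⟨c, hc'⟩ := GridCell.exists_mem_set hN x
    exact key (c.cellOver N N le_rfl (Nat.le_succ _) le_rfl) x 1
      (GridCell.snoc_mem_cellOver hc' (by rw [hNN]; simp) (by rw [hNN]; simp)) b
      (h1 _ (GridCell.cellOver_lo_last _ _ _ _ _ _)) fb hfb
  · simp only [Set.mem_iUnion] at hx
    obtain ⟨c, hcL, hxc⟩ := hx
    obtain ⟨τ, hτ⟩ := GridCell.exists_mem_set (d := 1) hN (fun _ => t)
    exact key (c.cellOver (τ.lo 0) (τ.hi 0) (τ.lo_le 0) (τ.hi_le 0) (τ.hi_le_N 0)) x t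
      (GridCell.snoc_mem_cellOver hxc (hτ 0).1 (hτ 0).2) a
      (hc _ (by rw [GridCell.base_cellOver]; exact hcL)) fa hfa

end CellSpaces

end Vale.Agent.P259
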