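import Vale.Agent.P259.ApproxComb
import Vale.Agent.P259.ApproxHomotopy

/-!
# P259 (D4): sections on subcomplexes, reindexing, homotopies with prescribed part
-/

open Set Topology
open scoped unitInterval

noncomputable section

namespace Vale.Agent.P259

variable {d N : ℕ}

namespace CellSpaces

variable {D : CellSpaces d N} {S S' : Set (GridCell d N)}

namespace Sec

/-- A section of a constant diagram on a subcomplex glues to a map on its union. -/
theorem exists_glueOn {Y : Type} [TopologicalSpace Y] (hN : 0 < N)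
    (hS : IsLowerSet S) (s : Sec (CellSpaces.const d N Y) S) (K : Set (Fin d → I))
    (hK : ∀ x ∈ K, ∃ e ∈ S, x ∈ e.set) :
    ∃ F : C(K, Y), ∀ e (he : e ∈ S) (x : e.set) (hx : x.1 ∈ K), F ⟨x.1, hx⟩ = s.app e he x := by
  choose c hcS hc using hK
  let F : K → Y := fun x => s.app (c x.1 x.2) (hcS x.1 x.2) ⟨x.1, hc x.1 x.2⟩
  have key : ∀ e (he : e ∈ S) (x : e.set) (hx : x.1 ∈ K), F ⟨x.1, hx⟩ = s.app e he x := by
    intro e he x hx
    obtain ⟨k, hk1, hk2, hk⟩ := GridCell.exists_inf hN (hc x.1 hx) x.2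
    exact (s.compat hk1 (hS hk2 he) (hcS x.1 hx) ⟨x.1, hk⟩).trans
      (s.compat hk2 (hS hk2 he) he ⟨x.1, hk⟩).symm
  let C' : S → Set K := fun e => {x | x.1 ∈ e.1.set}
  refine ⟨⟨F, (locallyFinite_of_finite C').continuous ?_ (fun e => ?_) fun e => ?_⟩, key⟩
  · exact Set.eq_univ_of_forall fun x =>
      Set.mem_iUnion.mpr ⟨⟨c x.1 x.2, hcS x.1 x.2⟩, hc x.1 x.2⟩
  · exact e.1.isClosed_set.preimage continuous_subtype_val
  · rw [continuousOn_iff_continuous_domRestrict]
    have h : (C' e).domRestrict F = fun x : C' e => s.app e.1 e.2 ⟨x.1.1, x.2⟩ :=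
      funext fun x => key e.1 e.2 ⟨x.1.1, x.2⟩ x.1.2
    rw [h]
    exact (ContinuousMap.continuous _).comp
      ((continuous_subtype_val.comp continuous_subtype_val).subtype_mk _)

/-- Sections extend within a subcomplex when the boundary maps of its further cells extend. -/
theorem exists_extend_within (hN : 0 < N) (hS : IsLowerSet S) (s : Sec D S)
    {U : Set (GridCell d N)} (hU : IsLowerSet U) (hSU : S ⊆ U)
    (hext : ∀ e ∈ U, e ∉ S → ∀ a : C(Cube.boundary ↥e.free, D.X e),
      ∃ b : C(↥e.free → I, D.X e), ∀ u : Cube.boundary ↥e.free, b u.1 = a u) :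
    ∃ s' : Sec D U, ∀ f (hf : f ∈ S), s'.app f (hSU hf) = s.app f hf := by
  classical
  suffices h : ∀ (k : ℕ) (V : Set (GridCell d N)), (U \ V).ncard = k → IsLowerSet V → S ⊆ V →
      V ⊆ U → ∀ t : Sec D V, (∀ f (hf : f ∈ S) (hf' : f ∈ V), t.app f hf' = s.app f hf) →
      ∃ s' : Sec D U, ∀ f (hf : f ∈ S), s'.app f (hSU hf) = s.app f hf from
    h _ S rfl hS subset_rfl hSU s fun f hf hf' => rfl
  intro k
  induction k using Nat.strong_induction_on with
  | _ k ih =>
    intro V hk hV hSV hVU t ht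
    by_cases hall : U ⊆ V
    · obtain rfl : V = U := Set.Subset.antisymm hVU hall
      exact ⟨t, fun f hf => ht f hf _⟩
    · obtain ⟨e, heUV, hemin⟩ := (Set.toFinite (U \ V)).exists_minimal
        (Set.sdiff_nonempty.mpr hall)
      have hfaces : ∀ f, f < e → f ∈ V := fun f hf => by
        by_contra hfV
        exact hf.not_ge (hemin ⟨hU hf.le heUV.1, hfV⟩ hf.le)
      obtain ⟨t', ht'⟩ := t.exists_extend_step hN hV e heUV.2 hfaces
        (hext e heUV.1 fun h => heUV.2 (hSV h))
      refine ih _ ?_ (insert e V) rfl (Sec.isLowerSet_insert hV hfaces)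
        (hSV.trans (Set.subset_insert _ _)) (Set.insert_subset heUV.1 hVU) t' fun f hf hf' => ?_
      · rw [← hk]
        refine Set.ncard_lt_ncard ⟨fun f hf => ⟨hf.1, fun h => hf.2 (Or.inr h)⟩, fun h => ?_⟩
          (Set.toFinite _)
        exact (h heUV).2 (Or.inl rfl)
      · rw [ht' f (hSV hf)]; exact ht f hf _

/-- A section pulled back along a map of cells and points. -/
def reindex {d' N' : ℕ} (a : Sec D S) (π : GridCell d' N' → GridCell d N) (hπ : Monotone π)
    (φ : C(Fin d' → I, Fin d → I)) (hφ : ∀ e, ∀ x ∈ e.set, φ x ∈ (π e).set) :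
    Sec (D.pull π hπ) (π ⁻¹' S) where
  app e he := (a.app (π e) he).comp
    ⟨fun x => ⟨φ x.1, hφ e x.1 x.2⟩, (φ.continuous.comp continuous_subtype_val).subtype_mk _⟩
  compat h he hf x := a.compat (hπ h) he hf ⟨φ x.1, hφ _ x.1 x.2⟩

/-- Two sections are joined by a section on the higher grid, prescribed over a subcomplex. -/
theorem exists_homotopy_prescribed (hN : 0 < N) (a b : Sec D Set.univ) {L : Set (GridCell d N)}
    (hL : IsLowerSet L) (sL : Sec D.cyl (GridCell.base ⁻¹' L))
    (h0 : ∀ e ∈ GridCell.bottomCells d N, ∀ (he : e.base ∈ L) x,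
      sL.app e he x = a.app e.base trivial (e.proj x))
    (h1 : ∀ e ∈ GridCell.topCells d N, ∀ (he : e.base ∈ L) x,
      sL.app e he x = b.app e.base trivial (e.proj x))
    (hext : ∀ e, e ∉ L → CubeExt (D.X e)) :
    ∃ H : Sec D.cyl Set.univ,
      (∀ e ∈ GridCell.bottomCells d N, ∀ x,
        H.app e trivial x = a.app e.base trivial (e.proj x)) ∧
      (∀ e ∈ GridCell.topCells d N, ∀ x,
        H.app e trivial x = b.app e.base trivial (e.proj x)) ∧
      (∀ e (he : e.base ∈ L), ∀ x, H.app e trivial x = sL.app e he x) := by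
  have hB := GridCell.isLowerSet_bottomCells (d := d) (N := N)
  have hT := GridCell.isLowerSet_topCells (d := d) (N := N)
  have hP := GridCell.isLowerSet_preimage_base (N := N) hL
  let A : Sec D.cyl (GridCell.bottomCells d N) := a.pullBase.res fun _ _ => trivial
  let B : Sec D.cyl (GridCell.topCells d N) := b.pullBase.res fun _ _ => trivial
  let u := A.union B hB hT fun e he he' _ => (GridCell.disjoint_bottom_top hN he he').elim
  have hag : ∀ e (he : e ∈ GridCell.bottomCells d N ∪ GridCell.topCells d N)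
      (he' : e ∈ GridCell.base ⁻¹' L) x, u.app e he x = sL.app e he' x := by
    intro e he he' x
    rcases he with h | h
    · exact (DFunLike.congr_fun (union_left A B _ _ _ e h _) x).trans (h0 e h he' x).symm
    · exact (union_right A B _ _ _ e h _ x).trans (h1 e h he' x).symm
  let s := u.union sL (hB.union hT) hP hag
  obtain ⟨H, hH⟩ := s.exists_extend hN ((hB.union hT).union hP) fun e he =>
    hext e.base fun h => he (Or.inr h)
  refine ⟨H, fun e he x => ?_, fun e he x => ?_, fun e he x => ?_⟩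
  · rw [hH e (Or.inl (Or.inl he))]
    exact (DFunLike.congr_fun (union_left u sL _ _ _ e
      (show e ∈ _ ∪ _ from Or.inl he) _) x).trans
      ((DFunLike.congr_fun (union_left A B _ _ _ e he _) x).trans rfl)
  · rw [hH e (Or.inl (Or.inr he))]
    exact (DFunLike.congr_fun (union_left u sL _ _ _ e
      (show e ∈ _ ∪ _ from Or.inr he) _) x).trans
      ((union_right A B _ _ _ e he _ x).trans rfl)
  · rw [hH e (Or.inr he)]
    exact union_right u sL _ _ _ e he _ x

/-- The homotopy of glued maps underlying a section on the higher grid. -/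
theorem exists_homotopy_glue (hN : 0 < N) {Y : Type} [TopologicalSpace Y]
    (η : Hom D (CellSpaces.const d N Y)) (a b : Sec D Set.univ) (H : Sec D.cyl Set.univ)
    (h0 : ∀ e ∈ GridCell.bottomCells d N, ∀ x,
      H.app e trivial x = a.app e.base trivial (e.proj x))
    (h1 : ∀ e ∈ GridCell.topCells d N, ∀ x,
      H.app e trivial x = b.app e.base trivial (e.proj x))
    (fa fb : C(Fin d → I, Y))
    (hfa : ∀ e (x : e.set), fa x.1 = η.app e (a.app e trivial x))
    (hfb : ∀ e (x : e.set), fb x.1 = η.app e (b.app e trivial x)) :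
    ∃ F : fa.Homotopy fb, ∀ (e : GridCell (d + 1) N) (x : Fin d → I) (t : I)
      (he : (Fin.snoc x t : Fin (d + 1) → I) ∈ e.set),
      F (t, x) = η.app e.base (H.app e trivial ⟨_, he⟩) := by
  obtain ⟨G, hG⟩ := Sec.exists_glue hN (H.push η.pullBase)
  have hN' : (0 : ℝ) < N := Nat.cast_pos.mpr hN
  have hNN : ((N : ℕ) : ℝ) / N = 1 := div_self hN'.ne'
  have key : ∀ (e : GridCell (d + 1) N) (x : Fin d → I) (t : I)
      (he : (Fin.snoc x t : Fin (d + 1) → I) ∈ e.set) (s : Sec D Set.univ)
      (_ : ∀ y, H.app e trivial y = s.app e.base trivial (e.proj y)) (fs : C(Fin d → I, Y))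
      (_ : ∀ e (x : e.set), fs x.1 = η.app e (s.app e trivial x)),
      G (Fin.snoc x t) = fs x := by
    intro e x t he s hs fs hfs
    refine (hG e ⟨_, he⟩).trans ?_
    show η.app e.base (H.app e trivial ⟨_, he⟩) = fs x
    rw [hs, ← hfs]
    exact congrArg fs (Fin.init_snoc (n := d) (α := fun _ => I) t x)
  refine ⟨{
    toFun := fun q => G (Fin.snoc q.2 q.1)
    continuous_toFun := G.continuous.comp (continuous_pi fun i => by
      refine Fin.lastCases ?_ (fun i => ?_) i
      · simpa using! continuous_fst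
      · simpa using! (continuous_apply i).comp continuous_snd)
    map_zero_left := fun x => ?_
    map_one_left := fun x => ?_ }, fun e x t he => hG e ⟨_, he⟩⟩
  · obtain ⟨c, hc⟩ := GridCell.exists_mem_set hN x
    exact key (c.cellOver 0 0 le_rfl (Nat.zero_le _) (Nat.zero_le _)) x 0
      (GridCell.snoc_mem_cellOver hc (by simp) (by simp)) a
      (h0 _ (GridCell.cellOver_hi_last _ _ _ _ _ _)) fa hfa
  · obtain ⟨c, hc⟩ := GridCell.exists_mem_set hN x
    exact key (c.cellOver N N le_rfl (Nat.le_succ _) le_rfl) x 1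
      (GridCell.snoc_mem_cellOver hc (by rw [hNN]; simp) (by rw [hNN]; simp)) b
      (h1 _ (GridCell.cellOver_lo_last _ _ _ _ _ _)) fb hfb

end Sec

end CellSpaces

end Vale.Agent.P259
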