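import Mathlib

/-!
# P259 (D3): grids on cubes

Vertices, cells and multilinear tent functions of the grid of mesh `1/N` on a cube.
-/

set_option linter.unusedSectionVars false

open Set Topology
open scoped unitInterval

noncomputable section

namespace Vale.Agent.P259

namespace Grid

variable {ι : Type} [Fintype ι] {N : ℕ}

/-- Vertices of the grid. -/
abbrev Vert (ι : Type) (N : ℕ) : Type := ι → Fin (N + 1)

/-- A cell of the subdivided interval: a vertex or an edge. -/
@[ext]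
structure Cell1 (N : ℕ) where
  lo : Fin (N + 1)
  hi : Fin (N + 1)
  lo_le : lo.1 ≤ hi.1
  hi_le : hi.1 ≤ lo.1 + 1

instance : Finite (Cell1 N) :=
  Finite.of_injective (fun c : Cell1 N => (c.lo, c.hi))
    fun c d h => Cell1.ext (congrArg Prod.fst h) (congrArg Prod.snd h)

instance : PartialOrder (Cell1 N) where
  le c d := d.lo.1 ≤ c.lo.1 ∧ c.hi.1 ≤ d.hi.1
  le_refl _ := ⟨le_rfl, le_rfl⟩
  le_trans _ _ _ h h' := ⟨h'.1.trans h.1, h.2.trans h'.2⟩
  le_antisymm _ _ h h' :=
    Cell1.ext (Fin.ext (le_antisymm h'.1 h.1)) (Fin.ext (le_antisymm h.2 h'.2))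

/-- Cells of the grid, ordered by inclusion. -/
abbrev Cell (ι : Type) (N : ℕ) : Type := ι → Cell1 N

/-- The vertices of a cell. -/
def verts (e : Cell ι N) : Set (Vert ι N) :=
  {v | ∀ i, (e i).lo.1 ≤ (v i).1 ∧ (v i).1 ≤ (e i).hi.1}

theorem verts_mono {e e' : Cell ι N} (h : e ≤ e') : verts e ⊆ verts e' :=
  fun _ hv i => ⟨(h i).1.trans (hv i).1, (hv i).2.trans (h i).2⟩

theorem lo_mem_verts (e : Cell ι N) : (fun i => (e i).lo) ∈ verts e :=
  fun i => ⟨le_rfl, (e i).lo_le⟩

theorem hi_mem_verts (e : Cell ι N) : (fun i => (e i).hi) ∈ verts e :=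
  fun i => ⟨(e i).lo_le, le_rfl⟩

theorem le_of_verts_subset {e e' : Cell ι N} (h : verts e ⊆ verts e') : e ≤ e' :=
  fun i => ⟨(h (lo_mem_verts e) i).1, (h (hi_mem_verts e) i).2⟩

/-- The points of a closed cell. -/
def cellSet (e : Cell ι N) : Set (ι → I) :=
  {x | ∀ i, ((e i).lo.1 : ℝ) ≤ N * (x i : ℝ) ∧ N * (x i : ℝ) ≤ ((e i).hi.1 : ℝ)}

theorem cellSet_mono {e e' : Cell ι N} (h : e ≤ e') : cellSet e ⊆ cellSet e' := fun _ hx i =>
  ⟨le_trans (by exact_mod_cast (h i).1) (hx i).1, le_trans (hx i).2 (by exact_mod_cast (h i).2)⟩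

theorem continuous_scaled (i : ι) : Continuous fun x : ι → I => (N : ℝ) * (x i : ℝ) :=
  continuous_const.mul (continuous_subtype_val.comp (continuous_apply i))

theorem isClosed_cellSet (e : Cell ι N) : IsClosed (cellSet e) := by
  simp only [cellSet, Set.ofPred_forall, Set.ofPred_and]
  exact isClosed_iInter fun i =>
    (isClosed_le continuous_const (continuous_scaled i)).inter
      (isClosed_le (continuous_scaled i) continuous_const)

theorem isCompact_cellSet (e : Cell ι N) : IsCompact (cellSet e) :=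
  (isClosed_cellSet e).isCompact

/-- The closed star of a vertex. -/
def vstar (v : Vert ι N) : Set (ι → I) :=
  {x | ∀ i, |(N : ℝ) * (x i : ℝ) - ((v i).1 : ℝ)| ≤ 1}

/-- The midpoint of a cell. -/
def centre (e : Cell ι N) : ι → I := fun i =>
  ⟨(((e i).lo.1 : ℝ) + (e i).hi.1) / (2 * N), by
    have h1 : ((e i).lo.1 : ℝ) ≤ N := by exact_mod_cast Nat.lt_succ_iff.mp (e i).lo.2
    have h2 : ((e i).hi.1 : ℝ) ≤ N := by exact_mod_cast Nat.lt_succ_iff.mp (e i).hi.2
    refine ⟨by positivity, ?_⟩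
    rcases Nat.eq_zero_or_pos N with rfl | hN
    · simp
    · have : (0 : ℝ) < N := by exact_mod_cast hN
      rw [div_le_one (by positivity)]
      linarith⟩

/-- The one dimensional tent. -/
def tent (t : ℝ) : ℝ := max 0 (1 - |t|)

theorem tent_nonneg (t : ℝ) : 0 ≤ tent t := le_max_left _ _

theorem continuous_tent : Continuous tent :=
  continuous_const.max (continuous_const.sub continuous_abs)

theorem tent_ne_zero {t : ℝ} : tent t ≠ 0 ↔ |t| < 1 := by
  unfold tent
  rcases le_or_gt (1 - |t|) 0 with h | h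
  · rw [max_eq_left h]; simp only [ne_eq, not_true_eq_false, false_iff, not_lt]; linarith
  · rw [max_eq_right h.le]; exact iff_of_true h.ne' (by linarith)

theorem sum_tent (M : ℕ) : ∀ y : ℝ, 0 ≤ y → y ≤ M →
    ∑ k : Fin (M + 1), tent (y - (k.1 : ℝ)) = 1 := by
  induction M with
  | zero =>
    intro y h0 h1
    have : y = 0 := le_antisymm (by simpa using h1) h0
    simp [this, tent]
  | succ M ih =>
    intro y h0 h1
    rw [Fin.sum_univ_castSucc]
    simp only [Fin.val_castSucc, Fin.val_last]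
    rcases le_or_gt y M with h | h
    · have hlast : tent (y - ((M + 1 : ℕ) : ℝ)) = 0 := by
        by_contra hne
        have := abs_lt.mp (tent_ne_zero.mp hne)
        push_cast at this
        linarith
      rw [ih y h0 h, hlast, add_zero]
    · have hz : ∀ k : Fin (M + 1), k ≠ Fin.last M → tent (y - (k.1 : ℝ)) = 0 := by
        intro k hk
        by_contra hne
        have h2 := abs_lt.mp (tent_ne_zero.mp hne)
        have : (k.1 : ℝ) + 1 ≤ M := by
          have : k.1 < M := Fin.val_lt_last hk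
          exact_mod_cast this
        linarith
      rw [Finset.sum_eq_single (Fin.last M) (fun k _ hk => hz k hk)
        (fun h => absurd (Finset.mem_univ _) h)]
      simp only [Fin.val_last]
      push_cast at h1 ⊢
      unfold tent
      rw [abs_of_pos (by linarith), abs_of_nonpos (by linarith),
        max_eq_right (by linarith), max_eq_right (by linarith)]
      ring

/-- The multilinear tent function of a vertex. -/
def hat (v : Vert ι N) (x : ι → I) : ℝ :=
  ∏ i, tent ((N : ℝ) * (x i : ℝ) - ((v i).1 : ℝ))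

theorem hat_nonneg (v : Vert ι N) (x : ι → I) : 0 ≤ hat v x :=
  Finset.prod_nonneg fun _ _ => tent_nonneg _

theorem continuous_hat (v : Vert ι N) : Continuous (hat v) :=
  continuous_finsetProd _ fun i _ =>
    continuous_tent.comp ((continuous_scaled i).sub continuous_const)

theorem hat_ne_zero_iff {v : Vert ι N} {x : ι → I} :
    hat v x ≠ 0 ↔ ∀ i, |(N : ℝ) * (x i : ℝ) - ((v i).1 : ℝ)| < 1 := by
  simp [hat, Finset.prod_ne_zero_iff, tent_ne_zero]

theorem sum_hat [DecidableEq ι] (x : ι → I) : ∑ v : Vert ι N, hat v x = 1 := by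
  simp only [hat]
  rw [← Fintype.prod_sum (fun i (k : Fin (N + 1)) => tent ((N : ℝ) * (x i : ℝ) - (k.1 : ℝ)))]
  refine Finset.prod_eq_one fun i _ => sum_tent N _ (mul_nonneg (Nat.cast_nonneg _) (x i).2.1) ?_
  exact mul_le_of_le_one_right (Nat.cast_nonneg _) (x i).2.2

theorem mem_vstar_of_hat_ne_zero {v : Vert ι N} {x : ι → I} (h : hat v x ≠ 0) : x ∈ vstar v :=
  fun i => (hat_ne_zero_iff.mp h i).le

/-- On a cell only its vertices carry weight. -/
theorem mem_verts_of_hat_ne_zero {e : Cell ι N} {x : ι → I} (hx : x ∈ cellSet e) {v : Vert ι N}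
    (h : hat v x ≠ 0) : v ∈ verts e := fun i => by
  have h1 := abs_lt.mp (hat_ne_zero_iff.mp h i)
  constructor
  · by_contra hlt
    have : ((v i).1 : ℝ) + 1 ≤ ((e i).lo.1 : ℝ) := by exact_mod_cast Nat.lt_of_not_le hlt
    linarith [(hx i).1]
  · by_contra hlt
    have : ((e i).hi.1 : ℝ) + 1 ≤ ((v i).1 : ℝ) := by exact_mod_cast Nat.lt_of_not_le hlt
    linarith [(hx i).2]

theorem scaled_centre (hN : 0 < N) (e : Cell ι N) (i : ι) :
    (N : ℝ) * (centre e i : ℝ) = (((e i).lo.1 : ℝ) + (e i).hi.1) / 2 := by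
  have : (0 : ℝ) < N := by exact_mod_cast hN
  show (N : ℝ) * ((((e i).lo.1 : ℝ) + (e i).hi.1) / (2 * N)) = _
  field_simp

theorem centre_mem (hN : 0 < N) (e : Cell ι N) : centre e ∈ cellSet e := fun i => by
  have : ((e i).lo.1 : ℝ) ≤ (e i).hi.1 := by exact_mod_cast (e i).lo_le
  rw [scaled_centre hN]
  constructor <;> linarith

/-- Every vertex of a cell carries weight at the centre of the cell. -/
theorem hat_centre_ne_zero (hN : 0 < N) {e : Cell ι N} {v : Vert ι N} (hv : v ∈ verts e) :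
    hat v (centre e) ≠ 0 := hat_ne_zero_iff.mpr fun i => by
  have h1 : ((e i).lo.1 : ℝ) ≤ (v i).1 := by exact_mod_cast (hv i).1
  have h2 : ((v i).1 : ℝ) ≤ (e i).hi.1 := by exact_mod_cast (hv i).2
  have h3 : ((e i).hi.1 : ℝ) ≤ ((e i).lo.1 : ℝ) + 1 := by exact_mod_cast (e i).hi_le
  rw [scaled_centre hN, abs_lt]
  constructor <;> linarith

/-- A cell lies in the star of each of its vertices. -/
theorem cellSet_subset_vstar {e : Cell ι N} {v : Vert ι N} (hv : v ∈ verts e) :
    cellSet e ⊆ vstar v := fun x hx i => by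
  have h1 : ((e i).lo.1 : ℝ) ≤ (v i).1 := by exact_mod_cast (hv i).1
  have h2 : ((v i).1 : ℝ) ≤ (e i).hi.1 := by exact_mod_cast (hv i).2
  have h3 : ((e i).hi.1 : ℝ) ≤ ((e i).lo.1 : ℝ) + 1 := by exact_mod_cast (e i).hi_le
  rw [abs_le]
  constructor <;> linarith [(hx i).1, (hx i).2]

/-- The vertex `v` as a point of the cube. -/
def point (v : Vert ι N) : ι → I := fun i =>
  ⟨((v i).1 : ℝ) / N, by
    refine ⟨by positivity, ?_⟩
    rcases Nat.eq_zero_or_pos N with rfl | hN
    · simp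
    · rw [div_le_one (by exact_mod_cast hN)]
      exact_mod_cast Nat.lt_succ_iff.mp (v i).2⟩

theorem point_mem_vstar (hN : 0 < N) (v : Vert ι N) : point v ∈ vstar v := fun i => by
  have : (0 : ℝ) < N := by exact_mod_cast hN
  show |(N : ℝ) * (((v i).1 : ℝ) / N) - ((v i).1 : ℝ)| ≤ 1
  rw [mul_div_cancel₀ _ this.ne', sub_self, abs_zero]
  exact zero_le_one

theorem dist_le_of_mem_vstar (hN : 0 < N) {v : Vert ι N} {x y : ι → I} (hx : x ∈ vstar v)
    (hy : y ∈ vstar v) : dist x y ≤ 2 / N := by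
  have hN' : (0 : ℝ) < N := by exact_mod_cast hN
  refine (dist_pi_le_iff (by positivity)).mpr fun i => ?_
  rw [Subtype.dist_eq, Real.dist_eq, le_div_iff₀ hN', mul_comm,
    show (N : ℝ) * |(x i : ℝ) - y i| = |(N : ℝ) * ((x i : ℝ) - y i)| by
      rw [abs_mul, abs_of_pos hN'], abs_le]
  have h1 := abs_le.mp (hx i)
  have h2 := abs_le.mp (hy i)
  constructor <;> linarith

/-- Every point lies in a cell. -/
theorem exists_cell (hN : 0 < N) (x : ι → I) : ∃ e : Cell ι N, x ∈ cellSet e := by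
  let k : ι → ℕ := fun i => min ⌊(N : ℝ) * (x i : ℝ)⌋₊ (N - 1)
  have hk : ∀ i, k i < N := fun i =>
    lt_of_le_of_lt (min_le_right ⌊(N : ℝ) * (x i : ℝ)⌋₊ (N - 1)) (by omega)
  refine ⟨fun i => ⟨⟨k i, (hk i).trans N.lt_succ_self⟩, ⟨k i + 1, Nat.succ_lt_succ (hk i)⟩, Nat.le_succ _, le_rfl⟩, fun i => ⟨?_, ?_⟩⟩
  · have h0 : (0 : ℝ) ≤ N * (x i : ℝ) := mul_nonneg (Nat.cast_nonneg _) (x i).2.1
    exact le_trans (by exact_mod_cast min_le_left _ _) (Nat.floor_le h0)
  · show (N : ℝ) * (x i : ℝ) ≤ ((k i + 1 : ℕ) : ℝ)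
    rcases le_or_gt ⌊(N : ℝ) * (x i : ℝ)⌋₊ (N - 1) with h | h
    · rw [show k i = ⌊(N : ℝ) * (x i : ℝ)⌋₊ from min_eq_left h]
      push_cast
      exact (Nat.lt_floor_add_one _).le
    · rw [show k i = N - 1 from min_eq_right h.le, show N - 1 + 1 = N by omega]
      exact mul_le_of_le_one_right (Nat.cast_nonneg _) (x i).2.2

/-- A vertex whose star meets the face `x i = 0` but carries weight there lies on it. -/
theorem vert_eq_zero_of_face {v : Vert ι N} {x : ι → I} (h : hat v x ≠ 0) {i : ι} (hi : x i = 0) :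
    v i = 0 := by
  have h1 := hat_ne_zero_iff.mp h i
  rw [hi] at h1
  simp only [Set.Icc.coe_zero, mul_zero, zero_sub, abs_neg, Nat.abs_cast] at h1
  exact Fin.ext (by have : (v i).1 < 1 := (by exact_mod_cast h1); simpa using Nat.lt_one_iff.mp this)

/-- A vertex carrying weight on the face `x i = 1` lies on it. -/
theorem vert_eq_last_of_face {v : Vert ι N} {x : ι → I} (h : hat v x ≠ 0) {i : ι} (hi : x i = 1) :
    v i = Fin.last N := by
  have h1 := abs_lt.mp (hat_ne_zero_iff.mp h i)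
  rw [hi] at h1
  simp only [Set.Icc.coe_one, mul_one] at h1
  have : N < (v i).1 + 1 := by exact_mod_cast (by linarith [h1.2] : (N : ℝ) < ((v i).1 : ℝ) + 1)
  exact Fin.ext (by simp; omega)

theorem exists_mesh {δ : ℝ} (hδ : 0 < δ) : ∃ N₀ : ℕ, 0 < N₀ ∧ ∀ M, N₀ ≤ M → 2 / (M : ℝ) < δ := by
  obtain ⟨n, hn⟩ := exists_nat_gt (2 / δ)
  refine ⟨n + 1, Nat.succ_pos _, fun M hM => ?_⟩
  have hM' : (n : ℝ) + 1 ≤ M := by exact_mod_cast hM
  have h2 : 2 < δ * M := by
    have := (div_lt_iff₀ hδ).mp hn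
    nlinarith
  rw [div_lt_iff₀ (by linarith [show (0 : ℝ) ≤ n from Nat.cast_nonneg n])]
  exact h2

end Grid

end Vale.Agent.P259
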