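import Vale.Agent.P259.ApproxComb
import Vale.Agent.P259.ApproxGlue
import Vale.Agent.P259.Grid

/-!
# P259 (D3): simplicial approximation on grids

Labels of grid vertices, the diagram of comma spaces over the cells and the canonical sections.
-/

open CategoryTheory Set Topology
open scoped unitInterval

noncomputable section

namespace Vale.Agent.P259

variable {d N : ℕ}

namespace GridCell

theorem vertex_le_of_hat_ne_zero (hN : 0 < N) {e : GridCell d N} {x : Fin d → I} (hx : x ∈ e.set)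
    {v : Grid.Vert (Fin d) N} (h : Grid.hat v x ≠ 0) : vertex v ≤ e := fun i => by
  have hN' : (0 : ℝ) < N := Nat.cast_pos.mpr hN
  have h1 := abs_lt.mp (Grid.hat_ne_zero_iff.mp h i)
  have h2 := (div_le_iff₀ hN').mp (hx i).1
  have h3 := (le_div_iff₀ hN').mp (hx i).2
  constructor
  · show e.lo i ≤ (v i).1
    have : (e.lo i : ℝ) < ((v i).1 + 1 : ℕ) := by push_cast; linarith
    have := Nat.cast_lt.mp this
    omega
  · show (v i).1 ≤ e.hi i
    have : (((v i).1 : ℕ) : ℝ) < (e.hi i + 1 : ℕ) := by push_cast; linarith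
    have := Nat.cast_lt.mp this
    omega

theorem set_subset_vstar (hN : 0 < N) {e : GridCell d N} {v : Grid.Vert (Fin d) N}
    (h : vertex v ≤ e) {x : Fin d → I} (hx : x ∈ e.set) : x ∈ Grid.vstar v := fun i => by
  have hN' : (0 : ℝ) < N := Nat.cast_pos.mpr hN
  have h2 := (div_le_iff₀ hN').mp (hx i).1
  have h3 := (le_div_iff₀ hN').mp (hx i).2
  have a : (e.lo i : ℝ) ≤ (v i).1 := Nat.cast_le.mpr (h i).1
  have b : ((v i).1 : ℝ) ≤ e.hi i := Nat.cast_le.mpr (h i).2
  have c : (e.hi i : ℝ) ≤ (e.lo i : ℝ) + 1 := by exact_mod_cast e.hi_le i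
  rw [abs_le]
  constructor <;> linarith

theorem point_mem_vertex (v : Grid.Vert (Fin d) N) : Grid.point v ∈ (vertex v).set :=
  fun _ => ⟨le_rfl, le_rfl⟩

end GridCell

theorem hat_snoc_one {m : ℕ} (v : Grid.Vert (Fin m) N) (x : Fin m → I) :
    Grid.hat (Fin.snoc v (Fin.last N) : Grid.Vert (Fin (m + 1)) N) (Fin.snoc x 1) =
      Grid.hat v x := by
  simp [Grid.hat, Fin.prod_univ_castSucc, Grid.tent]

namespace BSp

variable {T : Type} [SmallCategory T] {X : Type*} [TopologicalSpace X]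

/-- Combinations with the weights of a subfamily. -/
theorem comb_reindex {Y : Type*} [TopologicalSpace Y] {ι κ : Type*} [Fintype ι] [Fintype κ]
    (j : κ → ι) (hj : Function.Injective j)
    {w : ι → C(X, ℝ)} {hw hs} {ℓ : ι → Chain T} {hc} {w' : κ → C(Y, ℝ)} {hw' hs'}
    {ℓ' : κ → Chain T} {hc'} {x : X} {y : Y} (h0 : ∀ i, i ∉ Set.range j → w i x = 0)
    (hxy : ∀ k, w (j k) x = w' k y) (h : ∀ k, w' k y ≠ 0 → ℓ (j k) = ℓ' k) :
    comb w hw hs ℓ hc x = comb w' hw' hs' ℓ' hc' y := by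
  refine BSp.ext ?_
  rw [comb_wt, comb_wt]
  refine (Fintype.sum_of_injective j hj _ _ (fun i hi => ?_) fun k => ?_).symm
  · rw [h0 i hi, Finsupp.single_zero]
  · rw [hxy k]
    by_cases hk : w' k y = 0
    · rw [hk, Finsupp.single_zero, Finsupp.single_zero]
    · rw [h k hk]

theorem exists_wt_ge [CompactSpace X] (f : C(X, BSp T)) :
    ∃ M : ℕ, ∀ M', M ≤ M' → ∀ x, ∃ p, 1 / ((M' : ℝ) + 1) ≤ (f x).wt p := by
  obtain ⟨V, hV⟩ := exists_finite_support_map f
  refine ⟨V.card, fun M' hM x => ?_⟩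
  by_contra! h
  have h1 := (f x).sum_one_of_subset (hV x)
  have h2 : ∑ p ∈ V, (f x).wt p ≤ ∑ _p ∈ V, 1 / ((M' : ℝ) + 1) :=
    Finset.sum_le_sum fun p _ => (h p).le
  rw [h1, Finset.sum_const, nsmul_eq_mul, mul_one_div, le_div_iff₀ (by positivity)] at h2
  have : (V.card : ℝ) ≤ M' := Nat.cast_le.mpr hM
  linarith

theorem exists_delta {X : Type*} [PseudoMetricSpace X] [CompactSpace X] (f : C(X, BSp T)) {c : ℝ}
    (hc : 0 < c) :
    ∃ δ > 0, ∀ x y, dist x y < δ → ∀ p, c ≤ (f x).wt p → 0 < (f y).wt p := by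
  obtain ⟨V, hV⟩ := exists_finite_support_map f
  have hF : Continuous fun x (p : V) => (f x).wt p.1 :=
    continuous_pi fun p => (continuous_wt p.1).comp f.continuous
  obtain ⟨δ, hδ, h⟩ :=
    Metric.uniformContinuous_iff.mp (CompactSpace.uniformContinuous_of_continuous hF) c hc
  refine ⟨δ, hδ, fun x y hxy p hp => ?_⟩
  have hpV : p ∈ V := hV x ((mem_support_iff _ _).mpr (hc.trans_le hp))
  have h2 : dist ((f x).wt p) ((f y).wt p) < c :=
    lt_of_le_of_lt (dist_le_pi_dist (fun q : V => (f x).wt q.1) (fun q : V => (f y).wt q.1)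
      ⟨p, hpV⟩) (h hxy)
  rw [Real.dist_eq] at h2
  linarith [(abs_lt.mp h2).2]

end BSp

/-! ## Labelled grids -/

/-- Labels of the grid vertices, comparable on the cells of a subcomplex. -/
structure Lab (d N : ℕ) (T : Type) [SmallCategory T] where
  K : Set (GridCell d N)
  lower : IsLowerSet K
  lab : Grid.Vert (Fin d) N → Chain T
  comparable : ∀ e ∈ K, ∀ v w, GridCell.vertex v ≤ e → GridCell.vertex w ≤ e →
    lab v ≤ lab w ∨ lab w ≤ lab v

namespace Lab

variable {T T' : Type} [SmallCategory T] [SmallCategory T'] (L : Lab d N T)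

theorem exists_topVert (e : GridCell d N) :
    ∃ v, GridCell.vertex v ≤ e ∧ (e ∈ L.K → ∀ w, GridCell.vertex w ≤ e → L.lab w ≤ L.lab v) := by
  classical
  obtain ⟨v₀, hv₀⟩ := e.exists_vertex_le
  by_cases he : e ∈ L.K
  · let V : Finset (Grid.Vert (Fin d) N) := Finset.univ.filter fun v => GridCell.vertex v ≤ e
    obtain ⟨a, haV, hmax⟩ := (V.image L.lab).exists_maximal
      ⟨L.lab v₀, Finset.mem_image_of_mem _ (Finset.mem_filter.mpr ⟨Finset.mem_univ _, hv₀⟩)⟩
    obtain ⟨v, hv, rfl⟩ := Finset.mem_image.mp haV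
    refine ⟨v, (Finset.mem_filter.mp hv).2, fun _ w hw => ?_⟩
    rcases L.comparable e he w v hw (Finset.mem_filter.mp hv).2 with h | h
    · exact h
    · exact hmax (Finset.mem_image_of_mem _ (Finset.mem_filter.mpr ⟨Finset.mem_univ _, hw⟩)) h
  · exact ⟨v₀, hv₀, fun h => (he h).elim⟩

/-- The biggest label of a cell. -/
def Phi (e : GridCell d N) : Chain T := L.lab (L.exists_topVert e).choose

theorem le_Phi {e : GridCell d N} (he : e ∈ L.K) {w : Grid.Vert (Fin d) N}
    (hw : GridCell.vertex w ≤ e) : L.lab w ≤ L.Phi e :=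
  (L.exists_topVert e).choose_spec.2 he w hw

theorem Phi_le {e : GridCell d N} {P : Chain T}
    (h : ∀ w, GridCell.vertex w ≤ e → L.lab w ≤ P) : L.Phi e ≤ P :=
  h _ (L.exists_topVert e).choose_spec.1

theorem Phi_mono {e f : GridCell d N} (h : e ≤ f) (hf : f ∈ L.K) : L.Phi e ≤ L.Phi f :=
  L.Phi_le fun _ hw => L.le_Phi hf (hw.trans h)

/-- The space of a cell. -/
abbrev Sp (q : T' ⥤ T) (e : GridCell d N) : Type := BSp (CostructuredArrow q (L.Phi e).top)

/-- The transition map of a face. -/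
def trans' (q : T' ⥤ T) {e f : GridCell d N} (h : e ≤ f) (hf : f ∈ L.K) : C(L.Sp q e, L.Sp q f) :=
  BSp.map (CostructuredArrow.map (Chain.topHom (L.Phi_mono h hf)))

/-- The diagram of comma spaces over the cells. -/
def spaces (q : T' ⥤ T) : CellSpaces d N where
  X e := PLift (e ∈ L.K) → L.Sp q e
  top _ := inferInstance
  map {e f} h := ⟨fun x hf => L.trans' q h hf.down (x ⟨L.lower h hf.down⟩),
    continuous_pi fun hf => (L.trans' q h hf.down).continuous.comp (continuous_apply _)⟩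
  map_refl e x := funext fun ⟨he⟩ => by
    show L.trans' q (le_refl e) he (x ⟨_⟩) = _
    simp only [trans', Chain.topHom_refl, caMap_id, BSp.map_id, ContinuousMap.id_apply]
  map_map h h' x := funext fun ⟨hg⟩ => by
    show L.trans' q h' hg (L.trans' q h (L.lower h' hg) _) = L.trans' q (h.trans h') hg _
    simp only [trans', BSp.map_map, caMap_comp, Chain.topHom_comp]

/-- A natural family on the cells of the subcomplex gives a section of a constant diagram. -/
def evalSec {q : T' ⥤ T} {S : Set (GridCell d N)} (s : CellSpaces.Sec (L.spaces q) S)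
    (hSK : S ⊆ L.K) {Y : Type} [TopologicalSpace Y] (g : ∀ e, C(L.Sp q e, Y))
    (hg : ∀ {e f} (h : e ≤ f) (hf : f ∈ L.K) z, g f (L.trans' q h hf z) = g e z) :
    CellSpaces.Sec (CellSpaces.const d N Y) S where
  app e he := ⟨fun x => g e (s.app e he x ⟨hSK he⟩),
    (g e).continuous.comp ((continuous_apply _).comp (s.app e he).continuous)⟩
  compat {e f} h he hf x := by
    show g f (s.app f hf (GridCell.incl h x) ⟨hSK hf⟩) = g e (s.app e he x ⟨hSK he⟩)
    rw [s.compat h he hf x]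
    exact hg h (hSK hf) _

theorem proj_trans' (q : T' ⥤ T) {e f : GridCell d N} (h : e ≤ f) (hf : f ∈ L.K) (z : L.Sp q e) :
    BSp.map (CostructuredArrow.proj q _) (L.trans' q h hf z) =
      BSp.map (CostructuredArrow.proj q _) z := by
  simp only [trans', BSp.map_map, caMap_proj]

/-- The natural map to the slices. -/
def toIdHom (q : T' ⥤ T) : CellSpaces.Hom (L.spaces q) (L.spaces (𝟭 T)) where
  app e := ⟨fun x he => BSp.map (Chain.toId q _) (x he),
    continuous_pi fun he => (ContinuousMap.continuous _).comp (continuous_apply he)⟩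
  natural {e f} h x := funext fun ⟨hf⟩ => by
    show BSp.map _ (L.trans' q h hf _) = L.trans' (𝟭 T) h hf _
    simp only [trans', BSp.map_map, toId_map]
    exact (BSp.map_map _ _ _).symm

/-- The natural map to a constant diagram, when every cell is in the subcomplex. -/
def projHom (q : T' ⥤ T) (hK : ∀ e, e ∈ L.K) :
    CellSpaces.Hom (L.spaces q) (CellSpaces.const d N (BSp T')) where
  app e := (BSp.map (CostructuredArrow.proj q _)).comp
    ⟨fun x => x ⟨hK e⟩, continuous_apply _⟩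
  natural {e f} h x := L.proj_trans' q h (hK f) _

/-- Boundary maps extend in the diagram of slices. -/
theorem cubeExt_spaces (e : GridCell d N) : CellSpaces.CubeExt ((L.spaces (𝟭 T)).X e) := by
  intro ι _ a
  by_cases he : e ∈ L.K
  · obtain ⟨b, hb⟩ := BSp.cubeExt_slice (L.Phi e).top ι
      (⟨fun u => a u ⟨he⟩, (continuous_apply _).comp a.continuous⟩ :
        C(Cube.boundary ι, L.Sp (𝟭 T) e))
    exact ⟨⟨fun x _ => b x, continuous_pi fun _ => b.continuous⟩, fun u => funext fun _ => hb u⟩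
  · exact ⟨⟨fun _ h => (he h.down).elim, continuous_pi fun h => (he h.down).elim⟩,
      fun u => funext fun h => (he h.down).elim⟩

/-! ### Lifted labels -/

/-- A lift of the labels of a subcomplex along a functor. -/
structure Lift (q : T' ⥤ T) (S : Set (GridCell d N)) where
  sub : S ⊆ L.K
  lab' : ∀ v, GridCell.vertex v ∈ S → Chain T'
  map_lab' : ∀ v h, (lab' v h).map q = L.lab v
  comparable : ∀ e ∈ S, ∀ v w hv hw, GridCell.vertex v ≤ e → GridCell.vertex w ≤ e →
    lab' v hv ≤ lab' w hw ∨ lab' w hw ≤ lab' v hv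
  low : IsLowerSet S

/-- The labels themselves. -/
def idLift {S : Set (GridCell d N)} (hS : IsLowerSet S) (h : S ⊆ L.K) : L.Lift (𝟭 T) S where
  sub := h
  lab' v _ := L.lab v
  map_lab' _ _ := rfl
  comparable e he v w _ _ hv hw := L.comparable e (h he) v w hv hw
  low := hS

variable {L} {q : T' ⥤ T} {S : Set (GridCell d N)}

theorem Lift.le_Phi (ℓ : L.Lift q S) {e : GridCell d N} (he : e ∈ S) {v : Grid.Vert (Fin d) N}
    (hv : GridCell.vertex v ≤ e) : (ℓ.lab' v (ℓ.low hv he)).map q ≤ L.Phi e := by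
  rw [ℓ.map_lab']
  exact L.le_Phi (ℓ.sub he) hv

open scoped Classical in
/-- The labels of a cell in its comma category. -/
def Lift.cell (ℓ : L.Lift q S) {e : GridCell d N} (he : e ∈ S) (v : Grid.Vert (Fin d) N) :
    Chain (CostructuredArrow q (L.Phi e).top) :=
  if hv : GridCell.vertex v ≤ e then Chain.cLift q _ (ℓ.le_Phi he hv)
  else Chain.cLift q _ (ℓ.le_Phi he e.exists_vertex_le.choose_spec)

theorem Lift.cell_of_le (ℓ : L.Lift q S) {e : GridCell d N} (he : e ∈ S)
    {v : Grid.Vert (Fin d) N} (hv : GridCell.vertex v ≤ e) :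
    ℓ.cell he v = Chain.cLift q _ (ℓ.le_Phi he hv) := dif_pos hv

/-- The weights on a set of points. -/
def hatOn (A : Set (Fin d → I)) (v : Grid.Vert (Fin d) N) : C(A, ℝ) :=
  ⟨fun x => Grid.hat v x.1, (Grid.continuous_hat v).comp continuous_subtype_val⟩

theorem hatOn_nonneg (A : Set (Fin d → I)) (v : Grid.Vert (Fin d) N) (x : A) : 0 ≤ hatOn A v x :=
  Grid.hat_nonneg v x.1

theorem sum_hatOn (A : Set (Fin d → I)) (x : A) :
    ∑ v : Grid.Vert (Fin d) N, hatOn A v x = 1 := Grid.sum_hat x.1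

theorem Lift.cell_comparable (hN : 0 < N) (ℓ : L.Lift q S) {e : GridCell d N} (he : e ∈ S)
    (x : e.set) (v w : Grid.Vert (Fin d) N) (hv : hatOn e.set v x ≠ 0)
    (hw : hatOn e.set w x ≠ 0) :
    ℓ.cell he v ≤ ℓ.cell he w ∨ ℓ.cell he w ≤ ℓ.cell he v := by
  have hv' := GridCell.vertex_le_of_hat_ne_zero hN x.2 hv
  have hw' := GridCell.vertex_le_of_hat_ne_zero hN x.2 hw
  rw [ℓ.cell_of_le he hv', ℓ.cell_of_le he hw']
  exact Chain.cLift_comparable q _ _ (ℓ.comparable e he v w _ _ hv' hw')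

/-- The section of a lift of labels. -/
def Lift.sec (hN : 0 < N) (ℓ : L.Lift q S) : CellSpaces.Sec (L.spaces q) S where
  app e he := ⟨fun x _ => BSp.comb (hatOn e.set) (hatOn_nonneg _)
      (sum_hatOn e.set) (ℓ.cell he) (ℓ.cell_comparable hN he) x,
    continuous_pi fun _ => ContinuousMap.continuous _⟩
  compat {e f} h he hf x := funext fun ⟨hfK⟩ => by
    show BSp.comb (hatOn f.set) (hatOn_nonneg _) (sum_hatOn f.set) (ℓ.cell hf)
        (ℓ.cell_comparable hN hf) (GridCell.incl h x) =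
      BSp.map (CostructuredArrow.map (Chain.topHom (L.Phi_mono h hfK)))
        (BSp.comb (hatOn e.set) (hatOn_nonneg _) (sum_hatOn e.set) (ℓ.cell he)
          (ℓ.cell_comparable hN he) x)
    rw [BSp.map_comb]
    refine BSp.comb_eq (fun v => rfl) fun v hv => ?_
    have hv' := GridCell.vertex_le_of_hat_ne_zero hN x.2 hv
    rw [ℓ.cell_of_le he hv', ℓ.cell_of_le hf (hv'.trans h), Chain.cLift_map]

theorem Lift.sec_apply (hN : 0 < N) (ℓ : L.Lift q S) {e : GridCell d N} (he : e ∈ S) (x : e.set)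
    (hK : PLift (e ∈ L.K)) :
    (ℓ.sec hN).app e he x hK = BSp.comb (hatOn e.set) (hatOn_nonneg _)
      (sum_hatOn e.set) (ℓ.cell he) (ℓ.cell_comparable hN he) x := rfl

/-- The vertices of the projection of the section are labels of grid points near the point. -/
theorem Lift.exists_of_mem_support (hN : 0 < N) (ℓ : L.Lift q S) {e : GridCell d N} (he : e ∈ S)
    (x : e.set) (hK : PLift (e ∈ L.K)) {p : Chain T'}
    (hp : p ∈ (BSp.map (CostructuredArrow.proj q _) ((ℓ.sec hN).app e he x hK)).wt.support) :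
    ∃ v, ∃ hv : GridCell.vertex v ≤ e, ℓ.lab' v (ℓ.low hv he) = p := by
  rw [ℓ.sec_apply, BSp.map_comb] at hp
  obtain ⟨v, hv0, rfl⟩ := BSp.exists_mem_support_comb hp
  have hv := GridCell.vertex_le_of_hat_ne_zero hN x.2 hv0
  refine ⟨v, hv, ?_⟩
  rw [ℓ.cell_of_le he hv, Chain.cLift_proj]

theorem cLift_congr {p p' : Chain T'} (e : p = p') {P : Chain T} (h : p.map q ≤ P)
    (h' : p'.map q ≤ P) : Chain.cLift q p h = Chain.cLift q p' h' := by
  subst e; rfl

/-- The section of a lift maps to the section of the labels. -/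
theorem Lift.sec_toId (hN : 0 < N) (ℓ : L.Lift q S) {S' : Set (GridCell d N)}
    (ℓ' : L.Lift (𝟭 T) S') (hℓ' : ∀ v h, ℓ'.lab' v h = L.lab v) {e : GridCell d N} (he : e ∈ S)
    (he' : e ∈ S') (x : e.set) :
    (L.toIdHom q).app e ((ℓ.sec hN).app e he x) = (ℓ'.sec hN).app e he' x := by
  refine funext fun hK => ?_
  show BSp.map (Chain.toId q _) ((ℓ.sec hN).app e he x hK) = _
  rw [ℓ.sec_apply, ℓ'.sec_apply, BSp.map_comb]
  refine BSp.comb_eq (fun v => rfl) fun v hv => ?_
  have hv' := GridCell.vertex_le_of_hat_ne_zero hN x.2 hv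
  rw [ℓ.cell_of_le he hv', ℓ'.cell_of_le he' hv', Chain.cLift_toId]
  exact cLift_congr (((ℓ.map_lab' v _)).trans (hℓ' v _).symm) _ _

end Lab

end Vale.Agent.P259
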