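import Vale.Agent.P259.ApproxBoxCells

/-!
# P259 (D4): from an approximate lift to a lift

An approximate lift comes with a homotopy which is constant on the bottom and sides and lies over
`BSp Z` on the free face.  Homotopy extension turns it into a lift with the prescribed values.
-/

open CategoryTheory Set Topology
open scoped unitInterval

noncomputable section

namespace Vale.Agent.P259

open CubeLemma

variable {T T' Z P : Type} [SmallCategory T] [SmallCategory T'] [SmallCategory Z] [SmallCategory P]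
  {q : T' ⥤ T} {z : Z ⥤ T} {π : P ⥤ Z} {ρ : P ⥤ T'}

theorem map_rho_q (hsq : ρ ⋙ q = π ⋙ z) (w : BSp P) :
    BSp.map q (BSp.map ρ w) = BSp.map z (BSp.map π w) := by
  rw [BSp.map_map, BSp.map_map, hsq]

/-- A boundary family does not depend on the parameter. -/
def constParam {X S Y : Type} [TopologicalSpace X] [TopologicalSpace S] [TopologicalSpace Y]
    (f : C(X, Y)) : C(S × X, Y) :=
  f.comp ⟨Prod.snd, continuous_snd⟩

theorem liftBox_of_approx (hsq : ρ ⋙ q = π ⋙ z) {m : ℕ}
    (f : C(Fin (m + 1) → I, BSp T)) (g₀ : C(boxSet m, BSp T'))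
    (hg₀ : ∀ x : boxSet m, BSp.map q (g₀ x) = f x.1)
    (f₁ : C(Fin m → I, BSp Z)) (hf₁ : ∀ x, f (Fin.snoc x 1) = BSp.map z (f₁ x))
    (g₀₀ : C(Cube.boundary (Fin m), BSp P)) (hπ : ∀ u, BSp.map π (g₀₀ u) = f₁ u.1)
    (hρ : ∀ u, BSp.map ρ (g₀₀ u) = g₀ ⟨Fin.snoc u.1 1, snoc_one_mem_boxSet u⟩)
    (gt : C(Fin (m + 1) → I, BSp T')) (gt₁ : C(Fin m → I, BSp P))
    (hface : ∀ y, gt (Fin.snoc y 1) = BSp.map ρ (gt₁ y))
    (hbox : ∀ x : boxSet m, (gt x.1).wt.support ⊆ (g₀ x).wt.support)
    (hbd : ∀ u : Cube.boundary (Fin m), (gt₁ u.1).wt.support ⊆ (g₀₀ u).wt.support)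
    (ft : C(Fin (m + 1) → I, BSp T)) (hft : ∀ x, (ft x).wt.support ⊆ (f x).wt.support)
    (ft₁ : C(Fin m → I, BSp Z)) (hft₁ : ∀ x, (ft₁ x).wt.support ⊆ (f₁ x).wt.support)
    (C : ((BSp.map q).comp gt).Homotopy ft) (C₁ : ((BSp.map π).comp gt₁).Homotopy ft₁)
    (hCbox : ∀ t, ∀ x : boxSet m, C (t, x.1) = BSp.map q (gt x.1))
    (hCface : ∀ t y, C (t, Fin.snoc y 1) = BSp.map z (C₁ (t, y)))
    (hC₁ : ∀ t (u : Cube.boundary (Fin m)), C₁ (t, u.1) = BSp.map π (gt₁ u.1)) :
    ∃ (g : C(Fin (m + 1) → I, BSp T')) (g₁ : C(Fin m → I, BSp P)),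
      (∀ x : boxSet m, g x.1 = g₀ x) ∧ (∀ x, g (Fin.snoc x 1) = BSp.map ρ (g₁ x)) ∧
      (∀ u : Cube.boundary (Fin m), g₁ u.1 = g₀₀ u) ∧
      ∃ (H₁ : ((BSp.map π).comp g₁).HomotopyRel f₁ (Cube.boundary (Fin m)))
        (H : ((BSp.map q).comp g).Homotopy f),
        (∀ t, ∀ x ∈ boxSet m, H (t, x) = f x) ∧
        ∀ t x, H (t, Fin.snoc x 1) = BSp.map z (H₁ (t, x)) := by
  -- straight lines on the prescribed parts
  let gB : C(boxSet m, BSp T') := gt.comp ⟨Subtype.val, continuous_subtype_val⟩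
  let gP : C(Cube.boundary (Fin m), BSp P) := gt₁.comp ⟨Subtype.val, continuous_subtype_val⟩
  let l₀ := BSp.lineHomotopy gB g₀ fun x => BSp.isChain_union_of_subset (hbox x)
  let l₀₀ := BSp.lineHomotopy gP g₀₀ fun u => BSp.isChain_union_of_subset (hbd u)
  let lf := BSp.lineHomotopy ft f fun x => BSp.isChain_union_of_subset (hft x)
  let lf₁ := BSp.lineHomotopy ft₁ f₁ fun x => BSp.isChain_union_of_subset (hft₁ x)
  let M : C(I × (Fin (m + 1) → I), BSp T) := (C.trans lf).toContinuousMap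
  let M₁ : C(I × (Fin m → I), BSp Z) := (C₁.trans lf₁).toContinuousMap
  have hftbox : ∀ x : boxSet m, ft x.1 = BSp.map q (gt x.1) := fun x =>
    (C.apply_one x.1).symm.trans (hCbox 1 x)
  have hftface : ∀ y, ft (Fin.snoc y 1) = BSp.map z (ft₁ y) := fun y => by
    rw [← C.apply_one, hCface, C₁.apply_one]
  have hftbd : ∀ u : Cube.boundary (Fin m), ft₁ u.1 = BSp.map π (gt₁ u.1) := fun u =>
    (C₁.apply_one u.1).symm.trans (hC₁ 1 u)
  have hM0 : ∀ x, M (0, x) = BSp.map q (gt x) := (C.trans lf).apply_zero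
  have hM1 : ∀ x, M (1, x) = f x := (C.trans lf).apply_one
  have hM₁0 : ∀ x, M₁ (0, x) = BSp.map π (gt₁ x) := (C₁.trans lf₁).apply_zero
  have hM₁1 : ∀ x, M₁ (1, x) = f₁ x := (C₁.trans lf₁).apply_one
  have hMbox : ∀ t (x : boxSet m), M (t, x.1) = BSp.map q (l₀ (wait t, x)) := by
    intro t x
    show C.trans lf (t, x.1) = _
    rw [ContinuousMap.Homotopy.trans_apply]
    split_ifs with h
    · rw [hCbox, wait_of_le h, l₀.apply_zero]
      rfl
    · rw [wait_of_gt h (unitInterval.two_mul_sub_one_mem_iff.mpr ⟨(not_le.mp h).le, t.2.2⟩)]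
      have H := BSp.isChain_union_of_subset (z := BSp.map q (gB x)) (w := BSp.map q (g₀ x)) (by
        rw [show BSp.map q (gB x) = ft x.1 from (hftbox x).symm, hg₀]
        exact hft _)
      exact (BSp.lineComb_congr (hftbox x) (hg₀ x).symm (BSp.isChain_union_of_subset (hft x.1)) H _).trans
        (BSp.map_lineComb q (gB x) (g₀ x) (BSp.isChain_union_of_subset (hbox x)) H _).symm
  have hMface : ∀ t y, M (t, Fin.snoc y 1) = BSp.map z (M₁ (t, y)) := by
    intro t y
    show C.trans lf (t, Fin.snoc y 1) = BSp.map z (C₁.trans lf₁ (t, y))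
    rw [ContinuousMap.Homotopy.trans_apply, ContinuousMap.Homotopy.trans_apply]
    split_ifs with h
    · exact hCface _ y
    · have H := BSp.isChain_union_of_subset (z := BSp.map z (ft₁ y)) (w := BSp.map z (f₁ y))
        (by rw [← hftface, ← hf₁]; exact hft _)
      exact (BSp.lineComb_congr (hftface y) (hf₁ y) (BSp.isChain_union_of_subset (hft _)) H _).trans
        (BSp.map_lineComb z (ft₁ y) (f₁ y) (BSp.isChain_union_of_subset (hft₁ y)) H _).symm
  have hM₁bd : ∀ t (u : Cube.boundary (Fin m)), M₁ (t, u.1) = BSp.map π (l₀₀ (wait t, u)) := by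
    intro t u
    show C₁.trans lf₁ (t, u.1) = _
    rw [ContinuousMap.Homotopy.trans_apply]
    split_ifs with h
    · rw [hC₁, wait_of_le h, l₀₀.apply_zero]
      rfl
    · rw [wait_of_gt h (unitInterval.two_mul_sub_one_mem_iff.mpr ⟨(not_le.mp h).le, t.2.2⟩)]
      have H := BSp.isChain_union_of_subset (z := BSp.map π (gP u)) (w := BSp.map π (g₀₀ u)) (by
        rw [show BSp.map π (gP u) = ft₁ u.1 from (hftbd u).symm, hπ]
        exact hft₁ _)
      exact (BSp.lineComb_congr (hftbd u) (hπ u).symm (BSp.isChain_union_of_subset (hft₁ u.1)) H _).trans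
        (BSp.map_lineComb π (gP u) (g₀₀ u) (BSp.isChain_union_of_subset (hbd u)) H _).symm
  have hcomm : ∀ t (u : Cube.boundary (Fin m)),
      l₀ (t, ⟨Fin.snoc u.1 1, snoc_one_mem_boxSet u⟩) = BSp.map ρ (l₀₀ (t, u)) := by
    intro t u
    have H := BSp.isChain_union_of_subset (z := BSp.map ρ (gP u)) (w := BSp.map ρ (g₀₀ u)) (by
      rw [show BSp.map ρ (gP u) = gt (Fin.snoc u.1 1) from (hface _).symm, hρ]
      exact hbox ⟨_, snoc_one_mem_boxSet u⟩)
    exact (BSp.lineComb_congr (hface u.1) (hρ u).symm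
        (BSp.isChain_union_of_subset (hbox ⟨_, snoc_one_mem_boxSet u⟩)) H _).trans
      (BSp.map_lineComb ρ (gP u) (g₀₀ u) (BSp.isChain_union_of_subset (hbd u)) H t).symm
  -- the lift on the free face
  let F₁ : C(Unit × (Fin m → I), BSp P) := constParam gt₁
  let K₁ : C(Unit × I × Cube.boundary (Fin m), BSp P) :=
    ⟨fun p => l₀₀ (wait p.2.1, p.2.2), l₀₀.continuous.comp
      ((continuous_wait.comp (continuous_fst.comp continuous_snd)).prodMk
        (continuous_snd.comp continuous_snd))⟩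
  have hFK₁ : ∀ s u, K₁ (s, 0, u) = F₁ (s, u.1) := fun _ u => by
    show l₀₀ (wait 0, u) = gt₁ u.1
    rw [wait_zero, l₀₀.apply_zero]
    rfl
  let G₁ := hep F₁ K₁ hFK₁
  let g₁ : C(Fin m → I, BSp P) :=
    G₁.comp ⟨fun x => ((), 1, x), continuous_const.prodMk (continuous_const.prodMk continuous_id)⟩
  have hsweep₁ : ∀ t y, sweep M₁ (0, t, y) = BSp.map π (G₁ ((), t, y)) := by
    intro t y
    rw [map_hep]
    exact sweep_start M₁ _ _ _ () (fun x => (hM₁0 x).symm) (fun t u => (hM₁bd t u).symm) t y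
  -- the lift
  let A₀ : C((Unit × I) × boxSet m, BSp T') :=
    ⟨fun p => l₀ (wait p.1.2, p.2), l₀.continuous.comp
      ((continuous_wait.comp (continuous_snd.comp continuous_fst)).prodMk continuous_snd)⟩
  let B₀ : C((Unit × I) × (Fin m → I), BSp T') :=
    (BSp.map ρ).comp (G₁.comp ⟨fun p => ((), p.1.2, p.2),
      continuous_const.prodMk ((continuous_snd.comp continuous_fst).prodMk continuous_snd)⟩)
  obtain ⟨Kb, hKb1, hKb2⟩ := exists_surface A₀ B₀ fun s u => by
    show l₀ (wait s.2, _) = BSp.map ρ (hep F₁ K₁ hFK₁ ((), s.2, u.1))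
    rw [hep_boundary, hcomm]
    rfl
  let K : C(Unit × I × Cube.boundary (Fin (m + 1)), BSp T') :=
    Kb.comp ⟨fun p => ((p.1, p.2.1), p.2.2),
      (continuous_fst.prodMk (continuous_fst.comp continuous_snd)).prodMk
        (continuous_snd.comp continuous_snd)⟩
  let F : C(Unit × (Fin (m + 1) → I), BSp T') := constParam gt
  have hsurf : ∀ x : Cube.boundary (Fin (m + 1)),
      x.1 ∈ boxSet m ∨ ∃ y, x.1 = Fin.snoc y 1 := by
    rintro ⟨x, i, hi⟩
    revert hi
    refine Fin.lastCases (fun hi => ?_) (fun j hj => ?_) i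
    · rcases hi with h | h
      exacts [Or.inl (Or.inl h), Or.inr ⟨Fin.init x, show x = _ by rw [← h, Fin.snoc_init_self]⟩]
    · exact Or.inl (Or.inr ⟨j, hj⟩)
  have hFK : ∀ s u, K (s, 0, u) = F (s, u.1) := by
    intro s u
    rcases hsurf u with h | ⟨y, hy⟩
    · show Kb ((s, 0), u) = _
      rw [show u = ⟨(⟨u.1, h⟩ : boxSet m).1, u.2⟩ from rfl, hKb1]
      show l₀ (wait 0, _) = _
      rw [wait_zero, l₀.apply_zero]
      rfl
    · show Kb ((s, 0), u) = gt u.1
      rw [show u = ⟨Fin.snoc y 1, hy ▸ u.2⟩ from Subtype.ext hy, hKb2]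
      show BSp.map ρ (hep F₁ K₁ hFK₁ ((), 0, y)) = _
      rw [hep_zero, hface]
      rfl
  let G := hep F K hFK
  let g : C(Fin (m + 1) → I, BSp T') :=
    G.comp ⟨fun x => ((), 1, x), continuous_const.prodMk (continuous_const.prodMk continuous_id)⟩
  have hgbox : ∀ x : boxSet m, g x.1 = g₀ x := by
    intro x
    show hep F K hFK ((), 1, (⟨x.1, boxSet_subset_boundary x.2⟩ : Cube.boundary (Fin (m + 1))).1) = _
    rw [hep_boundary]
    refine (hKb1 ((), 1) x _).trans ?_
    show l₀ (wait 1, x) = _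
    rw [wait_one, l₀.apply_one]
  have hgface : ∀ y, g (Fin.snoc y 1) = BSp.map ρ (g₁ y) := by
    intro y
    show hep F K hFK ((), 1, (⟨_, snoc_one_mem_boundary y⟩ : Cube.boundary (Fin (m + 1))).1) = _
    rw [hep_boundary]
    exact hKb2 _ y _
  have hg₁ : ∀ u : Cube.boundary (Fin m), g₁ u.1 = g₀₀ u := fun u => by
    show hep F₁ K₁ hFK₁ ((), 1, u.1) = _
    rw [hep_boundary]
    show l₀₀ (wait 1, u) = _
    rw [wait_one, l₀₀.apply_one]
  -- the homotopy on the free face
  have hclamp : ∀ s : I,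
      Set.projIcc 0 1 zero_le_one ((s : ℝ) + (unitInterval.symm s : ℝ)) = (1 : I) := fun s =>
    Set.projIcc_of_right_le _ (by simp)
  let h₁ : ((BSp.map π).comp g₁).HomotopyRel f₁ (Cube.boundary (Fin m)) :=
    { toFun := fun p => sweep M₁ (p.1, unitInterval.symm p.1, p.2)
      continuous_toFun := (sweep M₁).continuous.comp (continuous_fst.prodMk
        ((unitInterval.continuous_symm.comp continuous_fst).prodMk continuous_snd))
      map_zero_left := fun x => by
        show sweep M₁ (0, unitInterval.symm 0, x) = _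
        rw [unitInterval.symm_zero, hsweep₁]
        rfl
      map_one_left := fun x => by
        show sweep M₁ (1, unitInterval.symm 1, x) = _
        rw [unitInterval.symm_one, sweep_zero, hM₁1]
      prop' := fun t x hx => by
        show sweep M₁ (t, unitInterval.symm t, (⟨x, hx⟩ : Cube.boundary (Fin m)).1) =
          BSp.map π (g₁ x)
        rw [sweep_boundary, hclamp, hM₁1, hg₁ ⟨x, hx⟩, hπ] }
  -- the first phase
  let A : C((I × I) × boxSet m, BSp T) :=
    M.comp ⟨fun p => (p.1.2, p.2.1),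
      (continuous_snd.comp continuous_fst).prodMk (continuous_subtype_val.comp continuous_snd)⟩
  let B : C((I × I) × (Fin m → I), BSp T) :=
    (BSp.map z).comp ((sweep M₁).comp
      ⟨fun p => (p.1.1 * p.1.2, unitInterval.symm p.1.1 * p.1.2, p.2), by fun_prop⟩)
  have hsum : ∀ s t : I, Set.projIcc 0 1 zero_le_one
      (((s * t : I) : ℝ) + ((unitInterval.symm s * t : I) : ℝ)) = t := fun s t => by
    have : ((s * t : I) : ℝ) + ((unitInterval.symm s * t : I) : ℝ) = t := by
      show (s : ℝ) * t + (1 - (s : ℝ)) * t = t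
      ring
    rw [this, Set.projIcc_val]
  obtain ⟨Kf, hKf1, hKf2⟩ := exists_surface A B fun s u => by
    show M (s.2, Fin.snoc u.1 1) = BSp.map z (sweep M₁ (s.1 * s.2, unitInterval.symm s.1 * s.2, u.1))
    rw [sweep_boundary, hsum, hMface]
  let K' : C(I × I × Cube.boundary (Fin (m + 1)), BSp T) :=
    Kf.comp ⟨fun p => ((p.1, p.2.1), p.2.2),
      (continuous_fst.prodMk (continuous_fst.comp continuous_snd)).prodMk
        (continuous_snd.comp continuous_snd)⟩
  let F' : C(I × (Fin (m + 1) → I), BSp T) := constParam ((BSp.map q).comp gt)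
  have hFK' : ∀ s u, K' (s, 0, u) = F' (s, u.1) := by
    intro s u
    rcases hsurf u with h | ⟨y, hy⟩
    · show Kf ((s, 0), u) = _
      rw [show u = ⟨(⟨u.1, h⟩ : boxSet m).1, u.2⟩ from rfl, hKf1]
      exact hM0 _
    · show Kf ((s, 0), u) = BSp.map q (gt u.1)
      rw [show u = ⟨Fin.snoc y 1, hy ▸ u.2⟩ from Subtype.ext hy, hKf2]
      show BSp.map z (sweep M₁ (s * 0, unitInterval.symm s * 0, y)) = _
      rw [mul_zero, mul_zero, sweep_zero, ← hMface]
      exact hM0 _
  let phase : C(Fin (m + 1) → I, BSp T) := (sweep M).comp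
    ⟨fun x => (0, 1, x), continuous_const.prodMk (continuous_const.prodMk continuous_id)⟩
  let P1 : ((BSp.map q).comp g).Homotopy phase :=
    { toFun := fun p => hep F' K' hFK' (p.1, 1, p.2)
      continuous_toFun := (hep F' K' hFK').continuous.comp
        (continuous_fst.prodMk (continuous_const.prodMk continuous_snd))
      map_zero_left := fun x => by
        show hep F' K' hFK' (0, 1, x) = BSp.map q (G ((), 1, x))
        rw [map_hep]
        refine hep_congr F' K' hFK' _ _ _ (s := (0 : I)) (s' := ()) (fun x => rfl) (fun t u => ?_) 1 x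
        show Kf ((0, t), u) = BSp.map q (Kb (((), t), u))
        rcases hsurf u with h | ⟨y, hy⟩
        · rw [show u = ⟨(⟨u.1, h⟩ : boxSet m).1, u.2⟩ from rfl, hKf1, hKb1]
          exact hMbox t _
        · rw [show u = ⟨Fin.snoc y 1, hy ▸ u.2⟩ from Subtype.ext hy, hKf2, hKb2]
          show BSp.map z (sweep M₁ (0 * t, unitInterval.symm 0 * t, y)) =
            BSp.map q (BSp.map ρ (G₁ ((), t, y)))
          rw [zero_mul, unitInterval.symm_zero, one_mul, hsweep₁, map_rho_q hsq]
      map_one_left := fun x => by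
        show hep F' K' hFK' (1, 1, x) = sweep M (0, 1, x)
        refine (sweep_start M _ _ _ 1 (fun x => (hM0 x).symm) (fun t u => ?_) 1 x).symm
        show Kf ((1, t), u) = M (t, u.1)
        rcases hsurf u with h | ⟨y, hy⟩
        · rw [show u = ⟨(⟨u.1, h⟩ : boxSet m).1, u.2⟩ from rfl, hKf1]
          rfl
        · rw [show u = ⟨Fin.snoc y 1, hy ▸ u.2⟩ from Subtype.ext hy, hKf2]
          show BSp.map z (sweep M₁ (1 * t, unitInterval.symm 1 * t, y)) = M (t, Fin.snoc y 1)
          rw [one_mul, unitInterval.symm_one, zero_mul, sweep_zero, hMface] }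
  let P2 : phase.Homotopy f :=
    { toFun := fun p => sweep M (p.1, unitInterval.symm p.1, p.2)
      continuous_toFun := (sweep M).continuous.comp (continuous_fst.prodMk
        ((unitInterval.continuous_symm.comp continuous_fst).prodMk continuous_snd))
      map_zero_left := fun x => by
        show sweep M (0, unitInterval.symm 0, x) = sweep M (0, 1, x)
        rw [unitInterval.symm_zero]
      map_one_left := fun x => by
        show sweep M (1, unitInterval.symm 1, x) = f x
        rw [unitInterval.symm_one, sweep_zero, hM1] }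
  have hP1box : ∀ s (x : boxSet m), P1 (s, x.1) = f x.1 := by
    intro s x
    show hep F' K' hFK' (s, 1,
      (⟨x.1, boxSet_subset_boundary x.2⟩ : Cube.boundary (Fin (m + 1))).1) = _
    rw [hep_boundary]
    exact (hKf1 (s, 1) x _).trans (hM1 _)
  have hP1face : ∀ s y, P1 (s, Fin.snoc y 1) = BSp.map z (h₁ (s, y)) := by
    intro s y
    show hep F' K' hFK' (s, 1,
      (⟨_, snoc_one_mem_boundary y⟩ : Cube.boundary (Fin (m + 1))).1) = _
    rw [hep_boundary]
    refine (hKf2 (s, 1) y _).trans ?_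
    show BSp.map z (sweep M₁ (s * 1, unitInterval.symm s * 1, y)) = _
    rw [mul_one, mul_one]
    rfl
  have hP2 : ∀ s (x : Cube.boundary (Fin (m + 1))), P2 (s, x.1) = f x.1 := by
    intro s x
    show sweep M (s, unitInterval.symm s, x.1) = _
    rw [sweep_boundary, hclamp, hM1]
  refine ⟨g, g₁, hgbox, hgface, hg₁, h₁.trans (ContinuousMap.HomotopyRel.refl f₁ _),
    P1.trans P2, fun t x hx => ?_, fun t y => ?_⟩
  · rw [ContinuousMap.Homotopy.trans_apply]
    split_ifs with h
    · exact hP1box _ ⟨x, hx⟩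
    · exact hP2 _ ⟨x, boxSet_subset_boundary hx⟩
  · show P1.trans P2 (t, Fin.snoc y 1) = BSp.map z
      ((h₁.toHomotopy.trans (ContinuousMap.Homotopy.refl f₁)) (t, y))
    rw [ContinuousMap.Homotopy.trans_apply, ContinuousMap.Homotopy.trans_apply]
    split_ifs with h
    · exact hP1face _ y
    · exact (hP2 _ ⟨_, snoc_one_mem_boundary y⟩).trans (hf₁ y)

end Vale.Agent.P259
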