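import Vale.Agent.P259.ApproxLiftGrid
import Vale.Agent.P259.ApproxLiftHomotopy

/-!
# P259 (D): the lifting lemma
-/

open CategoryTheory Set Topology
open scoped unitInterval

noncomputable section

namespace Vale.Agent.P259

/-- The lifting lemma. -/
theorem liftBox : LiftBox := by
  intro T T' Z P _ _ _ _ q z π ρ hsq hη m hlift f g₀ hg₀ f₁ hf₁ g₀₀ hπ hρ
  choose η h1 h2 using hη
  obtain ⟨B⟩ := exists_boxLabels hsq f g₀ hg₀ f₁ hf₁ g₀₀ hπ hρ
  obtain ⟨gt, gt₁, hface, hbox, hbd, ft, ft₁, hft, hft₁, C, C₁, hCbox, hCface, hC₁⟩ :=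
    B.exists_approx η hsq h1 h2 hlift
  exact liftBox_of_approx hsq f g₀ hg₀ f₁ hf₁ g₀₀ hπ hρ gt gt₁ hface hbox hbd ft hft ft₁ hft₁ C C₁
    hCbox hCface hC₁

end Vale.Agent.P259
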