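import Vale.Agent.P259.ApproxLiftLabels

/-!
# P259 (D4): approximate lifts

A lift of the labels on the bottom and sides extends to the whole grid by collapsing; on the free
face it is transported to the comma categories of `π`; carried homotopies join it to the
approximation of the map downstairs.
-/

open CategoryTheory Set Topology
open scoped unitInterval

noncomputable section

namespace Vale.Agent.P259

open GridCell

variable {T T' Z P : Type} [SmallCategory T] [SmallCategory T'] [SmallCategory Z] [SmallCategory P]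
  {q : T' ⥤ T} {z : Z ⥤ T} {π : P ⥤ Z} {ρ : P ⥤ T'}

theorem commaCan_toId (hsq : ρ ⋙ q = π ⋙ z) (a : Z) :
    commaCan hsq a ⋙ Chain.toId q (z.obj a) = Chain.toId π a ⋙ Chain.idPost z a := by
  have hp : (commaCan hsq a ⋙ Chain.toId q (z.obj a)) ⋙ CostructuredArrow.proj (𝟭 T) (z.obj a) =
      (Chain.toId π a ⋙ Chain.idPost z a) ⋙ CostructuredArrow.proj (𝟭 T) (z.obj a) := by
    show CostructuredArrow.proj π a ⋙ (ρ ⋙ q) = CostructuredArrow.proj π a ⋙ (π ⋙ z)
    rw [hsq]
  refine caFunctor_extHEq hp fun w => ?_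
  show eqToHom _ ≫ z.map w.hom ≍ z.map w.hom
  exact eqToHom_comp_heq _ _

namespace BoxLabels

variable {m : ℕ} {f : C(Fin (m + 1) → I, BSp T)} {g₀ : C(boxSet m, BSp T')}
  {f₁ : C(Fin m → I, BSp Z)} {g₀₀ : C(Cube.boundary (Fin m), BSp P)}
  (B : BoxLabels q z π ρ m f g₀ f₁ g₀₀)

theorem phi_top_le (c : GridCell m B.N) : B.L.Phi (topCell c) ≤ (B.L₁.Phi c).map z := by
  refine B.L.Phi_le fun w hw => ?_
  obtain ⟨hl, hb⟩ := last_eq_of_top (topCell_mem c) hw
  rw [base_cellOver] at hb
  rw [← Fin.snoc_init_self w, hl, B.topLab]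
  exact Chain.map_mono z (B.L₁.le_Phi (B.full₁ c) hb)

theorem le_phi_top {c : GridCell m B.N} {e : GridCell (m + 1) B.N}
    (hb : ∀ i : Fin m, c.lo i = e.lo i.castSucc ∧ c.hi i = e.hi i.castSucc)
    (he : e ∈ topCells m B.N) : (B.L₁.Phi c).map z ≤ B.L.Phi e := by
  obtain ⟨v, hv, -⟩ := B.L₁.exists_topVert c
  have key : ∀ v, vertex v ≤ c → (B.L₁.lab v).map z ≤ B.L.Phi e := fun v hv => by
    rw [← B.topLab]
    exact B.L.le_Phi (B.full e) (snoc_le_of_top hb he hv)
  exact key _ (B.L₁.exists_topVert c).choose_spec.1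

theorem le_phi_topCell (c : GridCell m B.N) : (B.L₁.Phi c).map z ≤ B.L.Phi (topCell c) :=
  B.le_phi_top (fun i => by simp [cellOver]) (topCell_mem c)

variable (η : ∀ a, CostructuredArrow q (z.obj a) ⥤ CostructuredArrow π a)

/-- From a cell of the free face to the comma category of `π`. -/
def faceMap (c : GridCell m B.N) : C(B.L.Sp q (topCell c), B.L₁.Sp π c) :=
  BSp.map (CostructuredArrow.map (S := q) (Chain.topHom (B.phi_top_le c)) ⋙ η (B.L₁.Phi c).top)

/-- From the slices of `Z` to the slices of `T`. -/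
def postMap {c : GridCell m B.N} {e : GridCell (m + 1) B.N}
    (h : (B.L₁.Phi c).map z ≤ B.L.Phi e) : C(B.L₁.Sp (𝟭 Z) c, B.L.Sp (𝟭 T) e) :=
  BSp.map (Chain.idPost z (B.L₁.Phi c).top ⋙
    CostructuredArrow.map (S := 𝟭 T) (Chain.topHom h))

theorem faceMap_trans (hsq : ρ ⋙ q = π ⋙ z)
    (h1 : ∀ a, commaCan hsq a ⋙ η a = 𝟭 _) (h2 : ∀ a, η a ⋙ commaCan hsq a = 𝟭 _)
    {c c' : GridCell m B.N} (h : c ≤ c') (x : B.L.Sp q (topCell c)) :
    B.faceMap η c' (B.L.trans' q (topCell_mono h) (B.full _) x) =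
      B.L₁.trans' π h (B.full₁ _) (B.faceMap η c x) := by
  simp only [faceMap, Lab.trans', BSp.map_map]
  refine congrArg (fun F => BSp.map F x) ?_
  have hle := B.L₁.Phi_mono h (B.full₁ c')
  have e1 : CostructuredArrow.map (S := q)
        (Chain.topHom (B.L.Phi_mono (topCell_mono h) (B.full _))) ⋙
        CostructuredArrow.map (S := q) (Chain.topHom (B.phi_top_le c')) =
      CostructuredArrow.map (S := q) (Chain.topHom (B.phi_top_le c)) ⋙
        CostructuredArrow.map (S := q) (Chain.topHom (Chain.map_mono z hle)) := by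
    rw [caMap_comp, caMap_comp, Chain.topHom_comp, Chain.topHom_comp]
  have e2 : CostructuredArrow.map (S := q) (Chain.topHom (Chain.map_mono z hle)) ⋙
        η (B.L₁.Phi c').top =
      η (B.L₁.Phi c).top ⋙ CostructuredArrow.map (S := π) (Chain.topHom hle) :=
    (congrArg (fun g => CostructuredArrow.map (S := q) g ⋙ η (B.L₁.Phi c').top)
      (Chain.topHom_map z hle)).trans (eta_natural hsq η h1 h2 _)
  exact (congrArg (fun G => G ⋙ η (B.L₁.Phi c').top) e1).trans
    (congrArg (fun G => CostructuredArrow.map (S := q) (Chain.topHom (B.phi_top_le c)) ⋙ G) e2)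

theorem faceMap_proj (hsq : ρ ⋙ q = π ⋙ z) (h2 : ∀ a, η a ⋙ commaCan hsq a = 𝟭 _)
    (c : GridCell m B.N) (x : B.L.Sp q (topCell c)) :
    BSp.map ρ (BSp.map (CostructuredArrow.proj π _) (B.faceMap η c x)) =
      BSp.map (CostructuredArrow.proj q _) x := by
  simp only [faceMap, BSp.map_map]
  refine congrArg (fun F => BSp.map F x) ?_
  exact (congrArg (fun G => CostructuredArrow.map (S := q) (Chain.topHom (B.phi_top_le c)) ⋙ G)
    (eta_proj hsq η h2 _)).trans (caMap_proj (q := q) _)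

theorem postMap_faceMap (hsq : ρ ⋙ q = π ⋙ z) (h2 : ∀ a, η a ⋙ commaCan hsq a = 𝟭 _)
    (c : GridCell m B.N) (h : (B.L₁.Phi c).map z ≤ B.L.Phi (topCell c))
    (x : B.L.Sp q (topCell c)) :
    B.postMap h (BSp.map (Chain.toId π _) (B.faceMap η c x)) = BSp.map (Chain.toId q _) x := by
  simp only [faceMap, postMap, BSp.map_map]
  refine congrArg (fun F => BSp.map F x) ?_
  have e : η (B.L₁.Phi c).top ⋙ Chain.toId π (B.L₁.Phi c).top ⋙ Chain.idPost z (B.L₁.Phi c).top =
      Chain.toId q (z.obj (B.L₁.Phi c).top) := by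
    rw [← commaCan_toId hsq, ← Functor.assoc, h2]
    rfl
  calc _ = CostructuredArrow.map (S := q) (Chain.topHom (B.phi_top_le c)) ⋙
        (η (B.L₁.Phi c).top ⋙ Chain.toId π (B.L₁.Phi c).top ⋙ Chain.idPost z (B.L₁.Phi c).top) ⋙
        CostructuredArrow.map (S := 𝟭 T) (Chain.topHom h) := rfl
    _ = (CostructuredArrow.map (S := q) (Chain.topHom (B.phi_top_le c)) ⋙
          Chain.toId q ((B.L₁.Phi c).map z).top) ⋙
        CostructuredArrow.map (S := 𝟭 T) (Chain.topHom h) :=
      congrArg (fun G => CostructuredArrow.map (S := q) (Chain.topHom (B.phi_top_le c)) ⋙ G ⋙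
        CostructuredArrow.map (S := 𝟭 T) (Chain.topHom h)) e
    _ = Chain.toId q (B.L.Phi (topCell c)).top ⋙
        (CostructuredArrow.map (S := 𝟭 T) (Chain.topHom (B.phi_top_le c)) ⋙
          CostructuredArrow.map (S := 𝟭 T) (Chain.topHom h)) := by rw [toId_map]; rfl
    _ = Chain.toId q (B.L.Phi (topCell c)).top := by
        rw [caMap_comp, Chain.topHom_comp, Chain.topHom_refl, caMap_id]
        rfl

theorem postMap_trans {c c' : GridCell m B.N} {e e' : GridCell (m + 1) B.N} (hc : c ≤ c')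
    (he : e ≤ e') (h : (B.L₁.Phi c).map z ≤ B.L.Phi e) (h' : (B.L₁.Phi c').map z ≤ B.L.Phi e')
    (x : B.L₁.Sp (𝟭 Z) c) :
    B.postMap h' (B.L₁.trans' (𝟭 Z) hc (B.full₁ _) x) =
      B.L.trans' (𝟭 T) he (B.full _) (B.postMap h x) := by
  simp only [postMap, Lab.trans', BSp.map_map]
  refine congrArg (fun F => BSp.map F x) ?_
  have hle := B.L₁.Phi_mono hc (B.full₁ c')
  have e1 : CostructuredArrow.map (S := 𝟭 T) (Chain.topHom (Chain.map_mono z hle)) ⋙
        CostructuredArrow.map (S := 𝟭 T) (Chain.topHom h') =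
      CostructuredArrow.map (S := 𝟭 T) (Chain.topHom h) ⋙
        CostructuredArrow.map (S := 𝟭 T) (Chain.topHom (B.L.Phi_mono he (B.full _))) := by
    rw [caMap_comp, caMap_comp, Chain.topHom_comp, Chain.topHom_comp]
  have e2 : CostructuredArrow.map (S := 𝟭 Z) (Chain.topHom hle) ⋙
        Chain.idPost z (B.L₁.Phi c').top =
      Chain.idPost z (B.L₁.Phi c).top ⋙
        CostructuredArrow.map (S := 𝟭 T) (Chain.topHom (Chain.map_mono z hle)) :=
    (idPost_map z _).trans (congrArg
      (fun g => Chain.idPost z (B.L₁.Phi c).top ⋙ CostructuredArrow.map (S := 𝟭 T) g)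
      (Chain.topHom_map z hle).symm)
  exact (congrArg (fun G => G ⋙ CostructuredArrow.map (S := 𝟭 T) (Chain.topHom h')) e2).trans
    (congrArg (fun G => Chain.idPost z (B.L₁.Phi c).top ⋙ G) e1)

include B in
/-- The approximation downstairs. -/
theorem exists_approx (hsq : ρ ⋙ q = π ⋙ z)
    (h1 : ∀ a, commaCan hsq a ⋙ η a = 𝟭 _) (h2 : ∀ a, η a ⋙ commaCan hsq a = 𝟭 _)
    (hlift : ∀ {c c' : T} (h : c ⟶ c') (k : ℕ), k ≤ m →
      RelLift k (BSp.map (CostructuredArrow.map (S := q) h))) :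
    ∃ (gt : C(Fin (m + 1) → I, BSp T')) (gt₁ : C(Fin m → I, BSp P)),
      (∀ y, gt (Fin.snoc y 1) = BSp.map ρ (gt₁ y)) ∧
      (∀ x : boxSet m, (gt x.1).wt.support ⊆ (g₀ x).wt.support) ∧
      (∀ u : Cube.boundary (Fin m), (gt₁ u.1).wt.support ⊆ (g₀₀ u).wt.support) ∧
      ∃ (ft : C(Fin (m + 1) → I, BSp T)) (ft₁ : C(Fin m → I, BSp Z)),
        (∀ x, (ft x).wt.support ⊆ (f x).wt.support) ∧
        (∀ x, (ft₁ x).wt.support ⊆ (f₁ x).wt.support) ∧
        ∃ (C : ((BSp.map q).comp gt).Homotopy ft) (C₁ : ((BSp.map π).comp gt₁).Homotopy ft₁),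
          (∀ t, ∀ x : boxSet m, C (t, x.1) = BSp.map q (gt x.1)) ∧
          (∀ t y, C (t, Fin.snoc y 1) = BSp.map z (C₁ (t, y))) ∧
          ∀ t (u : Cube.boundary (Fin m)), C₁ (t, u.1) = BSp.map π (gt₁ u.1) := by
  have hN := B.hN
  -- the lifted section
  obtain ⟨s, hs⟩ := CellSpaces.Sec.exists_collapse hN isLowerSet_bdCells (B.lift.sec hN)
    fun c _ i hi => RelLift.of_pi
      (hlift (Chain.topHom (B.L.Phi_mono (lid_le_prism c i hi) (B.full _))) c.dim
        ((Finset.card_le_univ c.free).trans_eq (Fintype.card_fin m)))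
      (B.full _) (B.full _) _ fun x y => rfl
  replace hs : ∀ e (he : e ∈ boxCells m B.N), s.app e trivial = (B.lift.sec hN).app e he := hs
  obtain ⟨gt, hgt⟩ := CellSpaces.Sec.exists_glue hN (s.push (B.L.projHom q B.full))
  let sP : CellSpaces.Sec (B.L₁.spaces π) Set.univ :=
    { app := fun c _ => ⟨fun x _ => B.faceMap η c
        (s.app (topCell c) trivial ⟨Fin.snoc x.1 1, snoc_mem_topCell hN x.2⟩ ⟨B.full _⟩),
        continuous_pi fun _ => (ContinuousMap.continuous _).comp ((continuous_apply _).comp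
          ((ContinuousMap.continuous _).comp (Continuous.subtype_mk (continuous_pi fun i => by
            refine Fin.lastCases ?_ (fun j => ?_) i
            · simp only [Fin.snoc_last]; exact continuous_const
            · simp only [Fin.snoc_castSucc]
              exact (continuous_apply j).comp continuous_subtype_val) _)))⟩
      compat := fun {c c'} h _ _ x => funext fun hc' => by
        show B.faceMap η c' (s.app (topCell c') trivial
            (incl (topCell_mono h) ⟨Fin.snoc x.1 1, snoc_mem_topCell hN x.2⟩) ⟨B.full _⟩) = _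
        rw [s.compat (topCell_mono h) (Set.mem_univ (topCell c)) (Set.mem_univ _)]
        exact B.faceMap_trans η hsq h1 h2 h _ }
  obtain ⟨gt₁, hgt₁⟩ := CellSpaces.Sec.exists_glue hN (sP.push (B.L₁.projHom π B.full₁))
  have hface : ∀ y, gt (Fin.snoc y 1) = BSp.map ρ (gt₁ y) := by
    intro y
    obtain ⟨c, hc⟩ := exists_mem_set hN y
    refine (hgt (topCell c) ⟨_, snoc_mem_topCell hN hc⟩).trans ?_
    refine Eq.trans ?_ (congrArg (BSp.map ρ) (hgt₁ c ⟨y, hc⟩)).symm
    exact (B.faceMap_proj η hsq h2 c _).symm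
  have hbox : ∀ x : boxSet m, (gt x.1).wt.support ⊆ (g₀ x).wt.support := by
    intro x p hp
    obtain ⟨e, he, hxe⟩ := exists_boxCell hN x.2
    rw [hgt e ⟨x.1, hxe⟩] at hp
    change p ∈ (BSp.map (CostructuredArrow.proj q _)
      (s.app e trivial ⟨x.1, hxe⟩ ⟨B.full e⟩)).wt.support at hp
    rw [hs e he] at hp
    obtain ⟨v, hv, rfl⟩ := B.lift.exists_of_mem_support hN he ⟨x.1, hxe⟩ _ hp
    exact (BSp.mem_support_iff _ _).mpr (B.posBox e x hxe v _ hv)
  have hsPbd : ∀ c (hc : c ∈ bdCells m B.N) (x : c.set),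
      sP.app c trivial x = (B.lift₁.sec hN).app c hc x := by
    intro c hc x
    refine funext fun hK => ?_
    have htc : topCell c ∈ boxCells m B.N := Or.inr (by simpa using hc)
    show B.faceMap η c (s.app (topCell c) trivial _ ⟨B.full _⟩) = _
    rw [hs _ htc, B.lift.sec_apply, B.lift₁.sec_apply]
    simp only [faceMap]
    rw [BSp.map_comb]
    refine BSp.comb_reindex (fun v => (Fin.snoc v (Fin.last B.N) : Grid.Vert (Fin (m + 1)) B.N))
      (fun v w h => by simpa using congrArg Fin.init h) (fun i hi => ?_) (fun v => hat_snoc_one v x.1)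
      fun v hv => ?_
    · by_contra h0
      refine hi ⟨Fin.init i, ?_⟩
      have hl : i (Fin.last m) = Fin.last B.N := by
        refine Grid.vert_eq_last_of_face (v := i) (x := Fin.snoc x.1 1) ?_ (i := Fin.last m)
          (Fin.snoc_last (α := fun _ => I) _ _)
        exact h0
      show (Fin.snoc (Fin.init i) (Fin.last B.N) : Grid.Vert (Fin (m + 1)) B.N) = i
      rw [← hl, Fin.snoc_init_self]
    · have hv₁ := vertex_le_of_hat_ne_zero hN x.2 hv
      have hv' : vertex (Fin.snoc v (Fin.last B.N) : Grid.Vert (Fin (m + 1)) B.N) ≤ topCell c :=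
        snoc_le_of_top (fun i => by simp [cellOver]) (topCell_mem c) hv₁
      rw [B.lift.cell_of_le htc hv', B.lift₁.cell_of_le hc hv₁]
      have hh := (B.lift.le_Phi htc hv').trans (B.phi_top_le c)
      have hr : ((B.lift₁.lab' v (B.lift₁.low hv₁ hc)).map ρ).map q ≤ (B.L₁.Phi c).map z := by
        rw [← B.topLift v (B.lift.low hv' htc) (B.lift₁.low hv₁ hc)]
        exact hh
      calc _ = (Chain.cLift q _ hh).map (η (B.L₁.Phi c).top) := by
            rw [← Chain.cLift_map q _ (B.lift.le_Phi htc hv') (B.phi_top_le c)]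
            rfl
        _ = (Chain.cLift q _ (P := (B.L₁.Phi c).map z) hr).map (η (B.L₁.Phi c).top) := by
            rw [Lab.cLift_congr (B.topLift v (B.lift.low hv' htc) (B.lift₁.low hv₁ hc)) hh hr]
        _ = _ := by
            rw [← Chain.cLift_commaCan hsq _ (B.lift₁.le_Phi hc hv₁) hr]
            exact congrArg (fun F => Chain.map F _) (h1 _)
  have hbd : ∀ u : Cube.boundary (Fin m), (gt₁ u.1).wt.support ⊆ (g₀₀ u).wt.support := by
    intro u p hp
    obtain ⟨c, hc, huc⟩ := exists_bdCell hN u.2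
    rw [hgt₁ c ⟨u.1, huc⟩] at hp
    change p ∈ (BSp.map (CostructuredArrow.proj π _)
      (sP.app c trivial ⟨u.1, huc⟩ ⟨B.full₁ c⟩)).wt.support at hp
    rw [hsPbd c hc] at hp
    obtain ⟨v, hv, rfl⟩ := B.lift₁.exists_of_mem_support hN hc ⟨u.1, huc⟩ _ hp
    exact (BSp.mem_support_iff _ _).mpr (B.posBd c u huc v _ hv)
  -- the labels as sections
  let idL := B.L.idLift (S := Set.univ) isLowerSet_univ (fun e _ => B.full e)
  let idL₁ := B.L₁.idLift (S := Set.univ) isLowerSet_univ (fun e _ => B.full₁ e)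
  let a := s.push (B.L.toIdHom q)
  let b := idL.sec hN
  let a₁ := sP.push (B.L₁.toIdHom π)
  let b₁ := idL₁.sec hN
  obtain ⟨ft, hft'⟩ := CellSpaces.Sec.exists_glue hN (b.push (B.L.projHom (𝟭 T) B.full))
  obtain ⟨ft₁, hft₁'⟩ := CellSpaces.Sec.exists_glue hN (b₁.push (B.L₁.projHom (𝟭 Z) B.full₁))
  have hft : ∀ x, (ft x).wt.support ⊆ (f x).wt.support := by
    intro x p hp
    obtain ⟨e, hxe⟩ := exists_mem_set hN x
    rw [hft' e ⟨x, hxe⟩] at hp
    obtain ⟨v, hv, rfl⟩ := idL.exists_of_mem_support hN (Set.mem_univ e) ⟨x, hxe⟩ ⟨B.full e⟩ hp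
    exact (BSp.mem_support_iff _ _).mpr (B.pos e x hxe v hv)
  have hft₁ : ∀ x, (ft₁ x).wt.support ⊆ (f₁ x).wt.support := by
    intro x p hp
    obtain ⟨e, hxe⟩ := exists_mem_set hN x
    rw [hft₁' e ⟨x, hxe⟩] at hp
    obtain ⟨v, hv, rfl⟩ := idL₁.exists_of_mem_support hN (Set.mem_univ e) ⟨x, hxe⟩ ⟨B.full₁ e⟩ hp
    exact (BSp.mem_support_iff _ _).mpr (B.pos₁ e x hxe v hv)
  have hab : ∀ e (he : e ∈ boxCells m B.N), ∀ x, a.app e trivial x = b.app e trivial x := by
    intro e he x
    show (B.L.toIdHom q).app e (s.app e trivial x) = _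
    rw [hs e he]
    exact B.lift.sec_toId hN idL (fun _ _ => rfl) he (Set.mem_univ e) x
  have hab₁ : ∀ c (hc : c ∈ bdCells m B.N), ∀ x, a₁.app c trivial x = b₁.app c trivial x := by
    intro c hc x
    show (B.L₁.toIdHom π).app c (sP.app c trivial x) = _
    rw [hsPbd c hc]
    exact B.lift₁.sec_toId hN idL₁ (fun _ _ => rfl) hc (Set.mem_univ c) x
  -- carried homotopies
  obtain ⟨H₁, hH₁0, hH₁1, hH₁c⟩ := a₁.exists_homotopy hN b₁ isLowerSet_bdCells hab₁
    fun c _ => B.L₁.cubeExt_spaces c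
  let R := H₁.reindex squash squash_mono (squashPt m) fun e x hx i => hx (sel m i)
  have hsq' : ∀ (K : GridCell (m + 2) B.N), K.base ∈ topCells m B.N →
      (B.L₁.Phi (squash K).base).map z ≤ B.L.Phi K.base := fun K hK =>
    B.le_phi_top (fun i => by simp [squash, GridCell.base]) hK
  let sT : CellSpaces.Sec (B.L.spaces (𝟭 T)).cyl (GridCell.base ⁻¹' topCells m B.N) :=
    { app := fun K hK => ⟨fun x _ => B.postMap (hsq' K hK) (R.app K trivial x ⟨B.full₁ _⟩),
        continuous_pi fun _ => (ContinuousMap.continuous _).comp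
          ((continuous_apply _).comp (R.app K trivial).continuous)⟩
      compat := fun {K K'} h hK hK' x => funext fun _ => by
        show B.postMap (hsq' K' hK') (R.app K' trivial (incl h x) ⟨B.full₁ _⟩) = _
        rw [R.compat h (Set.mem_univ (squash K)) (Set.mem_univ _)]
        exact B.postMap_trans (base_mono (squash_mono h)) (base_mono h) _ _ _ }
  let sB : CellSpaces.Sec (B.L.spaces (𝟭 T)).cyl (GridCell.base ⁻¹' boxCells m B.N) :=
    a.pullBase.res fun _ _ => trivial
  have hkey : ∀ (c : GridCell m B.N) (y : Fin m → I) (hy : y ∈ c.set)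
      (h : (B.L₁.Phi c).map z ≤ B.L.Phi (topCell c)) hK,
      B.postMap h (a₁.app c trivial ⟨y, hy⟩ ⟨B.full₁ c⟩) =
        a.app (topCell c) trivial ⟨Fin.snoc y 1, snoc_mem_topCell hN hy⟩ hK :=
    fun c y hy h hK => B.postMap_faceMap η hsq h2 c h _
  have hbkey : ∀ (c : GridCell m B.N) (e : GridCell (m + 1) B.N) (y : Fin m → I) (hy : y ∈ c.set)
      (hye : (Fin.snoc y 1 : Fin (m + 1) → I) ∈ e.set)
      (h : (B.L₁.Phi c).map z ≤ B.L.Phi e) hK,
      B.postMap h (b₁.app c trivial ⟨y, hy⟩ ⟨B.full₁ c⟩) = b.app e trivial ⟨_, hye⟩ hK := by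
    intro c e y hy hye h hK
    show B.postMap h ((idL₁.sec hN).app c (Set.mem_univ c) ⟨y, hy⟩ ⟨B.full₁ c⟩) =
      (idL.sec hN).app e (Set.mem_univ e) ⟨_, hye⟩ hK
    rw [Lab.Lift.sec_apply, Lab.Lift.sec_apply]
    simp only [postMap]
    rw [BSp.map_comb]
    refine (BSp.comb_reindex
      (fun v => (Fin.snoc v (Fin.last B.N) : Grid.Vert (Fin (m + 1)) B.N))
      (fun v w h => by simpa using congrArg Fin.init h) (fun i hi => ?_)
      (fun v => hat_snoc_one v y) fun v hv => ?_).symm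
    · by_contra h0
      refine hi ⟨Fin.init i, ?_⟩
      have hl : i (Fin.last m) = Fin.last B.N := by
        refine Grid.vert_eq_last_of_face (v := i) (x := Fin.snoc y 1) ?_ (i := Fin.last m)
          (Fin.snoc_last (α := fun _ => I) _ _)
        exact h0
      show (Fin.snoc (Fin.init i) (Fin.last B.N) : Grid.Vert (Fin (m + 1)) B.N) = i
      rw [← hl, Fin.snoc_init_self]
    · have hv₁ := vertex_le_of_hat_ne_zero hN hy hv
      have hv0 : Grid.hat (Fin.snoc v (Fin.last B.N) : Grid.Vert (Fin (m + 1)) B.N)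
          (Fin.snoc y 1) ≠ 0 := by rw [hat_snoc_one]; exact hv
      have hv' := vertex_le_of_hat_ne_zero hN hye hv0
      rw [idL.cell_of_le (Set.mem_univ e) hv', idL₁.cell_of_le (Set.mem_univ c) hv₁]
      have hh : B.L₁.lab v ≤ B.L₁.Phi c := B.L₁.le_Phi (B.full₁ c) hv₁
      calc Chain.cLift (𝟭 T) (B.L.lab _) (P := B.L.Phi e) (idL.le_Phi (Set.mem_univ e) hv')
          = Chain.cLift (𝟭 T) ((B.L₁.lab v).map z) ((Chain.map_mono z hh).trans h) :=
            Lab.cLift_congr (B.topLab v) _ _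
        _ = (Chain.cLift (𝟭 T) ((B.L₁.lab v).map z) (P := (B.L₁.Phi c).map z)
              (Chain.map_mono z hh)).map (CostructuredArrow.map (S := 𝟭 T) (Chain.topHom h)) :=
            (Chain.cLift_map (𝟭 T) _ _ h).symm
        _ = _ := by
            rw [← Chain.cLift_idPost z (B.L₁.lab v) hh]
            rfl
  have hagree : ∀ K (hB : K ∈ GridCell.base ⁻¹' boxCells m B.N)
      (hT : K ∈ GridCell.base ⁻¹' topCells m B.N) x, sB.app K hB x = sT.app K hT x := by
    intro K hB hT x
    refine funext fun hK => ?_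
    have hbd' : (squash K).base ∈ bdCells m B.N := by
      rw [base_squash]
      rcases hB with h | h
      · exact (disjoint_bottom_top hN h hT).elim
      · exact h
    show a.app K.base trivial (K.proj x) hK =
      B.postMap (hsq' K hT) (H₁.app (squash K) trivial _ ⟨B.full₁ _⟩)
    rw [hH₁c _ hbd']
    have hy : Fin.init (squashPt m x.1) ∈ (squash K).base.set :=
      ((squash K).proj ⟨squashPt m x.1, fun i => x.2 (sel m i)⟩).2
    have e : K.base = topCell (squash K).base := by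
      rw [base_squash]; exact eq_topCell hT
    have main : ∀ (e' : GridCell (m + 1) B.N), e' = topCell (squash K).base →
        ∀ (w : e'.set) hK' (h : (B.L₁.Phi (squash K).base).map z ≤ B.L.Phi e'),
        w.1 = Fin.snoc (Fin.init (squashPt m x.1)) 1 →
        a.app e' trivial w hK' =
          B.postMap h (a₁.app _ trivial ⟨_, hy⟩ ⟨B.full₁ _⟩) := by
      intro e' he' w hK' h hw
      subst he'
      rw [hkey _ _ hy h ⟨B.full _⟩, show w = ⟨_, snoc_mem_topCell hN hy⟩ from Subtype.ext hw]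
    refine main K.base e (K.proj x) hK _ ?_
    show Fin.init x.1 = _
    rw [init_squashPt]
    have hl : Fin.init x.1 (Fin.last m) = 1 := by
      refine Subtype.ext (le_antisymm (x.1 _).2.2 ?_)
      have h1 : (K.base.lo (Fin.last m) : ℝ) = B.N := by exact_mod_cast (hT : K.base.lo _ = B.N)
      have := ((K.proj x).2 (Fin.last m)).1
      rw [h1, div_self (Nat.cast_ne_zero.mpr hN.ne')] at this
      exact this
    rw [← hl, Fin.snoc_init_self]
  let sL := sB.union sT (isLowerSet_preimage_base isLowerSet_boxCells)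
    (isLowerSet_preimage_base isLowerSet_topCells) hagree
  have hsLB : ∀ K (h : K ∈ GridCell.base ⁻¹' boxCells m B.N) hK x,
      sL.app K hK x = sB.app K h x :=
    fun K h hK x => DFunLike.congr_fun (CellSpaces.Sec.union_left sB sT _ _ _ K h hK) x
  have hsLT : ∀ K (h : K ∈ GridCell.base ⁻¹' topCells m B.N) hK x,
      sL.app K hK x = sT.app K h x :=
    fun K h hK x => CellSpaces.Sec.union_right sB sT _ _ _ K h hK x
  have hTdata : ∀ (K : GridCell (m + 2) B.N) (hT : K.base ∈ topCells m B.N) (x : K.set),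
      ∃ (hy : Fin.init (squashPt m x.1) ∈ (squash K).base.set),
        K.base = topCell (squash K).base ∧
          Fin.init x.1 = Fin.snoc (Fin.init (squashPt m x.1)) 1 := by
    intro K hT x
    refine ⟨((squash K).proj ⟨squashPt m x.1, fun i => x.2 (sel m i)⟩).2,
      by rw [base_squash]; exact eq_topCell hT, ?_⟩
    rw [init_squashPt]
    have hl : Fin.init x.1 (Fin.last m) = 1 := by
      refine Subtype.ext (le_antisymm (x.1 _).2.2 ?_)
      have h1 : (K.base.lo (Fin.last m) : ℝ) = B.N := by exact_mod_cast (hT : K.base.lo _ = B.N)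
      have := ((K.proj x).2 (Fin.last m)).1
      rw [h1, div_self (Nat.cast_ne_zero.mpr hN.ne')] at this
      exact this
    rw [← hl, Fin.snoc_init_self]
  obtain ⟨H, hH0, hH1, hHc⟩ := CellSpaces.Sec.exists_homotopy_prescribed hN a b
    (L := boxCells m B.N ∪ topCells m B.N) (isLowerSet_boxCells.union isLowerSet_topCells)
    (sL.res (S' := GridCell.base ⁻¹' (boxCells m B.N ∪ topCells m B.N)) fun _ h => h)
    (fun K hK0 hK x => by
      rcases hK with h | h
      · exact hsLB K h _ x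
      · refine (hsLT K h _ x).trans (funext fun hKK => ?_)
        obtain ⟨hy, e, hw⟩ := hTdata K h x
        have hbot : squash K ∈ bottomCells m B.N := by
          show K.hi (sel m (Fin.last m)) = 0
          rw [sel_last]; exact hK0
        show B.postMap _ (H₁.app (squash K) trivial _ ⟨B.full₁ _⟩) = a.app K.base trivial _ hKK
        rw [hH₁0 _ hbot]
        have main : ∀ (e' : GridCell (m + 1) B.N), e' = topCell (squash K).base →
            ∀ (w : e'.set) hK' (h : (B.L₁.Phi (squash K).base).map z ≤ B.L.Phi e'),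
            w.1 = Fin.snoc (Fin.init (squashPt m x.1)) 1 →
            B.postMap h (a₁.app _ trivial ⟨_, hy⟩ ⟨B.full₁ _⟩) = a.app e' trivial w hK' := by
          intro e' he' w hK' h hw
          subst he'
          rw [hkey _ _ hy h ⟨B.full _⟩, show w = ⟨_, snoc_mem_topCell hN hy⟩ from Subtype.ext hw]
        exact main K.base e (K.proj x) hKK _ hw)
    (fun K hK1 hK x => by
      rcases hK with h | h
      · exact (hsLB K h _ x).trans
          (hab K.base h (K.proj x))
      · refine (hsLT K h _ x).trans (funext fun hKK => ?_)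
        obtain ⟨hy, e, hw⟩ := hTdata K h x
        have htop : squash K ∈ topCells m B.N := by
          show K.lo (sel m (Fin.last m)) = B.N
          rw [sel_last]; exact hK1
        show B.postMap _ (H₁.app (squash K) trivial _ ⟨B.full₁ _⟩) = b.app K.base trivial _ hKK
        rw [hH₁1 _ htop]
        have hye : (Fin.snoc (Fin.init (squashPt m x.1)) 1 : Fin (m + 1) → I) ∈ K.base.set :=
          hw ▸ (K.proj x).2
        refine (hbkey _ K.base _ hy hye _ hKK).trans ?_
        exact congrArg (fun w => b.app K.base trivial w hKK) (Subtype.ext hw.symm))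
    fun e _ => B.L.cubeExt_spaces e
  have hfa : ∀ e (x : e.set), ((BSp.map q).comp gt) x.1 =
      (B.L.projHom (𝟭 T) B.full).app e (a.app e trivial x) := by
    intro e x
    show BSp.map q (gt x.1) = _
    rw [hgt e x]
    show BSp.map q (BSp.map (CostructuredArrow.proj q _) _) =
      BSp.map (CostructuredArrow.proj (𝟭 T) _) (BSp.map (Chain.toId q _) _)
    rw [BSp.map_map, BSp.map_map]
    rfl
  have hfa₁ : ∀ e (x : e.set), ((BSp.map π).comp gt₁) x.1 =
      (B.L₁.projHom (𝟭 Z) B.full₁).app e (a₁.app e trivial x) := by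
    intro e x
    show BSp.map π (gt₁ x.1) = _
    rw [hgt₁ e x]
    show BSp.map π (BSp.map (CostructuredArrow.proj π _) _) =
      BSp.map (CostructuredArrow.proj (𝟭 Z) _) (BSp.map (Chain.toId π _) _)
    rw [BSp.map_map, BSp.map_map]
    rfl
  obtain ⟨C, hC⟩ := CellSpaces.Sec.exists_homotopy_glue hN (B.L.projHom (𝟭 T) B.full) a b H hH0 hH1
    _ ft hfa fun e x => hft' e x
  obtain ⟨C₁, hC₁⟩ := CellSpaces.Sec.exists_homotopy_glue hN (B.L₁.projHom (𝟭 Z) B.full₁) a₁ b₁
    H₁ hH₁0 hH₁1 _ ft₁ hfa₁ fun e x => hft₁' e x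
  have htime : ∀ {d : ℕ} (e : GridCell d B.N) (x : Fin d → I), x ∈ e.set → ∀ t : I,
      ∃ E : GridCell (d + 1) B.N, E.base = e ∧ (Fin.snoc x t : Fin (d + 1) → I) ∈ E.set := by
    intro d e x hx t
    obtain ⟨τ, hτ⟩ := exists_mem_set (d := 1) hN (fun _ => t)
    exact ⟨cellOver e (τ.lo 0) (τ.hi 0) (τ.lo_le 0) (τ.hi_le 0) (τ.hi_le_N 0),
      base_cellOver _ _ _ _ _ _, snoc_mem_cellOver hx (hτ 0).1 (hτ 0).2⟩
  refine ⟨gt, gt₁, hface, hbox, hbd, ft, ft₁, hft, hft₁, C, C₁, fun t x => ?_, fun t y => ?_,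
    fun t u => ?_⟩
  · obtain ⟨e, he, hxe⟩ := exists_boxCell hN x.2
    obtain ⟨E, hE, hxE⟩ := htime e x.1 hxe t
    have hEb : E.base ∈ boxCells m B.N := hE.symm ▸ he
    rw [hC E x.1 t hxE, hHc E (Or.inl hEb)]
    show (B.L.projHom (𝟭 T) B.full).app E.base (sL.app E _ _) = _
    refine (congrArg ((B.L.projHom (𝟭 T) B.full).app E.base)
      (hsLB E hEb _ _)).trans ?_
    refine (hfa E.base (E.proj ⟨_, hxE⟩)).symm.trans ?_
    exact congrArg (fun w => BSp.map q (gt w)) (Fin.init_snoc (α := fun _ => I) t x.1)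
  · obtain ⟨c, hc⟩ := exists_mem_set hN y
    obtain ⟨E, hE, hxE⟩ := htime (topCell c) _ (snoc_mem_topCell hN hc) t
    have hEt : E.base ∈ topCells m B.N := hE.symm ▸ topCell_mem c
    rw [hC E _ t hxE, hHc E (Or.inr hEt)]
    show (B.L.projHom (𝟭 T) B.full).app E.base (sL.app E _ _) = _
    refine (congrArg ((B.L.projHom (𝟭 T) B.full).app E.base)
      (hsLT E hEt _ _)).trans ?_
    have hmem : (Fin.snoc y t : Fin (m + 1) → I) ∈ (squash E).set := by
      rw [← squashPt_snoc y 1 t]
      exact fun i => hxE (sel m i)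
    rw [hC₁ (squash E) y t hmem]
    show BSp.map (CostructuredArrow.proj (𝟭 T) _)
        (B.postMap _ (H₁.app (squash E) trivial _ ⟨B.full₁ _⟩)) =
      BSp.map z (BSp.map (CostructuredArrow.proj (𝟭 Z) _)
        (H₁.app (squash E) trivial ⟨_, hmem⟩ ⟨B.full₁ _⟩))
    have e : (⟨squashPt m (Fin.snoc (Fin.snoc y 1 : Fin (m + 1) → I) t), fun i => hxE (sel m i)⟩ :
        (squash E).set) = ⟨_, hmem⟩ := Subtype.ext (squashPt_snoc y 1 t)
    simp only [postMap, BSp.map_map]
    exact congrArg (fun w => BSp.map _ (H₁.app (squash E) trivial w ⟨B.full₁ _⟩)) e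
  · obtain ⟨c, hc, huc⟩ := exists_bdCell hN u.2
    obtain ⟨E, hE, hxE⟩ := htime c u.1 huc t
    rw [hC₁ E u.1 t hxE, hH₁c E (hE.symm ▸ hc)]
    refine (hfa₁ E.base (E.proj ⟨_, hxE⟩)).symm.trans ?_
    exact congrArg (fun w => BSp.map π (gt₁ w)) (Fin.init_snoc (α := fun _ => I) t u.1)

end BoxLabels

end Vale.Agent.P259
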