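import Vale.Agent.P259.ApproxBoxCells

/-!
# P259 (D3): compatible labels for a lifting problem on a cube
-/

open CategoryTheory Set Topology
open scoped unitInterval

noncomputable section

namespace Vale.Agent.P259

variable {T T' Z P : Type} [SmallCategory T] [SmallCategory T'] [SmallCategory Z] [SmallCategory P]
  {q : T' ⥤ T} {z : Z ⥤ T} {π : P ⥤ Z} {ρ : P ⥤ T'}

/-- Compatible labels for a lifting problem on a cube. -/
structure BoxLabels (q : T' ⥤ T) (z : Z ⥤ T) (π : P ⥤ Z) (ρ : P ⥤ T') (m : ℕ)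
    (f : C(Fin (m + 1) → I, BSp T)) (g₀ : C(boxSet m, BSp T')) (f₁ : C(Fin m → I, BSp Z))
    (g₀₀ : C(Cube.boundary (Fin m), BSp P)) where
  N : ℕ
  hN : 0 < N
  L : Lab (m + 1) N T
  full : ∀ e, e ∈ L.K
  L₁ : Lab m N Z
  full₁ : ∀ e, e ∈ L₁.K
  lift : L.Lift q (GridCell.boxCells m N)
  lift₁ : L₁.Lift π (GridCell.bdCells m N)
  pos : ∀ (e : GridCell (m + 1) N), ∀ x ∈ e.set, ∀ v, GridCell.vertex v ≤ e →
    0 < (f x).wt (L.lab v)
  pos₁ : ∀ (e : GridCell m N), ∀ x ∈ e.set, ∀ v, GridCell.vertex v ≤ e →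
    0 < (f₁ x).wt (L₁.lab v)
  posBox : ∀ (e : GridCell (m + 1) N) (x : boxSet m), x.1 ∈ e.set → ∀ v h,
    GridCell.vertex v ≤ e → 0 < (g₀ x).wt (lift.lab' v h)
  posBd : ∀ (e : GridCell m N) (x : Cube.boundary (Fin m)), x.1 ∈ e.set → ∀ v h,
    GridCell.vertex v ≤ e → 0 < (g₀₀ x).wt (lift₁.lab' v h)
  topLab : ∀ v, L.lab (Fin.snoc v (Fin.last N)) = (L₁.lab v).map z
  topLift : ∀ v h h₁, lift.lab' (Fin.snoc v (Fin.last N)) h = (lift₁.lab' v h₁).map ρ

theorem Grid.point_snoc_last {m N : ℕ} (hN : 0 < N) (v : Grid.Vert (Fin m) N) :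
    Grid.point (Fin.snoc v (Fin.last N) : Grid.Vert (Fin (m + 1)) N) =
      Fin.snoc (Grid.point v) 1 := by
  funext i
  refine Fin.lastCases ?_ (fun j => ?_) i
  · refine Subtype.ext ?_
    have : (N : ℝ) ≠ 0 := Nat.cast_ne_zero.mpr hN.ne'
    simp [Grid.point, this]
  · simp [Grid.point]

theorem exists_boxLabels (hsq : ρ ⋙ q = π ⋙ z) {m : ℕ}
    (f : C(Fin (m + 1) → I, BSp T)) (g₀ : C(boxSet m, BSp T'))
    (hg₀ : ∀ x : boxSet m, BSp.map q (g₀ x) = f x.1)
    (f₁ : C(Fin m → I, BSp Z)) (hf₁ : ∀ x, f (Fin.snoc x 1) = BSp.map z (f₁ x))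
    (g₀₀ : C(Cube.boundary (Fin m), BSp P)) (hπ : ∀ u, BSp.map π (g₀₀ u) = f₁ u.1)
    (hρ : ∀ u, BSp.map ρ (g₀₀ u) = g₀ ⟨Fin.snoc u.1 1, snoc_one_mem_boxSet u⟩) :
    Nonempty (BoxLabels q z π ρ m f g₀ f₁ g₀₀) := by
  classical
  obtain ⟨Ma, hMa⟩ := BSp.exists_wt_ge f
  obtain ⟨Mb, hMb⟩ := BSp.exists_wt_ge g₀
  obtain ⟨Mc, hMc⟩ := BSp.exists_wt_ge f₁
  obtain ⟨Md, hMd⟩ := BSp.exists_wt_ge g₀₀
  let M : ℕ := Ma + Mb + Mc + Md
  let c : ℝ := 1 / ((M : ℝ) + 1)
  have hc : 0 < c := by positivity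
  obtain ⟨δa, hδa, ha⟩ := BSp.exists_delta f hc
  obtain ⟨δb, hδb, hb⟩ := BSp.exists_delta g₀ hc
  obtain ⟨δc, hδc, hc'⟩ := BSp.exists_delta f₁ hc
  obtain ⟨δd, hδd, hd⟩ := BSp.exists_delta g₀₀ hc
  obtain ⟨N, hN, hmesh⟩ := Grid.exists_mesh
    (lt_min (lt_min hδa hδb) (lt_min hδc hδd) : 0 < min (min δa δb) (min δc δd))
  have hmesh' := hmesh N le_rfl
  simp only [lt_min_iff] at hmesh'
  obtain ⟨⟨hNa, hNb⟩, hNc, hNd⟩ := hmesh'
  have hdist : ∀ {d : ℕ} (e : GridCell d N) (x : Fin d → I), x ∈ e.set →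
      ∀ v, GridCell.vertex v ≤ e → dist (Grid.point v) x ≤ 2 / N := fun e x hx v hv =>
    Grid.dist_le_of_mem_vstar hN (Grid.point_mem_vstar hN v) (GridCell.set_subset_vstar hN hv hx)
  have hbd : ∀ v : Grid.Vert (Fin m) N, GridCell.vertex v ∈ GridCell.bdCells m N →
      Grid.point v ∈ Cube.boundary (Fin m) := fun v h =>
    GridCell.mem_boundary_of_bdCells hN h (GridCell.point_mem_vertex v)
  have hbox : ∀ v : Grid.Vert (Fin (m + 1)) N, GridCell.vertex v ∈ GridCell.boxCells m N →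
      Grid.point v ∈ boxSet m := fun v h =>
    GridCell.mem_boxSet_of_boxCells hN h (GridCell.point_mem_vertex v)
  have hinit : ∀ v : Grid.Vert (Fin (m + 1)) N, GridCell.vertex v ∈ GridCell.boxCells m N →
      v (Fin.last m) = Fin.last N → GridCell.vertex (Fin.init v) ∈ GridCell.bdCells m N := by
    intro v h hl
    rcases h with h | h
    · have h' : (v (Fin.last m) : ℕ) = 0 := h
      rw [hl] at h'
      simp at h'
      omega
    · exact h
  have hsnoc : ∀ v : Grid.Vert (Fin (m + 1)) N, v (Fin.last m) = Fin.last N →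
      Grid.point v = Fin.snoc (Grid.point (Fin.init v)) 1 := fun v hl => by
    rw [← Grid.point_snoc_last hN, ← hl, Fin.snoc_init_self]
  -- labels
  choose r hr using fun (v : Grid.Vert (Fin m) N) (h : GridCell.vertex v ∈ GridCell.bdCells m N) =>
    hMd M (by omega) ⟨Grid.point v, hbd v h⟩
  choose p₁ hp₁ using fun v : Grid.Vert (Fin m) N => hMc M (by omega) (Grid.point v)
  choose p₀ hp₀ using
    fun (v : Grid.Vert (Fin (m + 1)) N) (h : GridCell.vertex v ∈ GridCell.boxCells m N) =>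
      hMb M (by omega) ⟨Grid.point v, hbox v h⟩
  choose p hp using fun v : Grid.Vert (Fin (m + 1)) N => hMa M (by omega) (Grid.point v)
  let ℓ₁ : Grid.Vert (Fin m) N → Chain Z := fun v =>
    if h : GridCell.vertex v ∈ GridCell.bdCells m N then (r v h).map π else p₁ v
  let ℓ' : ∀ v : Grid.Vert (Fin (m + 1)) N, GridCell.vertex v ∈ GridCell.boxCells m N →
      Chain T' := fun v h =>
    if hl : v (Fin.last m) = Fin.last N then (r _ (hinit v h hl)).map ρ else p₀ v h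
  let ℓ : Grid.Vert (Fin (m + 1)) N → Chain T := fun v =>
    if v (Fin.last m) = Fin.last N then (ℓ₁ (Fin.init v)).map z
    else if h : GridCell.vertex v ∈ GridCell.boxCells m N then (ℓ' v h).map q else p v
  have hw₁ : ∀ v, c ≤ (f₁ (Grid.point v)).wt (ℓ₁ v) := by
    intro v
    by_cases h : GridCell.vertex v ∈ GridCell.bdCells m N
    · simp only [ℓ₁, dif_pos h]
      rw [← hπ ⟨_, hbd v h⟩]
      exact (hr v h).trans (BSp.wt_le_map_wt π _ _)
    · simp only [ℓ₁, dif_neg h]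
      exact hp₁ v
  have hw' : ∀ v h, c ≤ (g₀ ⟨Grid.point v, hbox v h⟩).wt (ℓ' v h) := by
    intro v h
    by_cases hl : v (Fin.last m) = Fin.last N
    · simp only [ℓ', dif_pos hl]
      have e : (⟨Grid.point v, hbox v h⟩ : boxSet m) = ⟨Fin.snoc (Grid.point (Fin.init v)) 1,
          snoc_one_mem_boxSet ⟨_, hbd _ (hinit v h hl)⟩⟩ := Subtype.ext (hsnoc v hl)
      rw [e, ← hρ ⟨_, hbd _ (hinit v h hl)⟩]
      exact (hr _ _).trans (BSp.wt_le_map_wt ρ _ _)
    · simp only [ℓ', dif_neg hl]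
      exact hp₀ v h
  have hℓq : ∀ v h, (ℓ' v h).map q = ℓ v := by
    intro v h
    by_cases hl : v (Fin.last m) = Fin.last N
    · simp only [ℓ', ℓ, ℓ₁, dif_pos hl, if_pos hl, dif_pos (hinit v h hl)]
      rw [Chain.map_map, Chain.map_map, hsq]
    · simp only [ℓ, if_neg hl, dif_pos h]
  have hw : ∀ v, c ≤ (f (Grid.point v)).wt (ℓ v) := by
    intro v
    by_cases hl : v (Fin.last m) = Fin.last N
    · simp only [ℓ, if_pos hl]
      rw [hsnoc v hl, hf₁]
      exact (hw₁ _).trans (BSp.wt_le_map_wt z _ _)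
    · by_cases h : GridCell.vertex v ∈ GridCell.boxCells m N
      · rw [← hℓq v h, ← hg₀ ⟨_, hbox v h⟩]
        exact (hw' v h).trans (BSp.wt_le_map_wt q _ _)
      · simp only [ℓ, if_neg hl, dif_neg h]
        exact hp v
  have hpos : ∀ (e : GridCell (m + 1) N), ∀ x ∈ e.set, ∀ v, GridCell.vertex v ≤ e →
      0 < (f x).wt (ℓ v) := fun e x hx v hv =>
    ha _ x (lt_of_le_of_lt (hdist e x hx v hv) hNa) _ (hw v)
  have hpos₁ : ∀ (e : GridCell m N), ∀ x ∈ e.set, ∀ v, GridCell.vertex v ≤ e →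
      0 < (f₁ x).wt (ℓ₁ v) := fun e x hx v hv =>
    hc' _ x (lt_of_le_of_lt (hdist e x hx v hv) hNc) _ (hw₁ v)
  have hposBox : ∀ (e : GridCell (m + 1) N) (x : boxSet m), x.1 ∈ e.set → ∀ v h,
      GridCell.vertex v ≤ e → 0 < (g₀ x).wt (ℓ' v h) := fun e x hx v h hv =>
    hb ⟨_, hbox v h⟩ x (lt_of_le_of_lt (hdist e x.1 hx v hv) hNb) _ (hw' v h)
  have hposBd : ∀ (e : GridCell m N) (x : Cube.boundary (Fin m)), x.1 ∈ e.set → ∀ v h,
      GridCell.vertex v ≤ e → 0 < (g₀₀ x).wt (r v h) := fun e x hx v h hv =>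
    hd ⟨_, hbd v h⟩ x (lt_of_le_of_lt (hdist e x.1 hx v hv) hNd) _ (hr v h)
  have hpt : ∀ {d : ℕ} (e : GridCell d N), ∃ x, x ∈ e.set := fun e => by
    obtain ⟨v, hv⟩ := e.exists_vertex_le
    exact ⟨_, GridCell.set_mono hv (GridCell.point_mem_vertex v)⟩
  refine ⟨{
    N := N
    hN := hN
    L := ⟨Set.univ, isLowerSet_univ, ℓ, fun e _ v w hv hw => by
      obtain ⟨x, hx⟩ := hpt e
      exact (f x).comparable (hpos e x hx v hv) (hpos e x hx w hw)⟩
    full := fun _ => trivial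
    L₁ := ⟨Set.univ, isLowerSet_univ, ℓ₁, fun e _ v w hv hw => by
      obtain ⟨x, hx⟩ := hpt e
      exact (f₁ x).comparable (hpos₁ e x hx v hv) (hpos₁ e x hx w hw)⟩
    full₁ := fun _ => trivial
    lift :=
      { sub := Set.subset_univ _
        lab' := ℓ'
        map_lab' := hℓq
        comparable := fun e he v w hv hw hve hwe => by
          obtain ⟨x, hx⟩ := hpt e
          let x' : boxSet m := ⟨x, GridCell.mem_boxSet_of_boxCells hN he hx⟩
          exact (g₀ x').comparable (hposBox e x' hx v hv hve) (hposBox e x' hx w hw hwe)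
        low := GridCell.isLowerSet_boxCells }
    lift₁ :=
      { sub := Set.subset_univ _
        lab' := r
        map_lab' := fun v h => by simp only [ℓ₁, dif_pos h]
        comparable := fun e he v w hv hw hve hwe => by
          obtain ⟨x, hx⟩ := hpt e
          let x' : Cube.boundary (Fin m) := ⟨x, GridCell.mem_boundary_of_bdCells hN he hx⟩
          exact (g₀₀ x').comparable (hposBd e x' hx v hv hve) (hposBd e x' hx w hw hwe)
        low := GridCell.isLowerSet_bdCells }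
    pos := hpos
    pos₁ := hpos₁
    posBox := hposBox
    posBd := hposBd
    topLab := fun v => by simp [ℓ]
    topLift := fun v h h₁ => by simp [ℓ'] }⟩

end Vale.Agent.P259
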