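import Vale.Agent.P259.ApproxBoxCells

/-!
# P259 (D): lifting of maps from the boundary of a cube
-/

open CategoryTheory Set Topology
open scoped unitInterval

noncomputable section

namespace Vale.Agent.P259

open GridCell

theorem free_card_le_of_bdCells {n N : ℕ} {e : GridCell (n + 1) N} (he : e ∈ bdCells (n + 1) N) :
    e.free.card ≤ n := by
  obtain ⟨i, hi⟩ := he
  have hni : i ∉ e.free := fun h => by
    have h1 := (Finset.mem_filter.mp h).2
    have := e.hi_le_N i
    omega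
  have : e.free ⊆ Finset.univ.erase i := fun j hj =>
    Finset.mem_erase.mpr ⟨fun h => hni (h ▸ hj), Finset.mem_univ _⟩
  exact (Finset.card_le_card this).trans_eq (by simp)

/-- Absolute lifting of maps from the boundary of a cube. -/
theorem liftSub : LiftSub := by
  classical
  intro T T' _ _ q n hq sg
  obtain ⟨M, hM⟩ := BSp.exists_wt_ge sg
  have hc : (0 : ℝ) < 1 / ((M : ℝ) + 1) := by positivity
  obtain ⟨δ, hδ, hd⟩ := BSp.exists_delta sg hc
  obtain ⟨N, hN, hmesh⟩ := Grid.exists_mesh hδ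
  have hNd := hmesh N le_rfl
  have hbd : ∀ v : Grid.Vert (Fin (n + 1)) N, vertex v ∈ bdCells (n + 1) N →
      Grid.point v ∈ Cube.boundary (Fin (n + 1)) := fun v h =>
    mem_boundary_of_bdCells hN h (point_mem_vertex v)
  choose p hp using fun (v : Grid.Vert (Fin (n + 1)) N) (h : vertex v ∈ bdCells (n + 1) N) =>
    hM M le_rfl ⟨Grid.point v, hbd v h⟩
  let p₀ : Chain T := (sg ⟨fun _ => 0, 0, Or.inl rfl⟩).exists_pos.choose
  let ℓ : Grid.Vert (Fin (n + 1)) N → Chain T := fun v =>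
    if h : vertex v ∈ bdCells (n + 1) N then p v h else p₀
  have hpos : ∀ e ∈ bdCells (n + 1) N, ∀ (x : Cube.boundary (Fin (n + 1))), x.1 ∈ e.set →
      ∀ v, vertex v ≤ e → 0 < (sg x).wt (ℓ v) := by
    intro e he x hx v hv
    have h := isLowerSet_bdCells hv he
    simp only [ℓ, dif_pos h]
    refine hd ⟨_, hbd v h⟩ x (lt_of_le_of_lt ?_ hNd) _ (hp v h)
    exact Grid.dist_le_of_mem_vstar hN (Grid.point_mem_vstar hN v) (set_subset_vstar hN hv hx)
  let L : Lab (n + 1) N T := ⟨bdCells (n + 1) N, isLowerSet_bdCells, ℓ, fun e he v w hv hw => by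
    obtain ⟨u, hu⟩ := e.exists_vertex_le
    have hx := set_mono hu (point_mem_vertex u)
    exact (sg ⟨_, mem_boundary_of_bdCells hN he hx⟩).comparable (hpos e he _ hx v hv)
      (hpos e he _ hx w hw)⟩
  let s₀ : CellSpaces.Sec (L.spaces q) (∅ : Set (GridCell (n + 1) N)) :=
    { app := fun e he => False.elim he
      compat := fun _ he _ _ => False.elim he }
  obtain ⟨s, -⟩ := s₀.exists_extend_within hN isLowerSet_empty isLowerSet_bdCells
    (Set.empty_subset _) fun e he _ a => by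
      obtain ⟨b, hb⟩ := hq (L.Phi e).top ↥e.free
        ((Fintype.card_coe _).trans_le (free_card_le_of_bdCells he))
        ⟨fun u => a u ⟨he⟩, (continuous_apply _).comp a.continuous⟩
      exact ⟨⟨fun x _ => b x, continuous_pi fun _ => b.continuous⟩,
        fun u => funext fun _ => hb u⟩
  obtain ⟨tg, htg⟩ := CellSpaces.Sec.exists_glueOn hN isLowerSet_bdCells
    (L.evalSec s subset_rfl (fun e => BSp.map (CostructuredArrow.proj q _))
      fun h hf z => L.proj_trans' q h hf z)
    (Cube.boundary (Fin (n + 1))) fun x hx => exists_bdCell hN hx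
  refine ⟨tg, ?_⟩
  let a₀ := s.push (L.toIdHom q)
  obtain ⟨a, ha⟩ := a₀.exists_extend hN isLowerSet_bdCells fun e _ => L.cubeExt_spaces e
  let idL := L.idLift isLowerSet_bdCells (S := bdCells (n + 1) N) subset_rfl
  let b₀ := idL.sec hN
  obtain ⟨b, hb⟩ := b₀.exists_extend hN isLowerSet_bdCells fun e _ => L.cubeExt_spaces e
  obtain ⟨ft, hft⟩ := CellSpaces.Sec.exists_glueOn hN isLowerSet_bdCells
    (L.evalSec b₀ subset_rfl (fun e => BSp.map (CostructuredArrow.proj (𝟭 T) _))
      fun h hf z => L.proj_trans' (𝟭 T) h hf z)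
    (Cube.boundary (Fin (n + 1))) fun x hx => exists_bdCell hN hx
  have hline : ft.Homotopic sg := by
    refine BSp.homotopic_of_chain _ _ fun x => BSp.isChain_union_of_subset fun r hr => ?_
    obtain ⟨c, hc, hxc⟩ := exists_bdCell hN x.2
    rw [show ft x = _ from hft c hc ⟨x.1, hxc⟩ x.2] at hr
    obtain ⟨v, hv, rfl⟩ := idL.exists_of_mem_support hN hc ⟨x.1, hxc⟩ ⟨hc⟩ hr
    exact (BSp.mem_support_iff _ _).mpr (hpos c hc x hxc v hv)
  refine ContinuousMap.Homotopic.trans ?_ hline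
  obtain ⟨H, hH0, hH1, -⟩ := a.exists_homotopy hN b (L := ∅) isLowerSet_empty
    (fun e he => False.elim he) fun e _ => L.cubeExt_spaces e
  let W : CellSpaces.Sec (CellSpaces.const (n + 1 + 1) N (BSp T))
      (GridCell.base ⁻¹' bdCells (n + 1) N) :=
    { app := fun E hE => ⟨fun x => BSp.map (CostructuredArrow.proj (𝟭 T) _)
          (H.app E trivial x ⟨hE⟩),
        (ContinuousMap.continuous _).comp
          ((continuous_apply _).comp (H.app E trivial).continuous)⟩
      compat := fun {E E'} h hE hE' x => by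
        show BSp.map _ (H.app E' trivial (incl h x) ⟨hE'⟩) = BSp.map _ (H.app E trivial x ⟨hE⟩)
        rw [H.compat h (Set.mem_univ E) (Set.mem_univ _)]
        exact L.proj_trans' (𝟭 T) (base_mono h) hE' _ }
  let K : Set (Fin (n + 1 + 1) → I) := {x | Fin.init x ∈ Cube.boundary (Fin (n + 1))}
  obtain ⟨G, hG⟩ := CellSpaces.Sec.exists_glueOn hN
    (isLowerSet_preimage_base isLowerSet_bdCells) W K fun x hx => by
      obtain ⟨c, hc, hxc⟩ := exists_bdCell hN hx
      obtain ⟨τ, hτ⟩ := exists_mem_set (d := 1) hN (fun _ => x (Fin.last (n + 1)))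
      refine ⟨cellOver c (τ.lo 0) (τ.hi 0) (τ.lo_le 0) (τ.hi_le 0) (τ.hi_le_N 0),
        by simpa using hc, ?_⟩
      rw [← Fin.snoc_init_self x]
      exact snoc_mem_cellOver hxc (hτ 0).1 (hτ 0).2
  have hN' : ((N : ℕ) : ℝ) / N = 1 := div_self (Nat.cast_ne_zero.mpr hN.ne')
  have hmemK : ∀ p : I × Cube.boundary (Fin (n + 1)),
      (Fin.snoc p.2.1 p.1 : Fin (n + 1 + 1) → I) ∈ K := fun p => by
    show Fin.init (Fin.snoc p.2.1 p.1 : Fin (n + 1 + 1) → I) ∈ Cube.boundary (Fin (n + 1))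
    rw [Fin.init_snoc]
    exact p.2.2
  have hsnoc : Continuous fun p : I × Cube.boundary (Fin (n + 1)) =>
      (Fin.snoc p.2.1 p.1 : Fin (n + 1 + 1) → I) := continuous_pi fun i => by
    refine Fin.lastCases ?_ (fun j => ?_) i
    · simpa using! continuous_fst
    · simpa using! (continuous_apply j).comp (continuous_subtype_val.comp continuous_snd)
  refine ⟨{
    toFun := fun p => G ⟨Fin.snoc p.2.1 p.1, hmemK p⟩
    continuous_toFun := G.continuous.comp (hsnoc.subtype_mk hmemK)
    map_zero_left := fun u => ?_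
    map_one_left := fun u => ?_ }⟩
  · obtain ⟨c, hc, huc⟩ := exists_bdCell hN u.2
    let E := cellOver (N := N) c 0 0 le_rfl (Nat.zero_le 1) (Nat.zero_le N)
    have hE : E.base ∈ bdCells (n + 1) N := by simpa [E] using hc
    have hxE : (Fin.snoc u.1 0 : Fin (n + 1 + 1) → I) ∈ E.set :=
      snoc_mem_cellOver huc (by simp) (by simp)
    refine (hG E hE ⟨_, hxE⟩ _).trans ?_
    show BSp.map _ (H.app E trivial _ ⟨hE⟩) = BSp.map q (tg u)
    rw [hH0 E (cellOver_hi_last _ _ _ _ _ _), ha E.base hE]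
    have hu : (⟨(E.proj ⟨_, hxE⟩).1, mem_boundary_of_bdCells hN hE (E.proj ⟨_, hxE⟩).2⟩ :
        Cube.boundary (Fin (n + 1))) = u :=
      Subtype.ext (Fin.init_snoc (α := fun _ => I) 0 u.1)
    refine Eq.trans ?_ (congrArg (fun w => BSp.map q (tg w)) hu)
    refine Eq.trans ?_ (congrArg (BSp.map q) (htg E.base hE (E.proj ⟨_, hxE⟩) _)).symm
    show BSp.map (CostructuredArrow.proj (𝟭 T) _) (BSp.map (Chain.toId q _) _) =
      BSp.map q (BSp.map (CostructuredArrow.proj q _) _)
    rw [BSp.map_map, BSp.map_map]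
    rfl
  · obtain ⟨c, hc, huc⟩ := exists_bdCell hN u.2
    let E := cellOver c N N le_rfl (Nat.le_succ N) le_rfl
    have hE : E.base ∈ bdCells (n + 1) N := by simpa [E] using hc
    have hxE : (Fin.snoc u.1 1 : Fin (n + 1 + 1) → I) ∈ E.set :=
      snoc_mem_cellOver huc (by rw [hN']; simp) (by rw [hN']; simp)
    refine (hG E hE ⟨_, hxE⟩ _).trans ?_
    show BSp.map _ (H.app E trivial _ ⟨hE⟩) = ft u
    rw [hH1 E (cellOver_lo_last _ _ _ _ _ _), hb E.base hE]
    have hu : (⟨(E.proj ⟨_, hxE⟩).1, mem_boundary_of_bdCells hN hE (E.proj ⟨_, hxE⟩).2⟩ :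
        Cube.boundary (Fin (n + 1))) = u :=
      Subtype.ext (Fin.init_snoc (α := fun _ => I) 1 u.1)
    refine Eq.trans ?_ (congrArg ft hu)
    exact (hft E.base hE (E.proj ⟨_, hxE⟩) _).symm

end Vale.Agent.P259
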