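import Vale.Agent.P259.Defs
import Vale.Agent.P259.ApproxCube

/-!
# P259 (G): change of base point for homotopy groups
-/

noncomputable section

open scoped unitInterval

namespace Vale.Agent.P259

section Slide

variable {ι : Type} [Fintype ι] {Z : Type} [TopologicalSpace Z] {x y : Z}

open scoped Classical in
/-- Values on bottom and sides: a family of cubes at the bottom, the path on the sides. -/
def sideFun (H : C(I × (ι → I), Z)) (γ : Path x y) (q : I × CubeLemma.openBox ι) : Z :=
  if q.2.1.2 = 0 then H (q.1, q.2.1.1) else γ q.2.1.2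

omit [Fintype ι] in
theorem sideFun_side (H : C(I × (ι → I), Z)) (γ : Path x y)
    (hH : ∀ τ, ∀ u ∈ Cube.boundary ι, H (τ, u) = x) (q : I × CubeLemma.openBox ι)
    (hq : q.2.1.1 ∈ Cube.boundary ι) : sideFun H γ q = γ q.2.1.2 := by
  unfold sideFun
  split_ifs with h
  · rw [hH _ _ hq, h, γ.source]
  · rfl

theorem continuous_sideFun (H : C(I × (ι → I), Z)) (γ : Path x y)
    (hH : ∀ τ, ∀ u ∈ Cube.boundary ι, H (τ, u) = x) : Continuous (sideFun H γ) := by
  have hcov : {q : I × CubeLemma.openBox ι | q.2.1.2 = 0} ∪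
      {q | q.2.1.1 ∈ Cube.boundary ι} = Set.univ := Set.eq_univ_of_forall fun q => q.2.2
  rw [← continuousOn_univ, ← hcov]
  refine ContinuousOn.union_of_isClosed ?_ ?_ (isClosed_eq (by fun_prop) continuous_const)
    (CubeLemma.isClosed_boundary.preimage (by fun_prop))
  · refine ContinuousOn.congr (Continuous.continuousOn ?_) fun q hq => if_pos hq
    exact H.continuous.comp (continuous_fst.prodMk (by fun_prop))
  · refine ContinuousOn.congr (Continuous.continuousOn ?_) fun q hq => sideFun_side H γ hH q hq
    exact γ.continuous.comp (by fun_prop)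

/-- The canonical slide of a family of cubes along a path. -/
def slidePrism (H : C(I × (ι → I), Z)) (γ : Path x y)
    (hH : ∀ τ, ∀ u ∈ Cube.boundary ι, H (τ, u) = x) : C(I × ((ι → I) × I), Z) :=
  ⟨fun q => sideFun H γ (q.1, CubeLemma.retract ι q.2),
    (continuous_sideFun H γ hH).comp
      (continuous_fst.prodMk ((CubeLemma.retract ι).continuous.comp continuous_snd))⟩

theorem slidePrism_bottom (H : C(I × (ι → I), Z)) (γ : Path x y)
    (hH : ∀ τ, ∀ u ∈ Cube.boundary ι, H (τ, u) = x) (τ : I) (u : ι → I) :
    slidePrism H γ hH (τ, (u, 0)) = H (τ, u) := by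
  show sideFun H γ (τ, CubeLemma.retract ι (u, 0)) = _
  rw [CubeLemma.retract_eq ⟨(u, 0), Or.inl rfl⟩]
  exact if_pos rfl

theorem slidePrism_side (H : C(I × (ι → I), Z)) (γ : Path x y)
    (hH : ∀ τ, ∀ u ∈ Cube.boundary ι, H (τ, u) = x) (τ t : I) (u : ι → I)
    (hu : u ∈ Cube.boundary ι) : slidePrism H γ hH (τ, (u, t)) = γ t := by
  show sideFun H γ (τ, CubeLemma.retract ι (u, t)) = _
  rw [CubeLemma.retract_eq ⟨(u, t), Or.inr hu⟩]
  exact sideFun_side H γ hH _ hu

/-- The constant family at a based cube. -/
def constFam (p : GenLoop ι Z x) : C(I × (ι → I), Z) := p.1.comp ⟨Prod.snd, continuous_snd⟩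

omit [Fintype ι] in
theorem constFam_boundary (p : GenLoop ι Z x) :
    ∀ τ, ∀ u ∈ Cube.boundary ι, constFam p (τ, u) = x := fun _ u hu => p.2 u hu

/-- A loop slid along a path. -/
def slideLoop (γ : Path x y) (p : GenLoop ι Z x) : GenLoop ι Z y :=
  ⟨⟨fun u => slidePrism (constFam p) γ (constFam_boundary p) (0, (u, 1)),
    (slidePrism (constFam p) γ (constFam_boundary p)).continuous.comp
      (by fun_prop)⟩,
    fun u hu => (slidePrism_side _ γ (constFam_boundary p) 0 1 u hu).trans γ.target⟩

theorem slideLoop_congr (γ : Path x y) {p q : GenLoop ι Z x} (h : GenLoop.Homotopic p q) :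
    GenLoop.Homotopic (slideLoop γ p) (slideLoop γ q) := by
  obtain ⟨H⟩ := h
  have hH : ∀ τ, ∀ u ∈ Cube.boundary ι, H.toHomotopy.toContinuousMap (τ, u) = x := fun τ u hu =>
    (H.prop' τ u hu).trans (p.2 u hu)
  refine ⟨{
    toFun := fun z => slidePrism H.toHomotopy.toContinuousMap γ hH (z.1, (z.2, 1))
    continuous_toFun := (slidePrism H.toHomotopy.toContinuousMap γ hH).continuous.comp (by fun_prop)
    map_zero_left := fun u => ?_
    map_one_left := fun u => ?_
    prop' := fun τ u hu => (slidePrism_side _ γ hH τ 1 u hu).trans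
      (slidePrism_side _ γ (constFam_boundary p) 0 1 u hu).symm }⟩
  · show sideFun _ γ (0, CubeLemma.retract ι (u, 1)) = sideFun _ γ (0, CubeLemma.retract ι (u, 1))
    unfold sideFun
    split_ifs
    · exact H.toHomotopy.apply_zero _
    · rfl
  · show sideFun _ γ (1, CubeLemma.retract ι (u, 1)) = sideFun _ γ (0, CubeLemma.retract ι (u, 1))
    unfold sideFun
    split_ifs
    · exact H.toHomotopy.apply_one _
    · rfl

open scoped Classical in
/-- Every slide is homotopic to the canonical one. -/
theorem slideLoop_unique (γ : Path x y) (p : GenLoop ι Z x) (q : GenLoop ι Z y)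
    (F : C((ι → I) × I, Z)) (h0 : ∀ u, F (u, 0) = p.1 u) (h1 : ∀ u, F (u, 1) = q.1 u)
    (hs : ∀ t, ∀ u ∈ Cube.boundary ι, F (u, t) = γ t) :
    GenLoop.Homotopic q (slideLoop γ p) := by
  let F' : C((ι → I) × I, Z) :=
    (slidePrism (constFam p) γ (constFam_boundary p)).comp
      ⟨fun z => (0, z), by fun_prop⟩
  have h0' : ∀ u, F' (u, 0) = p.1 u := fun u => slidePrism_bottom _ γ (constFam_boundary p) 0 u
  have hs' : ∀ t, ∀ u ∈ Cube.boundary ι, F' (u, t) = γ t := fun t u hu =>
    slidePrism_side _ γ (constFam_boundary p) 0 t u hu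
  -- left half runs back along `F`, right half forwards along `F'`
  let P : CubeLemma.openBox (Option ι) → Z := fun z =>
    if (z.1.1 none : ℝ) ≤ 1 / 2 then
      F (fun i => z.1.1 (some i), max (Set.projIcc 0 1 zero_le_one (1 - 2 * (z.1.1 none : ℝ))) z.1.2)
    else
      F' (fun i => z.1.1 (some i), max (Set.projIcc 0 1 zero_le_one (2 * (z.1.1 none : ℝ) - 1)) z.1.2)
  have hproj : ∀ f : CubeLemma.openBox (Option ι) → ℝ, Continuous f →
      Continuous fun z : CubeLemma.openBox (Option ι) =>
        max (Set.projIcc (0 : ℝ) 1 zero_le_one (f z)) z.1.2 := fun f hf =>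
    (continuous_projIcc.comp hf).max (by fun_prop)
  have hPc : Continuous P := by
    refine continuous_if_le (by fun_prop) continuous_const ?_ ?_ ?_
    · exact (F.continuous.comp (Continuous.prodMk (by fun_prop) (hproj _ (by fun_prop)))).continuousOn
    · exact (F'.continuous.comp (Continuous.prodMk (by fun_prop) (hproj _ (by fun_prop)))).continuousOn
    · intro z hz
      have e1 : (1 : ℝ) - 2 * (z.1.1 none : ℝ) = 0 := by linarith
      have e2 : 2 * (z.1.1 none : ℝ) - 1 = 0 := by linarith
      have e3 : max (Set.projIcc (0 : ℝ) 1 zero_le_one 0) z.1.2 = z.1.2 := by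
        rw [Set.projIcc_left]
        exact max_eq_right (show (⟨0, _⟩ : I) ≤ z.1.2 from z.1.2.2.1)
      rw [e1, e2, e3]
      rcases z.2 with hb | ⟨o, ho⟩
      · rw [hb, h0, h0']
      · cases o with
        | none =>
          exfalso
          rcases ho with ho | ho <;> rw [ho] at hz <;> norm_num at hz
        | some i => rw [hs _ _ ⟨i, ho⟩, hs' _ _ ⟨i, ho⟩]
  let emb : I → (ι → I) → (Option ι → I) := fun t u o => o.elim t u
  have hemb : Continuous fun z : I × (ι → I) => emb z.1 z.2 := continuous_pi fun o => by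
    cases o with
    | none => exact continuous_fst
    | some i => exact (continuous_apply i).comp continuous_snd
  have hP1 : ∀ (z : CubeLemma.openBox (Option ι)), z.1.2 = 1 →
      P z = if (z.1.1 none : ℝ) ≤ 1 / 2 then q.1 (fun i => z.1.1 (some i))
        else F' (fun i => z.1.1 (some i), 1) := by
    intro z hz
    have hmax : ∀ a : I, max a (1 : I) = 1 := fun a => max_eq_right a.2.2
    simp only [P, hz, hmax, h1]
  refine ⟨{
    toFun := fun z => P (CubeLemma.retract (Option ι) (emb z.1 z.2, 1))
    continuous_toFun := hPc.comp ((CubeLemma.retract (Option ι)).continuous.comp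
      (hemb.prodMk continuous_const))
    map_zero_left := fun u => ?_
    map_one_left := fun u => ?_
    prop' := fun t u hu => ?_ }⟩
  · show P (CubeLemma.retract (Option ι) (emb 0 u, 1)) = q.1 u
    rw [CubeLemma.retract_eq ⟨(emb 0 u, 1), Or.inr ⟨none, Or.inl rfl⟩⟩, hP1 _ rfl]
    simp [emb]
  · show P (CubeLemma.retract (Option ι) (emb 1 u, 1)) = F' (u, 1)
    rw [CubeLemma.retract_eq ⟨(emb 1 u, 1), Or.inr ⟨none, Or.inr rfl⟩⟩, hP1 _ rfl]
    norm_num [emb]
  · show P (CubeLemma.retract (Option ι) (emb t u, 1)) = q.1 u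
    rw [CubeLemma.retract_eq ⟨(emb t u, 1),
      Or.inr (by obtain ⟨i, hi⟩ := hu; exact ⟨some i, hi⟩)⟩, hP1 _ rfl]
    show (if (t : ℝ) ≤ 1 / 2 then q.1 (fun i => u i) else F' (fun i => u i, 1)) = q.1 u
    by_cases h : (t : ℝ) ≤ 1 / 2
    · exact if_pos h
    · exact (if_neg h).trans ((hs' _ _ hu).trans (γ.target.trans (q.2 u hu).symm))

theorem slideLoop_symm (γ : Path x y) (p : GenLoop ι Z x) :
    GenLoop.Homotopic p (slideLoop γ.symm (slideLoop γ p)) := by
  refine slideLoop_unique γ.symm (slideLoop γ p) p
    ((slidePrism (constFam p) γ (constFam_boundary p)).comp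
      ⟨fun z => (0, (z.1, σ z.2)), by fun_prop⟩) (fun u => ?_) (fun u => ?_) fun t u hu => ?_
  · show slidePrism (constFam p) γ (constFam_boundary p) (0, (u, σ 0)) = _
    rw [unitInterval.symm_zero]
    rfl
  · show slidePrism (constFam p) γ (constFam_boundary p) (0, (u, σ 1)) = _
    rw [unitInterval.symm_one]
    exact slidePrism_bottom _ γ (constFam_boundary p) 0 u
  · exact slidePrism_side _ γ (constFam_boundary p) 0 (σ t) u hu

/-- Change of base point along a path. -/
def slideClass (γ : Path x y) : HomotopyGroup ι Z x → HomotopyGroup ι Z y :=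
  Quotient.map (slideLoop γ) fun _ _ h => slideLoop_congr γ h

theorem slideClass_symm (γ : Path x y) (a : HomotopyGroup ι Z x) :
    slideClass γ.symm (slideClass γ a) = a := by
  induction a using Quotient.ind with
  | _ p => exact (Quotient.sound (slideLoop_symm γ p)).symm

theorem slideClass_bijective (γ : Path x y) :
    Function.Bijective (slideClass (ι := ι) γ) := by
  refine ⟨Function.LeftInverse.injective (slideClass_symm γ), fun b => ⟨slideClass γ.symm b, ?_⟩⟩
  simpa using slideClass_symm γ.symm b

end Slide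

variable {A B : Type} [TopologicalSpace A] [TopologicalSpace B]

theorem slideClass_natural (n : ℕ) (f : C(A, B)) {x y : A} (γ : Path x y)
    (a : HomotopyGroup (Fin n) A x) :
    slideClass (γ.map f.continuous) (homotopyGroupMap n f x a)
      = homotopyGroupMap n f y (slideClass γ a) := by
  induction a using Quotient.ind with
  | _ p =>
    refine (Quotient.sound (slideLoop_unique (γ.map f.continuous) (genLoopMap n f x p)
      (genLoopMap n f y (slideLoop γ p))
      (f.comp ((slidePrism (constFam p) γ (constFam_boundary p)).comp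
        ⟨fun z => (0, z), by fun_prop⟩)) (fun u => ?_) (fun u => rfl) fun t u hu => ?_)).symm
    · exact congrArg f (slidePrism_bottom _ γ (constFam_boundary p) 0 u)
    · exact congrArg f (slidePrism_side _ γ (constFam_boundary p) 0 t u hu)

/-- Bijectivity on homotopy groups only depends on the path component of the base point. -/
theorem bijective_homotopyGroupMap_of_joined (n : ℕ) (f : C(A, B)) {x y : A} (h : Joined x y)
    (hx : Function.Bijective (homotopyGroupMap n f x)) :
    Function.Bijective (homotopyGroupMap n f y) := by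
  obtain ⟨γ⟩ := h
  have e : homotopyGroupMap n f y ∘ slideClass γ =
      slideClass (γ.map f.continuous) ∘ homotopyGroupMap n f x :=
    funext fun a => (slideClass_natural n f γ a).symm
  exact (Function.Bijective.of_comp_iff _ (slideClass_bijective γ)).1
    (e ▸ (slideClass_bijective _).comp hx)

end Vale.Agent.P259
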