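import Vale.Agent.P259.MainTransfer

/-!
# P259 (F): lifting properties of maps of classifying spaces in a range

With the bijections of the induction in a range, equivalences of groupoids lift cubes in this
range, and classifying spaces of contractible groupoids are connected in this range.
-/

open CategoryTheory Opposite Set Topology
open scoped unitInterval

noncomputable section

namespace Vale.Agent.P259

/-- The form in which lifting follows from the maps on homotopy groups (proved in module D). -/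
def RelLiftOfPi : Prop :=
  ∀ (k : ℕ) (A B : Type) [TopologicalSpace A] [TopologicalSpace B] (φ : C(A, B)) (V : Set A),
    (∀ a, ∃ v ∈ V, Joined v a) → Function.Surjective (zerothMap φ) →
    (1 ≤ k → Function.Injective (zerothMap φ)) →
    (∀ j, j + 1 = k → ∀ v ∈ V, Function.Surjective (homotopyGroupMap (j + 1) φ v)) →
    (∀ j, j + 2 = k → ∀ v ∈ V, Function.Injective (homotopyGroupMap (j + 1) φ v)) → RelLift k φ

/-- The form in which extension follows from trivial homotopy groups (proved in module D). -/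
def CubeExtOfPi : Prop :=
  ∀ (n : ℕ) (A : Type) [TopologicalSpace A] [PathConnectedSpace A] (v : A),
    (∀ j, j + 1 < n → ∀ p q : GenLoop (Fin (j + 1)) A v, GenLoop.Homotopic p q) → CubeExtLE n A

variable {C : Coherator} (c : IdChoice C) (Pd : PathData C)

include Pd in
theorem relLift_bMap (hpi : RelLiftOfPi) {Y Y' : C.Gpd} {φ : Y ⟶ Y'} (hφ : IsEquivMap φ) {k : ℕ}
    (hs : ∀ j, j + 1 ≤ k → SurjAt c j) (hi : ∀ j, j + 2 ≤ k → InjAt c j) :
    RelLift k (C.bMap φ) := by
  obtain ⟨h0, hm⟩ := hφ.weq c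
  have hz : Function.Bijective (zerothMap (C.bMap φ)) := by
    have e : zerothMap (C.bMap φ) ∘ psi0 Y = psi0 Y' ∘ Pi0.map φ := funext (zerothMap_psi0 φ)
    exact (Function.Bijective.of_comp_iff _ (psi0_bijective Pd Y)).1
      (e ▸ (psi0_bijective Pd Y').comp h0)
  refine hpi k _ _ (C.bMap φ) (Set.range (pt Y)) (fun z => ?_) hz.2 (fun _ => hz.1) ?_ ?_
  · obtain ⟨y, hy⟩ := exists_joined_pt z
    exact ⟨_, ⟨y, rfl⟩, hy.symm⟩
  · rintro j hj _ ⟨y, rfl⟩ ⟨q⟩
    obtain ⟨a', ha'⟩ := hs j hj.le Y' (C.mapCell φ 0 y) q.1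
      fun u hu => (q.2 u hu).trans (bMap_pt φ y)
    obtain ⟨qa, hqa⟩ := (hm y j).2 (Quot.mk _ a')
    obtain ⟨a, rfl⟩ := Quot.exists_rep qa
    refine ⟨⟦repLoop c a⟧, Quotient.sound ?_⟩
    exact Rep.homotopicRel c (Rep.map c φ (rep_repLoop c a)) ha' (C.piSucc_mk_eq c Y' _ j hqa)
  · rintro j hj _ ⟨y, rfl⟩ ⟨p⟩ ⟨q⟩ h
    obtain ⟨a, ha⟩ := hs j (by omega) Y y p.1 p.2
    obtain ⟨b, hb⟩ := hs j (by omega) Y y q.1 q.2
    have r := hi j hj.le Y' _ _ _ _ _ (Rep.map c φ ha) (Rep.map c φ hb) (Quotient.exact h)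
    have e : (Quot.mk _ a : PiSucc c Y y j) = Quot.mk _ b := (hm y j).1 (Quot.sound r)
    exact Quotient.sound (Rep.homotopicRel c ha hb (C.piSucc_mk_eq c Y y j e))

theorem pathConnectedSpace_bx {E : C.Gpd} (hE : IsContr E) : PathConnectedSpace (C.BX E) where
  nonempty := by
    obtain ⟨e⟩ := hE.nonempty
    exact ⟨pt E e⟩
  joined z w := by
    obtain ⟨e, he⟩ := exists_joined_pt z
    obtain ⟨e', he'⟩ := exists_joined_pt w
    exact (he.trans (joined_of_cellRel (hE.rel 0 e e' trivial))).trans he'.symm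

theorem cubeExtLE_bx (hext : CubeExtOfPi) {E : C.Gpd} (hE : IsContr E) {n : ℕ}
    (hs : ∀ j, j + 1 < n → SurjAt c j) : CubeExtLE n (C.BX E) := by
  have := pathConnectedSpace_bx hE
  obtain ⟨e⟩ := hE.nonempty
  refine hext n _ (pt E e) fun j hj p q => ?_
  obtain ⟨a, ha⟩ := hs j hj E e p.1 p.2
  obtain ⟨b, hb⟩ := hs j hj E e q.1 q.2
  exact Rep.homotopicRel c ha hb (hE.rel (j + 1) a.1 b.1
    ⟨a.2.1.trans b.2.1.symm, a.2.2.trans b.2.2.symm⟩)

variable {E X : C.Gpd} (π : E ⟶ X)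

include Pd in
theorem relLift_comma (hpi : RelLiftOfPi) (hπ : IsFib π) {a a' : El X} (h : a ⟶ a') {k : ℕ}
    (hs : ∀ j, j + 1 ≤ k → SurjAt c j) (hi : ∀ j, j + 2 ≤ k → InjAt c j) :
    RelLift k (BSp.map (CostructuredArrow.map (S := El.map π) h)) :=
  relLift_transition π h (relLift_bMap c Pd hpi
    (Pd.isEquivMap_pbTrans_rep h.hom π hπ a'.elt (hat_of_hom h)) hs hi)

include Pd in
theorem cubeExtLE_comma_of_trivFib (hext : CubeExtOfPi) (hπ : IsTrivFib π) (a : El X) {n : ℕ}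
    (hs : ∀ j, j + 1 < n → SurjAt c j) :
    CubeExtLE n (BSp (CostructuredArrow (El.map π) a)) :=
  cubeExtLE_comma π a (cubeExtLE_bx c hext (Pd.isContr_pb_rep π hπ (C.hat X a.elt)) hs)

end Vale.Agent.P259
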