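import Vale.Agent.P259.ApproxBoxCells
import Vale.Agent.P259.MainRel
import Vale.Agent.P259.AssemblyTransport

/-!
# P259 (D): relative lifting of cubes from maps on homotopy groups
-/

open Set Topology
open scoped unitInterval

noncomputable section

namespace Vale.Agent.P259

open CubeLemma

variable {A B : Type} [TopologicalSpace A] [TopologicalSpace B]

theorem surjective_homotopyGroupMap_of_joined (n : ℕ) (φ : C(A, B)) {x y : A} (h : Joined x y)
    (hx : Function.Surjective (homotopyGroupMap n φ x)) :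
    Function.Surjective (homotopyGroupMap n φ y) := by
  obtain ⟨γ⟩ := h
  intro w
  obtain ⟨w', rfl⟩ := (slideClass_bijective (γ.map φ.continuous)).2 w
  obtain ⟨p, rfl⟩ := hx w'
  exact ⟨slideClass γ p, (slideClass_natural n φ γ p).symm⟩

theorem injective_homotopyGroupMap_of_joined (n : ℕ) (φ : C(A, B)) {x y : A} (h : Joined x y)
    (hx : Function.Injective (homotopyGroupMap n φ x)) :
    Function.Injective (homotopyGroupMap n φ y) := by
  obtain ⟨γ⟩ := h
  intro p q hpq
  obtain ⟨p', rfl⟩ := (slideClass_bijective γ).2 p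
  obtain ⟨q', rfl⟩ := (slideClass_bijective γ).2 q
  rw [← slideClass_natural, ← slideClass_natural] at hpq
  exact congrArg _ (hx ((slideClass_bijective (γ.map φ.continuous)).1 hpq))

/-- A motion of the boundary to a point gives lifts, when based cubes lift. -/
theorem exists_lift_of_motion {ι : Type} [Fintype ι] (φ : C(A, B))
    (a : C(Cube.boundary ι, A)) (b : C(ι → I, B)) (hab : ∀ u : Cube.boundary ι, b u.1 = φ (a u))
    (x₀ : A) (K : C(I × Cube.boundary ι, A)) (hK0 : ∀ u, K (0, u) = a u)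
    (hK1 : ∀ u, K (1, u) = x₀)
    (hsurj : ∀ β : C(ι → I, B), (∀ u : Cube.boundary ι, β u.1 = φ x₀) →
      ∃ p : C(ι → I, A), (∀ u : Cube.boundary ι, p u.1 = x₀) ∧
        (φ.comp p).HomotopicRel β (Cube.boundary ι)) :
    ∃ a' : C(ι → I, A), (∀ u : Cube.boundary ι, a' u.1 = a u) ∧
      (φ.comp a').HomotopicRel b (Cube.boundary ι) := by
  let Kφ : C(Unit × I × Cube.boundary ι, B) := φ.comp (K.comp ⟨Prod.snd, continuous_snd⟩)
  let Fb : C(Unit × (ι → I), B) := b.comp ⟨Prod.snd, continuous_snd⟩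
  have hFb : ∀ s u, Kφ (s, 0, u) = Fb (s, u.1) := fun s u => by
    show φ (K (0, u)) = b u.1
    rw [hK0, hab]
  let G := hep Fb Kφ hFb
  let β : C(ι → I, B) :=
    G.comp ⟨fun x => ((), 1, x), continuous_const.prodMk (continuous_const.prodMk continuous_id)⟩
  have hβ : ∀ u : Cube.boundary ι, β u.1 = φ x₀ := fun u => by
    show hep Fb Kφ hFb ((), 1, u.1) = _
    rw [hep_boundary]
    exact congrArg φ (hK1 u)
  obtain ⟨p, hp, ⟨Hrel⟩⟩ := hsurj β hβ
  let F₁ : C(Unit × (ι → I), A) := p.comp ⟨Prod.snd, continuous_snd⟩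
  let K₁ : C(Unit × I × Cube.boundary ι, A) :=
    K.comp ⟨fun q => (σ q.2.1, q.2.2), (unitInterval.continuous_symm.comp
      (continuous_fst.comp continuous_snd)).prodMk (continuous_snd.comp continuous_snd)⟩
  have hF₁ : ∀ s u, K₁ (s, 0, u) = F₁ (s, u.1) := fun s u => by
    show K (σ 0, u) = p u.1
    rw [unitInterval.symm_zero, hK1, hp]
  let a' : C(ι → I, A) := (hep F₁ K₁ hF₁).comp
    ⟨fun x => ((), 1, x), continuous_const.prodMk (continuous_const.prodMk continuous_id)⟩
  have ha' : ∀ u : Cube.boundary ι, a' u.1 = a u := fun u => by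
    show hep F₁ K₁ hF₁ ((), 1, u.1) = _
    rw [hep_boundary]
    show K (σ 1, u) = a u
    rw [unitInterval.symm_one, hK0]
  refine ⟨a', ha', ?_⟩
  -- first move the based cube, then sweep back
  let F₂ : C(I × (ι → I), B) := Hrel.toHomotopy.toContinuousMap
  let K₂ : C(I × I × Cube.boundary ι, B) :=
    φ.comp (K.comp ⟨fun q => (σ q.2.1, q.2.2), (unitInterval.continuous_symm.comp
      (continuous_fst.comp continuous_snd)).prodMk (continuous_snd.comp continuous_snd)⟩)
  have hF₂ : ∀ s u, K₂ (s, 0, u) = F₂ (s, u.1) := fun s u => by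
    show φ (K (σ 0, u)) = Hrel (s, u.1)
    rw [unitInterval.symm_zero, hK1, Hrel.eq_fst s u.2]
    exact (congrArg φ (hp u)).symm
  let M : C(I × (ι → I), B) := G.comp ⟨fun q => ((), σ q.1, q.2),
    continuous_const.prodMk ((unitInterval.continuous_symm.comp continuous_fst).prodMk
      continuous_snd)⟩
  have hM0 : ∀ x, M (0, x) = β x := fun x => by
    show G ((), σ 0, x) = _
    rw [unitInterval.symm_zero]
    rfl
  have hMbd : ∀ t (u : Cube.boundary ι), M (t, u.1) = φ (K (σ t, u)) := fun t u => by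
    show hep Fb Kφ hFb ((), σ t, u.1) = _
    rw [hep_boundary]
    rfl
  have hM1 : ∀ x, M (1, x) = b x := fun x => by
    show hep Fb Kφ hFb ((), σ 1, x) = _
    rw [unitInterval.symm_one, hep_zero]
    rfl
  let mid : C(ι → I, B) := (sweep M).comp
    ⟨fun x => (0, 1, x), continuous_const.prodMk (continuous_const.prodMk continuous_id)⟩
  have h₁ : (φ.comp a').HomotopicRel mid (Cube.boundary ι) := ⟨{
    toFun := fun q => hep F₂ K₂ hF₂ (q.1, 1, q.2)
    continuous_toFun := (hep F₂ K₂ hF₂).continuous.comp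
      (continuous_fst.prodMk (continuous_const.prodMk continuous_snd))
    map_zero_left := fun x => by
      show hep F₂ K₂ hF₂ (0, 1, x) = φ (hep F₁ K₁ hF₁ ((), 1, x))
      rw [map_hep]
      exact hep_congr F₂ K₂ hF₂ _ _ _ (s := (0 : I)) (s' := ()) (fun x => Hrel.apply_zero x)
        (fun t u => rfl) 1 x
    map_one_left := fun x => by
      show hep F₂ K₂ hF₂ (1, 1, x) = sweep M (0, 1, x)
      exact (sweep_start M F₂ K₂ hF₂ 1 (fun x => (Hrel.apply_one x).trans (hM0 x).symm)
        (fun t u => (hMbd t u).symm) 1 x).symm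
    prop' := fun t x hx => by
      show hep F₂ K₂ hF₂ (t, 1, (⟨x, hx⟩ : Cube.boundary ι).1) = φ (a' (⟨x, hx⟩ : Cube.boundary ι).1)
      rw [hep_boundary, ha']
      show φ (K (σ 1, _)) = _
      rw [unitInterval.symm_one, hK0] }⟩
  refine h₁.trans ⟨{
    toFun := fun q => sweep M (q.1, σ q.1, q.2)
    continuous_toFun := (sweep M).continuous.comp (continuous_fst.prodMk
      ((unitInterval.continuous_symm.comp continuous_fst).prodMk continuous_snd))
    map_zero_left := fun x => by
      show sweep M (0, σ 0, x) = sweep M (0, 1, x)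
      rw [unitInterval.symm_zero]
    map_one_left := fun x => by
      show sweep M (1, σ 1, x) = b x
      rw [unitInterval.symm_one, sweep_zero, hM1]
    prop' := fun t x hx => by
      show sweep M (t, σ t, (⟨x, hx⟩ : Cube.boundary ι).1) =
        sweep M (0, 1, (⟨x, hx⟩ : Cube.boundary ι).1)
      rw [sweep_boundary, sweep_boundary]
      refine congrArg (fun r => M (r, x)) ?_
      rw [Set.projIcc_of_right_le _ (by simp), Set.projIcc_of_right_le _ (by simp)] }⟩

/-- A map on the boundary of a cube whose image extends is moved to a point, when based cubes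
whose images are trivial are trivial. -/
theorem exists_motion {j : ℕ} (φ : C(A, B)) (a : C(Cube.boundary (Fin (j + 1)), A))
    (b : C(Fin (j + 1) → I, B)) (hab : ∀ u : Cube.boundary (Fin (j + 1)), b u.1 = φ (a u))
    (hinj : ∀ (x₀ : A) (p : C(Fin j → I, A)), (∀ u : Cube.boundary (Fin j), p u.1 = x₀) →
      (φ.comp p).HomotopicRel (ContinuousMap.const _ (φ x₀)) (Cube.boundary (Fin j)) →
      p.HomotopicRel (ContinuousMap.const _ x₀) (Cube.boundary (Fin j))) :
    ∃ (x₀ : A) (K : C(I × Cube.boundary (Fin (j + 1)), A)),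
      (∀ u, K (0, u) = a u) ∧ ∀ u, K (1, u) = x₀ := by
  have hbd : ∀ q : openBox (Fin j),
      (Fin.snoc q.1.1 q.1.2 : Fin (j + 1) → I) ∈ Cube.boundary (Fin (j + 1)) := by
    rintro ⟨⟨u, t⟩, ht | ⟨i, hi⟩⟩
    · exact ⟨Fin.last j, Or.inl (by rw [Fin.snoc_last]; exact ht)⟩
    · exact ⟨i.castSucc, by rw [Fin.snoc_castSucc]; exact hi⟩
  have hsnoc : Continuous fun q : (Fin j → I) × I => (Fin.snoc q.1 q.2 : Fin (j + 1) → I) :=
    continuous_pi fun i => by
      refine Fin.lastCases ?_ (fun i => ?_) i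
      · simpa using! continuous_snd
      · simpa using! (continuous_apply i).comp continuous_fst
  have hinit : Continuous fun x : Fin (j + 1) → I => Fin.init x :=
    continuous_pi fun i : Fin j => continuous_apply (A := fun _ : Fin (j + 1) => I) i.castSucc
  -- the contraction of bottom and sides
  let cmap : C(I × ((Fin j → I) × I), (Fin j → I) × I) :=
    ⟨fun q => (fun i => σ q.1 * q.2.1 i, σ q.1 * q.2.2), by fun_prop⟩
  let D : C(I × ((Fin j → I) × I), A) := a.comp
    ⟨fun q => ⟨Fin.snoc (retract (Fin j) (cmap q)).1.1 (retract (Fin j) (cmap q)).1.2, hbd _⟩,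
      (hsnoc.comp (continuous_subtype_val.comp
        ((retract (Fin j)).continuous.comp cmap.continuous))).subtype_mk _⟩
  let z₀ : openBox (Fin j) := ⟨(fun _ => 0, 0), Or.inl rfl⟩
  let x₀ : A := a ⟨_, hbd z₀⟩
  have hD0 : ∀ q : openBox (Fin j), D (0, q.1) = a ⟨_, hbd q⟩ := fun q => by
    have e : cmap (0, q.1) = q.1 := by simp [cmap]
    refine congrArg a (Subtype.ext ?_)
    show (Fin.snoc (retract (Fin j) (cmap (0, q.1))).1.1 _ : Fin (j + 1) → I) = _
    rw [e, retract_eq]
  have hD1 : ∀ q, D (1, q) = x₀ := fun q => by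
    have e : cmap (1, q) = z₀.1 := by simp [cmap, z₀]
    refine congrArg a (Subtype.ext ?_)
    show (Fin.snoc (retract (Fin j) (cmap (1, q))).1.1 _ : Fin (j + 1) → I) = _
    rw [e, retract_eq]
  -- the free face follows
  let lid : C(Fin j → I, A) := a.comp ⟨fun y => ⟨Fin.snoc y 1, snoc_one_mem_boundary y⟩,
    (hsnoc.comp (continuous_id.prodMk continuous_const)).subtype_mk _⟩
  let F : C(Unit × (Fin j → I), A) := lid.comp ⟨Prod.snd, continuous_snd⟩
  let KD : C(Unit × I × Cube.boundary (Fin j), A) :=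
    D.comp ⟨fun q => (q.2.1, (q.2.2.1, 1)), (continuous_fst.comp continuous_snd).prodMk
      ((continuous_subtype_val.comp (continuous_snd.comp continuous_snd)).prodMk
        continuous_const)⟩
  have hFK : ∀ s u, KD (s, 0, u) = F (s, u.1) := fun s u => hD0 ⟨(u.1, 1), Or.inr u.2⟩
  let E := hep F KD hFK
  let p : C(Fin j → I, A) :=
    E.comp ⟨fun x => ((), 1, x), continuous_const.prodMk (continuous_const.prodMk continuous_id)⟩
  have hp : ∀ u : Cube.boundary (Fin j), p u.1 = x₀ := fun u => by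
    show hep F KD hFK ((), 1, u.1) = _
    rw [hep_boundary]
    exact hD1 _
  let A₁ : C(I × boxSet j, A) := D.comp
    ⟨fun q => (q.1, (Fin.init q.2.1, q.2.1 (Fin.last j))), continuous_fst.prodMk
      ((hinit.comp (continuous_subtype_val.comp continuous_snd)).prodMk
        ((continuous_apply (Fin.last j)).comp (continuous_subtype_val.comp continuous_snd)))⟩
  let B₁ : C(I × (Fin j → I), A) := E.comp ⟨fun q => ((), q.1, q.2),
    continuous_const.prodMk (continuous_fst.prodMk continuous_snd)⟩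
  obtain ⟨Q, hQ1, hQ2⟩ := exists_surface A₁ B₁ fun s u => by
    show D (s, (Fin.init (Fin.snoc u.1 1 : Fin (j + 1) → I),
      (Fin.snoc u.1 1 : Fin (j + 1) → I) (Fin.last j))) = hep F KD hFK ((), s, u.1)
    rw [hep_boundary, Fin.init_snoc, Fin.snoc_last]
    rfl
  have hsplit : ∀ x : Cube.boundary (Fin (j + 1)),
      x.1 ∈ boxSet j ∨ ∃ y, x.1 = Fin.snoc y 1 := by
    rintro ⟨x, i, hi⟩
    revert hi
    refine Fin.lastCases (fun hi => ?_) (fun i hi => ?_) i
    · rcases hi with h | h
      exacts [Or.inl (Or.inl h), Or.inr ⟨Fin.init x, show x = _ by rw [← h, Fin.snoc_init_self]⟩]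
    · exact Or.inl (Or.inr ⟨i, hi⟩)
  have hQ0 : ∀ u, Q (0, u) = a u := by
    intro u
    rcases hsplit u with h | ⟨y, hy⟩
    · rw [show u = ⟨(⟨u.1, h⟩ : boxSet j).1, u.2⟩ from rfl, hQ1]
      refine (hD0 ⟨(Fin.init u.1, u.1 (Fin.last j)), h⟩).trans (congrArg a (Subtype.ext ?_))
      exact Fin.snoc_init_self u.1
    · rw [show u = ⟨Fin.snoc y 1, hy ▸ u.2⟩ from Subtype.ext hy, hQ2]
      show hep F KD hFK ((), 0, y) = _
      rw [hep_zero]
      rfl
  -- the free face is trivial downstairs
  let aP : C(Cube.boundary (Fin (j + 1)), A) :=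
    Q.comp ⟨fun u => (1, u), continuous_const.prodMk continuous_id⟩
  have hb : (b.comp (⟨Subtype.val, continuous_subtype_val⟩ :
      C(Cube.boundary (Fin (j + 1)), Fin (j + 1) → I))).Homotopy (φ.comp aP) :=
    { toFun := fun q => φ (Q q)
      continuous_toFun := φ.continuous.comp Q.continuous
      map_zero_left := fun u => by
        show φ (Q (0, u)) = b u.1
        rw [hQ0, hab]
      map_one_left := fun u => rfl }
  obtain ⟨G, hG⟩ := exists_extension_of_homotopic b (φ.comp aP) hb
  have hbox : ∀ (x : boxSet j) hx, G (⟨x.1, hx⟩ : Cube.boundary (Fin (j + 1))).1 = φ x₀ := by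
    intro x hx
    rw [hG]
    show φ (Q (1, ⟨x.1, hx⟩)) = _
    rw [hQ1]
    exact congrArg φ (hD1 _)
  have hnull : (φ.comp p).HomotopicRel (ContinuousMap.const _ (φ x₀)) (Cube.boundary (Fin j)) := ⟨{
    toFun := fun q => G (Fin.snoc q.2 (σ q.1))
    continuous_toFun := G.continuous.comp
      (hsnoc.comp (continuous_snd.prodMk (unitInterval.continuous_symm.comp continuous_fst)))
    map_zero_left := fun y => by
      show G (Fin.snoc y (σ 0)) = φ (p y)
      rw [unitInterval.symm_zero]
      refine (hG ⟨_, snoc_one_mem_boundary y⟩).trans ?_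
      exact congrArg φ (hQ2 1 y _)
    map_one_left := fun y => by
      show G (Fin.snoc y (σ 1)) = φ x₀
      rw [unitInterval.symm_one]
      have hm : (Fin.snoc y 0 : Fin (j + 1) → I) ∈ boxSet j :=
        Or.inl (Fin.snoc_last (α := fun _ => I) _ _)
      exact hbox ⟨_, hm⟩ (boxSet_subset_boundary hm)
    prop' := fun t y hy => by
      show G (Fin.snoc y (σ t)) = φ (p (⟨y, hy⟩ : Cube.boundary (Fin j)).1)
      rw [hp]
      have hm : (Fin.snoc y (σ t) : Fin (j + 1) → I) ∈ boxSet j :=
        Or.inr (by rw [Fin.init_snoc]; exact hy)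
      exact hbox ⟨_, hm⟩ (boxSet_subset_boundary hm) }⟩
  obtain ⟨H⟩ := hinj x₀ p hp hnull
  let A₂ : C(I × boxSet j, A) := ContinuousMap.const _ x₀
  let B₂ : C(I × (Fin j → I), A) := H.toHomotopy.toContinuousMap
  obtain ⟨R, hR1, hR2⟩ := exists_surface A₂ B₂ fun s u => by
    show x₀ = H (s, u.1)
    rw [H.eq_fst s u.2]
    exact (hp u).symm
  have hR0 : ∀ u, R (0, u) = aP u := by
    intro u
    rcases hsplit u with h | ⟨y, hy⟩
    · rw [show u = ⟨(⟨u.1, h⟩ : boxSet j).1, u.2⟩ from rfl, hR1]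
      show x₀ = Q (1, _)
      rw [hQ1]
      exact (hD1 _).symm
    · rw [show u = ⟨Fin.snoc y 1, hy ▸ u.2⟩ from Subtype.ext hy, hR2]
      show H (0, y) = Q (1, _)
      rw [H.apply_zero, hQ2]
      rfl
  have hR' : ∀ u, R (1, u) = x₀ := by
    intro u
    rcases hsplit u with h | ⟨y, hy⟩
    · rw [show u = ⟨(⟨u.1, h⟩ : boxSet j).1, u.2⟩ from rfl, hR1]
      rfl
    · rw [show u = ⟨Fin.snoc y 1, hy ▸ u.2⟩ from Subtype.ext hy, hR2]
      exact H.apply_one y
  let HQ : a.Homotopy aP :=
    { toContinuousMap := Q, map_zero_left := hQ0, map_one_left := fun _ => rfl }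
  let HR : aP.Homotopy (ContinuousMap.const _ x₀) :=
    { toContinuousMap := R, map_zero_left := hR0, map_one_left := hR' }
  exact ⟨x₀, (HQ.trans HR).toContinuousMap, (HQ.trans HR).apply_zero, (HQ.trans HR).apply_one⟩

/-- Lifting in standard cubes passes to all cubes. -/
theorem relLift_of_fin {k : ℕ} (φ : C(A, B))
    (h : ∀ (a : C(Cube.boundary (Fin k), A)) (b : C(Fin k → I, B)),
      (∀ u : Cube.boundary (Fin k), b u.1 = φ (a u)) →
      ∃ a' : C(Fin k → I, A), (∀ u : Cube.boundary (Fin k), a' u.1 = a u) ∧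
        (φ.comp a').HomotopicRel b (Cube.boundary (Fin k))) : RelLift k φ := by
  intro ι _ hι a b hab
  subst hι
  let e := Fintype.equivFin ι
  have hfwd : ∀ x : ι → I, x ∈ Cube.boundary ι → (fun i => x (e.symm i)) ∈ Cube.boundary _ := by
    rintro x ⟨i, hi⟩
    exact ⟨e i, by simpa using hi⟩
  have hback : ∀ y : Fin (Fintype.card ι) → I, y ∈ Cube.boundary _ →
      (fun i => y (e i)) ∈ Cube.boundary ι := by
    rintro y ⟨i, hi⟩
    exact ⟨e.symm i, by simpa using hi⟩
  let fw : C(ι → I, Fin (Fintype.card ι) → I) :=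
    ⟨fun x i => x (e.symm i), continuous_pi fun i => continuous_apply _⟩
  let bk : C(Fin (Fintype.card ι) → I, ι → I) :=
    ⟨fun y i => y (e i), continuous_pi fun i => continuous_apply _⟩
  have hbf : ∀ x, bk (fw x) = x := fun x => funext fun i => by simp [bk, fw]
  obtain ⟨a', ha', ⟨H⟩⟩ := h
    (a.comp ⟨fun u => ⟨bk u.1, hback _ u.2⟩,
      (bk.continuous.comp continuous_subtype_val).subtype_mk _⟩)
    (b.comp bk) fun u => hab ⟨bk u.1, hback _ u.2⟩
  refine ⟨a'.comp fw, fun u => ?_, ⟨{
    toFun := fun q => H (q.1, fw q.2)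
    continuous_toFun := H.continuous.comp
      (continuous_fst.prodMk (fw.continuous.comp continuous_snd))
    map_zero_left := fun x => H.apply_zero _
    map_one_left := fun x => (H.apply_one _).trans (congrArg b (hbf x))
    prop' := fun t x hx => H.eq_fst t (hfwd x hx) }⟩⟩
  refine (ha' ⟨fw u.1, hfwd _ u.2⟩).trans ?_
  exact congrArg a (Subtype.ext (hbf u.1))

/-- Lifting follows from the maps on homotopy groups. -/
theorem relLiftOfPi : RelLiftOfPi := by
  intro k A B _ _ φ V hV h0 h0' hsurj hinj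
  refine relLift_of_fin φ fun a b hab => ?_
  cases k with
  | zero =>
    obtain ⟨z, hz⟩ := h0 ⟦b fun i => i.elim0⟧
    obtain ⟨x, rfl⟩ := Quotient.exists_rep z
    obtain ⟨γ⟩ : Joined (φ x) (b fun i => i.elim0) := Quotient.exact hz
    refine ⟨ContinuousMap.const _ x, fun u => u.2.choose.elim0, ⟨{
      toFun := fun q => γ q.1
      continuous_toFun := γ.continuous.comp continuous_fst
      map_zero_left := fun _ => γ.source
      map_one_left := fun y => γ.target.trans (congrArg b (funext fun i => i.elim0))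
      prop' := fun t y hy => hy.choose.elim0 }⟩⟩
  | succ j =>
    obtain ⟨x₀, K, hK0, hK1⟩ := exists_motion φ a b hab fun x₀ p hp hnull => by
      cases j with
      | zero =>
        obtain ⟨H⟩ := hnull
        let pt : Fin 0 → I := fun i => i.elim0
        have hj : Joined (φ (p pt)) (φ x₀) :=
          ⟨⟨⟨fun t => H (t, pt), H.continuous.comp (continuous_id.prodMk continuous_const)⟩,
            H.apply_zero pt, H.apply_one pt⟩⟩
        obtain ⟨γ⟩ : Joined (p pt) x₀ :=
          Quotient.exact (h0' le_rfl (a₁ := ⟦p pt⟧) (a₂ := ⟦x₀⟧) (Quotient.sound hj))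
        exact ⟨{
          toFun := fun q => γ q.1
          continuous_toFun := γ.continuous.comp continuous_fst
          map_zero_left := fun y => γ.source.trans (congrArg p (funext fun i => i.elim0))
          map_one_left := fun _ => γ.target
          prop' := fun t y hy => hy.choose.elim0 }⟩
      | succ i =>
        obtain ⟨v, hv, hvx⟩ := hV x₀
        have hi := injective_homotopyGroupMap_of_joined (i + 1) φ hvx (hinj i rfl v hv)
        let p' : GenLoop (Fin (i + 1)) A x₀ := ⟨p, fun y hy => hp ⟨y, hy⟩⟩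
        have he : homotopyGroupMap (i + 1) φ x₀ ⟦p'⟧ =
            homotopyGroupMap (i + 1) φ x₀ ⟦GenLoop.const⟧ := Quotient.sound hnull
        exact (Quotient.exact (hi he) :)
    refine exists_lift_of_motion φ a b hab x₀ K hK0 hK1 fun β hβ => ?_
    obtain ⟨v, hv, hvx⟩ := hV x₀
    obtain ⟨z, hz⟩ := surjective_homotopyGroupMap_of_joined (j + 1) φ hvx (hsurj j rfl v hv)
      ⟦⟨β, fun y hy => hβ ⟨y, hy⟩⟩⟧
    obtain ⟨p, rfl⟩ := Quotient.exists_rep z
    exact ⟨p.1, fun u => p.2 u.1 u.2, (Quotient.exact hz :)⟩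

/-- Extension follows from trivial homotopy groups. -/
theorem cubeExtOfPi : CubeExtOfPi := by
  intro n A _ _ v hv ι _ hι a
  let φ : C(A, PUnit.{1}) := ContinuousMap.const _ PUnit.unit
  have h := relLiftOfPi (Fintype.card ι) A PUnit.{1} φ {v}
    (fun x => ⟨v, rfl, PathConnectedSpace.joined v x⟩)
    (fun z => ⟨⟦v⟧, by
      obtain ⟨y, rfl⟩ := Quotient.exists_rep z
      rfl⟩)
    (fun _ x y _ => by
      obtain ⟨x, rfl⟩ := Quotient.exists_rep x
      obtain ⟨y, rfl⟩ := Quotient.exists_rep y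
      exact Quotient.sound (PathConnectedSpace.joined x y))
    (fun j _ w _ z => ⟨⟦GenLoop.const⟧, by
      obtain ⟨q, rfl⟩ := Quotient.exists_rep z
      exact congrArg _ (GenLoop.ext _ _ fun y => rfl)⟩)
    (fun j hj w hw x y _ => by
      obtain rfl : w = v := hw
      obtain ⟨p, rfl⟩ := Quotient.exists_rep x
      obtain ⟨q, rfl⟩ := Quotient.exists_rep y
      exact Quotient.sound (hv j (by omega) p q))
  obtain ⟨a', ha', -⟩ := h ι rfl a (ContinuousMap.const _ PUnit.unit) fun _ => rfl
  exact ⟨a', ha'⟩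

end Vale.Agent.P259
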