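import Vale.Agent.P259.DiscPiGroups
import Vale.Agent.P259.AssemblyTransport

/-!
# P259 (G): assembly of the equivalence of localizations

From a functor `B` to spaces, a natural zigzag `X ← res X → piInfty (B X)` of weak equivalences
and a natural weak homotopy equivalence `B (piInfty Y) → Y`, the functor induced by `piInfty`
between the localizations is an equivalence.
-/

noncomputable section

open CategoryTheory Opposite

namespace Vale.Agent.P259

variable {C : Coherator}

/-! ## Cancellation for weak equivalences -/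

theorem pi0_map_comp {X Y Z : C.Gpd} (φ : X ⟶ Y) (ψ : Y ⟶ Z) :
    Pi0.map (φ ≫ ψ) = Pi0.map ψ ∘ Pi0.map φ := funext fun q => by
  induction q using Quot.ind with
  | mk a => rfl

theorem piSucc_map_comp (c : IdChoice C) {X Y Z : C.Gpd} (φ : X ⟶ Y) (ψ : Y ⟶ Z)
    (x : C.cells X 0) (m : ℕ) :
    (PiSucc.map c (φ ≫ ψ) x m : PiSucc c X x m → _) =
      PiSucc.map c ψ (φ.hom.app (op (C.ext.D 0)) x) m ∘ PiSucc.map c φ x m := funext fun q => by
  induction q using Quot.ind with
  | mk a => rfl

/-- Cancellation on the right of a composite. -/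
theorem weq_of_comp_right (c : IdChoice C) {X Y Z : C.Gpd} {φ : X ⟶ Y} {ψ : Y ⟶ Z}
    (hψ : weq c ψ) (h : weq c (φ ≫ ψ)) : weq c φ := by
  refine ⟨?_, fun x m => ?_⟩
  · have h0 := h.1
    rw [pi0_map_comp] at h0
    exact (Function.Bijective.of_comp_iff' hψ.1 _).1 h0
  · have h1 := h.2 x m
    rw [piSucc_map_comp] at h1
    exact (Function.Bijective.of_comp_iff' (hψ.2 _ m) _).1 h1

/-- Cancellation on the left of a composite, for a map between fundamental groupoids. -/
theorem isWeakHomotopyEquiv_of_comp_left (c : IdChoice C) {A A' : Type} [TopologicalSpace A]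
    [TopologicalSpace A'] {X : C.Gpd} {φ : X ⟶ C.piTop A} {g : C(A, A')} (hφ : weq c φ)
    (h : weq c (φ ≫ C.piTopMap g)) : IsWeakHomotopyEquiv g := by
  have h0 : Function.Bijective (zerothMap g) := by
    have e : zerothMap g ∘ C.pi0Equiv A = C.pi0Equiv A' ∘ Pi0.map (C.piTopMap g) :=
      funext fun q => (C.pi0Equiv_natural g q).symm
    have h0 := h.1
    rw [pi0_map_comp] at h0
    have h0' := (Function.Bijective.of_comp_iff _ hφ.1).1 h0
    exact (Function.Bijective.of_comp_iff _ (C.pi0Equiv A).bijective).1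
      (e ▸ (C.pi0Equiv A').bijective.comp h0')
  refine ⟨h0, fun z n => ?_⟩
  obtain ⟨q, hq⟩ := hφ.1.2 ((C.pi0Equiv A).symm ⟦z⟧)
  induction q using Quot.ind with
  | mk x =>
    have hj : Joined (C.asMap A (φ.hom.app (op (C.ext.D 0)) x) discPt) z := by
      exact Quotient.exact (s := pathSetoid A)
        ((congrArg (C.pi0Equiv A) hq).trans ((C.pi0Equiv A).apply_symm_apply ⟦z⟧))
    refine bijective_homotopyGroupMap_of_joined (n + 1) g hj ?_
    have h1 := h.2 x n
    rw [piSucc_map_comp] at h1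
    have h1' := (Function.Bijective.of_comp_iff _ (hφ.2 x n)).1 h1
    have e : homotopyGroupMap (n + 1) g (C.asMap A (φ.hom.app (op (C.ext.D 0)) x) discPt) ∘
        C.piSuccEquiv c (φ.hom.app (op (C.ext.D 0)) x) n =
        C.piSuccEquiv c _ n ∘ PiSucc.map c (C.piTopMap g) (φ.hom.app (op (C.ext.D 0)) x) n :=
      funext fun q => (C.piSuccEquiv_natural c g _ n q).symm
    exact (Function.Bijective.of_comp_iff _ (C.piSuccEquiv c _ n).bijective).1
      (e ▸ (C.piSuccEquiv c _ n).bijective.comp h1')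

/-- Cancellation on the left of a composite, for a map of compactly generated spaces. -/
theorem whe_of_weq_comp (c : IdChoice C) {Y Y' : CGTop} {X : C.Gpd}
    {φ : X ⟶ C.discFunctor.piInfty.obj Y} {g : Y ⟶ Y'} (hφ : weq c φ)
    (h : weq c (φ ≫ C.discFunctor.piInfty.map g)) : whe g := by
  have hi : ∀ W : CGTop, weq c (C.piInftyIso.hom.app W) := fun W =>
    (isTrivFib_of_iso (C.piInftyIso.app W)).isEquivMap.weq c
  refine isWeakHomotopyEquiv_of_comp_left c (φ := φ ≫ C.piInftyIso.hom.app Y)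
    (weq_comp c hφ (hi Y)) ?_
  have e : (φ ≫ C.piInftyIso.hom.app Y) ≫ C.piTopMap g.hom.hom =
      (φ ≫ C.discFunctor.piInfty.map g) ≫ C.piInftyIso.hom.app Y' :=
    (Category.assoc _ _ _).trans ((congrArg (φ ≫ ·) (C.piInftyIso.hom.naturality g).symm).trans
      (Category.assoc _ _ _).symm)
  exact Eq.mpr (congrArg (fun k => weq c k) e) (weq_comp c h (hi Y'))

/-! ## Equivalence of localizations -/

section Localizations

variable (c : IdChoice C) (Bf : C.Gpd ⥤ CGTop) {res : C.Gpd ⥤ C.Gpd}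
  {q : res ⟶ 𝟭 C.Gpd} {phi : res ⟶ Bf ⋙ C.discFunctor.piInfty}

/-- A functor to spaces linked to the identity by a zigzag of weak equivalences inverts weak
equivalences. -/
theorem whe_map_of_zigzag (hq : ∀ X, weq c (q.app X)) (hphi : ∀ X, weq c (phi.app X))
    {X Y : C.Gpd} (f : X ⟶ Y) (hf : weq c f) : whe (Bf.map f) := by
  have h1 : weq c (res.map f) := weq_of_comp_right c (hq Y)
    ((q.naturality f).symm ▸ weq_comp c (hq X) hf)
  refine whe_of_weq_comp c (hphi X) ?_
  have e : phi.app X ≫ C.discFunctor.piInfty.map (Bf.map f) = res.map f ≫ phi.app Y :=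
    (phi.naturality f).symm
  exact e ▸ weq_comp c h1 (hphi Y)

/-- The functor induced by `piInfty` on localizations is an equivalence. -/
theorem isEquivalence_piHo (hq : ∀ X, weq c (q.app X)) (hphi : ∀ X, weq c (phi.app X))
    (eps : C.discFunctor.piInfty ⋙ Bf ⟶ 𝟭 CGTop) (heps : ∀ Y, whe (eps.app Y))
    (h : ∀ ⦃Y Z : CGTop⦄ (f : Y ⟶ Z), whe f → weq c (C.discFunctor.piInfty.map f)) :
    (C.discFunctor.piHo c h).IsEquivalence := by
  let G : (weq c).Localization ⥤ whe.Localization :=
    Localization.Construction.lift (Bf ⋙ whe.Q) fun X Y f hf =>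
      Localization.inverts whe.Q whe _ (whe_map_of_zigzag c Bf hq hphi f hf)
  have facG : (weq c).Q ⋙ G = Bf ⋙ whe.Q := Localization.Construction.fac _ _
  have facP : whe.Q ⋙ C.discFunctor.piHo c h = C.discFunctor.piInfty ⋙ (weq c).Q :=
    Localization.Construction.fac _ _
  have : IsIso (Functor.whiskerRight eps whe.Q) := by
    have : ∀ Y, IsIso ((Functor.whiskerRight eps whe.Q).app Y) := fun Y =>
      Localization.inverts whe.Q whe _ (heps Y)
    exact NatIso.isIso_of_isIso_app _
  have : IsIso (Functor.whiskerRight q (weq c).Q) := by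
    have : ∀ X, IsIso ((Functor.whiskerRight q (weq c).Q).app X) := fun X =>
      Localization.inverts (weq c).Q (weq c) _ (hq X)
    exact NatIso.isIso_of_isIso_app _
  have : IsIso (Functor.whiskerRight phi (weq c).Q) := by
    have : ∀ X, IsIso ((Functor.whiskerRight phi (weq c).Q).app X) := fun X =>
      Localization.inverts (weq c).Q (weq c) _ (hphi X)
    exact NatIso.isIso_of_isIso_app _
  let e1 : whe.Q ⋙ C.discFunctor.piHo c h ⋙ G ≅ whe.Q :=
    (Functor.associator _ _ _).symm ≪≫ Functor.isoWhiskerRight (eqToIso facP) G ≪≫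
      Functor.associator _ _ _ ≪≫ Functor.isoWhiskerLeft _ (eqToIso facG) ≪≫
      (Functor.associator _ _ _).symm ≪≫ asIso (Functor.whiskerRight eps whe.Q) ≪≫
      Functor.leftUnitor _
  let e2 : (weq c).Q ⋙ G ⋙ C.discFunctor.piHo c h ≅ (weq c).Q :=
    (Functor.associator _ _ _).symm ≪≫
      Functor.isoWhiskerRight (eqToIso facG) (C.discFunctor.piHo c h) ≪≫
      Functor.associator _ _ _ ≪≫ Functor.isoWhiskerLeft _ (eqToIso facP) ≪≫
      (Functor.associator _ _ _).symm ≪≫ (asIso (Functor.whiskerRight phi (weq c).Q)).symm ≪≫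
      asIso (Functor.whiskerRight q (weq c).Q) ≪≫ Functor.leftUnitor _
  let : Localization.Lifting whe.Q whe (whe.Q ⋙ C.discFunctor.piHo c h ⋙ G)
      (C.discFunctor.piHo c h ⋙ G) := ⟨Iso.refl _⟩
  let : Localization.Lifting whe.Q whe whe.Q (𝟭 whe.Localization) := ⟨Functor.rightUnitor _⟩
  let : Localization.Lifting (weq c).Q (weq c) ((weq c).Q ⋙ G ⋙ C.discFunctor.piHo c h)
      (G ⋙ C.discFunctor.piHo c h) := ⟨Iso.refl _⟩
  let : Localization.Lifting (weq c).Q (weq c) (weq c).Q (𝟭 (weq c).Localization) :=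
    ⟨Functor.rightUnitor _⟩
  exact (CategoryTheory.Equivalence.mk (C.discFunctor.piHo c h) G
    (Localization.liftNatIso whe.Q whe whe.Q (whe.Q ⋙ C.discFunctor.piHo c h ⋙ G)
      (𝟭 whe.Localization) (C.discFunctor.piHo c h ⋙ G) e1.symm)
    (Localization.liftNatIso (weq c).Q (weq c) ((weq c).Q ⋙ G ⋙ C.discFunctor.piHo c h) (weq c).Q
      (G ⋙ C.discFunctor.piHo c h) (𝟭 (weq c).Localization) e2)).isEquivalence_functor

end Localizations

/-- The homotopy hypothesis follows from natural comparison data. -/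
theorem homotopyHypothesis_of_comparison
    (H : ∀ C : Coherator, ∀ c : IdChoice C, ∃ (Bf : C.Gpd ⥤ CGTop) (res : C.Gpd ⥤ C.Gpd)
      (q : res ⟶ 𝟭 C.Gpd) (phi : res ⟶ Bf ⋙ C.discFunctor.piInfty)
      (eps : C.discFunctor.piInfty ⋙ Bf ⟶ 𝟭 CGTop),
      (∀ X, weq c (q.app X)) ∧ (∀ X, weq c (phi.app X)) ∧ ∀ Y, whe (eps.app Y)) :
    HomotopyHypothesis := fun C => ⟨C.discFunctor, fun c => by
  obtain ⟨Bf, res, q, phi, eps, hq, hphi, heps⟩ := H C c
  exact ⟨fun _ _ f hf => C.weq_piInfty_of_whe c f hf,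
    isEquivalence_piHo c Bf hq hphi eps heps _⟩⟩

end Vale.Agent.P259
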