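import Vale.Agent.P259.DiscPiGroups
import Vale.Agent.P259.ApproxLiftDefs

/-!
# P259 (G): the map from the cube to the disc that respects the hemispheres

`cubeDisc (k+1)` sends the box (bottom and sides) of the cube to the lower hemisphere and the top
face to the upper one.  It is injective off the boundary, so loops on discs and on cubes agree.
-/

noncomputable section

open CategoryTheory Opposite
open scoped unitInterval

namespace Vale.Agent.P259

/-- The cube collapsed onto the disc. -/
def cubeDisc : ∀ k : ℕ, C(Fin k → I, Disc k)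
  | 0 => ContinuousMap.const _ discPt
  | k + 1 => (column k).comp ⟨fun u => (u (Fin.last k), cubeDisc k (Fin.init u)),
      (continuous_apply _).prodMk ((cubeDisc k).continuous.comp
        (continuous_pi fun i => continuous_apply i.castSucc))⟩

theorem cubeDisc_succ (k : ℕ) (u : Fin (k + 1) → I) :
    cubeDisc (k + 1) u = column k (u (Fin.last k), cubeDisc k (Fin.init u)) := rfl

theorem norm_column_eq_one {n : ℕ} (t : I) (x : Disc n) :
    ‖(column n (t, x) : EuclideanSpace ℝ (Fin (n + 1)))‖ = 1 ↔
      ‖(x : EuclideanSpace ℝ (Fin n))‖ = 1 ∨ t = 0 ∨ t = 1 := by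
  have hx := norm_sq_le_one x
  have e : ‖(column n (t, x) : EuclideanSpace ℝ (Fin (n + 1)))‖ ^ 2 =
      1 - 4 * (t : ℝ) * (1 - (t : ℝ)) * (1 - ‖(x : EuclideanSpace ℝ (Fin n))‖ ^ 2) := by
    simp only [column, ContinuousMap.coe_mk]
    rw [norm_sq_split, dropLast_hemisphere, hemisphere_last, mul_pow,
      Real.sq_sqrt (by linarith)]
    ring
  rw [← pow_eq_one_iff_of_nonneg (norm_nonneg _) two_ne_zero, e,
    ← pow_eq_one_iff_of_nonneg (norm_nonneg (x : EuclideanSpace ℝ (Fin n))) two_ne_zero]
  constructor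
  · intro h
    have h' : (t : ℝ) * (1 - (t : ℝ)) * (1 - ‖(x : EuclideanSpace ℝ (Fin n))‖ ^ 2) = 0 := by
      linarith
    rcases mul_eq_zero.1 h' with h'' | h''
    · rcases mul_eq_zero.1 h'' with h0 | h0
      · exact Or.inr (Or.inl (Subtype.ext h0))
      · exact Or.inr (Or.inr (Subtype.ext (show (t : ℝ) = 1 by linarith)))
    · exact Or.inl (by linarith)
  · rintro (h | rfl | rfl)
    · rw [h]; ring
    · simp
    · simp

theorem cubeDisc_mem_boundary : ∀ (k : ℕ) (u : Fin k → I),
    cubeDisc k u ∈ discBoundary k ↔ u ∈ Cube.boundary (Fin k)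
  | 0, u => ⟨fun h => absurd h (disc_zero_norm _), fun ⟨i, _⟩ => i.elim0⟩
  | k + 1, u => by
    refine (norm_column_eq_one _ _).trans ?_
    refine (or_congr_left (cubeDisc_mem_boundary k (Fin.init u))).trans ?_
    constructor
    · rintro (⟨i, hi⟩ | h)
      exacts [⟨i.castSucc, hi⟩, ⟨Fin.last k, h⟩]
    · rintro ⟨i, hi⟩
      induction i using Fin.lastCases with
      | last => exact Or.inr hi
      | cast i => exact Or.inl ⟨i, hi⟩

theorem cubeDisc_box (k : ℕ) {u : Fin (k + 1) → I} (hu : u ∈ boxSet k) :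
    cubeDisc (k + 1) u = low k (cubeDisc k (Fin.init u)) := by
  rw [cubeDisc_succ]
  rcases hu with h | h
  · rw [h, column_zero]
  · exact column_boundary _ _ ((cubeDisc_mem_boundary k _).2 h)

theorem cubeDisc_face (k : ℕ) (v : Fin k → I) :
    cubeDisc (k + 1) (Fin.snoc v 1) = high k (cubeDisc k v) := by
  rw [cubeDisc_succ, Fin.init_snoc, Fin.snoc_last, column_one]

theorem drop_cubeDisc (k : ℕ) (u : Fin (k + 1) → I) :
    drop k (cubeDisc (k + 1) u) = cubeDisc k (Fin.init u) :=
  Subtype.ext (dropLast_hemisphere k _ _)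

theorem cubeDisc_surjective : ∀ k, Function.Surjective (cubeDisc k)
  | 0 => fun p => ⟨fun i => i.elim0, (disc_zero_eq p).symm⟩
  | k + 1 => fun p => by
    obtain ⟨⟨t, x⟩, rfl⟩ := column_surjective k p
    obtain ⟨v, rfl⟩ := cubeDisc_surjective k x
    exact ⟨Fin.snoc v t, by rw [cubeDisc_succ, Fin.init_snoc, Fin.snoc_last]⟩

theorem eq_of_cubeDisc_eq : ∀ (k : ℕ) {u v : Fin k → I}, cubeDisc k u = cubeDisc k v →
    u ∉ Cube.boundary (Fin k) → u = v
  | 0, u, v, _, _ => funext fun i => i.elim0
  | k + 1, u, v, h, hu => by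
    obtain ⟨h2, h1⟩ := column_eq_iff h
    have hi : Fin.init u ∉ Cube.boundary (Fin k) := fun ⟨i, hi⟩ => hu ⟨i.castSucc, hi⟩
    have e := eq_of_cubeDisc_eq k h2 hi
    have ht : u (Fin.last k) = v (Fin.last k) :=
      h1.resolve_left fun hn => hi ((cubeDisc_mem_boundary k _).1 hn)
    rw [← Fin.snoc_init_self u, ← Fin.snoc_init_self v, e, ht]

theorem isQuotientMap_cubeDisc (k : ℕ) : Topology.IsQuotientMap (cubeDisc k) :=
  ((cubeDisc k).continuous.isClosedMap).isQuotientMap (cubeDisc k).continuous
    (cubeDisc_surjective k)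

section Descend

variable {Z : Type} [TopologicalSpace Z] {k : ℕ}

/-- A map constant on the boundary of the cube descends to the disc. -/
theorem exists_descend (f : C(Fin k → I, Z)) {z : Z} (hf : ∀ u ∈ Cube.boundary (Fin k), f u = z) :
    ∃ a : C(Disc k, Z), a.comp (cubeDisc k) = f := by
  have hfac : Function.FactorsThrough f (cubeDisc k) := fun u v h => by
    by_cases hu : u ∈ Cube.boundary (Fin k)
    · rw [hf u hu, hf v ((cubeDisc_mem_boundary k v).1 (h ▸ (cubeDisc_mem_boundary k u).2 hu))]
    · rw [eq_of_cubeDisc_eq k h hu]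
  exact ⟨(isQuotientMap_cubeDisc k).lift f hfac, (isQuotientMap_cubeDisc k).lift_comp f hfac⟩

/-- Relative homotopy can be checked on the cube. -/
theorem homotopicRel_comp_cubeDisc_iff (a b : C(Disc k, Z)) :
    (a.comp (cubeDisc k)).HomotopicRel (b.comp (cubeDisc k)) (Cube.boundary (Fin k)) ↔
      a.HomotopicRel b (discBoundary k) := by
  constructor
  · rintro ⟨H⟩
    let c' : C(I × (Fin k → I), I × Disc k) :=
      ⟨fun w => (w.1, cubeDisc k w.2), continuous_fst.prodMk ((cubeDisc k).continuous.comp continuous_snd)⟩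
    have hq : Topology.IsQuotientMap c' :=
      (c'.continuous.isClosedMap).isQuotientMap c'.continuous fun w => by
        obtain ⟨v, hv⟩ := cubeDisc_surjective k w.2
        exact ⟨(w.1, v), Prod.ext rfl hv⟩
    have hfac : Function.FactorsThrough H.toHomotopy.toContinuousMap c' := by
      rintro ⟨s, u⟩ ⟨t, v⟩ h
      obtain rfl : s = t := congrArg Prod.fst h
      have h' : cubeDisc k u = cubeDisc k v := congrArg Prod.snd h
      by_cases hu : u ∈ Cube.boundary (Fin k)
      · have hv := (cubeDisc_mem_boundary k v).1 (h' ▸ (cubeDisc_mem_boundary k u).2 hu)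
        show H (s, u) = H (s, v)
        exact (H.eq_fst s hu).trans ((congrArg a h').trans (H.eq_fst s hv).symm)
      · rw [eq_of_cubeDisc_eq k h' hu]
    let K := hq.lift H.toHomotopy.toContinuousMap hfac
    have hK : ∀ s u, K (s, cubeDisc k u) = H (s, u) := fun s u =>
      ContinuousMap.congr_fun (hq.lift_comp H.toHomotopy.toContinuousMap hfac) (s, u)
    exact ⟨{
      toFun := K
      continuous_toFun := K.continuous
      map_zero_left := fun p => by
        obtain ⟨u, rfl⟩ := cubeDisc_surjective k p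
        exact (hK 0 u).trans (H.apply_zero u)
      map_one_left := fun p => by
        obtain ⟨u, rfl⟩ := cubeDisc_surjective k p
        exact (hK 1 u).trans (H.apply_one u)
      prop' := fun s p hp => by
        obtain ⟨u, rfl⟩ := cubeDisc_surjective k p
        exact (hK s u).trans (H.prop' s u ((cubeDisc_mem_boundary k u).1 hp)) }⟩
  · rintro ⟨H⟩
    exact ⟨{
      toFun := fun w => H (w.1, cubeDisc k w.2)
      continuous_toFun := H.continuous.comp
        (continuous_fst.prodMk ((cubeDisc k).continuous.comp continuous_snd))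
      map_zero_left := fun u => H.apply_zero _
      map_one_left := fun u => H.apply_one _
      prop' := fun s u hu => H.prop' s _ ((cubeDisc_mem_boundary k u).2 hu) }⟩

end Descend

variable (C : Coherator) {Z : Type} [TopologicalSpace Z]

/-- A loop of the fundamental groupoid as a based cube. -/
def Coherator.cubeLoop (c : IdChoice C) (x : C.cells (C.piTop Z) 0) (m : ℕ)
    (a : Loop c (C.piTop Z) x m) : GenLoop (Fin (m + 1)) Z (C.asMap Z x discPt) :=
  ⟨(C.asMap Z a.1).comp (cubeDisc (m + 1)), fun u hu =>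
    (C.loop_iff c x m a.1).1 a.2 _ ((cubeDisc_mem_boundary _ u).2 hu)⟩

/-- Homotopy sets of the fundamental groupoid as homotopy groups, hemispheres respected. -/
def Coherator.cubeClass (c : IdChoice C) (x : C.cells (C.piTop Z) 0) (m : ℕ) :
    PiSucc c (C.piTop Z) x m → HomotopyGroup (Fin (m + 1)) Z (C.asMap Z x discPt) :=
  Quot.lift (fun a => ⟦C.cubeLoop c x m a⟧) fun a b h => Quotient.sound
    ((homotopicRel_comp_cubeDisc_iff (C.asMap Z a.1) (C.asMap Z b.1)).2 ((C.cellRel_iff a.1 b.1).1 h))

theorem Coherator.cubeClass_bijective (c : IdChoice C) (x : C.cells (C.piTop Z) 0) (m : ℕ) :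
    Function.Bijective (C.cubeClass c x m) := by
  constructor
  · rintro ⟨a⟩ ⟨b⟩ h
    exact Quot.sound ((C.cellRel_iff a.1 b.1).2 ((homotopicRel_comp_cubeDisc_iff (C.asMap Z a.1)
      (C.asMap Z b.1)).1 (Quotient.exact h)))
  · rintro ⟨p⟩
    obtain ⟨a, ha⟩ := exists_descend p.1 (fun u hu => p.2 u hu)
    have hb : ∀ q ∈ discBoundary (m + 1), a q = C.asMap Z x discPt := fun q hq => by
      obtain ⟨u, rfl⟩ := cubeDisc_surjective (m + 1) q
      exact (ContinuousMap.congr_fun ha u).trans (p.2 u ((cubeDisc_mem_boundary _ u).1 hq))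
    exact ⟨Quot.mk _ ⟨a, (C.loop_iff c x m a).2 hb⟩,
      congrArg (Quotient.mk _) (Subtype.ext ha)⟩

end Vale.Agent.P259
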