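import Vale.Agent.P259.Assembly

/-!
# P259 (G): homotopies of globular maps into a fundamental groupoid preserve weak equivalences
-/

noncomputable section

open CategoryTheory Opposite
open scoped unitInterval

namespace Vale.Agent.P259

section Motion

variable {ι : Type} [Fintype ι] {Z : Type} [TopologicalSpace Z] {x y : Z}

open scoped Classical in
/-- A free homotopy whose boundary motion deforms to a path computes the slide along that path. -/
theorem homotopic_slideLoop_of_motion (γ : Path x y) (p : GenLoop ι Z x) (q : GenLoop ι Z y)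
    (F : C((ι → I) × I, Z)) (h0 : ∀ u, F (u, 0) = p.1 u) (h1 : ∀ u, F (u, 1) = q.1 u)
    (M : C(I × ((ι → I) × I), Z))
    (hM0 : ∀ t, ∀ u ∈ Cube.boundary ι, M (0, (u, t)) = F (u, t))
    (hM1 : ∀ t, ∀ u ∈ Cube.boundary ι, M (1, (u, t)) = γ t)
    (hMx : ∀ s, ∀ u ∈ Cube.boundary ι, M (s, (u, 0)) = x)
    (hMy : ∀ s, ∀ u ∈ Cube.boundary ι, M (s, (u, 1)) = y) :
    GenLoop.Homotopic q (slideLoop γ p) := by
  let u₀ : CubeLemma.openBox (Option ι) → (ι → I) := fun z i => z.1.1 (some i)
  have hu₀ : Continuous u₀ := by fun_prop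
  let P : CubeLemma.openBox (Option ι) → Z := fun z =>
    if u₀ z ∈ Cube.boundary ι then M (z.1.2, (u₀ z, z.1.1 none)) else F (u₀ z, z.1.1 none)
  have hP2 : ∀ z : CubeLemma.openBox (Option ι),
      (z.1.2 = 0 ∨ z.1.1 none = 0 ∨ z.1.1 none = 1) → P z = F (u₀ z, z.1.1 none) := by
    intro z hz
    by_cases hb : u₀ z ∈ Cube.boundary ι
    · refine (if_pos hb).trans ?_
      rcases hz with e | e | e
      · rw [e]; exact hM0 _ _ hb
      · rw [e, h0, p.2 _ hb]; exact hMx _ _ hb
      · rw [e, h1, q.2 _ hb]; exact hMy _ _ hb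
    · exact if_neg hb
  have hPc : Continuous P := by
    have hcov : {z : CubeLemma.openBox (Option ι) | u₀ z ∈ Cube.boundary ι} ∪
        {z | z.1.2 = 0 ∨ z.1.1 none = 0 ∨ z.1.1 none = 1} = Set.univ :=
      Set.eq_univ_of_forall fun z => by
        rcases z.2 with h | ⟨o, ho⟩
        · exact Or.inr (Or.inl h)
        · cases o with
          | none => exact Or.inr (Or.inr ho)
          | some i => exact Or.inl ⟨i, ho⟩
    rw [← continuousOn_univ, ← hcov]
    refine ContinuousOn.union_of_isClosed ?_ ?_ (CubeLemma.isClosed_boundary.preimage hu₀) ?_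
    · refine ContinuousOn.congr (Continuous.continuousOn ?_) fun z hz => if_pos hz
      exact M.continuous.comp (by fun_prop)
    · refine ContinuousOn.congr (Continuous.continuousOn ?_) fun z hz => hP2 z hz
      exact F.continuous.comp (by fun_prop)
    · exact (isClosed_eq (by fun_prop) continuous_const).union
        ((isClosed_eq (by fun_prop) continuous_const).union
          (isClosed_eq (by fun_prop) continuous_const))
  let emb : (ι → I) × I → ((Option ι → I) × I) := fun z => (fun o => o.elim z.2 z.1, 1)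
  have hemb : Continuous emb := (continuous_pi fun o => by
    cases o with
    | none => exact continuous_snd
    | some i => exact (continuous_apply i).comp continuous_fst).prodMk continuous_const
  refine slideLoop_unique γ p q ⟨fun z => P (CubeLemma.retract (Option ι) (emb z)),
    hPc.comp ((CubeLemma.retract (Option ι)).continuous.comp hemb)⟩ (fun u => ?_) (fun u => ?_)
    fun t u hu => ?_
  · show P (CubeLemma.retract (Option ι) (emb (u, 0))) = _
    rw [CubeLemma.retract_eq ⟨emb (u, 0), Or.inr ⟨none, Or.inl rfl⟩⟩]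
    exact (hP2 _ (Or.inr (Or.inl rfl))).trans (h0 u)
  · show P (CubeLemma.retract (Option ι) (emb (u, 1))) = _
    rw [CubeLemma.retract_eq ⟨emb (u, 1), Or.inr ⟨none, Or.inr rfl⟩⟩]
    exact (hP2 _ (Or.inr (Or.inr rfl))).trans (h1 u)
  · show P (CubeLemma.retract (Option ι) (emb (u, t))) = _
    rw [CubeLemma.retract_eq ⟨emb (u, t), Or.inr (by obtain ⟨i, hi⟩ := hu; exact ⟨some i, hi⟩)⟩]
    exact (if_pos hu).trans (hM1 t u hu)

end Motion

/-- Shrinking a disc to its centre. -/
def discShrink (n : ℕ) : C(I × Disc n, Disc n) where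
  toFun z := ⟨(1 - (z.1 : ℝ)) • (z.2 : EuclideanSpace ℝ (Fin n)), by
    rw [mem_closedBall_zero_iff, norm_smul, Real.norm_of_nonneg (by linarith [z.1.2.2])]
    exact mul_le_one₀ (by linarith [z.1.2.1]) (norm_nonneg _) (norm_le_one _)⟩
  continuous_toFun := by fun_prop

theorem discShrink_zero (n : ℕ) (p : Disc n) : discShrink n (0, p) = p :=
  Subtype.ext (by simp [discShrink])

/-- The centre of a disc. -/
def discCentre (n : ℕ) : Disc n := ⟨0, by simp⟩

theorem discShrink_one (n : ℕ) (p : Disc n) : discShrink n (1, p) = discCentre n :=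
  Subtype.ext (by simp [discShrink, discCentre])

variable (C : Coherator) {Z : Type} [TopologicalSpace Z]

/-- A cell of the groupoid of a path space as a moving disc. -/
def Coherator.moving {n : ℕ} (a : C.cells (C.piTop C(I, Z)) n) : C(Disc n × I, Z) :=
  (C.asMap C(I, Z) a).uncurry

/-- Two globular maps into a fundamental groupoid are homotopic through globular maps. -/
def Coherator.GRel {G : GSet} (f g : GHom G (C.gs (C.piTop Z))) : Prop :=
  ∃ H : GHom G (C.gs (C.piTop C(I, Z))),
    (∀ n (a : G.cell n) (p : Disc n), C.moving (H.app n a) (p, 0) = C.asMap Z (f.app n a) p) ∧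
      ∀ n (a : G.cell n) (p : Disc n), C.moving (H.app n a) (p, 1) = C.asMap Z (g.app n a) p

theorem Coherator.moving_src {n : ℕ} (a : C.cells (C.piTop C(I, Z)) (n + 1)) (p : Disc n) (t : I) :
    C.moving (act (C.piTop C(I, Z)).obj (C.ext.src n) a) (p, t) = C.moving a (low n p, t) :=
  congrArg (fun m : C(Disc n, C(I, Z)) => m p t) (C.piTop_src C(I, Z) n a)

theorem Coherator.moving_tgt {n : ℕ} (a : C.cells (C.piTop C(I, Z)) (n + 1)) (p : Disc n) (t : I) :
    C.moving (act (C.piTop C(I, Z)).obj (C.ext.tgt n) a) (p, t) = C.moving a (high n p, t) :=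
  congrArg (fun m : C(Disc n, C(I, Z)) => m p t) (C.piTop_tgt C(I, Z) n a)

theorem Coherator.GRel.symm {G : GSet} {f g : GHom G (C.gs (C.piTop Z))} (h : C.GRel f g) :
    C.GRel g f := by
  obtain ⟨H, h0, h1⟩ := h
  let rev : C(C(I, Z), C(I, Z)) :=
    ⟨fun γ => γ.comp ⟨σ, unitInterval.continuous_symm⟩, ContinuousMap.continuous_precomp _⟩
  refine ⟨H.comp (gsMap (C.piTopMap rev).hom), fun n a p => ?_, fun n a p => ?_⟩
  · show C.moving (H.app n a) (p, σ 0) = _
    rw [unitInterval.symm_zero]
    exact h1 n a p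
  · show C.moving (H.app n a) (p, σ 1) = _
    rw [unitInterval.symm_one]
    exact h0 n a p

theorem Coherator.GRel.comp_left {G K : GSet} (k : GHom K G) {f g : GHom G (C.gs (C.piTop Z))}
    (h : C.GRel f g) : C.GRel (k.comp f) (k.comp g) := by
  obtain ⟨H, h0, h1⟩ := h
  exact ⟨k.comp H, fun n a p => h0 n _ p, fun n a p => h1 n _ p⟩

/-- Concatenation of two moving discs with a common middle. -/
def movConcat {n : ℕ} (a b : C(Disc n × I, Z)) (h : ∀ p, a (p, 1) = b (p, 0)) :
    C(Disc n × I, Z) where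
  toFun z := if (z.2 : ℝ) ≤ 1 / 2 then a (z.1, Set.projIcc 0 1 zero_le_one (2 * (z.2 : ℝ)))
    else b (z.1, Set.projIcc 0 1 zero_le_one (2 * (z.2 : ℝ) - 1))
  continuous_toFun := by
    refine continuous_if_le (by fun_prop) continuous_const ?_ ?_ ?_
    · exact (a.continuous.comp (continuous_fst.prodMk
        (continuous_projIcc.comp (by fun_prop)))).continuousOn
    · exact (b.continuous.comp (continuous_fst.prodMk
        (continuous_projIcc.comp (by fun_prop)))).continuousOn
    · intro z hz
      rw [hz]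
      norm_num
      exact h z.1

theorem movConcat_comp {n m : ℕ} (j : C(Disc m, Disc n)) (a b : C(Disc n × I, Z))
    (h : ∀ p, a (p, 1) = b (p, 0)) (a' b' : C(Disc m × I, Z))
    (h' : ∀ p, a' (p, 1) = b' (p, 0)) (ea : ∀ p t, a (j p, t) = a' (p, t))
    (eb : ∀ p t, b (j p, t) = b' (p, t)) :
    (movConcat a b h).curry.comp j = (movConcat a' b' h').curry := by
  refine ContinuousMap.ext fun p => ContinuousMap.ext fun t => ?_
  show (if (t : ℝ) ≤ 1 / 2 then a (j p, _) else b (j p, _)) =
    if (t : ℝ) ≤ 1 / 2 then a' (p, _) else b' (p, _)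
  rw [ea, eb]

theorem Coherator.GRel.trans {G : GSet} {f g k : GHom G (C.gs (C.piTop Z))} (h : C.GRel f g)
    (h' : C.GRel g k) : C.GRel f k := by
  obtain ⟨H, hH0, hH1⟩ := h
  obtain ⟨K, hK0, hK1⟩ := h'
  have hmid : ∀ n (a : G.cell n) p, C.moving (H.app n a) (p, 1) = C.moving (K.app n a) (p, 0) :=
    fun n a p => (hH1 n a p).trans (hK0 n a p).symm
  refine ⟨⟨fun n a => (movConcat (C.moving (H.app n a)) (C.moving (K.app n a)) (hmid n a)).curry,
    fun n a => ?_, fun n a => ?_⟩, fun n a p => ?_, fun n a p => ?_⟩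
  · refine (C.piTop_src C(I, Z) n _).trans (movConcat_comp (low n) _ _ _ _ _ _ ?_ ?_)
    · intro p t
      rw [← C.moving_src, ← H.app_s]
    · intro p t
      rw [← C.moving_src, ← K.app_s]
  · refine (C.piTop_tgt C(I, Z) n _).trans (movConcat_comp (high n) _ _ _ _ _ _ ?_ ?_)
    · intro p t
      rw [← C.moving_tgt, ← H.app_t]
    · intro p t
      rw [← C.moving_tgt, ← K.app_t]
  · show (if ((0 : I) : ℝ) ≤ 1 / 2 then C.moving (H.app n a) (p, _) else _) = _
    norm_num
    exact hH0 n a p
  · show (if ((1 : I) : ℝ) ≤ 1 / 2 then _ else C.moving (K.app n a) (p, _)) = _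
    norm_num
    exact hK1 n a p

/-- The slide relating the two maps on a homotopy group. -/
theorem Coherator.exists_slide_of_gRel (c : IdChoice C) {X : C.Gpd} {φ ψ : X ⟶ C.piTop Z}
    (h : C.GRel (gsMap φ.hom) (gsMap ψ.hom)) (x : C.cells X 0) (m : ℕ) :
    ∃ γ : Path (C.asMap Z (C.mapCell φ 0 x) discPt) (C.asMap Z (C.mapCell ψ 0 x) discPt),
      ∀ a : PiSucc c X x m, C.piSuccEquiv c (C.mapCell ψ 0 x) m (PiSucc.map c ψ x m a) =
        slideClass γ (C.piSuccEquiv c (C.mapCell φ 0 x) m (PiSucc.map c φ x m a)) := by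
  obtain ⟨H, h0, h1⟩ := h
  let G : C(Disc m × I, Z) := C.moving (H.app m (idCell c X x m))
  have hG0 : ∀ p, G (p, 0) = C.asMap Z (C.mapCell φ 0 x) discPt := by
    intro p
    refine (h0 m _ p).trans ?_
    show C.asMap Z (C.mapCell φ m (idCell c X x m)) p = _
    rw [Coherator.mapCell, idCell_map c φ x m, C.idCell_piTop]
    rfl
  have hG1 : ∀ p, G (p, 1) = C.asMap Z (C.mapCell ψ 0 x) discPt := by
    intro p
    refine (h1 m _ p).trans ?_
    show C.asMap Z (C.mapCell ψ m (idCell c X x m)) p = _
    rw [Coherator.mapCell, idCell_map c ψ x m, C.idCell_piTop]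
    rfl
  let γ : Path (C.asMap Z (C.mapCell φ 0 x) discPt) (C.asMap Z (C.mapCell ψ 0 x) discPt) :=
    { toFun := fun t => G (discCentre m, t)
      continuous_toFun := G.continuous.comp (continuous_const.prodMk continuous_id)
      source' := hG0 _
      target' := hG1 _ }
  refine ⟨γ, fun a => ?_⟩
  induction a using Quot.ind with
  | mk a =>
    let θ := discCube (m + 1)
    let F : C((Fin (m + 1) → I) × I, Z) := (C.moving (H.app (m + 1) a.1)).comp
      ⟨fun z => (θ.symm z.1, z.2),
        (θ.symm.continuous.comp continuous_fst).prodMk continuous_snd⟩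
    let M : C(I × ((Fin (m + 1) → I) × I), Z) := G.comp
      ⟨fun w => (discShrink m (w.1, drop m (θ.symm w.2.1)), w.2.2),
        ((discShrink m).continuous.comp (continuous_fst.prodMk ((drop m).continuous.comp
          (θ.symm.continuous.comp (continuous_fst.comp continuous_snd))))).prodMk
          (continuous_snd.comp continuous_snd)⟩
    refine Quotient.sound (homotopic_slideLoop_of_motion γ _ _ F (fun u => ?_) (fun u => ?_) M
      (fun t u hu => ?_) (fun t u _ => ?_) (fun s u _ => ?_) fun s u _ => ?_)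
    · exact h0 (m + 1) a.1 (θ.symm u)
    · exact h1 (m + 1) a.1 (θ.symm u)
    · show G (discShrink m (0, drop m (θ.symm u)), t) = C.moving (H.app (m + 1) a.1) (θ.symm u, t)
      rw [discShrink_zero]
      have hn : θ.symm u ∈ discBoundary (m + 1) := by
        rw [discCube_boundary, θ.apply_symm_apply]
        exact hu
      rcases le_total 0 ((θ.symm u : EuclideanSpace ℝ (Fin (m + 1))) (Fin.last m)) with hp | hp
      · conv_rhs => rw [(sphere_cases _ hn).1 hp]
        rw [← C.moving_tgt]
        exact congrArg (fun b => C.moving b (drop m (θ.symm u), t))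
          ((congrArg (H.app m) a.2.2).symm.trans (H.app_t m a.1).symm)
      · conv_rhs => rw [(sphere_cases _ hn).2 hp]
        rw [← C.moving_src]
        exact congrArg (fun b => C.moving b (drop m (θ.symm u), t))
          ((congrArg (H.app m) a.2.1).symm.trans (H.app_s m a.1).symm)
    · show G (discShrink m (1, _), t) = G (discCentre m, t)
      rw [discShrink_one]
    · exact hG0 _
    · exact hG1 _

/-- Homotopic maps into a fundamental groupoid are weak equivalences together. -/
theorem Coherator.weq_of_gRel (c : IdChoice C) {X : C.Gpd} {φ ψ : X ⟶ C.piTop Z}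
    (h : C.GRel (gsMap φ.hom) (gsMap ψ.hom)) (hφ : weq c φ) : weq c ψ := by
  have e0 : Pi0.map ψ = Pi0.map φ := funext fun q => by
    induction q using Quot.ind with
    | mk x =>
      refine (C.pi0Equiv Z).injective ?_
      obtain ⟨H, h0, h1⟩ := h
      refine Quotient.sound ?_
      exact ⟨(Path.mk ((C.moving (H.app 0 x)).comp
        ⟨fun t => (discPt, t), by fun_prop⟩) (h0 0 x discPt) (h1 0 x discPt)).symm⟩
  refine ⟨e0 ▸ hφ.1, fun x m => ?_⟩
  obtain ⟨γ, hγ⟩ := C.exists_slide_of_gRel c h x m
  have e : (C.piSuccEquiv c (C.mapCell ψ 0 x) m) ∘ PiSucc.map c ψ x m =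
      slideClass γ ∘ (C.piSuccEquiv c (C.mapCell φ 0 x) m ∘ PiSucc.map c φ x m) := funext hγ
  refine (Function.Bijective.of_comp_iff' (C.piSuccEquiv c (C.mapCell ψ 0 x) m).bijective _).1 ?_
  rw [e]
  exact (slideClass_bijective γ).comp ((C.piSuccEquiv c _ m).bijective.comp (hφ.2 x m))

/-- A map of spaces is a weak homotopy equivalence once some weak equivalence into its source
becomes, after composing with it, homotopic to a weak equivalence. -/
theorem Coherator.isWeakHomotopyEquiv_of_gRel (c : IdChoice C) {A : Type} [TopologicalSpace A]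
    {X : C.Gpd} {φ : X ⟶ C.piTop A} {g : C(A, Z)} {ψ : X ⟶ C.piTop Z} (hφ : weq c φ)
    (hψ : weq c ψ) (h : C.GRel (gsMap (φ ≫ C.piTopMap g).hom) (gsMap ψ.hom)) :
    IsWeakHomotopyEquiv g :=
  isWeakHomotopyEquiv_of_comp_left c hφ (C.weq_of_gRel c h.symm hψ)

end Vale.Agent.P259
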