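import Vale.Agent.P259.Ops

/-!
# P259: the path object, as data

`PathData C` collects what the later files use from the path object of a coherator.  It is
constructed (for every coherator) in the files `Cyl*.lean`.
-/

open CategoryTheory Opposite

namespace Vale.Agent.P259

variable {C : Coherator}

/-- The component of a map of groupoids on `n`-cells. -/
abbrev Coherator.mapCell {X Y : C.Gpd} (φ : X ⟶ Y) (n : ℕ) (a : C.cells X n) : C.cells Y n :=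
  φ.hom.app (op (C.ext.D n)) a

/-- The component of a map of groupoids at a globular sum. -/
abbrev Coherator.mapAt {X Y : C.Gpd} (φ : X ⟶ Y) (S : GSum) (x : X.obj.obj (op ⟨S⟩)) :
    Y.obj.obj (op ⟨S⟩) :=
  φ.hom.app (op ⟨S⟩) x

/-- Fibrations: cells downstairs lift with prescribed source. -/
def IsFib {X Y : C.Gpd} (φ : X ⟶ Y) : Prop :=
  ∀ (n : ℕ) (a : C.cells X n) (h : C.cells Y (n + 1)),
    act Y.obj (C.ext.src n) h = C.mapCell φ n a →
      ∃ h' : C.cells X (n + 1), act X.obj (C.ext.src n) h' = a ∧ C.mapCell φ (n + 1) h' = h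

/-- Trivial fibrations. -/
def IsTrivFib {X Y : C.Gpd} (φ : X ⟶ Y) : Prop :=
  Function.Surjective (C.mapCell φ 0) ∧
    ∀ (n : ℕ) (a b : C.cells X n) (h : C.cells Y (n + 1)),
      (C.gs X).Par a b →
      act Y.obj (C.ext.src n) h = C.mapCell φ n a →
      act Y.obj (C.ext.tgt n) h = C.mapCell φ n b →
      ∃ h' : C.cells X (n + 1), act X.obj (C.ext.src n) h' = a ∧
        act X.obj (C.ext.tgt n) h' = b ∧ C.mapCell φ (n + 1) h' = h

/-- A chosen lifting operation making a pair of maps `π0, π1 : W ⟶ X` a fibration to `X × X`. -/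
structure PairLift {W X : C.Gpd} (π0 π1 : W ⟶ X) where
  lift : ∀ (n : ℕ) (y : C.cells W n) (f0 f1 : C.cells X (n + 1)),
    act X.obj (C.ext.src n) f0 = C.mapCell π0 n y →
    act X.obj (C.ext.src n) f1 = C.mapCell π1 n y → C.cells W (n + 1)
  lift_src : ∀ n y f0 f1 h0 h1, act W.obj (C.ext.src n) (lift n y f0 f1 h0 h1) = y
  lift_π0 : ∀ n y f0 f1 h0 h1, C.mapCell π0 (n + 1) (lift n y f0 f1 h0 h1) = f0
  lift_π1 : ∀ n y f0 f1 h0 h1, C.mapCell π1 (n + 1) (lift n y f0 f1 h0 h1) = f1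

/-- A map of pairs commuting with the chosen lifting operations. -/
def PairLift.Commutes {W X W' X' : C.Gpd} {π0 π1 : W ⟶ X} {π0' π1' : W' ⟶ X'}
    (L : PairLift π0 π1) (L' : PairLift π0' π1') (w : W ⟶ W') (f : X ⟶ X') : Prop :=
  π0 ≫ f = w ≫ π0' ∧ π1 ≫ f = w ≫ π1' ∧
    ∀ n y f0 f1 h0 h1 h0' h1',
      C.mapCell w (n + 1) (L.lift n y f0 f1 h0 h1)
        = L'.lift n (C.mapCell w n y) (C.mapCell f (n + 1) f0) (C.mapCell f (n + 1) f1) h0' h1'

/-- The path object of a coherator. -/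
structure PathData (C : Coherator) where
  P : C.Gpd ⥤ C.Gpd
  ev0 : P ⟶ 𝟭 C.Gpd
  ev1 : P ⟶ 𝟭 C.Gpd
  /-- `0`-cells of the path object are `1`-cells. -/
  edge : ∀ X : C.Gpd, C.cells (P.obj X) 0 ≃ C.cells X 1
  edge_natural : ∀ {X Y : C.Gpd} (φ : X ⟶ Y) (p : C.cells (P.obj X) 0),
    edge Y (C.mapCell (P.map φ) 0 p) = C.mapCell φ 1 (edge X p)
  ev0_edge : ∀ (X : C.Gpd) (p : C.cells (P.obj X) 0),
    C.mapCell (ev0.app X) 0 p = act X.obj (C.ext.src 0) (edge X p)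
  ev1_edge : ∀ (X : C.Gpd) (p : C.cells (P.obj X) 0),
    C.mapCell (ev1.app X) 0 p = act X.obj (C.ext.tgt 0) (edge X p)
  /-- Degenerate cylinders; not compatible with the operations. -/
  deg : ∀ X : C.Gpd, GHom (C.gs X) (C.gs (P.obj X))
  deg_natural : ∀ {X Y : C.Gpd} (φ : X ⟶ Y) (n : ℕ) (a : C.cells X n),
    C.mapCell (P.map φ) n ((deg X).app n a) = (deg Y).app n (C.mapCell φ n a)
  ev0_deg : ∀ (X : C.Gpd) (n : ℕ) (a : C.cells X n),
    C.mapCell (ev0.app X) n ((deg X).app n a) = a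
  ev1_deg : ∀ (X : C.Gpd) (n : ℕ) (a : C.cells X n),
    C.mapCell (ev1.app X) n ((deg X).app n a) = a
  ev0_trivFib : ∀ X, IsTrivFib (ev0.app X)
  ev1_trivFib : ∀ X, IsTrivFib (ev1.app X)
  /-- `(ev0, ev1)` is a fibration to `X × X`. -/
  pairLift : ∀ X : C.Gpd, PairLift (ev0.app X) (ev1.app X)
  map_trivFib : ∀ {X Y : C.Gpd} (φ : X ⟶ Y), IsTrivFib φ → IsTrivFib (P.map φ)
  /-- Cylinders lift through pairs with a lifting operation. -/
  cylLift : ∀ {W X : C.Gpd} (π0 π1 : W ⟶ X) (_ : PairLift π0 π1) (S : GSum)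
    (y : W.obj.obj (op ⟨S⟩)) (z0 z1 : (P.obj X).obj.obj (op ⟨S⟩)),
    C.mapAt (ev0.app X) S z0 = C.mapAt π0 S y → C.mapAt (ev0.app X) S z1 = C.mapAt π1 S y →
      (P.obj W).obj.obj (op ⟨S⟩)
  cylLift_ev0 : ∀ {W X : C.Gpd} (π0 π1 : W ⟶ X) (L : PairLift π0 π1) S y z0 z1 h0 h1,
    C.mapAt (ev0.app W) S (cylLift π0 π1 L S y z0 z1 h0 h1) = y
  cylLift_π0 : ∀ {W X : C.Gpd} (π0 π1 : W ⟶ X) (L : PairLift π0 π1) S y z0 z1 h0 h1,
    C.mapAt (P.map π0) S (cylLift π0 π1 L S y z0 z1 h0 h1) = z0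
  cylLift_π1 : ∀ {W X : C.Gpd} (π0 π1 : W ⟶ X) (L : PairLift π0 π1) S y z0 z1 h0 h1,
    C.mapAt (P.map π1) S (cylLift π0 π1 L S y z0 z1 h0 h1) = z1
  cylLift_natural : ∀ {W X W' X' : C.Gpd} {π0 π1 : W ⟶ X} {π0' π1' : W' ⟶ X'}
    (L : PairLift π0 π1) (L' : PairLift π0' π1') (w : W ⟶ W') (f : X ⟶ X'),
    L.Commutes L' w f → ∀ S y z0 z1 h0 h1 h0' h1',
      C.mapAt (P.map w) S (cylLift π0 π1 L S y z0 z1 h0 h1)
        = cylLift π0' π1' L' S (C.mapAt w S y) (C.mapAt (P.map f) S z0)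
            (C.mapAt (P.map f) S z1) h0' h1'

end Vale.Agent.P259
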