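import Vale.Agent.P259.DiscPi
import Vale.Agent.P259.Interface

/-!
# P259: paths of spaces give a pair with a lifting operation
-/

noncomputable section

open CategoryTheory Opposite
open scoped unitInterval

namespace Vale.Agent.P259

section Formula

variable {Z : Type} [TopologicalSpace Z] {n : ℕ}

/-- The distance of `t` to the ends of the interval, doubled. -/
def endDist (t : I) : ℝ := 1 - |2 * (t : ℝ) - 1|

theorem endDist_nonneg (t : I) : 0 ≤ endDist t := by
  have : |2 * (t : ℝ) - 1| ≤ 1 := abs_le.2 ⟨by linarith [t.2.1], by linarith [t.2.2]⟩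
  unfold endDist; linarith

theorem height_nonneg (v : Disc (n + 1)) : 0 ≤ height v := by
  have := (abs_le.1 (abs_last_le v)).1
  unfold height; linarith

theorem height_le (v : Disc (n + 1)) : height v ≤ 2 := by
  have h1 := (abs_le.1 (abs_last_le v)).2
  have h2 : Real.sqrt (1 - ‖(drop n v : EuclideanSpace ℝ (Fin n))‖ ^ 2) ≤ 1 :=
    Real.sqrt_le_one.2 (by linarith [sq_nonneg ‖(drop n v : EuclideanSpace ℝ (Fin n))‖])
  unfold height; linarith

theorem continuous_height : Continuous (height (n := n)) := by
  unfold height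
  fun_prop

/-- Lower the height by `4 d`, stopping at the lower hemisphere. -/
def shiftDown (z : Disc (n + 1) × I) : Disc (n + 1) :=
  ⟨WithLp.toLp 2 (Fin.snoc (fun i => (drop n z.1 : EuclideanSpace ℝ (Fin n)) i)
      (max (-Real.sqrt (1 - ‖(drop n z.1 : EuclideanSpace ℝ (Fin n))‖ ^ 2))
        ((z.1 : EuclideanSpace ℝ (Fin (n + 1))) (Fin.last n) - 4 * endDist z.2))), by
    set w := Real.sqrt (1 - ‖(drop n z.1 : EuclideanSpace ℝ (Fin n))‖ ^ 2) with hw
    set x := max (-w) ((z.1 : EuclideanSpace ℝ (Fin (n + 1))) (Fin.last n) - 4 * endDist z.2)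
    have hxw : |x| ≤ w := by
      refine abs_le.2 ⟨le_max_left _ _, max_le (by linarith [Real.sqrt_nonneg (1 - ‖(drop n z.1 : EuclideanSpace ℝ (Fin n))‖ ^ 2)]) ?_⟩
      linarith [(abs_le.1 (abs_last_le z.1)).2, endDist_nonneg z.2]
    rw [mem_closedBall_zero_iff, ← abs_of_nonneg (norm_nonneg _), ← sq_le_one_iff_abs_le_one,
      norm_sq_split]
    have hd : dropLast n (WithLp.toLp 2 (Fin.snoc
        (fun i => (drop n z.1 : EuclideanSpace ℝ (Fin n)) i) x)) = (drop n z.1 : EuclideanSpace ℝ (Fin n)) := by
      ext i; simp [dropLast]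
    rw [hd]
    simp only [Fin.snoc_last]
    have hsq : x ^ 2 ≤ w ^ 2 := by rw [← sq_abs x]; exact pow_le_pow_left₀ (abs_nonneg x) hxw 2
    rw [hw, Real.sq_sqrt (by linarith [norm_sq_le_one (drop n z.1)])] at hsq
    linarith⟩

theorem continuous_shiftDown : Continuous (shiftDown (n := n)) := by
  refine Continuous.subtype_mk ?_ _
  refine (PiLp.continuous_toLp 2 _).comp ?_
  refine Continuous.finSnoc ?_ ?_
  · exact (PiLp.continuous_ofLp 2 _).comp
      (continuous_subtype_val.comp ((drop n).continuous.comp continuous_fst))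
  · unfold endDist
    fun_prop

theorem shiftDown_of_le {z : Disc (n + 1) × I} (h : height z.1 ≤ 4 * endDist z.2) :
    shiftDown z = low n (drop n z.1) := by
  refine Subtype.ext ?_
  have : (z.1 : EuclideanSpace ℝ (Fin (n + 1))) (Fin.last n) - 4 * endDist z.2 ≤
      -Real.sqrt (1 - ‖(drop n z.1 : EuclideanSpace ℝ (Fin n))‖ ^ 2) := by
    unfold height at h; linarith
  simp [shiftDown, max_eq_left this, hemi, hemisphere]

theorem shiftDown_end {z : Disc (n + 1) × I} (h : endDist z.2 = 0) : shiftDown z = z.1 := by
  refine Subtype.ext (ext_split ?_ ?_)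
  · ext i; simp [shiftDown, dropLast, drop]
  · have := (abs_le.1 (abs_last_le z.1)).1
    simp [shiftDown, h, this]

/-- The time coordinate of the retraction. -/
def slideTime (z : Disc (n + 1) × I) : I :=
  Set.projIcc (0 : ℝ) 1 zero_le_one (1 / 2 + ((z.2 : ℝ) - 1 / 2) / (1 - height z.1 / 4))

theorem continuous_slideTime : Continuous (slideTime (n := n)) := by
  refine continuous_projIcc.comp (continuous_const.add (Continuous.div ?_ ?_ fun z => ?_))
  · fun_prop
  · exact continuous_const.sub ((continuous_height.comp continuous_fst).div_const _)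
  · linarith [height_le z.1]

theorem slideTime_of_height {z : Disc (n + 1) × I} (h : height z.1 = 0) : slideTime z = z.2 := by
  simp only [slideTime, h]
  norm_num [Set.projIcc_of_mem _ z.2.2]

variable (a : C(Disc n, C(I, Z))) (f0 f1 : C(Disc (n + 1), Z))

open scoped Classical in
/-- The homotopy on `D_{n+1}` extending a homotopy on the lower hemisphere and maps at the
ends. -/
def slideFun (z : Disc (n + 1) × I) : Z :=
  if height z.1 ≤ 4 * endDist z.2 then a (drop n z.1) (slideTime z)
  else if (z.2 : ℝ) ≤ 1 / 2 then f0 (shiftDown z) else f1 (shiftDown z)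

theorem continuous_slideFun (h0 : ∀ x, f0 (low n x) = a x 0) (h1 : ∀ x, f1 (low n x) = a x 1) :
    Continuous (slideFun a f0 f1) := by
  have he : Continuous fun z : Disc (n + 1) × I => 4 * endDist z.2 := by
    unfold endDist; fun_prop
  have hA : Continuous fun z : Disc (n + 1) × I => a (drop n z.1) (slideTime z) :=
    continuous_eval.comp (((a.continuous.comp ((drop n).continuous.comp continuous_fst))).prodMk
      continuous_slideTime)
  refine continuous_if_le (continuous_height.comp continuous_fst) he hA.continuousOn ?_ ?_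
  · refine ContinuousOn.if ?_ (f0.continuous.comp continuous_shiftDown).continuousOn
      (f1.continuous.comp continuous_shiftDown).continuousOn
    rintro z ⟨hz, hfr⟩
    exfalso
    have heq : (z.2 : ℝ) = 1 / 2 :=
      (frontier_le_subset_eq (continuous_subtype_val.comp continuous_snd) continuous_const) hfr
    have : endDist z.2 = 1 := by simp [endDist, heq]
    have hz' : 4 * endDist z.2 ≤ height z.1 := hz
    linarith [height_le z.1]
  · intro z hz
    have hzh : height z.1 = 4 * endDist z.2 := hz
    have hpos : 0 < 1 - height z.1 / 4 := by linarith [height_le z.1]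
    rw [shiftDown_of_le hzh.le]
    split_ifs with ht
    · rw [h0]
      congr 1
      refine Set.projIcc_of_le_left _ ?_
      have e : |2 * (z.2 : ℝ) - 1| = 1 - height z.1 / 4 := by
        rw [hzh]; unfold endDist; ring
      rw [abs_of_nonpos (by linarith)] at e
      rw [← e]
      have : ((z.2 : ℝ) - 1 / 2) / -(2 * (z.2 : ℝ) - 1) = -(1 / 2) := by
        have hne : -(2 * (z.2 : ℝ) - 1) ≠ 0 := by linarith
        rw [div_eq_iff hne]; ring
      linarith
    · rw [h1]
      congr 1
      refine Set.projIcc_of_right_le _ ?_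
      have e : |2 * (z.2 : ℝ) - 1| = 1 - height z.1 / 4 := by
        rw [hzh]; unfold endDist; ring
      rw [abs_of_nonneg (by linarith)] at e
      rw [← e]
      have : ((z.2 : ℝ) - 1 / 2) / (2 * (z.2 : ℝ) - 1) = 1 / 2 := by
        have hne : (2 * (z.2 : ℝ) - 1) ≠ 0 := by linarith
        rw [div_eq_iff hne]; ring
      linarith

theorem slideFun_low (x : Disc n) (t : I) : slideFun a f0 f1 (low n x, t) = a x t := by
  have hh : height (low n x) = 0 := by
    simp [height, hemi, hemisphere_last, drop, dropLast_hemisphere]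
  rw [slideFun, if_pos (by rw [hh]; linarith [endDist_nonneg t]), slideTime_of_height hh, drop_hemi]

theorem low_of_height_zero {v : Disc (n + 1)} (h : height v = 0) : v = low n (drop n v) := by
  refine Subtype.ext (ext_split ?_ ?_)
  · simp [hemi, dropLast_hemisphere]; rfl
  · unfold height at h
    simp only [hemi, ContinuousMap.coe_mk, hemisphere_last]
    linarith

theorem slideFun_zero (h0 : ∀ x, f0 (low n x) = a x 0) (v : Disc (n + 1)) :
    slideFun a f0 f1 (v, 0) = f0 v := by
  have he : endDist (0 : I) = 0 := by simp [endDist]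
  unfold slideFun
  split_ifs with h h2
  · have hh : height v = 0 :=
      le_antisymm (h.trans_eq (by simp [he])) (height_nonneg v)
    conv_rhs => rw [low_of_height_zero hh, h0]
    rw [slideTime_of_height hh]
  · rw [shiftDown_end he]
  · exact absurd (by norm_num : ((0 : I) : ℝ) ≤ 1 / 2) h2

theorem slideFun_one (h1 : ∀ x, f1 (low n x) = a x 1) (v : Disc (n + 1)) :
    slideFun a f0 f1 (v, 1) = f1 v := by
  have he : endDist (1 : I) = 0 := by norm_num [endDist]
  unfold slideFun
  split_ifs with h h2
  · have hh : height v = 0 :=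
      le_antisymm (h.trans_eq (by simp [he])) (height_nonneg v)
    conv_rhs => rw [low_of_height_zero hh, h1]
    rw [slideTime_of_height hh]
  · norm_num at h2
  · rw [shiftDown_end he]

theorem slideFun_comp {W : Type} [TopologicalSpace W] (f : C(Z, W)) (z : Disc (n + 1) × I) :
    slideFun (ContinuousMap.mk _ (ContinuousMap.continuous_postcomp f) |>.comp a)
      (f.comp f0) (f.comp f1) z = f (slideFun a f0 f1 z) := by
  unfold slideFun
  split_ifs <;> rfl

end Formula

variable (C : Coherator) (Z : Type) [TopologicalSpace Z]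

/-- Evaluation of paths at a time. -/
def evalAt (t : I) : C(C(I, Z), Z) := ⟨fun γ => γ t, continuous_eval_const t⟩

/-- Constant paths. -/
def constPath : C(Z, C(I, Z)) := ContinuousMap.const'

/-- Postcomposition of paths. -/
def postPath {Z W : Type} [TopologicalSpace Z] [TopologicalSpace W] (f : C(Z, W)) :
    C(C(I, Z), C(I, W)) :=
  ⟨_, ContinuousMap.continuous_postcomp f⟩

/-- The start of paths as a map of fundamental groupoids. -/
def Coherator.pathEv0 : C.piTop C(I, Z) ⟶ C.piTop Z := C.piTopMap (evalAt Z 0)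

/-- The end of paths as a map of fundamental groupoids. -/
def Coherator.pathEv1 : C.piTop C(I, Z) ⟶ C.piTop Z := C.piTopMap (evalAt Z 1)

variable {Z}

theorem Coherator.pathEv_low (t : I) {n : ℕ} (y : C.cells (C.piTop C(I, Z)) n)
    (f : C.cells (C.piTop Z) (n + 1))
    (h : act (C.piTop Z).obj (C.ext.src n) f = C.mapCell (C.piTopMap (evalAt Z t)) n y)
    (x : Disc n) : C.asMap Z f (low n x) = C.asMap C(I, Z) y x t := by
  rw [C.piTop_src] at h
  exact ContinuousMap.congr_fun h x

variable (Z)

/-- The lifting operation making the endpoint evaluations of paths a fibration. -/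
def Coherator.pathPairLift : PairLift (C.pathEv0 Z) (C.pathEv1 Z) where
  lift n y f0 f1 h0 h1 := ContinuousMap.curry
    ⟨slideFun (C.asMap C(I, Z) y) (C.asMap Z f0) (C.asMap Z f1),
      continuous_slideFun _ _ _ (C.pathEv_low 0 y f0 h0) (C.pathEv_low 1 y f1 h1)⟩
  lift_src n y f0 f1 h0 h1 := by
    refine (C.piTop_src C(I, Z) n _).trans ?_
    exact ContinuousMap.ext fun x => ContinuousMap.ext fun t => slideFun_low _ _ _ x t
  lift_π0 n y f0 f1 h0 h1 :=
    ContinuousMap.ext fun v => slideFun_zero _ _ _ (C.pathEv_low 0 y f0 h0) v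
  lift_π1 n y f0 f1 h0 h1 :=
    ContinuousMap.ext fun v => slideFun_one _ _ _ (C.pathEv_low 1 y f1 h1) v

theorem Coherator.pathPairLift_commutes {W : Type} [TopologicalSpace W] (f : C(Z, W)) :
    (C.pathPairLift Z).Commutes (C.pathPairLift W) (C.piTopMap (postPath f)) (C.piTopMap f) := by
  refine ⟨rfl, rfl, fun n y f0 f1 h0 h1 h0' h1' => ?_⟩
  exact ContinuousMap.ext fun v => ContinuousMap.ext fun t =>
    (slideFun_comp (C.asMap C(I, Z) y) (C.asMap Z f0) (C.asMap Z f1) f (v, t)).symm

end Vale.Agent.P259
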