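import Vale.Agent.P259.CompareEps
import Vale.Agent.P259.DiscLift

/-!
# P259 (E3): the comparison map `psi` and the homotopy from `eps o psi` to the identity
-/

open CategoryTheory Opposite Topology
open scoped unitInterval

noncomputable section

namespace Vale.Agent.P259

/-- Maps from compact spaces are null-homotopic. -/
def CptNull (Z : Type*) [TopologicalSpace Z] : Prop :=
  ∀ (A : Type) [TopologicalSpace A] [CompactSpace A] (f : C(A, Z)),
    ∃ z, f.Homotopic (ContinuousMap.const A z)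

theorem CptNull.of_contractible (Z : Type*) [TopologicalSpace Z] [ContractibleSpace Z] :
    CptNull Z := fun _ _ _ f => by
  obtain ⟨z, hz⟩ := id_nullhomotopic Z
  exact ⟨z, hz.comp (ContinuousMap.Homotopic.refl f)⟩

theorem CptNull.nonempty {Z : Type*} [TopologicalSpace Z] (h : CptNull Z) : Nonempty Z :=
  ⟨(h Empty ⟨fun e => e.elim, continuous_of_discreteTopology⟩).choose⟩

/-- The disc as a cone over its sphere. -/
def discCone (n : ℕ) : ConeCoords (Disc n) where
  c := {
    toFun := fun v => ⟨1 - ‖(v : EuclideanSpace ℝ (Fin n))‖,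
      by linarith [norm_le_one v], by linarith [norm_nonneg (v : EuclideanSpace ℝ (Fin n))]⟩
    continuous_toFun := continuous_induced_rng.2 (by simp only [Function.comp_def]; fun_prop) }
  κ := {
    toFun := fun q => ⟨(1 - (q.1 : ℝ)) • (q.2 : EuclideanSpace ℝ (Fin n)), by
      rw [mem_closedBall_zero_iff, norm_smul, Real.norm_eq_abs,
        abs_of_nonneg (by linarith [q.1.2.2] : (0 : ℝ) ≤ 1 - (q.1 : ℝ))]
      exact mul_le_one₀ (by linarith [q.1.2.1]) (norm_nonneg _) (norm_le_one q.2)⟩
    continuous_toFun := continuous_induced_rng.2 (by simp only [Function.comp_def]; fun_prop) }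
  κ_zero v := Subtype.ext (by simp)
  c_κ s v := by
    show 1 - ‖(1 - (s : ℝ)) • (v : EuclideanSpace ℝ (Fin n))‖
      = (1 - (s : ℝ)) * (1 - ‖(v : EuclideanSpace ℝ (Fin n))‖) + (s : ℝ)
    rw [norm_smul, Real.norm_eq_abs, abs_of_nonneg (by linarith [s.2.2] : (0 : ℝ) ≤ 1 - (s : ℝ))]
    ring
  inj s x y hs h := Subtype.ext (smul_right_injective _
    (sub_ne_zero.2 fun e => hs (Subtype.ext e.symm)) (congrArg Subtype.val h))
  surj s v hv hs := by
    have hpos : 0 < 1 - (s : ℝ) :=
      sub_pos.2 (lt_of_le_of_ne s.2.2 fun e => hs (Subtype.ext e))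
    have hv' : (s : ℝ) ≤ 1 - ‖(v : EuclideanSpace ℝ (Fin n))‖ := hv
    refine ⟨⟨(1 - (s : ℝ))⁻¹ • (v : EuclideanSpace ℝ (Fin n)), ?_⟩, Subtype.ext ?_⟩
    · rw [mem_closedBall_zero_iff, norm_smul, Real.norm_eq_abs, abs_of_pos (inv_pos.2 hpos),
        inv_mul_le_one₀ hpos]
      linarith
    · show (1 - (s : ℝ)) • ((1 - (s : ℝ))⁻¹ • (v : EuclideanSpace ℝ (Fin n))) = _
      rw [smul_smul, mul_inv_cancel₀ hpos.ne', one_smul]
  top x y hx hy := by
    have h1 : 1 - ‖(x : EuclideanSpace ℝ (Fin n))‖ = 1 := congrArg Subtype.val hx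
    have h2 : 1 - ‖(y : EuclideanSpace ℝ (Fin n))‖ = 1 := congrArg Subtype.val hy
    exact Subtype.ext ((norm_eq_zero.1 (by linarith)).trans
      (norm_eq_zero.1 (by linarith : ‖(y : EuclideanSpace ℝ (Fin n))‖ = 0)).symm)

theorem mem_bdry_discCone {n : ℕ} (v : Disc n) :
    v ∈ (discCone n).bdry ↔ ‖(v : EuclideanSpace ℝ (Fin n))‖ = 1 := by
  constructor
  · intro h
    have h' : 1 - ‖(v : EuclideanSpace ℝ (Fin n))‖ = 0 :=
      congrArg Subtype.val (show (discCone n).c v = 0 from h)
    linarith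
  · intro h
    refine show (discCone n).c v = 0 from Subtype.ext ?_
    show 1 - ‖(v : EuclideanSpace ℝ (Fin n))‖ = 0
    linarith

variable {Z : Type} [TopologicalSpace Z] {n : ℕ}

/-- Filling a sphere. -/
theorem CptNull.exists_fill (hZ : CptNull Z) (a b : C(Disc n, Z))
    (hab : ∀ x : Disc n, ‖(x : EuclideanSpace ℝ (Fin n))‖ = 1 → a x = b x) :
    ∃ h : C(Disc (n + 1), Z), h.comp (low n) = a ∧ h.comp (high n) = b := by
  obtain ⟨φ, hφa, hφb⟩ := exists_sphere_map a b hab
  let f : C((discCone (n + 1)).bdry, Z) :=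
    φ.comp ⟨fun v => ⟨v.1, (mem_bdry_discCone v.1).1 v.2⟩, continuous_subtype_val.subtype_mk _⟩
  have : CompactSpace (discCone (n + 1)).bdry :=
    isCompact_iff_compactSpace.1 (discCone (n + 1)).isClosed_bdry.isCompact
  have := hZ.nonempty
  obtain ⟨h, hh⟩ := (discCone (n + 1)).extend f (hZ _ f)
  refine ⟨h, ?_, ?_⟩
  · ext x
    exact (hh ⟨low n x, (mem_bdry_discCone _).2 (norm_hemisphere x (by norm_num))⟩).trans
      (hφa x (norm_hemisphere x (by norm_num)))
  · ext x
    exact (hh ⟨high n x, (mem_bdry_discCone _).2 (norm_hemisphere x (by norm_num))⟩).trans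
      (hφb x (norm_hemisphere x (by norm_num)))

/-- Extending a map given on the side and on the ends of a cylinder over a disc. -/
theorem CptNull.exists_cyl_extend (hZ : CptNull Z)
    (φ : C({v : Disc (n + 1) // ‖(v : EuclideanSpace ℝ (Fin (n + 1)))‖ = 1}, C(I, Z)))
    (f0 f1 : C(Disc (n + 1), Z))
    (hside : ∀ (v : Disc (n + 1)) (hv : ‖(v : EuclideanSpace ℝ (Fin (n + 1)))‖ = 1),
      φ ⟨v, hv⟩ 0 = f0 v ∧ φ ⟨v, hv⟩ 1 = f1 v) :
    ∃ F : C(Disc (n + 1) × I, Z),
      (∀ (v : Disc (n + 1)) (hv : ‖(v : EuclideanSpace ℝ (Fin (n + 1)))‖ = 1) (t : I),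
        F (v, t) = φ ⟨v, hv⟩ t) ∧ (∀ v, F (v, 0) = f0 v) ∧ ∀ v, F (v, 1) = f1 v := by
  classical
  set L := (discCone (n + 1)).prod ConeCoords.interval
  let g : L.bdry → Z := fun q =>
    if h : q.1.1 ∈ (discCone (n + 1)).bdry then φ ⟨q.1.1, (mem_bdry_discCone _).1 h⟩ q.1.2
    else if q.1.2 = 0 then f0 q.1.1 else f1 q.1.1
  have hend : ∀ q : L.bdry, q.1.1 ∉ (discCone (n + 1)).bdry → q.1.2 = 0 ∨ q.1.2 = 1 := fun q h =>
    (ConeCoords.mem_bdry_interval _).1 (((ConeCoords.mem_bdry_prod _ _ _).1 q.2).resolve_left h)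
  have h10 : (1 : I) ≠ 0 := fun e => one_ne_zero (congrArg Subtype.val e)
  have hcont : Continuous g := by
    let A : Option Bool → Set L.bdry := fun o =>
      match o with
      | none => {q | q.1.1 ∈ (discCone (n + 1)).bdry}
      | some false => {q | q.1.2 = 0}
      | some true => {q | q.1.2 = 1}
    refine (locallyFinite_of_finite A).continuous ?_ ?_ ?_
    · refine Set.eq_univ_of_forall fun q => Set.mem_iUnion.2 ?_
      by_cases h : q.1.1 ∈ (discCone (n + 1)).bdry
      · exact ⟨none, h⟩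
      · rcases hend q h with h' | h'
        · exact ⟨some false, h'⟩
        · exact ⟨some true, h'⟩
    · rintro (_ | _ | _)
      · exact (discCone (n + 1)).isClosed_bdry.preimage
          (continuous_fst.comp continuous_subtype_val)
      · exact isClosed_eq (continuous_snd.comp continuous_subtype_val) continuous_const
      · exact isClosed_eq (continuous_snd.comp continuous_subtype_val) continuous_const
    · rintro (_ | _ | _) <;> rw [continuousOn_iff_continuous_domRestrict]
      · have e : (A none).domRestrict g = fun q : A none =>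
            φ ⟨q.1.1.1, (mem_bdry_discCone _).1 q.2⟩ q.1.1.2 := funext fun q => dif_pos q.2
        show Continuous ((A none).domRestrict g)
        rw [e]
        exact continuous_eval.comp ((φ.continuous.comp
          (((continuous_fst.comp continuous_subtype_val).comp continuous_subtype_val).subtype_mk
            _)).prodMk ((continuous_snd.comp continuous_subtype_val).comp continuous_subtype_val))
      · have e : (A (some false)).domRestrict g = fun q : A (some false) => f0 q.1.1.1 := funext fun q => by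
          have hq : q.1.1.2 = 0 := q.2
          show dite _ _ _ = _
          split_ifs with h
          · rw [hq]; exact (hside _ _).1
          · rfl
        show Continuous ((A (some false)).domRestrict g)
        rw [e]
        exact f0.continuous.comp
          ((continuous_fst.comp continuous_subtype_val).comp continuous_subtype_val)
      · have e : (A (some true)).domRestrict g = fun q : A (some true) => f1 q.1.1.1 := funext fun q => by
          have hq : q.1.1.2 = 1 := q.2
          show dite _ _ _ = _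
          split_ifs with h h'
          · rw [hq]; exact (hside _ _).2
          · exact absurd (hq.symm.trans h') h10
          · rfl
        show Continuous ((A (some true)).domRestrict g)
        rw [e]
        exact f1.continuous.comp
          ((continuous_fst.comp continuous_subtype_val).comp continuous_subtype_val)
  have : CompactSpace L.bdry := isCompact_iff_compactSpace.1 L.isClosed_bdry.isCompact
  have := hZ.nonempty
  obtain ⟨F, hF⟩ := L.extend ⟨g, hcont⟩ (hZ _ _)
  have hs : ∀ (v : Disc (n + 1)) (hv : ‖(v : EuclideanSpace ℝ (Fin (n + 1)))‖ = 1) (t : I),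
      F (v, t) = φ ⟨v, hv⟩ t := fun v hv t =>
    (hF ⟨(v, t), (ConeCoords.mem_bdry_prod _ _ _).2 (Or.inl ((mem_bdry_discCone v).2 hv))⟩).trans
      (dif_pos ((mem_bdry_discCone v).2 hv))
  have he : ∀ (v : Disc (n + 1)) (t : I) (ht : t = 0 ∨ t = 1),
      F (v, t) = if t = 0 then f0 v else f1 v := by
    intro v t ht
    refine (hF ⟨(v, t), (ConeCoords.mem_bdry_prod _ _ _).2
      (Or.inr ((ConeCoords.mem_bdry_interval t).2 ht))⟩).trans ?_
    show dite _ _ _ = _
    by_cases h : v ∈ (discCone (n + 1)).bdry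
    · rw [dif_pos h]
      rcases ht with rfl | rfl
      · rw [if_pos rfl]; exact (hside _ _).1
      · rw [if_neg h10]; exact (hside _ _).2
    · rw [dif_neg h]
  exact ⟨F, hs, fun v => (he v 0 (Or.inl rfl)).trans (if_pos rfl),
    fun v => (he v 1 (Or.inr rfl)).trans (if_neg h10)⟩

/-- Filling a cylinder on a disc: the side and both ends are prescribed. -/
theorem CptNull.exists_fill_cyl (hZ : CptNull Z) (a b : C(Disc n, C(I, Z)))
    (hab : ∀ x : Disc n, ‖(x : EuclideanSpace ℝ (Fin n))‖ = 1 → a x = b x)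
    (f0 f1 : C(Disc (n + 1), Z))
    (ha0 : ∀ x, a x 0 = f0 (low n x)) (ha1 : ∀ x, a x 1 = f1 (low n x))
    (hb0 : ∀ x, b x 0 = f0 (high n x)) (hb1 : ∀ x, b x 1 = f1 (high n x)) :
    ∃ K : C(Disc (n + 1), C(I, Z)), K.comp (low n) = a ∧ K.comp (high n) = b ∧
      (evalAt Z 0).comp K = f0 ∧ (evalAt Z 1).comp K = f1 := by
  classical
  obtain ⟨φ, hφa, hφb⟩ := exists_sphere_map a b hab
  have hside : ∀ (v : Disc (n + 1)) (hv : ‖(v : EuclideanSpace ℝ (Fin (n + 1)))‖ = 1),
      φ ⟨v, hv⟩ 0 = f0 v ∧ φ ⟨v, hv⟩ 1 = f1 v := by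
    intro v hv
    rcases le_total 0 ((v : EuclideanSpace ℝ (Fin (n + 1))) (Fin.last n)) with h | h
    · obtain ⟨x, rfl⟩ : ∃ x, v = high n x := ⟨_, (sphere_cases v hv).1 h⟩
      rw [hφb, hb0, hb1]
      exact ⟨rfl, rfl⟩
    · obtain ⟨x, rfl⟩ : ∃ x, v = low n x := ⟨_, (sphere_cases v hv).2 h⟩
      rw [hφa, ha0, ha1]
      exact ⟨rfl, rfl⟩
  obtain ⟨F, hs, he0, he1⟩ := hZ.exists_cyl_extend φ f0 f1 hside
  refine ⟨F.curry, ?_, ?_, ?_, ?_⟩
  · ext x t
    have e : ‖((low n x : Disc (n + 1)) : EuclideanSpace ℝ (Fin (n + 1)))‖ = 1 :=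
      norm_hemisphere x (by norm_num)
    show F (low n x, t) = a x t
    rw [hs (low n x) e t, hφa x e]
  · ext x t
    have e : ‖((high n x : Disc (n + 1)) : EuclideanSpace ℝ (Fin (n + 1)))‖ = 1 :=
      norm_hemisphere x (by norm_num)
    show F (high n x, t) = b x t
    rw [hs (high n x) e t, hφb x e]
  · ext v
    show F (v, 0) = f0 v
    exact he0 v
  · ext v
    show F (v, 1) = f1 v
    exact he1 v

/-- Compatible families of discs in a coglobular sequence of spaces, built by filling. -/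
theorem exists_globular (Z : ℕ → Type) [∀ n, TopologicalSpace (Z n)]
    (s t : ∀ n, C(Z n, Z (n + 1)))
    (hs : ∀ n, (s (n + 1)).comp (s n) = (t (n + 1)).comp (s n))
    (ht : ∀ n, (s (n + 1)).comp (t n) = (t (n + 1)).comp (t n))
    (P : ∀ n, C(Disc n, Z n) → Prop) (zero : ∃ g, P 0 g)
    (step : ∀ n g, P n g →
      (∀ x : Disc n, ‖(x : EuclideanSpace ℝ (Fin n))‖ = 1 → s n (g x) = t n (g x)) →
      ∃ h, P (n + 1) h ∧ h.comp (low n) = (s n).comp g ∧ h.comp (high n) = (t n).comp g) :
    ∃ g : ∀ n, C(Disc n, Z n), (∀ n, P n (g n)) ∧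
      ∀ n, (g (n + 1)).comp (low n) = (s n).comp (g n) ∧
        (g (n + 1)).comp (high n) = (t n).comp (g n) := by
  let Q : ∀ n, C(Disc n, Z n) → Prop := fun n g => P n g ∧
    ∀ x : Disc n, ‖(x : EuclideanSpace ℝ (Fin n))‖ = 1 → s n (g x) = t n (g x)
  have hstep : ∀ n g, Q n g → ∃ h, Q (n + 1) h ∧
      h.comp (low n) = (s n).comp g ∧ h.comp (high n) = (t n).comp g := by
    intro n g hg
    obtain ⟨h, hP, hl, hh⟩ := step n g hg.1 hg.2
    refine ⟨h, ⟨hP, parallel_boundary (a := (s (n + 1)).comp h) (b := (t (n + 1)).comp h) ?_ ?_⟩,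
      hl, hh⟩
    · rw [ContinuousMap.comp_assoc, hl, ← ContinuousMap.comp_assoc, hs, ContinuousMap.comp_assoc,
        ← hl, ← ContinuousMap.comp_assoc]
    · rw [ContinuousMap.comp_assoc, hh, ← ContinuousMap.comp_assoc, ht, ContinuousMap.comp_assoc,
        ← hh, ← ContinuousMap.comp_assoc]
  choose next hnext using hstep
  obtain ⟨g0, hg0⟩ := zero
  let G : ∀ n, {g // Q n g} := fun n =>
    Nat.rec (motive := fun n => {g // Q n g})
      ⟨g0, hg0, fun x hx => absurd hx (disc_zero_norm x)⟩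
      (fun n p => ⟨next n p.1 p.2, (hnext n p.1 p.2).1⟩) n
  exact ⟨fun n => (G n).1, fun n => (G n).2.1, fun n => (hnext n (G n).1 (G n).2).2⟩

namespace Coherator

variable (C : Coherator)

theorem ws_cptNull (S : GSum) : CptNull (C.WS S) := fun _ _ _ f => C.ws_nullhomotopic S f

theorem wMap_src_src (n : ℕ) :
    (C.wMap (C.ext.src (n + 1))).comp (C.wMap (C.ext.src n))
      = (C.wMap (C.ext.tgt (n + 1))).comp (C.wMap (C.ext.src n)) := by
  rw [← C.wMap_comp, ← C.wMap_comp, C.ext.src_src]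

theorem wMap_tgt_src (n : ℕ) :
    (C.wMap (C.ext.src (n + 1))).comp (C.wMap (C.ext.tgt n))
      = (C.wMap (C.ext.tgt (n + 1))).comp (C.wMap (C.ext.tgt n)) := by
  rw [← C.wMap_comp, ← C.wMap_comp, C.ext.tgt_src]

theorem exists_gammaDisc : ∃ g : ∀ n, C(Disc n, C.WS (GSum.disc n)),
    ∀ n, (g (n + 1)).comp (low n) = (C.wMap (C.ext.src n)).comp (g n) ∧
      (g (n + 1)).comp (high n) = (C.wMap (C.ext.tgt n)).comp (g n) := by
  obtain ⟨g, -, hg⟩ := exists_globular (fun n => C.WS (GSum.disc n))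
    (fun n => C.wMap (C.ext.src n)) (fun n => C.wMap (C.ext.tgt n))
    C.wMap_src_src C.wMap_tgt_src (fun _ _ => True)
    ⟨ContinuousMap.const _ (BSp.vertex (Chain.single 0 (El.self C _))), trivial⟩
    (fun n g _ h => by
      obtain ⟨k, hk⟩ := (C.ws_cptNull (GSum.disc (n + 1))).exists_fill
        ((C.wMap (C.ext.src n)).comp g) ((C.wMap (C.ext.tgt n)).comp g) h
      exact ⟨k, trivial, hk⟩)
  exact ⟨g, hg⟩

/-- The discs in the classifying spaces of representables. -/
def gammaDisc (n : ℕ) : C(Disc n, C.WS (GSum.disc n)) := C.exists_gammaDisc.choose n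

theorem gammaDisc_low (n : ℕ) :
    (C.gammaDisc (n + 1)).comp (low n) = (C.wMap (C.ext.src n)).comp (C.gammaDisc n) :=
  (C.exists_gammaDisc.choose_spec n).1

theorem gammaDisc_high (n : ℕ) :
    (C.gammaDisc (n + 1)).comp (high n) = (C.wMap (C.ext.tgt n)).comp (C.gammaDisc n) :=
  (C.exists_gammaDisc.choose_spec n).2

theorem gammaDisc_lowIter {j i : ℕ} (h : j ≤ i) :
    (C.gammaDisc i).comp (lowIter h) = (C.wMap (C.ext.srcIter h)).comp (C.gammaDisc j) := by
  induction i, h using Nat.le_induction with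
  | base =>
    simp only [lowIter, PreExt.srcIter, Nat.leRecOn_self]
    rw [C.wMap_id]
    rfl
  | succ k hk ih =>
    rw [lowIter_succ hk, ← ContinuousMap.comp_assoc, C.gammaDisc_low, ContinuousMap.comp_assoc, ih,
      ← ContinuousMap.comp_assoc, ← C.wMap_comp]
    simp only [PreExt.srcIter]
    rw [Nat.leRecOn_succ hk]

theorem gammaDisc_highIter {j i : ℕ} (h : j ≤ i) :
    (C.gammaDisc i).comp (highIter h) = (C.wMap (C.ext.tgtIter h)).comp (C.gammaDisc j) := by
  induction i, h using Nat.le_induction with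
  | base =>
    simp only [highIter, PreExt.tgtIter, Nat.leRecOn_self]
    rw [C.wMap_id]
    rfl
  | succ k hk ih =>
    rw [highIter_succ hk, ← ContinuousMap.comp_assoc, C.gammaDisc_high, ContinuousMap.comp_assoc,
      ih, ← ContinuousMap.comp_assoc, ← C.wMap_comp]
    simp only [PreExt.tgtIter]
    rw [Nat.leRecOn_succ hk]

theorem exists_gamma_snoc (S : GSum) (g : C(S.space, C.WS S))
    (hg : g.comp S.real.e = (C.wMap (C.ext.lastIncl S)).comp (C.gammaDisc S.last))
    (j i : ℕ) (hS : j < S.last) (hi : j < i) :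
    ∃ w : C((S.snoc j i hS hi).space, C.WS (S.snoc j i hS hi)),
      w.comp (S.real.inX hS hi) = (C.wMap (C.ext.inl S j i hS hi)).comp g ∧
      w.comp (S.real.inD hS hi) = (C.wMap (C.ext.inr S j i hS hi)).comp (C.gammaDisc i) := by
  refine (S.real.glued_univ hS hi _ _ ?_).exists
  rw [MarkedSpace.glue, ContinuousMap.comp_assoc, ← ContinuousMap.comp_assoc g, hg,
    ContinuousMap.comp_assoc (C.wMap (C.ext.lastIncl S)), C.gammaDisc_highIter,
    ← ContinuousMap.comp_assoc (C.wMap (C.ext.lastIncl S)), ← C.wMap_comp,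
    ← ContinuousMap.comp_assoc, ← C.wMap_comp,
    ContinuousMap.comp_assoc (C.wMap (C.ext.inr _ _ _ _ _)), C.gammaDisc_lowIter,
    ← ContinuousMap.comp_assoc (C.wMap (C.ext.inr _ _ _ _ _)), ← C.wMap_comp]
  exact congrArg (fun f => (C.wMap f).comp (C.gammaDisc j)) (C.ext.sum_comm S j i hS hi)

/-- The comparison maps of the realisations into the classifying spaces, with their values on
the last disc. -/
def gammaTbl : ∀ (t : Tbl) (h : t.Valid),
    {g : C(GSum.space ⟨t, h⟩, C.WS ⟨t, h⟩) // g.comp (GSum.real ⟨t, h⟩).e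
      = (C.wMap (C.ext.lastIncl ⟨t, h⟩)).comp (C.gammaDisc t.last)}
  | .disc n, _ => ⟨C.gammaDisc n, by
      show _ = (C.wMap (C.ext.id (GSum.disc n))).comp _
      rw [C.wMap_id]
      rfl⟩
  | .snoc t j i, h =>
      ⟨(C.exists_gamma_snoc ⟨t, h.1⟩ (gammaTbl t h.1).1 (gammaTbl t h.1).2 j i h.2.1 h.2.2).choose,
        (C.exists_gamma_snoc ⟨t, h.1⟩ (gammaTbl t h.1).1 (gammaTbl t h.1).2 j i h.2.1
          h.2.2).choose_spec.2⟩

/-- The comparison map of a realisation into the classifying space. -/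
def gamma (S : GSum) : C(S.space, C.WS S) := (C.gammaTbl S.tbl S.valid).1

theorem gamma_disc (n : ℕ) : C.gamma (GSum.disc n) = C.gammaDisc n := rfl

theorem gamma_inl (S : GSum) (j i : ℕ) (hS : j < S.last) (hi : j < i) :
    (C.gamma (S.snoc j i hS hi)).comp (S.real.inX hS hi)
      = (C.wMap (C.ext.inl S j i hS hi)).comp (C.gamma S) :=
  (C.exists_gamma_snoc S _ (C.gammaTbl S.tbl S.valid).2 j i hS hi).choose_spec.1

theorem gamma_inr (S : GSum) (j i : ℕ) (hS : j < S.last) (hi : j < i) :
    (C.gamma (S.snoc j i hS hi)).comp (S.real.inD hS hi)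
      = (C.wMap (C.ext.inr S j i hS hi)).comp (C.gamma (GSum.disc i)) :=
  (C.exists_gamma_snoc S _ (C.gammaTbl S.tbl S.valid).2 j i hS hi).choose_spec.2

/-- The comparison of cells with discs in the classifying space. -/
def psi (X : C.Gpd) : GHom (C.gs X) (C.gs (C.piTop (C.BX X))) where
  app n a := ((C.jMap X a).comp (C.gammaDisc n) : C(Disc n, C.BX X))
  app_s n a := by
    refine (C.piTop_src (C.BX X) n _).trans ?_
    show ((C.jMap X a).comp (C.gammaDisc (n + 1))).comp (low n) = _
    rw [ContinuousMap.comp_assoc, C.gammaDisc_low, ← ContinuousMap.comp_assoc, ← C.jMap_act]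
  app_t n a := by
    refine (C.piTop_tgt (C.BX X) n _).trans ?_
    show ((C.jMap X a).comp (C.gammaDisc (n + 1))).comp (high n) = _
    rw [ContinuousMap.comp_assoc, C.gammaDisc_high, ← ContinuousMap.comp_assoc, ← C.jMap_act]

theorem psi_app (X : C.Gpd) (n : ℕ) (a : C.cells X n) :
    C.asMap (C.BX X) ((C.psi X).app n a) = (C.jMap X a).comp (C.gammaDisc n) := rfl

theorem psi_natural {X Y : C.Gpd} (φ : X ⟶ Y) (n : ℕ) (a : C.cells X n) :
    C.mapCell (C.piTopMap (C.bMap φ)) n ((C.psi X).app n a) = (C.psi Y).app n (C.mapCell φ n a) := by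
  show (C.bMap φ).comp ((C.jMap X a).comp (C.gammaDisc n)) = _
  rw [← ContinuousMap.comp_assoc, C.jMap_natural]
  rfl

theorem exists_unitHomotopy : ∃ K : ∀ n, C(Disc n, C(I, Disc n)),
    (∀ n, (evalAt (Disc n) 0).comp (K n) = (C.epsRep (GSum.disc n)).comp (C.gammaDisc n) ∧
      (evalAt (Disc n) 1).comp (K n) = ContinuousMap.id _) ∧
    ∀ n, (K (n + 1)).comp (low n) = (postPath (low n)).comp (K n) ∧
      (K (n + 1)).comp (high n) = (postPath (high n)).comp (K n) := by
  have : Subsingleton (Disc 0) := ⟨fun a b => Subtype.ext (Subsingleton.elim _ _)⟩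
  refine exists_globular (fun n => C(I, Disc n)) (fun n => postPath (low n))
    (fun n => postPath (high n))
    (fun n => ContinuousMap.ext fun γ => ContinuousMap.ext fun t =>
      ContinuousMap.congr_fun (low_low n) (γ t))
    (fun n => ContinuousMap.ext fun γ => ContinuousMap.ext fun t =>
      ContinuousMap.congr_fun (low_high n) (γ t))
    (fun n K => (evalAt (Disc n) 0).comp K = (C.epsRep (GSum.disc n)).comp (C.gammaDisc n) ∧
      (evalAt (Disc n) 1).comp K = ContinuousMap.id _)
    ⟨constPath (Disc 0), ContinuousMap.ext fun _ => Subsingleton.elim _ _,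
      ContinuousMap.ext fun _ => Subsingleton.elim _ _⟩ ?_
  intro n g hg hpar
  have hlo : ((C.epsRep (GSum.disc (n + 1))).comp (C.gammaDisc (n + 1))).comp (low n)
      = (low n).comp ((C.epsRep (GSum.disc n)).comp (C.gammaDisc n)) := by
    rw [ContinuousMap.comp_assoc, C.gammaDisc_low, ← ContinuousMap.comp_assoc, C.epsRep_natural,
      C.realMap_src]
    rfl
  have hhi : ((C.epsRep (GSum.disc (n + 1))).comp (C.gammaDisc (n + 1))).comp (high n)
      = (high n).comp ((C.epsRep (GSum.disc n)).comp (C.gammaDisc n)) := by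
    rw [ContinuousMap.comp_assoc, C.gammaDisc_high, ← ContinuousMap.comp_assoc, C.epsRep_natural,
      C.realMap_tgt]
    rfl
  obtain ⟨K, h1, h2, h3, h4⟩ := (CptNull.of_contractible (Disc (n + 1))).exists_fill_cyl
    ((postPath (low n)).comp g) ((postPath (high n)).comp g) hpar
    ((C.epsRep (GSum.disc (n + 1))).comp (C.gammaDisc (n + 1))) (ContinuousMap.id _)
    (fun x => (congrArg (low n) (ContinuousMap.congr_fun hg.1 x)).trans
      (ContinuousMap.congr_fun hlo x).symm)
    (fun x => congrArg (low n) (ContinuousMap.congr_fun hg.2 x))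
    (fun x => (congrArg (high n) (ContinuousMap.congr_fun hg.1 x)).trans
      (ContinuousMap.congr_fun hhi x).symm)
    (fun x => congrArg (high n) (ContinuousMap.congr_fun hg.2 x))
  exact ⟨K, ⟨h3, h4⟩, h1, h2⟩

/-- The homotopy from `ε ∘ ψ` to the identity, as a map of globular sets into paths. -/
def unitHomotopy (Y : Type) [TopologicalSpace Y] :
    GHom (C.gs (C.piTop Y)) (C.gs (C.piTop C(I, Y))) where
  app n a := ((postPath (C.asMap Y a)).comp (C.exists_unitHomotopy.choose n) : C(Disc n, C(I, Y)))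
  app_s n a := by
    refine (C.piTop_src C(I, Y) n _).trans ?_
    show ((postPath (C.asMap Y a)).comp (C.exists_unitHomotopy.choose (n + 1))).comp (low n) = _
    rw [ContinuousMap.comp_assoc, (C.exists_unitHomotopy.choose_spec.2 n).1]
    show _ = (postPath (C.asMap Y (act (C.piTop Y).obj (C.ext.src n) a))).comp _
    rw [C.piTop_src]
    rfl
  app_t n a := by
    refine (C.piTop_tgt C(I, Y) n _).trans ?_
    show ((postPath (C.asMap Y a)).comp (C.exists_unitHomotopy.choose (n + 1))).comp (high n) = _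
    rw [ContinuousMap.comp_assoc, (C.exists_unitHomotopy.choose_spec.2 n).2]
    show _ = (postPath (C.asMap Y (act (C.piTop Y).obj (C.ext.tgt n) a))).comp _
    rw [C.piTop_tgt]
    rfl

theorem unitHomotopy_zero (Y : Type) [TopologicalSpace Y] (n : ℕ) (a : C.cells (C.piTop Y) n) :
    C.mapCell (C.pathEv0 Y) n ((C.unitHomotopy Y).app n a)
      = C.mapCell (C.piTopMap (C.eps Y)) n ((C.psi (C.piTop Y)).app n a) := by
  show (evalAt Y 0).comp ((postPath (C.asMap Y a)).comp (C.exists_unitHomotopy.choose n))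
    = (C.eps Y).comp ((C.jMap (C.piTop Y) a).comp (C.gammaDisc n))
  have h : (C.eps Y).comp (C.jMap (C.piTop Y) a) = (C.asMap Y a).comp (C.epsRep (GSum.disc n)) :=
    C.eps_jMap (S := GSum.disc n) (C.asMap Y a)
  ext x
  refine Eq.trans ?_ (ContinuousMap.congr_fun h (C.gammaDisc n x)).symm
  exact congrArg (C.asMap Y a)
    (ContinuousMap.congr_fun (C.exists_unitHomotopy.choose_spec.1 n).1 x)

theorem unitHomotopy_one (Y : Type) [TopologicalSpace Y] (n : ℕ) (a : C.cells (C.piTop Y) n) :
    C.mapCell (C.pathEv1 Y) n ((C.unitHomotopy Y).app n a) = a := by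
  show (evalAt Y 1).comp ((postPath (C.asMap Y a)).comp (C.exists_unitHomotopy.choose n)) = _
  refine Eq.trans ?_ (ContinuousMap.comp_id _)
  rw [← (C.exists_unitHomotopy.choose_spec.1 n).2]
  rfl

theorem unitHomotopy_natural {Y W : Type} [TopologicalSpace Y] [TopologicalSpace W] (f : C(Y, W))
    (n : ℕ) (a : C.cells (C.piTop Y) n) :
    C.mapCell (C.piTopMap (postPath f)) n ((C.unitHomotopy Y).app n a)
      = (C.unitHomotopy W).app n (C.mapCell (C.piTopMap f) n a) := rfl

end Coherator

end Vale.Agent.P259
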