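import Vale.Agent.P259.AssemblyPhi
import Vale.Agent.P259.CompareGamma

/-!
# P259 (G): the homotopy hypothesis from the resolution and the bijectivity of `psi`
-/

noncomputable section

open CategoryTheory Opposite
open scoped unitInterval

namespace Vale.Agent.P259

/-- A natural resolution `X ← res X → piTop (B X)`, the second map being homotopic as a globular
map to the disc models of cells. -/
structure Resolution (C : Coherator) where
  res : C.Gpd ⥤ C.Gpd
  q : res ⟶ 𝟭 C.Gpd
  phi : res ⟶ C.bFunctor ⋙ CompactlyGenerated.compactlyGeneratedToTop.{0, 0} ⋙ C.piTopFunctor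
  q_trivFib : ∀ X, IsTrivFib (q.app X)
  phi_model : ∀ X, HomotopicToModel C.gammaDisc (X := X) (phi.app X) (q.app X)

variable {C : Coherator}

theorem Resolution.weq_phi (R : Resolution C) (c : IdChoice C) (X : C.Gpd)
    (hpsi0 : Function.Bijective (psi0 X)) (hpsi : ∀ x m, Function.Bijective (psi c X x m)) :
    weq c (X := R.res.obj X) (Y := C.piTop (C.BX X)) (R.phi.app X) :=
  weq_of_homotopicToModel C.gammaDisc (fun n p => ContinuousMap.congr_fun (C.gammaDisc_low n) p)
    (fun n p => ContinuousMap.congr_fun (C.gammaDisc_high n) p) c (R.phi_model X)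
    ((R.q_trivFib X).isEquivMap.weq c) hpsi0 hpsi

/-- The counit is a weak homotopy equivalence. -/
theorem Resolution.isWeakHomotopyEquiv_eps (R : Resolution C) (c : IdChoice C) (Y : Type)
    [TopologicalSpace Y] (hpsi0 : Function.Bijective (psi0 (C.piTop Y)))
    (hpsi : ∀ x m, Function.Bijective (psi c (C.piTop Y) x m)) :
    IsWeakHomotopyEquiv (C.eps Y) := by
  refine C.isWeakHomotopyEquiv_of_gRel c (ψ := R.q.app (C.piTop Y))
    (R.weq_phi c (C.piTop Y) hpsi0 hpsi) ((R.q_trivFib _).isEquivMap.weq c) ?_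
  obtain ⟨H, h0, h1⟩ := R.phi_model (C.piTop Y)
  let q : R.res.obj (C.piTop Y) ⟶ C.piTop Y := R.q.app (C.piTop Y)
  let mid : GHom (C.gs (R.res.obj (C.piTop Y))) (C.gs (C.piTop Y)) :=
    (gsMap q.hom).comp ((C.psi (C.piTop Y)).comp (gsMap (C.piTopMap (C.eps Y)).hom))
  refine Coherator.GRel.trans C (g := mid)
    ⟨H.comp (gsMap (C.piTopMap (postPath (C.eps Y))).hom), fun n a p => ?_, fun n a p => ?_⟩
    ⟨(gsMap q.hom).comp (C.unitHomotopy Y), fun n a p => ?_, fun n a p => ?_⟩
  · exact congrArg (C.eps Y) (h0 n a p)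
  · exact congrArg (C.eps Y) (h1 n a p)
  · exact ContinuousMap.congr_fun (C.unitHomotopy_zero Y n (C.mapCell q n a)) p
  · exact ContinuousMap.congr_fun (C.unitHomotopy_one Y n (C.mapCell q n a)) p

/-- The counit on compactly generated spaces. -/
def Coherator.epsNat (C : Coherator) : C.discFunctor.piInfty ⋙ C.bFunctor ⟶ 𝟭 CGTop where
  app Y := C.bFunctor.map (C.piInftyIso.hom.app Y) ≫
    CompactlyGenerated.ofHom.{0, 0} (X := C.BX (C.piTop Y.toTop)) (Y := Y.toTop) (C.eps Y.toTop)
  naturality Y Y' f := by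
    refine ConcreteCategory.hom_ext _ _ fun z => ?_
    show C.eps Y'.toTop (C.bMap (C.piInftyIso.hom.app Y') (C.bMap (C.discFunctor.piInfty.map f) z))
      = f.hom.hom (C.eps Y.toTop (C.bMap (C.piInftyIso.hom.app Y) z))
    have e : C.discFunctor.piInfty.map f ≫ C.piInftyIso.hom.app Y' =
        C.piInftyIso.hom.app Y ≫ C.piTopMap f.hom.hom := C.piInftyIso.hom.naturality f
    exact (congrArg (C.eps Y'.toTop) (C.bMap_bMap _ _ z)).trans
      ((congrArg (fun k => C.eps Y'.toTop (C.bMap k z)) e).trans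
        ((congrArg (C.eps Y'.toTop) (C.bMap_bMap _ _ z).symm).trans
          (ContinuousMap.congr_fun (C.eps_natural f.hom.hom) _)))

theorem Resolution.whe_epsNat (R : Resolution C) (c : IdChoice C)
    (hpsi0 : ∀ X : C.Gpd, Function.Bijective (psi0 X))
    (hpsi : ∀ (X : C.Gpd) x m, Function.Bijective (psi c X x m)) (Y : CGTop) :
    whe (C.epsNat.app Y) := by
  let i : C.BX (C.discFunctor.piInfty.obj Y) ≃ₜ C.BX (C.piTop Y.toTop) :=
    CompactlyGenerated.homeoOfIso.{0, 0} (C.bFunctor.mapIso (C.piInftyIso.app Y))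
  let i' : C(C.BX (C.discFunctor.piInfty.obj Y), C.BX (C.piTop Y.toTop)) := ⟨i, i.continuous⟩
  have hi : IsWeakHomotopyEquiv i' := by
    let e : C.piTop (C.BX (C.discFunctor.piInfty.obj Y)) ≅ C.piTop (C.BX (C.piTop Y.toTop)) :=
      C.piTopFunctor.mapIso (TopCat.isoOfHomeo
        (X := TopCat.of (C.BX (C.discFunctor.piInfty.obj Y)))
        (Y := TopCat.of (C.BX (C.piTop Y.toTop))) i)
    exact (C.weq_piTopMap_iff c _).1 ((isTrivFib_of_iso e).isEquivMap.weq c)
  have h := weq_comp c ((C.weq_piTopMap_iff c _).2 hi)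
    ((C.weq_piTopMap_iff c _).2 (R.isWeakHomotopyEquiv_eps c Y.toTop (hpsi0 _) (hpsi _)))
  exact (C.weq_piTopMap_iff c ((C.eps Y.toTop).comp i')).1 h

/-- The homotopy hypothesis from resolutions and the bijectivity of `psi`. -/
theorem homotopyHypothesis_of_resolution (hR : ∀ C : Coherator, Nonempty (Resolution C))
    (hpsi0 : ∀ (C : Coherator) (X : C.Gpd), Function.Bijective (psi0 X))
    (hpsi : ∀ (C : Coherator) (c : IdChoice C) (X : C.Gpd) x m,
      Function.Bijective (psi c X x m)) : HomotopyHypothesis := by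
  refine homotopyHypothesis_of_comparison fun C c => ?_
  obtain ⟨R⟩ := hR C
  refine ⟨C.bFunctor, R.res, R.q,
    R.phi ≫ Functor.whiskerLeft C.bFunctor C.piInftyIso.inv, C.epsNat,
    fun X => (R.q_trivFib X).isEquivMap.weq c, fun X => ?_,
    R.whe_epsNat c (hpsi0 C) (hpsi C c)⟩
  exact weq_comp c (R.weq_phi c X (hpsi0 C X) (hpsi C c X))
    ((isTrivFib_of_iso (C.piInftyIso.app _).symm).isEquivMap.weq c)

end Vale.Agent.P259
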