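import Vale.Agent.P259.Model

/-!
# P259: natural families of cells and their fillers
-/

open CategoryTheory Opposite

namespace Vale.Agent.P259

variable {C : Coherator}

/-- Parallel cells of a globular set. -/
def GSet.Par (G : GSet) : ∀ {n : ℕ}, G.cell n → G.cell n → Prop
  | 0, _, _ => True
  | _ + 1, a, b => G.s a = G.s b ∧ G.t a = G.t b

/-- The representable groupoid. -/
abbrev Coherator.rep (C : Coherator) (S : GSum) : C.Gpd :=
  ⟨yoneda.obj (⟨S⟩ : C.ext.Obj), fun T j i hS hi a b h => by
    obtain ⟨w, hw, huniq⟩ := C.ext.sum_univ T j i hS hi S a b h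
    exact ⟨w, hw, fun w' hw' => huniq w' hw'⟩⟩

/-- The map out of a representable groupoid classifying an element. -/
def Coherator.hat (X : C.Gpd) {S : GSum} (x : X.obj.obj (op ⟨S⟩)) : C.rep S ⟶ X :=
  ObjectProperty.homMk
    { app := fun T => TypeCat.ofHom fun f => act X.obj f x
      naturality := fun T U g => by
        ext f
        exact act_comp X.obj g.unop f x }

theorem Coherator.hat_app (X : C.Gpd) {S R : GSum} (x : X.obj.obj (op ⟨S⟩))
    (f : C.ext.Hom R S) : (C.hat X x).hom.app (op ⟨R⟩) f = act X.obj f x := rfl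

/-- A set-valued assignment on groupoids, with an action of maps. -/
structure TFun (C : Coherator) where
  obj : C.Gpd → Type
  map : ∀ {X Y : C.Gpd}, (X ⟶ Y) → obj X → obj Y

/-- A natural transformation. -/
@[ext]
structure Nat' (F G : TFun C) where
  app : ∀ X, F.obj X → G.obj X
  nat : ∀ {X Y : C.Gpd} (φ : X ⟶ Y) (x : F.obj X), G.map φ (app X x) = app Y (F.map φ x)

def Nat'.comp {F G H : TFun C} (a : Nat' F G) (b : Nat' G H) : Nat' F H where
  app X x := b.app X (a.app X x)
  nat φ x := by rw [b.nat, a.nat]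

def Nat'.idNat (F : TFun C) : Nat' F F where
  app _ x := x
  nat _ _ := rfl

/-- The assignment `X ↦ X_n`. -/
abbrev cellT (C : Coherator) (n : ℕ) : TFun C where
  obj X := (C.gs X).cell n
  map φ a := (gsMap φ.hom).app n a

/-- The assignment `X ↦` tuples indexed by a sum. -/
abbrev barT (C : Coherator) (S : GSum) : TFun C where
  obj X := (C.gs X).Bar S
  map φ p := (gsMap φ.hom).bar S p

/-- A natural family of `n`-cells. -/
abbrev Fam (R : TFun C) (n : ℕ) := Nat' R (cellT C n)

namespace Fam

variable {R R' : TFun C} {n : ℕ}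

def s (A : Fam R (n + 1)) : Fam R n where
  app X x := (C.gs X).s (A.app X x)
  nat φ x := by
    show (gsMap φ.hom).app n _ = _
    rw [← (gsMap φ.hom).app_s]
    exact congrArg _ (A.nat φ x)

def t (A : Fam R (n + 1)) : Fam R n where
  app X x := (C.gs X).t (A.app X x)
  nat φ x := by
    show (gsMap φ.hom).app n _ = _
    rw [← (gsMap φ.hom).app_t]
    exact congrArg _ (A.nat φ x)

def sIt {j : ℕ} (A : Fam R n) (h : j ≤ n) : Fam R j where
  app X x := (C.gs X).sIter h (A.app X x)
  nat φ x := by
    show (gsMap φ.hom).app j _ = _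
    rw [← (gsMap φ.hom).app_sIter]
    exact congrArg _ (A.nat φ x)

def tIt {j : ℕ} (A : Fam R n) (h : j ≤ n) : Fam R j where
  app X x := (C.gs X).tIter h (A.app X x)
  nat φ x := by
    show (gsMap φ.hom).app j _ = _
    rw [← (gsMap φ.hom).app_tIter]
    exact congrArg _ (A.nat φ x)

/-- Parallel families. -/
def Par (A B : Fam R n) : Prop := ∀ X x, (C.gs X).Par (A.app X x) (B.app X x)

theorem par_of_eq {A B : Fam R (n + 1)} (hs : A.s = B.s) (ht : A.t = B.t) : A.Par B :=
  fun X x => ⟨congrFun (congrFun (congrArg Nat'.app hs) X) x,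
    congrFun (congrFun (congrArg Nat'.app ht) X) x⟩

theorem par_iff {A B : Fam R (n + 1)} : A.Par B ↔ A.s = B.s ∧ A.t = B.t :=
  ⟨fun h => ⟨Nat'.ext (funext fun X => funext fun x => (h X x).1),
    Nat'.ext (funext fun X => funext fun x => (h X x).2)⟩, fun h => par_of_eq h.1 h.2⟩

/-- Restriction along a natural transformation. -/
abbrev pre (e : Nat' R' R) (A : Fam R n) : Fam R' n := Nat'.comp e A

theorem pre_s (e : Nat' R' R) (A : Fam R (n + 1)) : (A.pre e).s = A.s.pre e := rfl

theorem pre_t (e : Nat' R' R) (A : Fam R (n + 1)) : (A.pre e).t = A.t.pre e := rfl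

/-- The boundary identity. -/
theorem ss (A : Fam R (n + 2)) : A.s.s = A.t.s :=
  Nat'.ext (funext fun X => funext fun x => (C.gs X).ss _)

theorem ts (A : Fam R (n + 2)) : A.s.t = A.t.t :=
  Nat'.ext (funext fun X => funext fun x => (C.gs X).ts _)

/-- A lift of a pair of families. -/
def IsFill (A B : Fam R n) (H : Fam R (n + 1)) : Prop := H.s = A ∧ H.t = B

/-- Two families are joined by a natural cell. -/
def Rel (A B : Fam R n) : Prop := ∃ H : Fam R (n + 1), IsFill A B H

end Fam

/-- All parallel pairs of natural `n`-cells have natural fillers. -/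
def HasFill (R : TFun C) (n : ℕ) : Prop := ∀ A B : Fam R n, A.Par B → A.Rel B

/-- Retracts inherit fillers. -/
theorem HasFill.of_retract {R R' : TFun C} {n : ℕ} (h : HasFill R' n) (r : Nat' R R')
    (s : Nat' R' R) (hrs : ∀ X x, s.app X (r.app X x) = x) : HasFill R n := by
  intro A B hAB
  obtain ⟨H, hs, ht⟩ := h (A.pre s) (B.pre s) (fun X x => hAB X (s.app X x))
  refine ⟨H.pre r, ?_, ?_⟩
  · refine Nat'.ext (funext fun X => funext fun x => ?_)
    show (Fam.s H).app X (r.app X x) = A.app X x
    rw [hs]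
    exact congrArg (A.app X) (hrs X x)
  · refine Nat'.ext (funext fun X => funext fun x => ?_)
    show (Fam.t H).app X (r.app X x) = B.app X x
    rw [ht]
    exact congrArg (B.app X) (hrs X x)

/-- A natural family of cells on tuples is given by a map of the coherator. -/
theorem exists_hom_of_fam {S : GSum} {n : ℕ} (A : Fam (barT C S) n) :
    ∃ f : C.ext.Hom (GSum.disc n) S, ∀ X (x : X.obj.obj (op ⟨S⟩)),
      A.app X (toBar X.obj S x) = act X.obj f x := by
  refine ⟨A.app (C.rep S) (toBar (C.rep S).obj S (C.ext.id S)), fun X x => ?_⟩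
  have h := A.nat (C.hat X x) (toBar (C.rep S).obj S (C.ext.id S))
  have e : (gsMap (C.hat X x).hom).bar S (toBar (C.rep S).obj S (C.ext.id S))
      = toBar X.obj S x := by
    rw [toBar_natural]
    exact congrArg (toBar X.obj S) ((C.hat_app X x (C.ext.id S)).trans (act_id X.obj x))
  exact ((congrArg (A.app X) e).symm.trans h.symm).trans (C.hat_app X x _)

/-- The family given by a map of the coherator. -/
noncomputable def Fam.ofHom {S : GSum} {n : ℕ} (f : C.ext.Hom (GSum.disc n) S) :
    Fam (barT C S) n where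
  app X p := act X.obj f ((C.barEquiv X S).symm p)
  nat {X Y} φ p := by
    refine (act_natural φ.hom f _).trans (congrArg (act Y.obj f) ?_)
    apply (C.barEquiv Y S).injective
    rw [Equiv.apply_symm_apply]
    refine (toBar_natural φ.hom S _).symm.trans ?_
    show (gsMap φ.hom).bar S (C.barEquiv X S ((C.barEquiv X S).symm p)) = _
    rw [Equiv.apply_symm_apply]

theorem Fam.ofHom_toBar {S : GSum} {n : ℕ} (f : C.ext.Hom (GSum.disc n) S) (X : C.Gpd)
    (x : X.obj.obj (op ⟨S⟩)) : (Fam.ofHom f).app X (toBar X.obj S x) = act X.obj f x := by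
  show act X.obj f ((C.barEquiv X S).symm (C.barEquiv X S x)) = _
  rw [Equiv.symm_apply_apply]

/-- Admissible pairs give fillers. -/
theorem hasFill_barT (C : Coherator) (S : GSum) (n : ℕ) (hS : S.dim ≤ n + 1) :
    HasFill (barT C S) n := by
  intro A B hAB
  obtain ⟨f, hf⟩ := exists_hom_of_fam A
  obtain ⟨g, hg⟩ := exists_hom_of_fam B
  have hu : ∀ h : C.ext.Hom (GSum.disc n) S, act (C.rep S).obj h (C.ext.id S) = h :=
    fun h => C.ext.comp_id h
  have ef : A.app (C.rep S) (toBar (C.rep S).obj S (C.ext.id S)) = f := (hf _ _).trans (hu f)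
  have eg : B.app (C.rep S) (toBar (C.rep S).obj S (C.ext.id S)) = g := (hg _ _).trans (hu g)
  have hpar : C.ext.Parallel f g := by
    have h := hAB (C.rep S) (toBar (C.rep S).obj S (C.ext.id S))
    rw [ef, eg] at h
    cases n with
    | zero => trivial
    | succ m => exact h
  obtain ⟨h, hh⟩ := C.contractible ⟨n, S, f, g, hpar, hS⟩
  refine ⟨Fam.ofHom h, ?_, ?_⟩
  · refine Nat'.ext (funext fun X => funext fun p => ?_)
    obtain ⟨x, rfl⟩ := (toBar_bijective X.obj X.property S).2 p
    show (C.gs X).s ((Fam.ofHom h).app X (toBar X.obj S x)) = A.app X (toBar X.obj S x)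
    rw [Fam.ofHom_toBar, hf]
    exact (act_comp X.obj _ _ x).symm.trans (congrArg (fun k => act X.obj k x) hh.1)
  · refine Nat'.ext (funext fun X => funext fun p => ?_)
    obtain ⟨x, rfl⟩ := (toBar_bijective X.obj X.property S).2 p
    show (C.gs X).t ((Fam.ofHom h).app X (toBar X.obj S x)) = B.app X (toBar X.obj S x)
    rw [Fam.ofHom_toBar, hg]
    exact (act_comp X.obj _ _ x).symm.trans (congrArg (fun k => act X.obj k x) hh.2)

end Vale.Agent.P259
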