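import Vale.Agent.P259.BHomotopy
import Vale.Agent.P259.Fam

/-!
# P259 (E): categories of elements and their classifying spaces
-/

open CategoryTheory Opposite Topology

noncomputable section

namespace Vale.Agent.P259

variable {C : Coherator}

/-- An element of a groupoid. -/
structure El (X : C.Gpd) : Type where
  sum : GSum
  elt : X.obj.obj (op ⟨sum⟩)

/-- A map of elements. -/
@[ext]
structure ElHom {X : C.Gpd} (p q : El X) : Type where
  hom : C.ext.Hom p.sum q.sum
  act_eq : act X.obj hom q.elt = p.elt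

instance (X : C.Gpd) : SmallCategory (El X) where
  Hom p q := ElHom p q
  id p := ⟨C.ext.id p.sum, act_id X.obj p.elt⟩
  comp f g := ⟨C.ext.comp f.hom g.hom,
    (act_comp X.obj f.hom g.hom _).trans ((congrArg (act X.obj f.hom) g.act_eq).trans f.act_eq)⟩
  id_comp f := ElHom.ext (C.ext.id_comp f.hom)
  comp_id f := ElHom.ext (C.ext.comp_id f.hom)
  assoc f g h := ElHom.ext (C.ext.assoc f.hom g.hom h.hom)

namespace El

variable {X Y Z : C.Gpd}

@[ext]
theorem hom_ext {p q : El X} {f g : p ⟶ q} (h : ElHom.hom f = ElHom.hom g) : f = g := ElHom.ext h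

@[simp] theorem id_hom (p : El X) : ElHom.hom (𝟙 p) = C.ext.id p.sum := rfl

@[simp] theorem comp_hom {p q r : El X} (f : p ⟶ q) (g : q ⟶ r) :
    ElHom.hom (f ≫ g) = C.ext.comp (ElHom.hom f) (ElHom.hom g) := rfl

/-- The functor induced by a map of groupoids. -/
def map (φ : X ⟶ Y) : El X ⥤ El Y where
  obj p := ⟨p.sum, φ.hom.app (op ⟨p.sum⟩) p.elt⟩
  map {p q} f := ⟨f.hom, (act_natural φ.hom f.hom q.elt).symm.trans
    (congrArg (φ.hom.app (op ⟨p.sum⟩)) f.act_eq)⟩

theorem map_id : map (𝟙 X) = 𝟭 (El X) := rfl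

theorem map_comp (φ : X ⟶ Y) (ψ : Y ⟶ Z) : map (φ ≫ ψ) = map φ ⋙ map ψ := rfl

/-- Forget the element. -/
def forget (X : C.Gpd) : El X ⥤ C.ext.Obj where
  obj p := ⟨p.sum⟩
  map f := f.hom

theorem map_forget (φ : X ⟶ Y) : map φ ⋙ forget Y = forget X := rfl

/-- The identity of `S` as an element of the representable groupoid. -/
def self (C : Coherator) (S : GSum) : El (C.rep S) := ⟨S, C.ext.id S⟩

/-- The identity is terminal among the elements of a representable. -/
def selfTerminal (C : Coherator) (S : GSum) : Limits.IsTerminal (self C S) :=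
  Limits.IsTerminal.ofUniqueHom (fun p => ⟨p.elt, C.ext.comp_id p.elt⟩)
    (fun p m => El.hom_ext ((C.ext.comp_id m.hom).symm.trans m.act_eq))

end El

namespace Coherator

variable (C) {X Y Z : C.Gpd}

/-- The classifying space of the category of elements. -/
abbrev BX (X : C.Gpd) : Type := BSp (El X)

/-- The classifying space of the elements of a representable. -/
abbrev WS (S : GSum) : Type := BSp (El (C.rep S))

/-- The map of classifying spaces. -/
abbrev bMap {X Y : C.Gpd} (φ : X ⟶ Y) : C(C.BX X, C.BX Y) := BSp.map (El.map φ)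

theorem bMap_id (X : C.Gpd) : C.bMap (𝟙 X) = ContinuousMap.id (C.BX X) := by
  show BSp.map (El.map (𝟙 X)) = _
  rw [El.map_id, BSp.map_id]

theorem bMap_comp (φ : X ⟶ Y) (ψ : Y ⟶ Z) :
    C.bMap (φ ≫ ψ) = (C.bMap ψ).comp (C.bMap φ) := by
  show BSp.map (El.map (φ ≫ ψ)) = _
  rw [El.map_comp, BSp.map_comp]

theorem bMap_bMap (φ : X ⟶ Y) (ψ : Y ⟶ Z) (z : C.BX X) :
    C.bMap ψ (C.bMap φ z) = C.bMap (φ ≫ ψ) z := by
  rw [bMap_comp]; rfl

/-- The classifying space as a functor to compactly generated spaces. -/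
def bFunctor : C.Gpd ⥤ CGTop where
  obj X := BSp.toCG (El X)
  map φ := CompactlyGenerated.ofHom.{0, 0} (C.bMap φ)
  map_id X := ConcreteCategory.hom_ext _ _ fun z => ContinuousMap.congr_fun (C.bMap_id X) z
  map_comp φ ψ := ConcreteCategory.hom_ext _ _ fun z =>
    ContinuousMap.congr_fun (C.bMap_comp φ ψ) z

/-- The map of a map of globular sums. -/
abbrev wMap {R S : GSum} (f : C.ext.Hom R S) : C(C.WS R, C.WS S) := C.bMap (C.hat (C.rep S) f)

theorem hat_comp_hat (X : C.Gpd) {R S : GSum} (f : C.ext.Hom R S) (x : X.obj.obj (op ⟨S⟩)) :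
    C.hat (C.rep S) f ≫ C.hat X x = C.hat X (act X.obj f x) := by
  refine ObjectProperty.hom_ext _ (NatTrans.ext (funext fun T => ?_))
  ext g
  exact act_comp X.obj g f x

theorem hat_natural (φ : X ⟶ Y) {S : GSum} (x : X.obj.obj (op ⟨S⟩)) :
    C.hat X x ≫ φ = C.hat Y (φ.hom.app (op ⟨S⟩) x) := by
  refine ObjectProperty.hom_ext _ (NatTrans.ext (funext fun T => ?_))
  ext g
  exact act_natural φ.hom g x

theorem hat_rep_id (S : GSum) : C.hat (C.rep S) (C.ext.id S) = 𝟙 (C.rep S) := by
  refine ObjectProperty.hom_ext _ (NatTrans.ext (funext fun T => ?_))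
  ext g
  exact C.ext.comp_id g

theorem wMap_id (S : GSum) : C.wMap (C.ext.id S) = ContinuousMap.id (C.WS S) := by
  show C.bMap (C.hat (C.rep S) (C.ext.id S)) = _
  rw [hat_rep_id, bMap_id]

theorem wMap_comp {R S T : GSum} (f : C.ext.Hom R S) (g : C.ext.Hom S T) :
    C.wMap (C.ext.comp f g) = (C.wMap g).comp (C.wMap f) := by
  show C.bMap (C.hat (C.rep T) (C.ext.comp f g)) = _
  rw [← bMap_comp, hat_comp_hat]
  rfl

/-- The map from the space of a representable classifying an element. -/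
abbrev jMap (X : C.Gpd) {S : GSum} (x : X.obj.obj (op ⟨S⟩)) : C(C.WS S, C.BX X) :=
  C.bMap (C.hat X x)

theorem jMap_act (X : C.Gpd) {R S : GSum} (f : C.ext.Hom R S) (x : X.obj.obj (op ⟨S⟩)) :
    C.jMap X (act X.obj f x) = (C.jMap X x).comp (C.wMap f) := by
  show C.bMap _ = _
  rw [← hat_comp_hat, bMap_comp]

theorem jMap_natural (φ : X ⟶ Y) {S : GSum} (x : X.obj.obj (op ⟨S⟩)) :
    (C.bMap φ).comp (C.jMap X x) = C.jMap Y (φ.hom.app (op ⟨S⟩) x) := by
  show _ = C.bMap _
  rw [← hat_natural, bMap_comp]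

/-- Maps from compact spaces into the space of a representable are null-homotopic. -/
theorem ws_nullhomotopic (S : GSum) {K : Type*} [TopologicalSpace K] [CompactSpace K]
    (f : C(K, C.WS S)) : ∃ z, f.Homotopic (ContinuousMap.const K z) :=
  BSp.nullhomotopic_of_isTerminal (El.selfTerminal C S) f

instance (S : GSum) : Nonempty (El (C.rep S)) := ⟨El.self C S⟩

end Coherator

end Vale.Agent.P259
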