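import Vale.Agent.P259.HomotopyRep

/-!
# P259 (K2): the boundary map of a fibration with contractible total groupoid

For a fibration `π : E ⟶ X` with `E` contractible and a base point `e0` over `x`, loops of
dimension `m + 1` at `x` correspond, up to homotopy, to cells of dimension `m` of the fibre that
are parallel to the identity of the base point.  The paths starting at `x` give such a fibration.
-/

open CategoryTheory Opposite

namespace Vale.Agent.P259

variable {C : Coherator}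

namespace Coherator

variable {X Y : C.Gpd}

theorem src_idCell (c : IdChoice C) (X : C.Gpd) (x : C.cells X 0) (n : ℕ) :
    C.src' X (idCell c X x (n + 1)) = idCell c X x n := by
  show act X.obj _ (act X.obj _ _) = _
  rw [← act_comp, (c.one_spec n).1, act_id]

theorem tgt_idCell (c : IdChoice C) (X : C.Gpd) (x : C.cells X 0) (n : ℕ) :
    C.tgt' X (idCell c X x (n + 1)) = idCell c X x n := by
  show act X.obj _ (act X.obj _ _) = _
  rw [← act_comp, (c.one_spec n).2, act_id]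

theorem par_symm : ∀ {n : ℕ} {a b : C.cells X n}, (C.gs X).Par a b → (C.gs X).Par b a
  | 0, _, _, _ => trivial
  | _ + 1, _, _, h => ⟨h.1.symm, h.2.symm⟩

theorem par_trans : ∀ {n : ℕ} {a b d : C.cells X n},
    (C.gs X).Par a b → (C.gs X).Par b d → (C.gs X).Par a d
  | 0, _, _, _, _, _ => trivial
  | _ + 1, _, _, _, h, h' => ⟨h.1.trans h'.1, h.2.trans h'.2⟩

theorem par_of_cellRel {n : ℕ} {a b : C.cells X n} (h : CellRel X a b) : (C.gs X).Par a b := by
  obtain ⟨H, rfl, rfl⟩ := h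
  exact C.par_boundary X H

theorem map_invC (φ : X ⟶ Y) {n : ℕ} (a : C.cells X (n + 1)) :
    C.mapCell φ (n + 1) (C.invC X a) = C.invC Y (C.mapCell φ (n + 1) a) :=
  (Fam.inv (discT (n + 1))).nat φ _

theorem invC_cmpC (X : C.Gpd) {n : ℕ} (a : C.cells X (n + 1)) :
    CellRel X (C.cmpC X (C.invC X a) a (C.tgt_invC X a)) (C.oneC X (C.tgt' X a)) :=
  C.cellRel_of_rel (Fam.inv_cmp (discT (C := C) (n + 1))) X ((C.gs X).one (n + 1) a)

theorem cmpC_congr {n : ℕ} {a a' b b' : C.cells X (n + 1)} (ha : a = a') (hb : b = b')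
    (h : C.tgt' X a = C.src' X b) :
    C.cmpC X a b h = C.cmpC X a' b' (ha ▸ hb ▸ h) := by
  subst ha hb; rfl

theorem hat_comp (φ : X ⟶ Y) {S : GSum} (x : X.obj.obj (op ⟨S⟩)) :
    C.hat X x ≫ φ = C.hat Y (C.mapAt φ S x) :=
  ObjectProperty.hom_ext _ (by ext R f; exact act_natural φ.hom f x)

end Coherator

/-! ## Fibres -/

section Fiber

variable (c : IdChoice C) {E X : C.Gpd} (π : E ⟶ X) {x : C.cells X 0} (e0 : C.cells E 0)
  (hx : C.mapCell π 0 e0 = x)

/-- The fibre over a point. -/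
def fiber (x : C.cells X 0) : C.Gpd := pb (C.hat X x) π

/-- The inclusion of a fibre. -/
def fiberIncl (x : C.cells X 0) : fiber π x ⟶ E := pbSnd (C.hat X x) π

/-- The map from a fibre to the point. -/
def fiberFst (x : C.cells X 0) : fiber π x ⟶ C.rep (GSum.disc 0) := pbFst (C.hat X x) π

/-- The base point of a fibre. -/
def fiberPt : C.cells (fiber π x) 0 :=
  pbCell (C.hat X x) π (C.ext.id (GSum.disc 0)) e0 ((C.hat_id X x).trans hx.symm)

/-- The identity cells of the point. -/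
abbrev ptId (m : ℕ) : C.cells (C.rep (GSum.disc 0)) m :=
  idCell c (C.rep (GSum.disc 0)) (C.ext.id (GSum.disc 0)) m

theorem hat_ptId (m : ℕ) : C.mapCell (C.hat X x) m (ptId c m) = idCell c X x m :=
  (idCell_map c (C.hat X x) _ m).trans (congrArg (fun z => idCell c X z m) (C.hat_id X x))

theorem fiber_comm {n : ℕ} (y : C.cells (fiber π x) n) :
    C.mapCell (C.hat X x) n (C.mapCell (fiberFst π x) n y) =
      C.mapCell π n (C.mapCell (fiberIncl π x) n y) :=
  pb_cell_comm (C.hat X x) π y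

/-- `y` is a boundary of the loop `a`: a lift of `a` starts at the base point and ends at `y`. -/
def Bdry {m : ℕ} (a : Loop c X x m) (y : C.cells (fiber π x) m) : Prop :=
  C.mapCell (fiberFst π x) m y = ptId c m ∧
    ∃ b : C.cells E (m + 1), C.src' E b = idCell c E e0 m ∧
      C.tgt' E b = C.mapCell (fiberIncl π x) m y ∧ C.mapCell π (m + 1) b = a.1

variable {π e0}

theorem Bdry.par {m : ℕ} {a : Loop c X x m} {y : C.cells (fiber π x) m}
    (h : Bdry c π e0 a y) : (C.gs (fiber π x)).Par y (idCell c _ (fiberPt π e0 hx) m) := by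
  obtain ⟨h1, b, hs, ht, -⟩ := h
  cases m with
  | zero => exact trivial
  | succ m =>
    have f1 := idCell_map c (fiberFst π x) (fiberPt π e0 hx) m
    have f2 := idCell_map c (fiberIncl π x) (fiberPt π e0 hx) m
    refine ⟨(pbCell_ext _ _ ?_ ?_).trans (C.src_idCell c _ _ m).symm,
      (pbCell_ext _ _ ?_ ?_).trans (C.tgt_idCell c _ _ m).symm⟩
    · exact (((C.map_src' (fiberFst π x) y).trans (congrArg _ h1)).trans
        (C.src_idCell c _ _ m)).trans f1.symm
    · exact ((((C.map_src' (fiberIncl π x) y).trans (congrArg _ ht.symm)).trans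
        (C.ss' E b).symm).trans ((congrArg _ hs).trans (C.src_idCell c _ _ m))).trans f2.symm
    · exact (((C.map_tgt' (fiberFst π x) y).trans (congrArg _ h1)).trans
        (C.tgt_idCell c _ _ m)).trans f1.symm
    · exact ((((C.map_tgt' (fiberIncl π x) y).trans (congrArg _ ht.symm)).trans
        (C.ts' E b).symm).trans ((congrArg _ hs).trans (C.tgt_idCell c _ _ m))).trans f2.symm

/-- Every loop has a boundary. -/
theorem exists_bdry (hπ : IsFib π) (hx : C.mapCell π 0 e0 = x) {m : ℕ} (a : Loop c X x m) :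
    ∃ y, Bdry c π e0 a y := by
  obtain ⟨b, hs, hb⟩ := hπ m (idCell c E e0 m) a.1
    (a.2.1.trans ((congrArg (fun z => idCell c X z m) hx.symm).trans (idCell_map c π e0 m).symm))
  have h : C.mapCell (C.hat X x) m (ptId c m) = C.mapCell π m (C.tgt' E b) := by
    rw [hat_ptId, C.map_tgt' π b, hb]
    exact a.2.2.symm
  exact ⟨pbCell (C.hat X x) π (ptId c m) (C.tgt' E b) h, rfl, b, hs, rfl, hb⟩

/-- Every cell of the fibre parallel to the base point is, up to homotopy, a boundary. -/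
theorem exists_loop_of_par (hπ : IsFib π) (hE : IsContr E) (hx : C.mapCell π 0 e0 = x) {m : ℕ}
    (y : C.cells (fiber π x) m)
    (hy : (C.gs (fiber π x)).Par y (idCell c _ (fiberPt π e0 hx) m)) :
    ∃ y' a, CellRel (fiber π x) y y' ∧ Bdry c π e0 (x := x) (m := m) a y' := by
  have f1 : C.mapCell (fiberFst π x) m (idCell c _ (fiberPt π e0 hx) m) = ptId c m :=
    idCell_map c (fiberFst π x) (fiberPt π e0 hx) m
  have f2 : C.mapCell (fiberIncl π x) m (idCell c _ (fiberPt π e0 hx) m) = idCell c E e0 m :=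
    idCell_map c (fiberIncl π x) (fiberPt π e0 hx) m
  have hw : (C.gs (C.rep (GSum.disc 0))).Par (C.mapCell (fiberFst π x) m y) (ptId c m) := by
    have := C.par_map (fiberFst π x) hy
    exact f1 ▸ this
  obtain ⟨k, ks, kt⟩ := (isContr_rep_point C).rel m _ _ hw
  obtain ⟨H, Hs, Hk⟩ : ∃ H : C.cells (fiber π x) (m + 1),
      C.src' (fiber π x) H = y ∧ C.mapCell (fiberFst π x) (m + 1) H = k :=
    IsFib.pbFst (C.hat X x) π hπ m y k ks
  have r : CellRel (fiber π x) y (C.tgt' _ H) := ⟨H, Hs, rfl⟩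
  have e1 : C.mapCell (fiberFst π x) m (C.tgt' _ H) = ptId c m := by
    rw [C.map_tgt', Hk]; exact kt
  have hp : (C.gs E).Par (idCell c E e0 m) (C.mapCell (fiberIncl π x) m (C.tgt' _ H)) := by
    have := C.par_map (fiberIncl π x) (C.par_trans (C.par_symm hy) (C.par_of_cellRel r))
    exact f2 ▸ this
  obtain ⟨b, hs, ht⟩ := hE.rel m _ _ hp
  refine ⟨C.tgt' _ H, ⟨C.mapCell π (m + 1) b, ?_, ?_⟩, r, e1, b, hs, ht, rfl⟩
  · exact ((C.map_src' π b).symm.trans (congrArg (C.mapCell π m) hs)).trans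
      ((idCell_map c π e0 m).trans (congrArg (fun z => idCell c X z m) hx))
  · exact ((C.map_tgt' π b).symm.trans (congrArg (C.mapCell π m) ht)).trans
      (((fiber_comm π _).symm.trans (congrArg (C.mapCell (C.hat X x) m) e1)).trans
        (hat_ptId c m))

/-- Loops with homotopic boundaries are homotopic. -/
theorem Bdry.cellRel_loop (hE : IsContr E) {m : ℕ} {a a' : Loop c X x m}
    {y y' : C.cells (fiber π x) m} (h : Bdry c π e0 a y) (h' : Bdry c π e0 a' y')
    (r : CellRel (fiber π x) y y') : CellRel X a.1 a'.1 := by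
  obtain ⟨h1, b, hs, ht, hb⟩ := h
  obtain ⟨h1', b', hs', ht', hb'⟩ := h'
  obtain ⟨K, Ks, Kt⟩ := r
  let K' := C.mapCell (fiberIncl π x) (m + 1) K
  let k := C.mapCell (fiberFst π x) (m + 1) K
  have e : C.tgt' E b = C.src' E K' :=
    ht.trans ((congrArg (C.mapCell (fiberIncl π x) m) Ks).symm.trans (C.map_src' _ K))
  have hp : (C.gs E).Par (C.cmpC E b K' e) b' :=
    ⟨(C.src_cmpC E b K' e).trans (hs.trans hs'.symm),
      (C.tgt_cmpC E b K' e).trans (((C.map_tgt' _ K).symm.trans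
        (congrArg (C.mapCell (fiberIncl π x) m) Kt)).trans ht'.symm)⟩
  have r1 := CellRel.map π (hE.rel (m + 1) _ _ hp)
  have r2 : CellRel X (C.mapCell π (m + 1) K') (C.oneC X (idCell c X x m)) := by
    have hk : CellRel (C.rep (GSum.disc 0)) k (C.oneC (C.rep (GSum.disc 0)) (ptId c m)) :=
      (isContr_rep_point C).rel (m + 1) _ _
        ⟨((C.map_src' _ K).symm.trans ((congrArg _ Ks).trans h1)).trans (C.src_oneC _ _).symm,
          ((C.map_tgt' _ K).symm.trans ((congrArg _ Kt).trans h1')).trans (C.tgt_oneC _ _).symm⟩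
    have : CellRel X (C.mapCell (C.hat X x) (m + 1) k)
        (C.mapCell (C.hat X x) (m + 1) (C.oneC (C.rep (GSum.disc 0)) (ptId c m))) := CellRel.map (C.hat X x) hk
    rw [C.map_oneC, hat_ptId] at this
    exact (fiber_comm π K) ▸ this
  replace r1 : CellRel X (C.mapCell π (m + 1) (C.cmpC E b K' e)) a'.1 := hb' ▸ r1
  rw [C.map_cmpC π b K' e, C.cmpC_congr hb rfl] at r1
  have r3 := C.cmpC_oneC X a.1
  refine C.cellRel_trans (C.cellRel_symm r3) (C.cellRel_trans ?_ r1)
  refine C.cmpC_congr_right X a.1 (C.cellRel_symm ?_) _ _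
  exact (show C.tgt' X a.1 = idCell c X x m from a.2.2).symm ▸ r2

/-- Boundaries of homotopic loops are homotopic. -/
theorem Bdry.cellRel_bdry (hπ : IsFib π) {m : ℕ} {a a' : Loop c X x m}
    {y y' : C.cells (fiber π x) m} (h : Bdry c π e0 a y) (h' : Bdry c π e0 a' y')
    (r : CellRel X a.1 a'.1) : CellRel (fiber π x) y y' := by
  obtain ⟨h1, b, hs, ht, hb⟩ := h
  obtain ⟨h1', b', hs', ht', hb'⟩ := h'
  obtain ⟨H, Hs, Ht⟩ := r
  obtain ⟨G, Gs, Gm⟩ := hπ (m + 1) b H (Hs.trans hb.symm)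
  let d := C.tgt' E G
  have ds : C.src' E d = idCell c E e0 m :=
    ((C.ss' E G).symm.trans (congrArg (C.src' E) Gs)).trans hs
  have dt : C.tgt' E d = C.mapCell (fiberIncl π x) m y :=
    ((C.ts' E G).symm.trans (congrArg (C.tgt' E) Gs)).trans ht
  have dπ : C.mapCell π (m + 1) d = a'.1 := by
    rw [C.map_tgt' π G, Gm]; exact Ht
  have e : C.tgt' E (C.invC E d) = C.src' E b' :=
    (C.tgt_invC E d).trans (ds.trans hs'.symm)
  let q := C.cmpC E (C.invC E d) b' e
  have qπ : CellRel X (C.mapCell π (m + 1) q) (C.oneC X (idCell c X x m)) := by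
    rw [C.map_cmpC π (C.invC E d) b' e,
      C.cmpC_congr ((C.map_invC π d).trans (congrArg (C.invC X) dπ)) hb']
    have := C.invC_cmpC X a'.1
    rwa [show C.tgt' X a'.1 = idCell c X x m from a'.2.2] at this
  obtain ⟨R, Rs, Rt⟩ := qπ
  obtain ⟨L, Ls, Lm⟩ := hπ (m + 1) q R Rs
  have hL : C.mapCell (C.hat X x) (m + 1) (C.oneC (C.rep (GSum.disc 0)) (ptId c m)) =
      C.mapCell π (m + 1) (C.tgt' E L) := by
    rw [C.map_oneC, hat_ptId, C.map_tgt' π L, Lm]
    exact Rt.symm
  refine ⟨pbCell (C.hat X x) π (C.oneC (C.rep (GSum.disc 0)) (ptId c m)) (C.tgt' E L) hL,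
    pbCell_ext _ _ ((C.src_oneC _ _).trans h1.symm) ?_,
    pbCell_ext _ _ ((C.tgt_oneC _ _).trans h1'.symm) ?_⟩
  · exact (((C.ss' E L).symm.trans (congrArg (C.src' E) Ls)).trans
      (C.src_cmpC E _ _ e)).trans ((C.src_invC E d).trans dt)
  · exact (((C.ts' E L).symm.trans (congrArg (C.tgt' E) Ls)).trans
      (C.tgt_cmpC E _ _ e)).trans ht'

variable (π e0)

/-- The image of a loop. -/
def loopMap {X' : C.Gpd} (ψ : X ⟶ X') {m : ℕ} (a : Loop c X x m) :
    Loop c X' (C.mapCell ψ 0 x) m :=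
  ⟨C.mapCell ψ (m + 1) a.1,
    (C.map_src' ψ a.1).symm.trans ((congrArg (C.mapCell ψ m) a.2.1).trans (idCell_map c ψ x m)),
    (C.map_tgt' ψ a.1).symm.trans ((congrArg (C.mapCell ψ m) a.2.2).trans (idCell_map c ψ x m))⟩

/-- The map of fibres induced by a commutative square. -/
def fiberMap {E' X' : C.Gpd} (π' : E' ⟶ X') (φ : E ⟶ E') (ψ : X ⟶ X') (h : φ ≫ π' = π ≫ ψ)
    (x : C.cells X 0) : fiber π x ⟶ fiber π' (C.mapCell ψ 0 x) :=
  pbLift _ _ (fiberFst π x) (fiberIncl π x ≫ φ) (by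
    rw [Category.assoc, h, show C.hat X' (C.mapCell ψ 0 x) = C.hat X x ≫ ψ from
      (C.hat_comp ψ x).symm, ← Category.assoc, ← Category.assoc]
    exact congrArg (· ≫ ψ) (pb_comm (C.hat X x) π))

/-- Boundaries are natural. -/
theorem Bdry.map {E' X' : C.Gpd} (π' : E' ⟶ X') (φ : E ⟶ E') (ψ : X ⟶ X')
    (h : φ ≫ π' = π ≫ ψ) {m : ℕ} {a : Loop c X x m} {y : C.cells (fiber π x) m}
    (hy : Bdry c π e0 a y) :
    Bdry c π' (C.mapCell φ 0 e0) (loopMap c ψ a)
      (C.mapCell (fiberMap π π' φ ψ h x) m y) := by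
  obtain ⟨h1, b, hs, ht, hb⟩ := hy
  refine ⟨h1, C.mapCell φ (m + 1) b, ?_, ?_, ?_⟩
  · exact (C.map_src' φ b).symm.trans ((congrArg (C.mapCell φ m) hs).trans (idCell_map c φ e0 m))
  · exact (C.map_tgt' φ b).symm.trans (congrArg (C.mapCell φ m) ht)
  · exact (congrArg (fun k : E ⟶ X' => C.mapCell k (m + 1) b) h).trans
      (congrArg (C.mapCell ψ (m + 1)) hb)

end Fiber

/-! ## Paths starting at a point -/

namespace PathData

variable (Pd : PathData C) (X : C.Gpd)

/-- The groupoid of paths in `X` starting at `x`. -/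
def pathsFrom (x : C.cells X 0) : C.Gpd :=
  pb (C.hat X x) (Pd.ev0.app X : Pd.P.obj X ⟶ X)

/-- The end point of a path. -/
def pathsFromEnd (x : C.cells X 0) : Pd.pathsFrom X x ⟶ X :=
  pbSnd (C.hat X x) (Pd.ev0.app X : Pd.P.obj X ⟶ X) ≫ Pd.ev1.app X

/-- The constant path. -/
def constPath (x : C.cells X 0) : C.cells (Pd.pathsFrom X x) 0 :=
  pbCell _ _ (C.ext.id (GSum.disc 0)) ((Pd.deg X).app 0 x)
    ((C.hat_id X x).trans (Pd.ev0_deg X 0 x).symm)

theorem constPath_end (x : C.cells X 0) :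
    C.mapCell (Pd.pathsFromEnd X x) 0 (Pd.constPath X x) = x :=
  Pd.ev1_deg X 0 x

theorem isContr_pathsFrom (x : C.cells X 0) : IsContr (Pd.pathsFrom X x) :=
  (IsTrivFib.pbFst _ _ (Pd.ev0_trivFib X)).isContr (isContr_rep_point C)

theorem pathsFromEnd_isFib (x : C.cells X 0) : IsFib (Pd.pathsFromEnd X x) := by
  intro n e h hh
  let w : C.cells (C.rep (GSum.disc 0)) n := C.mapCell (pbFst (C.hat X x) (Pd.ev0.app X)) n e
  let q : C.cells (Pd.P.obj X) n := C.mapCell (pbSnd (C.hat X x) (Pd.ev0.app X)) n e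
  let f0 : C.cells X (n + 1) := C.mapCell (C.hat X x) (n + 1) (C.oneC (C.rep (GSum.disc 0)) w)
  have h0 : C.src' X f0 = C.mapCell (Pd.ev0.app X) n q :=
    ((C.map_src' _ _).symm.trans (congrArg (C.mapCell (C.hat X x) n) (C.src_oneC _ w))).trans
      (pb_cell_comm (C.hat X x) (Pd.ev0.app X) e)
  exact ⟨pbCell (C.hat X x) (Pd.ev0.app X) (C.oneC (C.rep (GSum.disc 0)) w) ((Pd.pairLift X).lift n q f0 h h0 hh)
      ((Pd.pairLift X).lift_π0 n q f0 h h0 hh).symm,
    Subtype.ext (Prod.ext (C.src_oneC _ w) ((Pd.pairLift X).lift_src n q f0 h h0 hh)),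
    (Pd.pairLift X).lift_π1 n q f0 h h0 hh⟩

end PathData

end Vale.Agent.P259
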