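import Vale.Agent.P259.MainCube
import Vale.Agent.P259.CompareEl
import Vale.Agent.P259.HomotopyLoop

/-!
# P259 (F): cube models of cells and the map on homotopy groups

For every `k` a map `gCube C k` of the `k`-cube to the space of `D_k`, on the boundary equal to
the source and target of the previous one, and a contraction `kCube c k` of its image under the
iterated identity.  They give the natural map `psi` from the homotopy groups of a groupoid to
those of its classifying space.
-/

open CategoryTheory Opposite Set Topology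
open scoped unitInterval

noncomputable section

namespace Vale.Agent.P259

variable {C : Coherator}

/-- Boundary maps extend in the space of a globular sum. -/
theorem cubeExt_WS (C : Coherator) (S : GSum) : CellSpaces.CubeExt (C.WS S) := fun _ _ a =>
  BSp.exists_extension_cube (El.selfTerminal C S) a

/-- The base point of the space of the point. -/
def base0 (C : Coherator) : C.WS (GSum.disc 0) :=
  BSp.vertex (Chain.single 0 (El.self C (GSum.disc 0)))

/-- The point of the classifying space given by an object. -/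
def pt (X : C.Gpd) (x : C.cells X 0) : C.BX X := C.jMap X x (base0 C)

theorem bMap_pt {X Y : C.Gpd} (φ : X ⟶ Y) (x : C.cells X 0) :
    C.bMap φ (pt X x) = pt Y (C.mapCell φ 0 x) :=
  ContinuousMap.congr_fun (C.jMap_natural φ x) (base0 C)

theorem jMap_src (X : C.Gpd) {n : ℕ} (a : C.cells X (n + 1)) (w : C.WS (GSum.disc n)) :
    C.jMap X a (C.wMap (C.ext.src n) w) = C.jMap X (C.src' X a) w :=
  (ContinuousMap.congr_fun (C.jMap_act X (C.ext.src n) a) w).symm

theorem jMap_tgt (X : C.Gpd) {n : ℕ} (a : C.cells X (n + 1)) (w : C.WS (GSum.disc n)) :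
    C.jMap X a (C.wMap (C.ext.tgt n) w) = C.jMap X (C.tgt' X a) w :=
  (ContinuousMap.congr_fun (C.jMap_act X (C.ext.tgt n) a) w).symm

theorem wMap_wMap {R S T : GSum} (f : C.ext.Hom R S) (g : C.ext.Hom S T) (w : C.WS R) :
    C.wMap g (C.wMap f w) = C.wMap (C.ext.comp f g) w :=
  (ContinuousMap.congr_fun (C.wMap_comp f g) w).symm

/-! ### The cube models -/

/-- The compatibility of a cube model with the next step. -/
def GOk (C : Coherator) (k : ℕ) (g : C(Fin k → I, C.WS (GSum.disc k))) : Prop :=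
  ∀ u ∈ Cube.boundary (Fin k), C.wMap (C.ext.src k) (g u) = C.wMap (C.ext.tgt k) (g u)

theorem exists_gStep (C : Coherator) (k : ℕ) (g : C(Fin k → I, C.WS (GSum.disc k)))
    (hg : GOk C k g) :
    ∃ g' : C(Fin (k + 1) → I, C.WS (GSum.disc (k + 1))),
      (∀ x ∈ boxSet k, g' x = C.wMap (C.ext.src k) (g (Fin.init x))) ∧
      (∀ u, g' (Fin.snoc u 1) = C.wMap (C.ext.tgt k) (g u)) ∧ GOk C (k + 1) g' := by
  obtain ⟨b, hbox, hface⟩ := CubeMove.exists_boxFace (P := Unit)
    ((C.wMap (C.ext.src k)).comp (g.comp ⟨fun z : boxSet k × Unit => Fin.init z.1.1,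
      continuous_pi fun i => (continuous_apply i.castSucc).comp
        (continuous_subtype_val.comp continuous_fst)⟩))
    ((C.wMap (C.ext.tgt k)).comp (g.comp ⟨Prod.fst, continuous_fst⟩))
    (fun u _ => by
      show C.wMap (C.ext.src k) (g (Fin.init (Fin.snoc u.1 1 : Fin (k + 1) → I))) =
        C.wMap (C.ext.tgt k) (g u.1)
      rw [Fin.init_snoc]
      exact hg u.1 u.2)
  obtain ⟨g', hg'⟩ := cubeExt_WS C (GSum.disc (k + 1)) (Fin (k + 1))
    (b.comp ⟨fun y => (y, ()), continuous_id.prodMk continuous_const⟩)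
  have e1 : ∀ x ∈ boxSet k, g' x = C.wMap (C.ext.src k) (g (Fin.init x)) := fun x hx =>
    (hg' ⟨x, CubeMove.boxSet_subset_boundary hx⟩).trans (hbox ⟨x, hx⟩ () _)
  have e2 : ∀ u, g' (Fin.snoc u 1) = C.wMap (C.ext.tgt k) (g u) := fun u =>
    (hg' ⟨_, CubeMove.snoc_one_mem_boundary u⟩).trans (hface u () _)
  refine ⟨g', e1, e2, fun x hx => ?_⟩
  rcases CubeMove.boundary_cases hx with h | h
  · rw [e1 x h, wMap_wMap, wMap_wMap, C.ext.src_src]
  · have e : x = Fin.snoc (Fin.init x) 1 := h ▸ (Fin.snoc_init_self x).symm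
    rw [e, e2, wMap_wMap, wMap_wMap, C.ext.tgt_src]

/-- The cube models, with their compatibility. -/
def gModel (C : Coherator) : ∀ k, {g : C(Fin k → I, C.WS (GSum.disc k)) // GOk C k g}
  | 0 => ⟨ContinuousMap.const _ (base0 C), fun _ hu => hu.elim fun i _ => i.elim0⟩
  | k + 1 => ⟨(exists_gStep C k (gModel C k).1 (gModel C k).2).choose,
      (exists_gStep C k (gModel C k).1 (gModel C k).2).choose_spec.2.2⟩

/-- The cube model of the `k`-cell. -/
def gCube (C : Coherator) (k : ℕ) : C(Fin k → I, C.WS (GSum.disc k)) := (gModel C k).1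

theorem gCube_zero (C : Coherator) (u : Fin 0 → I) : gCube C 0 u = base0 C := rfl

theorem gCube_box (C : Coherator) (k : ℕ) {x : Fin (k + 1) → I} (hx : x ∈ boxSet k) :
    gCube C (k + 1) x = C.wMap (C.ext.src k) (gCube C k (Fin.init x)) :=
  (exists_gStep C k (gModel C k).1 (gModel C k).2).choose_spec.1 x hx

theorem gCube_face (C : Coherator) (k : ℕ) (u : Fin k → I) :
    gCube C (k + 1) (Fin.snoc u 1) = C.wMap (C.ext.tgt k) (gCube C k u) :=
  (exists_gStep C k (gModel C k).1 (gModel C k).2).choose_spec.2.1 u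

variable (c : IdChoice C)

theorem wMap_ptId_src (k : ℕ) (w : C.WS (GSum.disc k)) :
    C.wMap (ptId c (k + 1)) (C.wMap (C.ext.src k) w) = C.wMap (ptId c k) w := by
  rw [wMap_wMap, show C.ext.comp (C.ext.src k) (ptId c (k + 1)) = ptId c k from
    C.src_idCell c (C.rep (GSum.disc 0)) _ k]

theorem wMap_ptId_tgt (k : ℕ) (w : C.WS (GSum.disc k)) :
    C.wMap (ptId c (k + 1)) (C.wMap (C.ext.tgt k) w) = C.wMap (ptId c k) w := by
  rw [wMap_wMap, show C.ext.comp (C.ext.tgt k) (ptId c (k + 1)) = ptId c k from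
    C.tgt_idCell c (C.rep (GSum.disc 0)) _ k]

theorem wMap_ptId_gCube (k : ℕ) (x : Cube.boundary (Fin (k + 1))) :
    C.wMap (ptId c (k + 1)) (gCube C (k + 1) x.1) =
      C.wMap (ptId c k) (gCube C k (Fin.init x.1)) := by
  rcases CubeMove.boundary_cases x.2 with h | h
  · rw [gCube_box C k h, wMap_ptId_src]
  · have e : x.1 = Fin.snoc (Fin.init x.1) 1 := h ▸ (Fin.snoc_init_self x.1).symm
    conv_lhs => rw [e]
    rw [gCube_face, wMap_ptId_tgt]

/-- The compatibility of a contraction. -/
def KOk (k : ℕ) (K : C((Fin k → I) × I, C.WS (GSum.disc 0))) : Prop :=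
  (∀ u, K (u, 0) = C.wMap (ptId c k) (gCube C k u)) ∧ ∀ u, K (u, 1) = base0 C

/-- The boundary value of the next contraction. -/
def kSide {k : ℕ} (K : C((Fin k → I) × I, C.WS (GSum.disc 0))) :
    C(Cube.boundary (Fin (k + 1)) × I, C.WS (GSum.disc 0)) :=
  K.comp ⟨fun z => (Fin.init z.1.1, z.2), (continuous_pi fun i =>
    (continuous_apply i.castSucc).comp (continuous_subtype_val.comp continuous_fst)).prodMk
      continuous_snd⟩

theorem exists_kStep (k : ℕ) (K : C((Fin k → I) × I, C.WS (GSum.disc 0))) (hK : KOk c k K) :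
    ∃ K' : C((Fin (k + 1) → I) × I, C.WS (GSum.disc 0)), KOk c (k + 1) K' ∧
      ∀ (u : Cube.boundary (Fin (k + 1))) t, K' (u.1, t) = K (Fin.init u.1, t) := by
  obtain ⟨G, g0, g1, gM⟩ := CubeMove.exists_fill (cubeExt_WS C (GSum.disc 0))
    ((C.wMap (ptId c (k + 1))).comp (gCube C (k + 1))) (ContinuousMap.const _ (base0 C))
    (kSide K) (fun u => (hK.1 _).trans (wMap_ptId_gCube c k u).symm) (fun u => hK.2 _)
  exact ⟨G, ⟨g0, g1⟩, gM⟩

/-- The contractions, with their compatibility. -/
def kModel : ∀ k, {K : C((Fin k → I) × I, C.WS (GSum.disc 0)) // KOk c k K}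
  | 0 => ⟨ContinuousMap.const _ (base0 C), fun u => by
      rw [gCube_zero]
      show base0 C = C.wMap (C.ext.id (GSum.disc 0)) (base0 C)
      rw [C.wMap_id]
      rfl, fun _ => rfl⟩
  | k + 1 => ⟨(exists_kStep c k (kModel k).1 (kModel k).2).choose,
      (exists_kStep c k (kModel k).1 (kModel k).2).choose_spec.1⟩

/-- The contraction of the cube model onto the base point. -/
def kCube (k : ℕ) : C((Fin k → I) × I, C.WS (GSum.disc 0)) := (kModel c k).1

theorem kCube_zero_time (k : ℕ) (u : Fin k → I) :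
    kCube c k (u, 0) = C.wMap (ptId c k) (gCube C k u) := (kModel c k).2.1 u

theorem kCube_one_time (k : ℕ) (u : Fin k → I) : kCube c k (u, 1) = base0 C := (kModel c k).2.2 u

theorem kCube_boundary (k : ℕ) (u : Cube.boundary (Fin (k + 1))) (t : I) :
    kCube c (k + 1) (u.1, t) = kCube c k (Fin.init u.1, t) :=
  (exists_kStep c k (kModel c k).1 (kModel c k).2).choose_spec.2 u t

theorem jMap_kCube_zero (X : C.Gpd) (x : C.cells X 0) (k : ℕ) (u : Fin k → I) :
    C.jMap X x (kCube c k (u, 0)) = C.jMap X (idCell c X x k) (gCube C k u) := by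
  rw [kCube_zero_time, ← show act X.obj (ptId c k) x = idCell c X x k from hat_ptId c k]
  exact (ContinuousMap.congr_fun (C.jMap_act X (ptId c k) x) _).symm

/-! ### The map on homotopy groups -/

variable {X Y : C.Gpd} {x : C.cells X 0} {m : ℕ}

/-- The motion of the boundary of the cube model of a loop. -/
def motion (X : C.Gpd) (x : C.cells X 0) (m : ℕ) :
    C(Cube.boundary (Fin (m + 1)) × I, C.BX X) :=
  (C.jMap X x).comp (kSide (kCube c m))

theorem motion_apply (X : C.Gpd) (x : C.cells X 0) (m : ℕ) (u : Cube.boundary (Fin (m + 1)))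
    (t : I) : motion c X x m (u, t) = C.jMap X x (kCube c m (Fin.init u.1, t)) := rfl

theorem jMap_loop_boundary (a : Loop c X x m) (u : Cube.boundary (Fin (m + 1))) :
    C.jMap X a.1 (gCube C (m + 1) u.1) = C.jMap X (idCell c X x m) (gCube C m (Fin.init u.1)) := by
  rcases CubeMove.boundary_cases u.2 with h | h
  · rw [gCube_box C m h, jMap_src]
    exact congrArg (fun z => C.jMap X z (gCube C m (Fin.init u.1))) a.2.1
  · have e : u.1 = Fin.snoc (Fin.init u.1) 1 := h ▸ (Fin.snoc_init_self u.1).symm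
    conv_lhs => rw [e]
    rw [gCube_face, jMap_tgt]
    exact congrArg (fun z => C.jMap X z (gCube C m (Fin.init u.1))) a.2.2

/-- `f` represents the loop `a`. -/
def Rep (a : Loop c X x m) (f : C(Fin (m + 1) → I, C.BX X)) : Prop :=
  CubeMove.Moves (motion c X x m) ((C.jMap X a.1).comp (gCube C (m + 1))) f

theorem Rep.boundary {a : Loop c X x m} {f : C(Fin (m + 1) → I, C.BX X)} (h : Rep c a f)
    (u : Fin (m + 1) → I) (hu : u ∈ Cube.boundary (Fin (m + 1))) : f u = pt X x := by
  have := CubeMove.Moves.end' h ⟨u, hu⟩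
  rw [this, motion_apply, kCube_one_time]
  rfl

theorem exists_rep (a : Loop c X x m) :
    ∃ p : GenLoop (Fin (m + 1)) (C.BX X) (pt X x), Rep c a p.1 := by
  obtain ⟨f, hf⟩ := CubeMove.Moves.exists (M := motion c X x m)
    (g := (C.jMap X a.1).comp (gCube C (m + 1))) fun u =>
      (jMap_kCube_zero c X x m _).trans (jMap_loop_boundary c a u).symm
  exact ⟨⟨f, fun u hu => Rep.boundary c hf u hu⟩, hf⟩

theorem Rep.of_homotopicRel {a : Loop c X x m} {f f' : C(Fin (m + 1) → I, C.BX X)}
    (h : Rep c a f) (hf : f.HomotopicRel f' (Cube.boundary (Fin (m + 1)))) : Rep c a f' :=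
  CubeMove.Moves.trans_homotopicRel h hf

/-- Homotopic loops have homotopic representatives. -/
theorem Rep.homotopicRel {a b : Loop c X x m} {f f' : C(Fin (m + 1) → I, C.BX X)}
    (h : Rep c a f) (h' : Rep c b f') (r : CellRel X a.1 b.1) :
    f.HomotopicRel f' (Cube.boundary (Fin (m + 1))) := by
  obtain ⟨H, hs, ht⟩ := r
  refine CubeMove.Moves.homotopicRel_of_homotopicRel h h' ⟨{
    toFun := fun q => C.jMap X H (gCube C (m + 2) (Fin.snoc q.2 q.1))
    continuous_toFun := (C.jMap X H).continuous.comp ((gCube C (m + 2)).continuous.comp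
      (continuous_pi fun i => by
        refine Fin.lastCases ?_ (fun i => ?_) i
        · simpa using! continuous_fst
        · simpa using! (continuous_apply i).comp continuous_snd))
    map_zero_left := fun u => ?_
    map_one_left := fun u => ?_
    prop' := fun t u hu => ?_ }⟩
  · show C.jMap X H (gCube C (m + 2) (Fin.snoc u 0)) = C.jMap X a.1 (gCube C (m + 1) u)
    rw [gCube_box C (m + 1) (Or.inl (Fin.snoc_last ..)), jMap_src, Fin.init_snoc]
    exact congrArg (fun z => C.jMap X z (gCube C (m + 1) u)) hs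
  · show C.jMap X H (gCube C (m + 2) (Fin.snoc u 1)) = C.jMap X b.1 (gCube C (m + 1) u)
    rw [gCube_face, jMap_tgt]
    exact congrArg (fun z => C.jMap X z (gCube C (m + 1) u)) ht
  · show C.jMap X H (gCube C (m + 2) (Fin.snoc u t)) = C.jMap X a.1 (gCube C (m + 1) u)
    rw [gCube_box C (m + 1) (Or.inr (by rw [Fin.init_snoc]; exact hu)), jMap_src, Fin.init_snoc]
    exact congrArg (fun z => C.jMap X z (gCube C (m + 1) u)) hs

/-- A chosen representative of a loop. -/
def repLoop (a : Loop c X x m) : GenLoop (Fin (m + 1)) (C.BX X) (pt X x) :=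
  (exists_rep c a).choose

theorem rep_repLoop (a : Loop c X x m) : Rep c a (repLoop c a).1 := (exists_rep c a).choose_spec

/-- The map on homotopy groups. -/
def psi (X : C.Gpd) (x : C.cells X 0) (m : ℕ) :
    PiSucc c X x m → HomotopyGroup (Fin (m + 1)) (C.BX X) (pt X x) :=
  Quot.lift (fun a => ⟦repLoop c a⟧) fun a b r =>
    Quotient.sound (Rep.homotopicRel c (rep_repLoop c a) (rep_repLoop c b) r)

theorem psi_mk (a : Loop c X x m) (p : GenLoop (Fin (m + 1)) (C.BX X) (pt X x)) :
    psi c X x m (Quot.mk _ a) = ⟦p⟧ ↔ Rep c a p.1 := by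
  constructor
  · intro h
    exact Rep.of_homotopicRel c (rep_repLoop c a) (Quotient.exact h)
  · intro h
    exact Quotient.sound (Rep.homotopicRel c (rep_repLoop c a) h (C.cellRel_refl X a.1))

/-- Representatives are natural. -/
theorem Rep.map (φ : X ⟶ Y) {a : Loop c X x m} {f : C(Fin (m + 1) → I, C.BX X)}
    (h : Rep c a f) : Rep c (loopMap c φ a) ((C.bMap φ).comp f) := by
  have h' := CubeMove.Moves.map (C.bMap φ) h
  have e : (C.bMap φ).comp ((C.jMap X a.1).comp (gCube C (m + 1))) =
      (C.jMap Y (loopMap c φ a).1).comp (gCube C (m + 1)) := by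
    rw [← ContinuousMap.comp_assoc, C.jMap_natural]
    rfl
  rw [e] at h'
  exact h'.congr fun p => ContinuousMap.congr_fun (C.jMap_natural φ x) _

end Vale.Agent.P259
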