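import Vale.Agent.P259.HomotopyLoop

/-!
# P259 (K2): transition maps of pullbacks over globular sums
-/

open CategoryTheory Opposite

namespace Vale.Agent.P259

variable {C : Coherator}

/-- Equivalences are stable under precomposition with isomorphisms. -/
theorem IsEquivMap.of_iso_comp {X X' Y : C.Gpd} (e : X ≅ X') {ψ : X' ⟶ Y} {φ : X ⟶ Y}
    (hψ : IsEquivMap ψ) (hφ : φ = e.hom ≫ ψ) : IsEquivMap φ := by
  have hj : ∀ (k : ℕ) (z : C.cells X' k),
      C.mapCell φ k (C.mapCell e.inv k z) = C.mapCell ψ k z := fun k z => by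
    rw [hφ, ← C.mapCell_comp, ← Category.assoc, e.inv_hom_id, Category.id_comp]
  have hi : ∀ (k : ℕ) (z : C.cells X k), C.mapCell e.inv k (C.mapCell e.hom k z) = z :=
    fun k z => by
    rw [← C.mapCell_comp, e.hom_inv_id]
    rfl
  refine ⟨fun y => ?_, fun n a b h hab hs ht => ?_⟩
  · obtain ⟨x, hx⟩ := hψ.surj y
    exact ⟨C.mapCell e.inv 0 x, (hj 0 x).symm ▸ hx⟩
  · obtain ⟨h', hs', ht', hm⟩ := hψ.lift n (C.mapCell e.hom n a) (C.mapCell e.hom n b) h
      (C.par_map e.hom hab) (by rw [hs, hφ, C.mapCell_comp]) (by rw [ht, hφ, C.mapCell_comp])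
    exact ⟨C.mapCell e.inv (n + 1) h',
      (C.map_src' e.inv h').symm.trans ((congrArg (C.mapCell e.inv n) hs').trans (hi n a)),
      (C.map_tgt' e.inv h').symm.trans ((congrArg (C.mapCell e.inv n) ht').trans (hi n b)),
      (hj (n + 1) h').symm ▸ hm⟩

section

variable {A' A E X : C.Gpd} (q : A' ⟶ A) {f : A ⟶ X} {f' : A' ⟶ X} (g : E ⟶ X)
  (h : f' = q ≫ f)

/-- The map of pullbacks induced by a map over the base. -/
def pbTrans : pb f' g ⟶ pb f g :=
  pbLift f g (pbFst f' g ≫ q) (pbSnd f' g) (by rw [Category.assoc, ← h, pb_comm])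

theorem pbTrans_fst : pbTrans q g h ≫ pbFst f g = pbFst f' g ≫ q := rfl

theorem pbTrans_snd : pbTrans q g h ≫ pbSnd f g = pbSnd f' g := rfl

/-- Pasting of pullbacks. -/
def pbPaste : pb f' g ≅ pb q (pbFst f g) where
  hom := pbLift _ _ (pbFst f' g) (pbTrans q g h) rfl
  inv := pbLift _ _ (pbFst q (pbFst f g)) (pbSnd q (pbFst f g) ≫ pbSnd f g) (by
    rw [h, ← Category.assoc, pb_comm q (pbFst f g), Category.assoc, pb_comm f g, Category.assoc])
  hom_inv_id := rfl
  inv_hom_id := ObjectProperty.hom_ext _ (by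
    ext R z
    exact Subtype.ext (Prod.ext rfl (Subtype.ext (Prod.ext z.2 rfl))))

/-- Pullbacks of a fibration along a map of contractible groupoids are equivalent. -/
theorem IsFib.isEquivMap_pbTrans (hg : IsFib g) (hA : IsContr A) (hA' : IsContr A') :
    IsEquivMap (pbTrans q g h) :=
  ((IsFib.pbFst f g hg).isEquivMap_pbSnd (q := q) hA hA').of_iso_comp (pbPaste q g h) rfl

end

namespace PathData

variable {E X : C.Gpd}

/-- Over globular sums the pullbacks of a fibration vary by weak equivalences. -/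
theorem isEquivMap_pbTrans_rep (Pd : PathData C) {T S : GSum} (u : C.ext.Hom T S) (p : E ⟶ X) (hp : IsFib p)
    (x : X.obj.obj (op ⟨S⟩)) {f' : C.rep T ⟶ X}
    (h : f' = C.hat (C.rep S) u ≫ C.hat X x) :
    IsEquivMap (pbTrans (C.hat (C.rep S) u) p h) :=
  hp.isEquivMap_pbTrans _ _ h (Pd.isContr_rep S) (Pd.isContr_rep T)

/-- Pullbacks of trivial fibrations over globular sums are contractible. -/
theorem isContr_pb_rep (Pd : PathData C) {S : GSum} (p : E ⟶ X) (hp : IsTrivFib p) (f : C.rep S ⟶ X) :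
    IsContr (pb f p) :=
  (IsTrivFib.pbFst f p hp).isContr (Pd.isContr_rep S)

/-- Any two points of a globular sum are related. -/
theorem cellRel_rep_point (Pd : PathData C) (S : GSum) (a b : C.ext.Hom (GSum.disc 0) S) :
    CellRel (C.rep S) (n := 0) a b :=
  (Pd.isContr_rep S).rel 0 a b trivial

end PathData

theorem Coherator.hat_act {X : C.Gpd} {T S : GSum} (u : C.ext.Hom T S) (x : X.obj.obj (op ⟨S⟩)) :
    C.hat X (act X.obj u x) = C.hat (C.rep S) u ≫ C.hat X x :=
  (C.hat_comp (C.hat X x) u).symm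

end Vale.Agent.P259
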