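import Vale.Agent.P259.MainModel
import Vale.Agent.P259.HomotopyPullback

/-!
# P259 (F): path components of the classifying space
-/

open CategoryTheory Opposite Set Topology
open scoped unitInterval

noncomputable section

namespace Vale.Agent.P259

variable {C : Coherator}

section Vertices

variable {T : Type} [SmallCategory T]

theorem Chain.map_single {T' : Type} [SmallCategory T'] (F : T ⥤ T') (n : ℕ) (a : T) :
    (Chain.single n a).map F = Chain.single n (F.obj a) := by
  show (⟨{n}, _, (Functor.const _).obj a ⋙ F⟩ : Chain T') = ⟨{n}, _, (Functor.const _).obj (F.obj a)⟩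
  congr 1
  exact CategoryTheory.Functor.ext (fun _ => rfl) fun _ _ f => by simp

/-- Vertices of the images of two objects of a category with a terminal object are joined. -/
theorem joined_map_of_isTerminal {A : Type} [SmallCategory A] {t : A} (ht : Limits.IsTerminal t)
    (F : A ⥤ T) (p q : Chain A) :
    Joined (BSp.vertex (p.map F)) (BSp.vertex (q.map F)) := by
  have := BSp.pathConnectedSpace_of_isTerminal ht
  have h : Joined (BSp.map F (BSp.vertex p)) (BSp.map F (BSp.vertex q)) :=
    (PathConnectedSpace.joined (BSp.vertex p) (BSp.vertex q)).map (BSp.map F).continuous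
  rwa [BSp.map_vertex, BSp.map_vertex] at h

theorem joined_vertex_top (p : Chain T) :
    Joined (BSp.vertex p) (BSp.vertex (Chain.single 0 p.top)) := by
  have ht : Limits.IsTerminal p.topLevel :=
    Limits.IsTerminal.ofUniqueHom (fun i => homOfLE (Finset.le_max' _ _ i.2 :
      i ≤ p.topLevel)) fun _ _ => Subsingleton.elim _ _
  have h := joined_map_of_isTerminal ht p.fct ⟨p.levels, p.nonempty, 𝟭 _⟩
    (Chain.single 0 p.topLevel)
  rwa [Chain.map_single] at h

theorem joined_of_hom {a b : T} (u : a ⟶ b) :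
    Joined (BSp.vertex (Chain.single 0 a)) (BSp.vertex (Chain.single 0 b)) := by
  have ht : Limits.IsTerminal (1 : Fin 2) :=
    Limits.IsTerminal.ofUniqueHom (fun i => homOfLE (Fin.le_last i)) fun _ _ => Subsingleton.elim _ _
  have h := joined_map_of_isTerminal ht (ComposableArrows.mk₁ u) (Chain.single 0 0)
    (Chain.single 0 1)
  rwa [Chain.map_single, Chain.map_single] at h

theorem joined_vertex_of_mem (z : BSp T) {p : Chain T} (hp : p ∈ z.wt.support) :
    Joined z (BSp.vertex p) := by
  obtain ⟨H⟩ := BSp.homotopic_of_chain (ContinuousMap.const Unit z)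
    (ContinuousMap.const Unit (BSp.vertex p)) fun _ => by
      rw [ContinuousMap.const_apply, ContinuousMap.const_apply, BSp.support_vertex,
        Finset.coe_singleton, Set.union_eq_self_of_subset_right (Set.singleton_subset_iff.mpr hp)]
      exact z.isChain
  exact ⟨⟨⟨fun s => H (s, ()), H.continuous.comp (continuous_id.prodMk continuous_const)⟩,
    H.map_zero_left (), H.map_one_left ()⟩⟩

end Vertices

theorem pt_eq_vertex (X : C.Gpd) (x : C.cells X 0) :
    pt X x = BSp.vertex (Chain.single 0 (⟨GSum.disc 0, x⟩ : El X)) := by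
  show C.bMap (C.hat X x) (BSp.vertex _) = _
  rw [show C.bMap (C.hat X x) (BSp.vertex _) = _ from BSp.map_vertex _ _, Chain.map_single]
  exact congrArg (fun e => BSp.vertex (Chain.single 0 (⟨GSum.disc 0, e⟩ : El X))) (C.hat_id X x)

/-- A point of a globular sum. -/
def GSum.root (C : Coherator) (S : GSum) : C.ext.Hom (GSum.disc 0) S :=
  C.ext.comp (C.ext.srcIter S.last.zero_le) (C.ext.lastIncl S)

/-- The class of the points of an element. -/
def El.cls {X : C.Gpd} (p : El X) : Pi0 X := Quot.mk _ (act X.obj (GSum.root C p.sum) p.elt)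

variable (Pd : PathData C) {X Y : C.Gpd}

include Pd in
theorem El.cls_hom {p q : El X} (u : p ⟶ q) : p.cls = q.cls := by
  refine Quot.sound ?_
  rw [← u.act_eq, ← act_comp]
  exact CellRel.map (C.hat X q.elt) (Pd.cellRel_rep_point q.sum
    (C.ext.comp (GSum.root C p.sum) u.hom) (GSum.root C q.sum))

include Pd in
theorem El.cls_point (x : C.cells X 0) : (⟨GSum.disc 0, x⟩ : El X).cls = Quot.mk _ x := by
  refine Quot.sound ?_
  have h := CellRel.map (C.hat X x)
    (Pd.cellRel_rep_point (GSum.disc 0) (GSum.root C (GSum.disc 0)) (C.ext.id _))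
  exact C.cellRel_trans h (C.cellRel_of_eq (C.hat_id X x))

/-- Every point of the classifying space is joined to a base point. -/
theorem exists_joined_pt (z : C.BX X) : ∃ x, Joined z (pt X x) := by
  obtain ⟨p, hp⟩ := z.exists_pos
  refine ⟨act X.obj (GSum.root C p.top.sum) p.top.elt, ?_⟩
  rw [pt_eq_vertex]
  refine ((joined_vertex_of_mem z ((z.mem_support_iff p).mpr hp)).trans
    (joined_vertex_top p)).trans (joined_of_hom ?_).symm
  exact ⟨GSum.root C p.top.sum, rfl⟩

theorem joined_of_cellRel {x y : C.cells X 0} (h : CellRel X x y) :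
    Joined (pt X x) (pt X y) := by
  obtain ⟨a, hs, ht⟩ := h
  rw [pt_eq_vertex, pt_eq_vertex]
  exact (joined_of_hom (a := (⟨GSum.disc 0, x⟩ : El X)) (b := ⟨GSum.disc 1, a⟩)
      (ElHom.mk (C.ext.src 0) hs)).trans
    (joined_of_hom (a := (⟨GSum.disc 0, y⟩ : El X)) (b := ⟨GSum.disc 1, a⟩)
      (ElHom.mk (C.ext.tgt 0) ht)).symm

/-- The component of a point of the classifying space. -/
def comp0 (z : C.BX X) : Pi0 X := (z.exists_pos.choose).top.cls

include Pd in
theorem comp0_eq {z : C.BX X} {p : Chain (El X)} (hp : 0 < z.wt p) : comp0 z = p.top.cls := by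
  have h1 := (z.mem_support_iff _).mpr z.exists_pos.choose_spec
  have h2 := (z.mem_support_iff p).mpr hp
  rcases z.isChain.total h1 h2 with h | h
  · exact El.cls_hom Pd (Chain.topHom h)
  · exact (El.cls_hom Pd (Chain.topHom h)).symm

include Pd in
theorem isLocallyConstant_comp0 : IsLocallyConstant (comp0 (X := X)) := by
  rw [IsLocallyConstant.iff_exists_open]
  intro z
  obtain ⟨p, hp⟩ := z.exists_pos
  exact ⟨BSp.star p, BSp.isOpen_star p, hp, fun w hw =>
    (comp0_eq Pd hw).trans (comp0_eq Pd hp).symm⟩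

include Pd in
theorem comp0_pt (x : C.cells X 0) : comp0 (pt X x) = Quot.mk _ x := by
  rw [pt_eq_vertex, comp0_eq Pd (p := Chain.single 0 (⟨GSum.disc 0, x⟩ : El X))
    (by rw [BSp.vertex_wt_self]; exact one_pos), Chain.top_single]
  exact El.cls_point Pd x

include Pd in
theorem comp0_eq_of_joined {z w : C.BX X} (h : Joined z w) : comp0 z = comp0 w := by
  obtain ⟨γ⟩ := h
  have := ((isLocallyConstant_comp0 Pd).comp_continuous γ.continuous).apply_eq_of_preconnectedSpace
    0 1
  simpa using this

include Pd in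
theorem cellRel_of_joined {x y : C.cells X 0} (h : Joined (pt X x) (pt X y)) : CellRel X x y :=
  C.pi0_mk_eq X ((comp0_pt Pd x).symm.trans ((comp0_eq_of_joined Pd h).trans (comp0_pt Pd y)))

/-- The map on path components. -/
def psi0 (X : C.Gpd) : Pi0 X → ZerothHomotopy (C.BX X) :=
  Quot.lift (fun x => Quotient.mk _ (pt X x)) fun _ _ h => Quotient.sound (joined_of_cellRel h)

include Pd in
theorem psi0_bijective (X : C.Gpd) : Function.Bijective (psi0 X) := by
  refine ⟨?_, ?_⟩
  · rintro ⟨x⟩ ⟨y⟩ h
    exact Quot.sound (cellRel_of_joined Pd (Quotient.exact h))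
  · rintro ⟨z⟩
    obtain ⟨x, hx⟩ := exists_joined_pt z
    exact ⟨Quot.mk _ x, Quotient.sound hx.symm⟩

theorem zerothMap_psi0 (φ : X ⟶ Y) (a : Pi0 X) :
    zerothMap (C.bMap φ) (psi0 X a) = psi0 Y (Pi0.map φ a) := by
  obtain ⟨x⟩ := a
  exact congrArg (Quotient.mk _) (bMap_pt φ x)

end Vale.Agent.P259
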