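import Vale.Agent.P259.AssemblyHomotopy
import Vale.Agent.P259.AssemblyDiscModel
import Vale.Agent.P259.MainModel
import Vale.Agent.P259.MainZero

/-!
# P259 (G): the comparison map to the classifying space is a weak equivalence

A map `phi : X' ⟶ piTop (B X)` which is homotopic, as a globular map, to the disc models of the
images under a weak equivalence `X' ⟶ X` is a weak equivalence, once `psi` is bijective.
-/

noncomputable section

open CategoryTheory Opposite Set
open scoped unitInterval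

namespace Vale.Agent.P259

variable {C : Coherator}

section Cat

variable {A Z : Type} [TopologicalSpace A] [TopologicalSpace Z]

/-- Concatenation in the last variable. -/
def catC (a b : C(A × I, Z)) (h : ∀ p, a (p, 1) = b (p, 0)) : C(A × I, Z) where
  toFun z := if (z.2 : ℝ) ≤ 1 / 2 then a (z.1, Set.projIcc 0 1 zero_le_one (2 * (z.2 : ℝ)))
    else b (z.1, Set.projIcc 0 1 zero_le_one (2 * (z.2 : ℝ) - 1))
  continuous_toFun := by
    refine continuous_if_le (by fun_prop) continuous_const ?_ ?_ ?_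
    · exact (a.continuous.comp (continuous_fst.prodMk
        (continuous_projIcc.comp (by fun_prop)))).continuousOn
    · exact (b.continuous.comp (continuous_fst.prodMk
        (continuous_projIcc.comp (by fun_prop)))).continuousOn
    · intro z hz
      rw [hz]
      norm_num
      exact h z.1

theorem catC_zero (a b : C(A × I, Z)) (h : ∀ p, a (p, 1) = b (p, 0)) (p : A) :
    catC a b h (p, 0) = a (p, 0) := by
  show (if ((0 : I) : ℝ) ≤ 1 / 2 then a (p, _) else _) = _
  norm_num

theorem catC_one (a b : C(A × I, Z)) (h : ∀ p, a (p, 1) = b (p, 0)) (p : A) :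
    catC a b h (p, 1) = b (p, 1) := by
  show (if ((1 : I) : ℝ) ≤ 1 / 2 then _ else b (p, _)) = _
  norm_num

theorem catC_congr {A' : Type} [TopologicalSpace A'] (a b : C(A × I, Z))
    (h : ∀ p, a (p, 1) = b (p, 0)) (a' b' : C(A' × I, Z)) (h' : ∀ p, a' (p, 1) = b' (p, 0))
    (u : A) (v : A') (ha : ∀ t, a (u, t) = a' (v, t)) (hb : ∀ t, b (u, t) = b' (v, t)) (t : I) :
    catC a b h (u, t) = catC a' b' h' (v, t) := by
  show (if (t : ℝ) ≤ 1 / 2 then a (u, _) else b (u, _)) =
    if (t : ℝ) ≤ 1 / 2 then a' (v, _) else b' (v, _)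
  rw [ha, hb]

end Cat

variable (gam : ∀ n, C(Disc n, C.WS (GSum.disc n)))

/-- A family of homotopies from the disc model to the cube model. -/
def IsModelHomotopy (k : ℕ) (N : C((Fin k → I) × I, C.WS (GSum.disc k))) : Prop :=
  (∀ u, N (u, 0) = gam k (cubeDisc k u)) ∧ (∀ u, N (u, 1) = gCube C k u) ∧
    ∀ u ∈ Cube.boundary (Fin k), ∀ t,
      C.wMap (C.ext.src k) (N (u, t)) = C.wMap (C.ext.tgt k) (N (u, t))

variable (hlow : ∀ n p, gam (n + 1) (low n p) = C.wMap (C.ext.src n) (gam n p))
  (hhigh : ∀ n p, gam (n + 1) (high n p) = C.wMap (C.ext.tgt n) (gam n p))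

include hlow hhigh in
theorem exists_modelStep (k : ℕ) (N : C((Fin k → I) × I, C.WS (GSum.disc k)))
    (hN : IsModelHomotopy gam k N) :
    ∃ N' : C((Fin (k + 1) → I) × I, C.WS (GSum.disc (k + 1))),
      IsModelHomotopy gam (k + 1) N' ∧
      (∀ x ∈ boxSet k, ∀ t, N' (x, t) = C.wMap (C.ext.src k) (N (Fin.init x, t))) ∧
      ∀ v t, N' (Fin.snoc v 1, t) = C.wMap (C.ext.tgt k) (N (v, t)) := by
  obtain ⟨h0, h1, hb⟩ := hN
  obtain ⟨M, hbox, hface⟩ := CubeMove.exists_boxFace (P := I)
    ((C.wMap (C.ext.src k)).comp (N.comp ⟨fun z : boxSet k × I => (Fin.init z.1.1, z.2),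
      (continuous_pi fun i => (continuous_apply i.castSucc).comp
        (continuous_subtype_val.comp continuous_fst)).prodMk continuous_snd⟩))
    ((C.wMap (C.ext.tgt k)).comp N) (fun u t => by
      show C.wMap (C.ext.src k) (N (Fin.init (Fin.snoc u.1 1 : Fin (k + 1) → I), t)) = _
      rw [Fin.init_snoc]
      exact hb u.1 u.2 t)
  have eM : ∀ (u : Cube.boundary (Fin (k + 1))) t,
      (u.1 ∈ boxSet k ∧ M (u, t) = C.wMap (C.ext.src k) (N (Fin.init u.1, t))) ∨
      (u.1 = Fin.snoc (Fin.init u.1) 1 ∧ M (u, t) = C.wMap (C.ext.tgt k) (N (Fin.init u.1, t))) := by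
    rintro ⟨x, hx⟩ t
    rcases CubeMove.boundary_cases hx with h | h
    · exact Or.inl ⟨h, hbox ⟨x, h⟩ t hx⟩
    · have e : x = Fin.snoc (Fin.init x) 1 := h ▸ (Fin.snoc_init_self x).symm
      have e' : (⟨x, hx⟩ : Cube.boundary (Fin (k + 1))) =
          ⟨Fin.snoc (Fin.init x) 1, CubeMove.snoc_one_mem_boundary _⟩ := Subtype.ext e
      exact Or.inr ⟨e, (congrArg (fun z => M (z, t)) e').trans (hface _ t _)⟩
  obtain ⟨G, g0, g1, gM⟩ := CubeMove.exists_fill (cubeExt_WS C (GSum.disc (k + 1)))
    ((gam (k + 1)).comp (cubeDisc (k + 1))) (gCube C (k + 1)) M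
    (fun u => by
      rcases eM u 0 with ⟨h, e⟩ | ⟨h, e⟩
      · rw [e, h0, ← hlow, ← cubeDisc_box k h]; rfl
      · rw [e, h0, ← hhigh, ← cubeDisc_face]
        exact congrArg (fun x => gam (k + 1) (cubeDisc (k + 1) x)) h.symm)
    (fun u => by
      rcases eM u 1 with ⟨h, e⟩ | ⟨h, e⟩
      · rw [e, h1, gCube_box C k h]
      · rw [e, h1, ← gCube_face]
        exact congrArg (gCube C (k + 1)) h.symm)
  refine ⟨G, ⟨g0, g1, fun u hu t => ?_⟩, fun x hx t => ?_, fun v t => ?_⟩
  · rw [gM ⟨u, hu⟩ t]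
    rcases eM ⟨u, hu⟩ t with ⟨_, e⟩ | ⟨_, e⟩
    · rw [e, wMap_wMap, wMap_wMap, C.ext.src_src]
    · rw [e, wMap_wMap, wMap_wMap, C.ext.tgt_src]
  · exact (gM ⟨x, CubeMove.boxSet_subset_boundary hx⟩ t).trans (hbox ⟨x, hx⟩ t _)
  · exact (gM ⟨_, CubeMove.snoc_one_mem_boundary v⟩ t).trans (hface v t _)

include hlow hhigh in
theorem exists_modelHomotopy : ∃ N : ∀ k, C((Fin k → I) × I, C.WS (GSum.disc k)),
    (∀ k u, N k (u, 0) = gam k (cubeDisc k u)) ∧ (∀ k u, N k (u, 1) = gCube C k u) ∧
    (∀ k, ∀ x ∈ boxSet k, ∀ t, N (k + 1) (x, t) = C.wMap (C.ext.src k) (N k (Fin.init x, t))) ∧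
    ∀ k v t, N (k + 1) (Fin.snoc v 1, t) = C.wMap (C.ext.tgt k) (N k (v, t)) := by
  have h0 : ∃ N : C((Fin 0 → I) × I, C.WS (GSum.disc 0)), IsModelHomotopy gam 0 N := by
    have : Subsingleton (Cube.boundary (Fin 0)) := ⟨fun u _ => u.2.elim fun i _ => i.elim0⟩
    obtain ⟨G, g0, g1, -⟩ := CubeMove.exists_fill (cubeExt_WS C (GSum.disc 0))
      ((gam 0).comp (cubeDisc 0)) (gCube C 0)
      ⟨fun z => (z.1.2.elim fun i _ => i.elim0 : False).elim,
        continuous_iff_continuousAt.2 fun z => (z.1.2.elim fun i _ => i.elim0 : False).elim⟩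
      (fun u => u.2.elim fun i _ => i.elim0) (fun u => u.2.elim fun i _ => i.elim0)
    exact ⟨G, g0, g1, fun u hu => hu.elim fun i _ => i.elim0⟩
  let N : ∀ k, {N : C((Fin k → I) × I, C.WS (GSum.disc k)) // IsModelHomotopy gam k N} := fun k =>
    Nat.rec (motive := fun k => {N : C((Fin k → I) × I, C.WS (GSum.disc k)) //
        IsModelHomotopy gam k N}) ⟨h0.choose, h0.choose_spec⟩
      (fun k p => ⟨(exists_modelStep gam hlow hhigh k p.1 p.2).choose,
        (exists_modelStep gam hlow hhigh k p.1 p.2).choose_spec.1⟩) k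
  exact ⟨fun k => (N k).1, fun k => (N k).2.1, fun k => (N k).2.2.1,
    fun k => (exists_modelStep gam hlow hhigh k (N k).1 (N k).2).choose_spec.2.1,
    fun k => (exists_modelStep gam hlow hhigh k (N k).1 (N k).2).choose_spec.2.2⟩

variable {X X' : C.Gpd} {phi : X' ⟶ C.piTop (C.BX X)} {q : X' ⟶ X}

/-- `phi` is homotopic to the disc models of the images of the cells. -/
def HomotopicToModel (phi : X' ⟶ C.piTop (C.BX X)) (q : X' ⟶ X) : Prop :=
  ∃ H : GHom (C.gs X') (C.gs (C.piTop C(I, C.BX X))),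
    (∀ n a p, C.moving (H.app n a) (p, 0) = C.asMap (C.BX X) (C.mapCell phi n a) p) ∧
      ∀ n a p, C.moving (H.app n a) (p, 1) = C.jMap X (C.mapCell q n a) (gam n p)

include hlow hhigh in
/-- The slide relating `psi` to the class of the image under `phi`. -/
theorem exists_slide_psi (c : IdChoice C) (hH : HomotopicToModel gam phi q) (x : C.cells X' 0)
    (m : ℕ) :
    ∃ γ : Path (C.asMap (C.BX X) (C.mapCell phi 0 x) discPt) (pt X (C.mapCell q 0 x)),
      ∀ a : PiSucc c X' x m, psi c X (C.mapCell q 0 x) m (PiSucc.map c q x m a) =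
        slideClass γ (C.cubeClass c (C.mapCell phi 0 x) m (PiSucc.map c phi x m a)) := by
  obtain ⟨H, h0, h1⟩ := hH
  obtain ⟨N, n0, n1, nbox, nface⟩ := exists_modelHomotopy gam hlow hhigh
  let one := idCell c X' x m
  have eone : C.mapCell q m one = idCell c X (C.mapCell q 0 x) m := idCell_map c q x m
  let G1 : C((Fin m → I) × I, C.BX X) := (C.moving (H.app m one)).comp
    ⟨fun z => (cubeDisc m z.1, z.2),
      ((cubeDisc m).continuous.comp continuous_fst).prodMk continuous_snd⟩
  let G2 : C((Fin m → I) × I, C.BX X) :=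
    (C.jMap X (idCell c X (C.mapCell q 0 x) m)).comp (N m)
  let G3 : C((Fin m → I) × I, C.BX X) := (C.jMap X (C.mapCell q 0 x)).comp (kCube c m)
  have h12 : ∀ v, G1 (v, 1) = G2 (v, 0) := fun v => by
    refine (h1 m one (cubeDisc m v)).trans ?_
    show _ = C.jMap X _ (N m (v, 0))
    rw [n0, eone]
  have h23 : ∀ v, catC G1 G2 h12 (v, 1) = G3 (v, 0) := fun v => by
    rw [catC_one]
    show C.jMap X _ (N m (v, 1)) = C.jMap X (C.mapCell q 0 x) (kCube c m (v, 0))
    rw [n1, jMap_kCube_zero]
  let G := catC (catC G1 G2 h12) G3 h23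
  have hG0 : ∀ v, G (v, 0) = C.asMap (C.BX X) (C.mapCell phi 0 x) discPt := fun v => by
    show catC _ _ _ (v, 0) = _
    rw [catC_zero, catC_zero]
    refine (h0 m one (cubeDisc m v)).trans ?_
    show C.asMap (C.BX X) (C.mapCell phi m (idCell c X' x m)) (cubeDisc m v) = _
    rw [Coherator.mapCell, idCell_map c phi x m, C.idCell_piTop]
    rfl
  have hG1 : ∀ v, G (v, 1) = pt X (C.mapCell q 0 x) := fun v => by
    show catC _ _ _ (v, 1) = _
    rw [catC_one]
    show C.jMap X _ (kCube c m (v, 1)) = _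
    rw [kCube_one_time]
    rfl
  let o : Fin m → I := fun _ => 0
  let γ : Path (C.asMap (C.BX X) (C.mapCell phi 0 x) discPt) (pt X (C.mapCell q 0 x)) :=
    { toFun := fun t => G (o, t)
      continuous_toFun := G.continuous.comp (continuous_const.prodMk continuous_id)
      source' := hG0 o
      target' := hG1 o }
  refine ⟨γ, fun a => ?_⟩
  induction a using Quot.ind with
  | mk a =>
    obtain ⟨R, r0, r1, rM⟩ := rep_repLoop c (loopMap c q a)
    let F1 : C((Fin (m + 1) → I) × I, C.BX X) := (C.moving (H.app (m + 1) a.1)).comp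
      ⟨fun z => (cubeDisc (m + 1) z.1, z.2),
        ((cubeDisc (m + 1)).continuous.comp continuous_fst).prodMk continuous_snd⟩
    let F2 : C((Fin (m + 1) → I) × I, C.BX X) :=
      (C.jMap X (C.mapCell q (m + 1) a.1)).comp (N (m + 1))
    have e12 : ∀ u, F1 (u, 1) = F2 (u, 0) := fun u => by
      refine (h1 (m + 1) a.1 (cubeDisc (m + 1) u)).trans ?_
      show _ = C.jMap X _ (N (m + 1) (u, 0))
      rw [n0]
    have e23 : ∀ u, catC F1 F2 e12 (u, 1) = R (u, 0) := fun u => by
      rw [catC_one, r0]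
      show C.jMap X _ (N (m + 1) (u, 1)) = _
      rw [n1]
      rfl
    let F := catC (catC F1 F2 e12) R e23
    have hFG : ∀ u ∈ Cube.boundary (Fin (m + 1)), ∀ t, G (Fin.init u, t) = F (u, t) := by
      intro u hu t
      refine catC_congr _ _ _ _ _ _ _ _ (fun s => catC_congr _ _ _ _ _ _ _ _ (fun r => ?_)
        (fun r => ?_) s) (fun s => ?_) t
      · show C.moving (H.app m one) (cubeDisc m (Fin.init u), r) =
          C.moving (H.app (m + 1) a.1) (cubeDisc (m + 1) u, r)
        rcases CubeMove.boundary_cases hu with h | h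
        · rw [cubeDisc_box m h, ← C.moving_src]
          exact congrArg (fun b => C.moving b (cubeDisc m (Fin.init u), r))
            ((congrArg (H.app m) a.2.1).symm.trans (H.app_s m a.1).symm)
        · have e : u = Fin.snoc (Fin.init u) 1 := h ▸ (Fin.snoc_init_self u).symm
          conv_rhs => rw [e, cubeDisc_face, ← C.moving_tgt]
          exact congrArg (fun b => C.moving b (cubeDisc m (Fin.init u), r))
            ((congrArg (H.app m) a.2.2).symm.trans (H.app_t m a.1).symm)
      · show C.jMap X _ (N m (Fin.init u, r)) = C.jMap X (C.mapCell q (m + 1) a.1) (N (m + 1) (u, r))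
        rcases CubeMove.boundary_cases hu with h | h
        · rw [nbox m u h r, jMap_src]
          exact congrArg (fun z => C.jMap X z (N m (Fin.init u, r))) (loopMap c q a).2.1.symm
        · have e : u = Fin.snoc (Fin.init u) 1 := h ▸ (Fin.snoc_init_self u).symm
          conv_rhs => rw [e, nface, jMap_tgt]
          exact congrArg (fun z => C.jMap X z (N m (Fin.init u, r))) (loopMap c q a).2.2.symm
      · exact ((rM ⟨u, hu⟩ s).trans (motion_apply c X _ m ⟨u, hu⟩ s)).symm
    let M : C(I × ((Fin (m + 1) → I) × I), C.BX X) := G.comp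
      ⟨fun w => ((fun i => σ w.1 * w.2.1 i.castSucc), w.2.2),
        (continuous_pi fun i => (unitInterval.continuous_symm.comp continuous_fst).mul
          ((continuous_apply i.castSucc).comp (continuous_fst.comp continuous_snd))).prodMk
          (continuous_snd.comp continuous_snd)⟩
    refine Quotient.sound (homotopic_slideLoop_of_motion γ _ _ F (fun u => ?_) (fun u => ?_) M
      (fun t u hu => ?_) (fun t u _ => ?_) (fun s u _ => hG0 _) fun s u _ => hG1 _)
    · show catC _ _ _ (u, 0) = _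
      rw [catC_zero, catC_zero]
      exact h0 (m + 1) a.1 (cubeDisc (m + 1) u)
    · show catC _ _ _ (u, 1) = _
      rw [catC_one]
      exact r1 u
    · refine (congrArg (fun v => G (v, t)) (funext fun i => ?_)).trans (hFG u hu t)
      show σ (0 : I) * u i.castSucc = u i.castSucc
      rw [unitInterval.symm_zero, one_mul]
    · refine congrArg (fun v => G (v, t)) (funext fun i => ?_)
      show σ (1 : I) * u i.castSucc = 0
      rw [unitInterval.symm_one, zero_mul]

include hlow hhigh in
/-- `phi` is a weak equivalence. -/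
theorem weq_of_homotopicToModel (c : IdChoice C) (hH : HomotopicToModel gam phi q)
    (hq : weq c q) (hpsi0 : Function.Bijective (psi0 X))
    (hpsi : ∀ x m, Function.Bijective (psi c X x m)) : weq c phi := by
  have e0 : C.pi0Equiv (C.BX X) ∘ Pi0.map phi = psi0 X ∘ Pi0.map q := funext fun r => by
    induction r using Quot.ind with
    | mk x =>
      refine Quotient.sound ?_
      obtain ⟨H, h0, h1⟩ := hH
      obtain ⟨N, n0, n1, -, -⟩ := exists_modelHomotopy gam hlow hhigh
      let u : Fin 0 → I := fun i => i.elim0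
      let γ₁ : Path (C.asMap (C.BX X) (C.mapCell phi 0 x) discPt)
          (C.jMap X (C.mapCell q 0 x) (gam 0 (cubeDisc 0 u))) :=
        Path.mk ((C.moving (H.app 0 x)).comp ⟨fun t => (discPt, t), by fun_prop⟩)
          (h0 0 x discPt) (h1 0 x discPt)
      let γ₂ : Path (C.jMap X (C.mapCell q 0 x) (gam 0 (cubeDisc 0 u)))
          (pt X (C.mapCell q 0 x)) :=
        Path.mk (((C.jMap X (C.mapCell q 0 x)).comp (N 0)).comp ⟨fun t => (u, t), by fun_prop⟩)
          (congrArg (C.jMap X (C.mapCell q 0 x)) (n0 0 u))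
          (congrArg (C.jMap X (C.mapCell q 0 x)) (n1 0 u))
      exact ⟨γ₁.trans γ₂⟩
  refine ⟨(Function.Bijective.of_comp_iff' (C.pi0Equiv _).bijective _).1 (e0 ▸ hpsi0.comp hq.1),
    fun x m => ?_⟩
  obtain ⟨γ, hγ⟩ := exists_slide_psi gam hlow hhigh c hH x m
  have e : psi c X (C.mapCell q 0 x) m ∘ PiSucc.map c q x m =
      (slideClass γ ∘ C.cubeClass c (C.mapCell phi 0 x) m) ∘ PiSucc.map c phi x m := funext hγ
  refine (Function.Bijective.of_comp_iff' ((slideClass_bijective γ).comp
    (C.cubeClass_bijective c _ m)) _).1 ?_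
  rw [← e]
  exact (hpsi _ m).comp (hq.2 x m)

end Vale.Agent.P259
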