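import Vale.Agent.P259.BSpace

/-!
# P259 (D2): homotopies in the classifying space

Straight-line homotopies, comparable maps of vertices, and contractibility (for maps from compact
spaces) of the classifying space of a category with a terminal object.
-/

open CategoryTheory Set Topology
open scoped unitInterval

noncomputable section

namespace Vale.Agent.P259

variable {T : Type} [SmallCategory T] {T' : Type} [SmallCategory T']

namespace BSp

variable {X : Type*} [TopologicalSpace X]

/-- The point `(1 - t) z + t w`, when the supports together form a chain. -/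
def lineComb (z w : BSp T)
    (h : IsChain (· ≤ ·) ((z.wt.support : Set (Chain T)) ∪ (w.wt.support : Set (Chain T)))) (t : I) :
    BSp T where
  wt := (1 - (t : ℝ)) • z.wt + (t : ℝ) • w.wt
  nonneg p := add_nonneg (mul_nonneg (sub_nonneg.mpr t.2.2) (z.nonneg p))
    (mul_nonneg t.2.1 (w.nonneg p))
  sum_eq := by
    rw [Finsupp.sum_add_index' (fun _ => rfl) (fun _ _ _ => rfl),
      Finsupp.sum_smul_index' (fun _ => rfl), Finsupp.sum_smul_index' (fun _ => rfl)]
    simp only [smul_eq_mul, Finsupp.sum, ← Finset.mul_sum]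
    have hz := z.sum_one_of_subset (V := z.wt.support) subset_rfl
    have hw := w.sum_one_of_subset (V := w.wt.support) subset_rfl
    rw [hz, hw]
    ring
  isChain := by
    classical
    refine h.mono fun p hp => ?_
    rcases Finset.mem_union.mp (Finsupp.support_add hp) with hp' | hp'
    · exact Or.inl (Finsupp.support_smul hp')
    · exact Or.inr (Finsupp.support_smul hp')

theorem lineComb_wt (z w : BSp T) (h) (t : I) (p : Chain T) :
    (lineComb z w h t).wt p = (1 - (t : ℝ)) * z.wt p + (t : ℝ) * w.wt p := rfl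

@[simp]
theorem lineComb_zero (z w : BSp T) (h) : lineComb z w h 0 = z :=
  BSp.ext (Finsupp.ext fun p => by simp [lineComb_wt])

@[simp]
theorem lineComb_one (z w : BSp T) (h) : lineComb z w h 1 = w :=
  BSp.ext (Finsupp.ext fun p => by simp [lineComb_wt])

@[simp]
theorem lineComb_self (z : BSp T) (h) (t : I) : lineComb z z h t = z :=
  BSp.ext (Finsupp.ext fun p => by rw [lineComb_wt]; ring)

theorem support_lineComb_subset [DecidableEq (Chain T)] (z w : BSp T) (h) (t : I) :
    (lineComb z w h t).wt.support ⊆ z.wt.support ∪ w.wt.support := fun p hp => by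
  rcases Finset.mem_union.mp (Finsupp.support_add hp) with hp' | hp'
  · exact Finset.mem_union_left _ (Finsupp.support_smul hp')
  · exact Finset.mem_union_right _ (Finsupp.support_smul hp')

/-- The straight-line homotopy, when finitely many vertices are involved. -/
def lineHomotopyOfFinite (f g : C(X, BSp T)) (V : Finset (Chain T))
    (hf : ∀ x, (f x).wt.support ⊆ V) (hg : ∀ x, (g x).wt.support ⊆ V)
    (h : ∀ x, IsChain (· ≤ ·)
      (((f x).wt.support : Set (Chain T)) ∪ ((g x).wt.support : Set (Chain T)))) :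
    f.Homotopy g where
  toFun q := lineComb (f q.2) (g q.2) (h q.2) q.1
  continuous_toFun := by
    classical
    refine continuous_into V (fun q => ?_) (fun p _ => ?_)
    · exact (support_lineComb_subset _ _ _ _).trans (Finset.union_subset (hf _) (hg _))
    · simp only [lineComb_wt]
      have ht : Continuous fun q : I × X => (q.1 : ℝ) :=
        continuous_subtype_val.comp continuous_fst
      exact ((continuous_const.sub ht).mul
        ((continuous_wt p).comp (f.continuous.comp continuous_snd))).add
        (ht.mul ((continuous_wt p).comp (g.continuous.comp continuous_snd)))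
  map_zero_left x := lineComb_zero _ _ _
  map_one_left x := lineComb_one _ _ _

theorem exists_finite_support_pair [CompactSpace X] (f g : C(X, BSp T)) :
    ∃ V : Finset (Chain T),
      (∀ x, (f x).wt.support ⊆ V) ∧ ∀ x, (g x).wt.support ⊆ V := by
  classical
  obtain ⟨V, hV⟩ := exists_finite_support_map f
  obtain ⟨W, hW⟩ := exists_finite_support_map g
  exact ⟨V ∪ W, fun x => (hV x).trans Finset.subset_union_left,
    fun x => (hW x).trans Finset.subset_union_right⟩

/-- The straight-line homotopy from a compact space. -/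
def lineHomotopy [CompactSpace X] (f g : C(X, BSp T))
    (h : ∀ x, IsChain (· ≤ ·)
      (((f x).wt.support : Set (Chain T)) ∪ ((g x).wt.support : Set (Chain T)))) :
    f.Homotopy g :=
  lineHomotopyOfFinite f g (exists_finite_support_pair f g).choose
    (exists_finite_support_pair f g).choose_spec.1 (exists_finite_support_pair f g).choose_spec.2 h

theorem lineHomotopy_apply [CompactSpace X] (f g : C(X, BSp T)) (h) (t : I) (x : X) :
    lineHomotopy f g h (t, x) = lineComb (f x) (g x) (h x) t := rfl

/-- The straight-line homotopy is constant where the two maps agree. -/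
theorem lineHomotopy_apply_of_eq [CompactSpace X] (f g : C(X, BSp T)) (h) (t : I) {x : X}
    (he : f x = g x) : lineHomotopy f g h (t, x) = f x :=
  BSp.ext (Finsupp.ext fun p => by
    rw [lineHomotopy_apply, lineComb_wt, ← he]; ring)

theorem homotopic_of_chain [CompactSpace X] (f g : C(X, BSp T))
    (h : ∀ x, IsChain (· ≤ ·)
      (((f x).wt.support : Set (Chain T)) ∪ ((g x).wt.support : Set (Chain T)))) :
    f.Homotopic g :=
  ⟨lineHomotopy f g h⟩

/-- The bundled map induced by a monotone map of vertices. -/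
def pushC (φ : Chain T → Chain T') (hφ : Monotone φ) : C(BSp T, BSp T') :=
  ⟨pushMono φ hφ, continuous_pushMono φ hφ⟩

theorem pushMono_congr {φ ψ : Chain T → Chain T'} (hφ : Monotone φ) (hψ : Monotone ψ)
    (z : BSp T) (h : ∀ p ∈ z.wt.support, φ p = ψ p) : pushMono φ hφ z = pushMono ψ hψ z :=
  BSp.ext (Finsupp.mapDomain_congr h)

/-- The push-forward of a family of points along a map of vertices monotone on a finite set of
vertices containing all the supports. -/
def pushAlong (f : C(X, BSp T)) (V : Finset (Chain T)) (hV : ∀ x, (f x).wt.support ⊆ V)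
    (φ : Chain T → Chain T') (hφ : MonotoneOn φ (V : Set (Chain T))) : C(X, BSp T') where
  toFun x :=
    { wt := (f x).wt.mapDomain φ
      nonneg := fun q => by
        classical
        rw [Finsupp.mapDomain, Finsupp.sum_apply]
        refine Finset.sum_nonneg fun p _ => ?_
        dsimp only
        rw [Finsupp.single_apply]
        split_ifs
        exacts [(f x).nonneg p, le_rfl]
      sum_eq := by
        rw [Finsupp.sum_mapDomain_index (fun _ => rfl) (fun _ _ _ => rfl)]
        exact (f x).sum_eq
      isChain := by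
        classical
        intro a ha b hb hab
        obtain ⟨p, hp, rfl⟩ := Finset.mem_image.mp (Finsupp.mapDomain_support ha)
        obtain ⟨q, hq, rfl⟩ := Finset.mem_image.mp (Finsupp.mapDomain_support hb)
        exact ((f x).isChain.total hp hq).imp (fun h => hφ (hV x hp) (hV x hq) h)
          (fun h => hφ (hV x hq) (hV x hp) h) }
  continuous_toFun := by
    classical
    refine continuous_into (V.image φ) (fun x => ?_) (fun q _ => ?_)
    · exact Finsupp.mapDomain_support.trans (Finset.image_subset_image (hV x))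
    · have hq : ∀ x, ((f x).wt.mapDomain φ) q = ∑ p ∈ V, if φ p = q then (f x).wt p else 0 := by
        intro x
        rw [Finsupp.mapDomain, Finsupp.sum_apply,
          Finsupp.sum_of_support_subset _ (hV x) _ (fun p _ => by simp)]
        simp [Finsupp.single_apply]
      simp only [hq]
      refine continuous_finsetSum _ fun p _ => ?_
      split_ifs
      · exact (continuous_wt p).comp f.continuous
      · exact continuous_const

theorem pushAlong_wt (f : C(X, BSp T)) (V : Finset (Chain T)) (hV) (φ : Chain T → Chain T') (hφ)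
    (x : X) : (pushAlong f V hV φ hφ x).wt = (f x).wt.mapDomain φ := rfl

theorem pushAlong_eq_self (f : C(X, BSp T)) (V : Finset (Chain T)) (hV) (φ : Chain T → Chain T)
    (hφ) (h : ∀ p ∈ V, φ p = p) : pushAlong f V hV φ hφ = f :=
  ContinuousMap.ext fun x => BSp.ext ((Finsupp.mapDomain_congr fun p hp => h p (hV x hp)).trans
    Finsupp.mapDomain_id)

theorem pushAlong_congr (f : C(X, BSp T)) (V : Finset (Chain T)) (hV)
    {φ ψ : Chain T → Chain T'} (hφ hψ) (h : ∀ p ∈ V, φ p = ψ p) :
    pushAlong f V hV φ hφ = pushAlong f V hV ψ hψ :=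
  ContinuousMap.ext fun x => BSp.ext (Finsupp.mapDomain_congr fun p hp => h p (hV x hp))

theorem pushC_comp (f : C(X, BSp T)) (V : Finset (Chain T)) (hV) (φ : Chain T → Chain T')
    (hφ : Monotone φ) : (pushC φ hφ).comp f = pushAlong f V hV φ (hφ.monotoneOn _) := rfl

/-- Maps of vertices which switch from `φ` to `ψ` at a given number of levels. -/
def switchMap (φ ψ : Chain T → Chain T') (k : ℕ) (p : Chain T) : Chain T' :=
  if k ≤ p.levels.card then ψ p else φ p

theorem switchMap_le {φ ψ : Chain T → Chain T'} {V : Set (Chain T)} (hφ : MonotoneOn φ V)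
    (hψ : MonotoneOn ψ V) (hle : ∀ p ∈ V, φ p ≤ ψ p) {p q : Chain T} (hp : p ∈ V) (hq : q ∈ V)
    (hpq : p < q) {i j k : ℕ} (hi : k ≤ i ∧ i ≤ k + 1) (hj : k ≤ j ∧ j ≤ k + 1) :
    switchMap φ ψ i p ≤ switchMap φ ψ j q := by
  have hc := Chain.card_lt_card hpq
  simp only [switchMap]
  split_ifs with h1 h2 h2
  · exact hψ hp hq hpq.le
  · omega
  · exact (hle p hp).trans (hψ hp hq hpq.le)
  · exact hφ hp hq hpq.le

theorem switchMap_monotoneOn {φ ψ : Chain T → Chain T'} {V : Set (Chain T)}
    (hφ : MonotoneOn φ V) (hψ : MonotoneOn ψ V) (hle : ∀ p ∈ V, φ p ≤ ψ p) (k : ℕ) :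
    MonotoneOn (switchMap φ ψ k) V := fun p hp q hq hpq => by
  rcases eq_or_lt_of_le hpq with rfl | hlt
  · exact le_rfl
  · exact switchMap_le hφ hψ hle hp hq hlt (k := k) ⟨le_rfl, by omega⟩ ⟨le_rfl, by omega⟩

/-- Comparable maps of vertices give homotopic maps on compact spaces. -/
theorem homotopic_pushAlong_of_le [CompactSpace X] (f : C(X, BSp T)) (V : Finset (Chain T))
    (hV : ∀ x, (f x).wt.support ⊆ V) {φ ψ : Chain T → Chain T'}
    (hφ : MonotoneOn φ (V : Set (Chain T))) (hψ : MonotoneOn ψ (V : Set (Chain T)))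
    (hle : ∀ p ∈ V, φ p ≤ ψ p) :
    (pushAlong f V hV φ hφ).Homotopic (pushAlong f V hV ψ hψ) := by
  classical
  set N := V.sup fun p => p.levels.card
  have hle' : ∀ p ∈ (V : Set (Chain T)), φ p ≤ ψ p := hle
  let F : ℕ → C(X, BSp T') := fun k =>
    pushAlong f V hV (switchMap φ ψ k) (switchMap_monotoneOn hφ hψ hle' k)
  have hstep : ∀ k, (F (k + 1)).Homotopic (F k) := by
    intro k
    refine homotopic_of_chain _ _ fun x => ?_
    have hmem : ∀ j, ∀ a ∈ ((F j x).wt.support : Set (Chain T')),
        ∃ p ∈ (f x).wt.support, switchMap φ ψ j p = a :=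
      fun j a ha => Finset.mem_image.mp (Finsupp.mapDomain_support ha)
    intro a ha b hb _
    obtain ⟨i, hi, p, hp, rfl⟩ : ∃ i, (k ≤ i ∧ i ≤ k + 1) ∧
        ∃ p ∈ (f x).wt.support, switchMap φ ψ i p = a := by
      rcases ha with h | h
      exacts [⟨k + 1, ⟨by omega, le_rfl⟩, hmem _ a h⟩, ⟨k, ⟨le_rfl, by omega⟩, hmem _ a h⟩]
    obtain ⟨j, hj, q, hq, rfl⟩ : ∃ j, (k ≤ j ∧ j ≤ k + 1) ∧
        ∃ q ∈ (f x).wt.support, switchMap φ ψ j q = b := by
      rcases hb with h | h
      exacts [⟨k + 1, ⟨by omega, le_rfl⟩, hmem _ b h⟩, ⟨k, ⟨le_rfl, by omega⟩, hmem _ b h⟩]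
    rcases (f x).isChain.total hp hq with h | h
    · rcases eq_or_lt_of_le h with rfl | hlt
      · simp only [switchMap]
        split_ifs <;>
          first
            | exact Or.inl le_rfl
            | exact Or.inl (hle' _ (hV x hp))
            | exact Or.inr (hle' _ (hV x hp))
      · exact Or.inl (switchMap_le hφ hψ hle' (hV x hp) (hV x hq) hlt hi hj)
    · rcases eq_or_lt_of_le h with rfl | hlt
      · simp only [switchMap]
        split_ifs <;>
          first
            | exact Or.inl le_rfl
            | exact Or.inl (hle' _ (hV x hp))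
            | exact Or.inr (hle' _ (hV x hp))
      · exact Or.inr (switchMap_le hφ hψ hle' (hV x hq) (hV x hp) hlt hj hi)
  have hall : ∀ k, (F k).Homotopic (F 0) := by
    intro k
    induction k with
    | zero => exact ContinuousMap.Homotopic.refl _
    | succ k ih => exact (hstep k).trans ih
  have h0 : F 0 = pushAlong f V hV ψ hψ :=
    pushAlong_congr _ _ _ _ _ fun p _ => by simp [switchMap]
  have hN : F (N + 1) = pushAlong f V hV φ hφ :=
    pushAlong_congr _ _ _ _ _ fun p hp => by
      have : p.levels.card ≤ N := Finset.le_sup (f := fun p => p.levels.card) hp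
      simp only [switchMap]
      rw [if_neg (by omega)]
  rw [← h0, ← hN]
  exact hall _

/-- Comparable monotone maps of vertices give homotopic maps on compact spaces. -/
theorem homotopic_pushC_of_le [CompactSpace X] (f : C(X, BSp T)) {φ ψ : Chain T → Chain T'}
    (hφ : Monotone φ) (hψ : Monotone ψ) (hle : ∀ p, φ p ≤ ψ p) :
    ((pushC φ hφ).comp f).Homotopic ((pushC ψ hψ).comp f) := by
  obtain ⟨V, hV⟩ := exists_finite_support_map f
  rw [pushC_comp f V hV, pushC_comp f V hV]
  exact homotopic_pushAlong_of_le f V hV _ _ fun p _ => hle p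

end BSp

/-! ## A category with a terminal object -/

namespace Chain

variable {t : T} (ht : Limits.IsTerminal t)

theorem mem_of_mem_insert_filter {p : Chain T} {N i : ℕ}
    (hi : i ∈ insert N (p.levels.filter (· < N))) (h : i < N) : i ∈ p.levels := by
  rcases Finset.mem_insert.mp hi with rfl | hi'
  · omega
  · exact (Finset.mem_filter.mp hi').1

/-- The objects of a chain below level `N`, and `t` at level `N`. -/
def upObj (t : T) (N : ℕ) (p : Chain T) (i : ↥(insert N (p.levels.filter (· < N)))) : T :=
  if h : i.1 < N then p.fct.obj ⟨i.1, mem_of_mem_insert_filter i.2 h⟩ else t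

theorem upObj_lt (N : ℕ) (p : Chain T) (i : ↥(insert N (p.levels.filter (· < N))))
    (h : i.1 < N) : upObj t N p i = p.fct.obj ⟨i.1, mem_of_mem_insert_filter i.2 h⟩ :=
  dif_pos h

theorem upObj_top (N : ℕ) (p : Chain T) (i : ↥(insert N (p.levels.filter (· < N))))
    (h : ¬ i.1 < N) : upObj t N p i = t :=
  dif_neg h

/-- The morphisms of the extended chain. -/
def upMap (N : ℕ) (p : Chain T) {i j : ↥(insert N (p.levels.filter (· < N)))} (hij : i ≤ j) :
    upObj t N p i ⟶ upObj t N p j :=
  if hj : j.1 < N then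
    eqToHom (upObj_lt N p i (lt_of_le_of_lt hij hj)) ≫
      p.fct.map (homOfLE (show (⟨i.1, mem_of_mem_insert_filter i.2 (lt_of_le_of_lt hij hj)⟩ :
        p.levels) ≤ ⟨j.1, mem_of_mem_insert_filter j.2 hj⟩ from hij)) ≫
      eqToHom (upObj_lt N p j hj).symm
  else ht.from _ ≫ eqToHom (upObj_top N p j hj).symm

theorem upMap_lt (N : ℕ) (p : Chain T) {i j : ↥(insert N (p.levels.filter (· < N)))} (hij : i ≤ j)
    (hj : j.1 < N) :
    upMap ht N p hij = eqToHom (upObj_lt N p i (lt_of_le_of_lt hij hj)) ≫
      p.fct.map (homOfLE (show (⟨i.1, mem_of_mem_insert_filter i.2 (lt_of_le_of_lt hij hj)⟩ :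
        p.levels) ≤ ⟨j.1, mem_of_mem_insert_filter j.2 hj⟩ from hij)) ≫
      eqToHom (upObj_lt N p j hj).symm :=
  dif_pos hj

theorem conj_conj {a a' b b' c d : T} (e₁ : a = a') (e₂ : a' = c) (g : c ⟶ d) (e₃ : d = b')
    (e₄ : b' = b) :
    eqToHom e₁ ≫ (eqToHom e₂ ≫ g ≫ eqToHom e₃) ≫ eqToHom e₄ =
      eqToHom (e₁.trans e₂) ≫ g ≫ eqToHom (e₃.trans e₄) := by
  subst e₁ e₂ e₃ e₄
  simp

include ht in
theorem hom_ext_top {N : ℕ} {p : Chain T} {j : ↥(insert N (p.levels.filter (· < N)))}
    (hj : ¬ j.1 < N) {a : T} (f g : a ⟶ upObj t N p j) : f = g := by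
  rw [← cancel_mono (eqToHom (upObj_top N p j hj))]
  exact ht.hom_ext _ _

/-- Adjoin a terminal object at level `N`, forgetting the levels above. -/
def pushUp (N : ℕ) (p : Chain T) : Chain T where
  levels := insert N (p.levels.filter (· < N))
  nonempty := Finset.insert_nonempty _ _
  fct :=
    { obj := upObj t N p
      map := fun f => upMap ht N p (leOfHom f)
      map_id := fun i => by
        by_cases h : i.1 < N
        · rw [upMap, dif_pos h]
          rw [show p.fct.map (homOfLE _) = 𝟙 _ from p.fct.map_id _]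
          simp
        · exact hom_ext_top ht h _ _
      map_comp := fun {i j k} f g => by
        by_cases h : k.1 < N
        · have hj : j.1 < N := lt_of_le_of_lt (leOfHom g) h
          simp only [upMap, dif_pos h, dif_pos hj, Category.assoc, eqToHom_trans_assoc,
            eqToHom_refl, Category.id_comp]
          rw [← Functor.map_comp_assoc]
          rfl
        · exact hom_ext_top ht h _ _ }

theorem pushUp_monotone (N : ℕ) : Monotone (pushUp ht N) := by
  intro q p hqp
  obtain ⟨sq, hq, Fq⟩ := q
  have hs : sq ⊆ p.levels := hqp.1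
  obtain rfl : Fq = levelIncl hs ⋙ p.fct := hqp.2.symm
  refine ⟨Finset.insert_subset_insert _ (Finset.filter_subset_filter _ hs), ?_⟩
  refine CategoryTheory.Functor.ext (fun i => ?_) (fun i j f => ?_)
  · by_cases h : i.1 < N
    · exact (upObj_lt N p _ h).trans (upObj_lt N _ i h).symm
    · exact (upObj_top N p _ h).trans (upObj_top N _ i h).symm
  · show upMap ht N p (leOfHom ((levelIncl _).map f)) = _ ≫ upMap ht N _ (leOfHom f) ≫ _
    by_cases h : j.1 < N
    · exact (upMap_lt ht N p _ h).trans ((conj_conj _ _ _ _ _).symm.trans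
        (congrArg (fun g => eqToHom _ ≫ g ≫ eqToHom _) (upMap_lt ht N _ _ h).symm))
    · exact hom_ext_top ht h _ _

theorem le_pushUp {N : ℕ} {p : Chain T} (hp : ∀ i ∈ p.levels, i < N) : p ≤ pushUp ht N p := by
  refine ⟨fun i hi => Finset.mem_insert_of_mem (Finset.mem_filter.mpr ⟨hi, hp i hi⟩), ?_⟩
  refine CategoryTheory.Functor.ext (fun i => ?_) (fun i j f => ?_)
  · exact upObj_lt N p _ (hp i.1 i.2)
  · exact dif_pos (hp j.1 j.2)

theorem single_le_pushUp (N : ℕ) (p : Chain T) : single N t ≤ pushUp ht N p := by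
  have hs : ({N} : Finset ℕ) ⊆ insert N (p.levels.filter (· < N)) := by simp
  have hN : ∀ i : ↥({N} : Finset ℕ), ¬ i.1 < N := fun i => by
    have := Finset.mem_singleton.mp i.2; omega
  refine ⟨hs, ?_⟩
  refine CategoryTheory.Functor.ext (fun _ => upObj_top N p _ (hN _)) (fun _ j _ => ?_)
  exact hom_ext_top ht (p := p) (j := ⟨j.1, hs j.2⟩) (hN j) _ _

/-- A monotone map equal to the identity on chains below level `N`. -/
theorem le_pushUp_of_levels {N : ℕ} {p : Chain T} (hp : p.levels.sup id < N) :
    p ≤ pushUp ht N p :=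
  le_pushUp ht fun i hi => lt_of_le_of_lt (Finset.le_sup (f := id) hi) hp

end Chain

namespace BSp

variable {X : Type*} [TopologicalSpace X]

/-- If `T` has a terminal object, maps from compact spaces to `BSp T` are nullhomotopic. -/
theorem nullhomotopic_of_isTerminal [CompactSpace X] {t : T} (ht : Limits.IsTerminal t)
    (f : C(X, BSp T)) :
    ∃ z, f.Homotopic (ContinuousMap.const X z) := by
  classical
  obtain ⟨V, hV⟩ := exists_finite_support_map f
  set N := (V.sup fun p => p.levels.sup id) + 1 with hN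
  have hlt : ∀ p ∈ V, p ≤ Chain.pushUp ht N p := fun p hp =>
    Chain.le_pushUp_of_levels ht
      (Nat.lt_succ_of_le (Finset.le_sup (f := fun p => p.levels.sup id) hp))
  refine ⟨vertex (Chain.single N t), ?_⟩
  have hup : MonotoneOn (Chain.pushUp ht N) (V : Set (Chain T)) :=
    (Chain.pushUp_monotone ht N).monotoneOn _
  have h1 : f.Homotopic (pushAlong f V hV (Chain.pushUp ht N) hup) := by
    have := homotopic_pushAlong_of_le f V hV (monotone_id.monotoneOn _) hup hlt
    rwa [pushAlong_eq_self f V hV id (monotone_id.monotoneOn _) fun p _ => rfl] at this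
  refine h1.trans (homotopic_of_chain _ _ fun x => ?_)
  intro a ha b hb hab
  rw [ContinuousMap.const_apply, support_vertex, Finset.coe_singleton] at ha hb
  have hsrc : ∀ c ∈ ((pushAlong f V hV (Chain.pushUp ht N) hup x).wt.support : Set (Chain T)),
      Chain.single N t ≤ c := by
    intro c hc
    obtain ⟨p, -, rfl⟩ := Finset.mem_image.mp (Finsupp.mapDomain_support hc)
    exact Chain.single_le_pushUp ht N p
  rcases ha with ha | ha <;> rcases hb with hb | hb
  · exact (pushAlong f V hV (Chain.pushUp ht N) hup x).isChain ha hb hab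
  · rw [Set.mem_singleton_iff.mp hb]; exact Or.inr (hsrc a ha)
  · rw [Set.mem_singleton_iff.mp ha]; exact Or.inl (hsrc b hb)
  · exact absurd ((Set.mem_singleton_iff.mp ha).trans (Set.mem_singleton_iff.mp hb).symm) hab

/-- If `T` has a terminal object, two maps from a compact space are homotopic. -/
theorem homotopic_of_isTerminal [CompactSpace X] {t : T} (ht : Limits.IsTerminal t)
    (f g : C(X, BSp T)) : f.Homotopic g := by
  classical
  let F : C(X ⊕ X, BSp T) := ⟨Sum.elim f g, f.continuous.sumElim g.continuous⟩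
  obtain ⟨z, hz⟩ := nullhomotopic_of_isTerminal ht F
  have h1 : f.Homotopic (ContinuousMap.const X z) :=
    hz.comp (ContinuousMap.Homotopic.refl ⟨Sum.inl, continuous_inl⟩)
  have h2 : g.Homotopic (ContinuousMap.const X z) :=
    hz.comp (ContinuousMap.Homotopic.refl ⟨Sum.inr, continuous_inr⟩)
  exact h1.trans h2.symm

theorem pathConnectedSpace_of_isTerminal {t : T} (ht : Limits.IsTerminal t) :
    PathConnectedSpace (BSp T) where
  nonempty := ⟨vertex (Chain.single 0 t)⟩
  joined x y := by
    obtain ⟨H⟩ := homotopic_of_isTerminal ht (ContinuousMap.const Unit x)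
      (ContinuousMap.const Unit y)
    exact ⟨⟨⟨fun s => H (s, ()), H.continuous.comp (continuous_id.prodMk continuous_const)⟩,
      H.map_zero_left (), H.map_one_left ()⟩⟩

/-- Extension over a cone: if `q : I × A → Z` is surjective and only identifies points over `0`,
every map `A → BSp T` extends along `a ↦ q (1, a)`. -/
theorem exists_extension_cone {A Z : Type*} [TopologicalSpace A] [CompactSpace A]
    [TopologicalSpace Z] [T2Space Z] {t : T} (ht : Limits.IsTerminal t) (q : C(I × A, Z))
    (hq : Function.Surjective q)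
    (hfib : ∀ s s' a a', q (s, a) = q (s', a') → (s = 0 ∧ s' = 0) ∨ (s = s' ∧ a = a'))
    (f : C(A, BSp T)) : ∃ F : C(Z, BSp T), ∀ a, F (q (1, a)) = f a := by
  obtain ⟨z, ⟨H⟩⟩ := nullhomotopic_of_isTerminal ht f
  have hqm : IsQuotientMap q :=
    q.continuous.isClosedMap.isQuotientMap q.continuous hq
  let G : C(I × A, BSp T) := ⟨fun p => H.symm p, H.symm.continuous⟩
  have hG : Function.FactorsThrough G q := by
    rintro ⟨s, a⟩ ⟨s', a'⟩ h
    rcases hfib s s' a a' h with ⟨rfl, rfl⟩ | ⟨rfl, rfl⟩
    · exact (H.symm.map_zero_left a).trans (H.symm.map_zero_left a').symm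
    · rfl
  refine ⟨hqm.lift G hG, fun a => ?_⟩
  have := congrArg (fun φ : C(I × A, BSp T) => φ (1, a)) (hqm.lift_comp G hG)
  exact this.trans (H.symm.map_one_left a)

/-- The cone map `(s, a) ↦ 1/2 + s (a - 1/2)` onto the cube. -/
def cubeCone (ι : Type*) : C(I × Cube.boundary ι, ι → I) where
  toFun q i := ⟨1 / 2 + (q.1 : ℝ) * ((q.2.1 i : ℝ) - 1 / 2), by
    have h1 := q.1.2
    have h2 := (q.2.1 i).2
    constructor <;> nlinarith [h1.1, h1.2, h2.1, h2.2]⟩
  continuous_toFun := continuous_pi fun i => Continuous.subtype_mk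
    (continuous_const.add ((continuous_subtype_val.comp continuous_fst).mul
      ((continuous_subtype_val.comp ((continuous_apply i).comp
        (continuous_subtype_val.comp continuous_snd))).sub continuous_const))) _

theorem cubeCone_one {ι : Type*} (a : Cube.boundary ι) : cubeCone ι (1, a) = a.1 := by
  funext i
  apply Subtype.ext
  simp [cubeCone]

/-- If `T` has a terminal object, a map on the boundary of a cube extends to the cube. -/
theorem exists_extension_cube {ι : Type*} [Fintype ι] {t : T} (ht : Limits.IsTerminal t)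
    (f : C(Cube.boundary ι, BSp T)) :
    ∃ F : C(ι → I, BSp T), ∀ a : Cube.boundary ι, F a.1 = f a := by
  classical
  rcases isEmpty_or_nonempty ι with hι | hι
  · exact ⟨ContinuousMap.const _ (vertex (Chain.single 0 t)), fun a => a.2.elim fun i _ => isEmptyElim i⟩
  have hcl : IsClosed (Cube.boundary ι) := by
    have : Cube.boundary ι = ⋃ i : ι, {y : ι → I | y i = 0} ∪ {y | y i = 1} := by
      ext y; simp [Cube.boundary]
    rw [this]
    exact isClosed_iUnion_of_finite fun i =>
      (isClosed_eq (continuous_apply i) continuous_const).union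
        (isClosed_eq (continuous_apply i) continuous_const)
  have : CompactSpace (Cube.boundary ι) := isCompact_iff_compactSpace.mp hcl.isCompact
  have hval : ∀ a : Cube.boundary ι, ∀ i, |(a.1 i : ℝ) - 1 / 2| ≤ 1 / 2 := fun a i => by
    rw [abs_le]; constructor <;> linarith [(a.1 i).2.1, (a.1 i).2.2]
  have hatt : ∀ a : Cube.boundary ι, ∃ i, |(a.1 i : ℝ) - 1 / 2| = 1 / 2 := by
    rintro ⟨a, i, hi | hi⟩ <;> exact ⟨i, by norm_num [hi]⟩
  have hne : ∀ i : ι, (fun _ => (0 : I)) ∈ Cube.boundary ι := fun i => ⟨i, Or.inl rfl⟩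
  suffices hq : Function.Surjective (cubeCone ι) ∧ ∀ s s' a a', cubeCone ι (s, a) = cubeCone ι (s', a') →
      (s = 0 ∧ s' = 0) ∨ (s = s' ∧ a = a') by
    obtain ⟨F, hF⟩ := exists_extension_cone ht (cubeCone ι) hq.1 hq.2 f
    exact ⟨F, fun a => by rw [← cubeCone_one a]; exact hF a⟩
  constructor
  · intro y
    obtain ⟨i₀, -, hmax⟩ := Finset.exists_max_image (Finset.univ : Finset ι)
      (fun i => |(y i : ℝ) - 1 / 2|) Finset.univ_nonempty
    set r := |(y i₀ : ℝ) - 1 / 2| with hr
    have hr0 : 0 ≤ r := abs_nonneg _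
    have hr1 : r ≤ 1 / 2 := by
      rw [hr, abs_le]; constructor <;> linarith [(y i₀).2.1, (y i₀).2.2]
    by_cases h0 : r = 0
    · refine ⟨(0, ⟨_, hne i₀⟩), ?_⟩
      funext i
      apply Subtype.ext
      have := hmax i (Finset.mem_univ i)
      rw [h0, abs_nonpos_iff, sub_eq_zero] at this
      simp [cubeCone, this]
    · have hpos : 0 < r := lt_of_le_of_ne hr0 (Ne.symm h0)
      let a : ι → I := fun i => ⟨1 / 2 + ((y i : ℝ) - 1 / 2) / (2 * r), by
        have := abs_le.mp (hmax i (Finset.mem_univ i))
        have h1 : ((y i : ℝ) - 1 / 2) / (2 * r) ≤ 1 / 2 := by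
          rw [div_le_iff₀ (by positivity)]; linarith [this.2]
        have h2 : -(1 / 2) ≤ ((y i : ℝ) - 1 / 2) / (2 * r) := by
          rw [le_div_iff₀ (by positivity)]; linarith [this.1]
        constructor <;> linarith⟩
      have ha : a ∈ Cube.boundary ι := by
        refine ⟨i₀, ?_⟩
        rcases abs_choice ((y i₀ : ℝ) - 1 / 2) with h | h
        · refine Or.inr (Subtype.ext ?_)
          have e : (y i₀ : ℝ) - 1 / 2 = r := h.symm
          show 1 / 2 + ((y i₀ : ℝ) - 1 / 2) / (2 * r) = 1
          rw [e]; field_simp; ring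
        · refine Or.inl (Subtype.ext ?_)
          have e : (y i₀ : ℝ) - 1 / 2 = -r := by rw [hr, h]; ring
          show 1 / 2 + ((y i₀ : ℝ) - 1 / 2) / (2 * r) = 0
          rw [e]; field_simp; ring
      refine ⟨(⟨2 * r, by constructor <;> linarith⟩, ⟨a, ha⟩), ?_⟩
      funext i
      apply Subtype.ext
      show 1 / 2 + 2 * r * (1 / 2 + ((y i : ℝ) - 1 / 2) / (2 * r) - 1 / 2) = (y i : ℝ)
      field_simp
      ring
  · intro s s' a a' h
    have hi : ∀ i, (s : ℝ) * ((a.1 i : ℝ) - 1 / 2) = (s' : ℝ) * ((a'.1 i : ℝ) - 1 / 2) :=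
      fun i => by simpa [cubeCone] using congrArg (fun y : ι → I => (y i : ℝ)) h
    have habs : ∀ (s s' : I) (a a' : Cube.boundary ι),
        (∀ i, (s : ℝ) * ((a.1 i : ℝ) - 1 / 2) = (s' : ℝ) * ((a'.1 i : ℝ) - 1 / 2)) →
          (s : ℝ) ≤ s' := by
      intro s s' a a' hi
      obtain ⟨i, hat⟩ := hatt a
      have h2 := congrArg abs (hi i)
      rw [abs_mul, abs_mul, hat, abs_of_nonneg s.2.1, abs_of_nonneg s'.2.1] at h2
      nlinarith [hval a' i, s'.2.1]
    have hss : s = s' := Subtype.ext (le_antisymm (habs s s' a a' hi)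
      (habs s' s a' a fun i => (hi i).symm))
    subst hss
    by_cases h0 : s = 0
    · exact Or.inl ⟨h0, h0⟩
    · refine Or.inr ⟨rfl, Subtype.ext (funext fun i => Subtype.ext ?_)⟩
      have hs : (s : ℝ) ≠ 0 := fun e => h0 (Subtype.ext e)
      linarith [mul_left_cancel₀ hs (hi i)]

end BSp

end Vale.Agent.P259
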