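import Mathlib

/-!
# P259 (D1): a classifying space of a small category

`Chain T` is the poset of functors from finite nonempty sets of natural numbers (linearly ordered)
to `T`, ordered by restriction. `BSp T` is the geometric realisation of its order complex: finitely
supported weights with support a chain, with the final topology from the finite simplices.
-/

open CategoryTheory Set Topology

noncomputable section

namespace Vale.Agent.P259

/-! ## The poset of chains -/

/-- The inclusion of levels as a functor. -/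
def levelIncl {s t : Finset ℕ} (h : s ⊆ t) : (↥s) ⥤ (↥t) :=
  (Monotone.functor (f := fun i : s => (⟨i.1, h i.2⟩ : t)) fun _ _ hab => hab)

variable {T : Type} [SmallCategory T] {T' : Type} [SmallCategory T']
  {T'' : Type} [SmallCategory T'']

/-- A chain in `T`: a finite nonempty set of levels and a functor from it to `T`. -/
structure Chain (T : Type) [SmallCategory T] : Type where
  levels : Finset ℕ
  nonempty : levels.Nonempty
  fct : (↥levels) ⥤ T

namespace Chain

/-- Restriction of a chain to some of its levels. -/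
def restrict (p : Chain T) (s : Finset ℕ) (h : s ⊆ p.levels) (hs : s.Nonempty) : Chain T :=
  ⟨s, hs, levelIncl h ⋙ p.fct⟩

instance : PartialOrder (Chain T) where
  le q p := ∃ h : q.levels ⊆ p.levels, levelIncl h ⋙ p.fct = q.fct
  le_refl p := ⟨subset_rfl, rfl⟩
  le_trans q p r := by
    rintro ⟨h, e⟩ ⟨h', e'⟩
    refine ⟨h.trans h', ?_⟩
    rw [← e, ← e']
    rfl
  le_antisymm q p := by
    rintro ⟨h, e⟩ ⟨h', e'⟩
    obtain ⟨s, hs, F⟩ := q
    obtain ⟨t, ht, G⟩ := p
    obtain rfl : s = t := Finset.Subset.antisymm h h'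
    obtain rfl : G = F := e
    rfl

theorem le_def {q p : Chain T} :
    q ≤ p ↔ ∃ h : q.levels ⊆ p.levels, levelIncl h ⋙ p.fct = q.fct := Iff.rfl

theorem restrict_le (p : Chain T) {s : Finset ℕ} (h : s ⊆ p.levels) (hs : s.Nonempty) :
    p.restrict s h hs ≤ p := ⟨h, rfl⟩

theorem card_lt_card {q p : Chain T} (h : q < p) : q.levels.card < p.levels.card := by
  obtain ⟨hs, e⟩ := h.le
  refine Finset.card_lt_card (Finset.ssubset_iff_subset_ne.mpr ⟨hs, fun heq => h.ne ?_⟩)
  obtain ⟨s, hs', F⟩ := q
  obtain ⟨t, ht, G⟩ := p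
  obtain rfl : s = t := heq
  obtain rfl : G = F := e
  rfl

/-- The top level. -/
def topLevel (p : Chain T) : p.levels := ⟨p.levels.max' p.nonempty, p.levels.max'_mem _⟩

/-- The top object of a chain. -/
def top (p : Chain T) : T := p.fct.obj p.topLevel

theorem obj_eq {q p : Chain T} (h : q ≤ p) (i : q.levels) :
    q.fct.obj i = p.fct.obj ⟨i.1, h.1 i.2⟩ :=
  (Functor.congr_obj h.2 i).symm

/-- The canonical morphism between top objects. -/
def topHom {q p : Chain T} (h : q ≤ p) : q.top ⟶ p.top :=
  eqToHom (obj_eq h q.topLevel) ≫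
    p.fct.map (homOfLE (Finset.le_max' _ _ (h.1 q.topLevel.2) :
      (⟨q.topLevel.1, h.1 q.topLevel.2⟩ : p.levels) ≤ p.topLevel))

@[simp]
theorem topHom_refl (p : Chain T) : topHom (le_refl p) = 𝟙 p.top := by
  simp only [topHom]
  exact (Category.id_comp _).trans (p.fct.map_id p.topLevel)

@[simp]
theorem topHom_comp {q p r : Chain T} (h : q ≤ p) (h' : p ≤ r) :
    topHom h ≫ topHom h' = topHom (h.trans h') := by
  obtain ⟨sp, hp, Fp⟩ := p
  obtain ⟨sq, hq, Fq⟩ := q
  have hs' : sp ⊆ r.levels := h'.1
  obtain rfl : Fp = levelIncl hs' ⋙ r.fct := h'.2.symm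
  have hs : sq ⊆ sp := h.1
  obtain rfl : Fq = levelIncl hs ⋙ (levelIncl hs' ⋙ r.fct) := h.2.symm
  refine (congrArg₂ (fun f g => f ≫ g) (Category.id_comp _) (Category.id_comp _)).trans ?_
  refine Eq.trans ?_ (Category.id_comp _).symm
  exact (r.fct.map_comp _ _).symm

/-- The image of a chain under a functor. -/
def map (F : T ⥤ T') (p : Chain T) : Chain T' := ⟨p.levels, p.nonempty, p.fct ⋙ F⟩

@[simp] theorem map_levels (F : T ⥤ T') (p : Chain T) : (p.map F).levels = p.levels := rfl

theorem map_id (p : Chain T) : p.map (𝟭 T) = p := rfl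

theorem map_map (F : T ⥤ T') (G : T' ⥤ T'') (p : Chain T) :
    (p.map F).map G = p.map (F ⋙ G) := rfl

theorem map_mono (F : T ⥤ T') : Monotone (map F) := by
  rintro q p ⟨h, e⟩
  refine ⟨h, ?_⟩
  show levelIncl h ⋙ p.fct ⋙ F = q.fct ⋙ F
  rw [← e]
  rfl

theorem top_map (F : T ⥤ T') (p : Chain T) : (p.map F).top = F.obj p.top := rfl

theorem topHom_map (F : T ⥤ T') {q p : Chain T} (h : q ≤ p) :
    topHom (map_mono F h) = F.map (topHom h) := by
  obtain ⟨sq, hq, Fq⟩ := q
  have hs : sq ⊆ p.levels := h.1
  obtain rfl : Fq = levelIncl hs ⋙ p.fct := h.2.symm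
  refine (Category.id_comp _).trans ?_
  exact (congrArg F.map (Category.id_comp _)).symm

/-- The chain with a single level. -/
def single (n : ℕ) (a : T) : Chain T :=
  ⟨{n}, Finset.singleton_nonempty n, (Functor.const _).obj a⟩

theorem top_single (n : ℕ) (a : T) : (single n a).top = a := rfl

instance [Nonempty T] : Nonempty (Chain T) := ⟨single 0 (Classical.arbitrary T)⟩

end Chain

/-! ## The realisation -/

/-- Weights on the poset of chains with support a chain. -/
@[ext]
structure BSp (T : Type) [SmallCategory T] : Type where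
  wt : Chain T →₀ ℝ
  nonneg : ∀ p, 0 ≤ wt p
  sum_eq : wt.sum (fun _ x => x) = 1
  isChain : IsChain (· ≤ ·) (wt.support : Set (Chain T))

namespace BSp

/-- A finite set of comparable vertices. -/
abbrev Simplex (T : Type) [SmallCategory T] : Type :=
  {s : Finset (Chain T) // IsChain (· ≤ ·) (s : Set (Chain T))}

theorem sum_one_of_subset (z : BSp T) {V : Finset (Chain T)} (h : z.wt.support ⊆ V) :
    ∑ p ∈ V, z.wt p = 1 := by
  rw [← z.sum_eq, Finsupp.sum_of_support_subset _ h _ (fun _ _ => rfl)]

theorem le_one (z : BSp T) (p : Chain T) : z.wt p ≤ 1 := by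
  classical
  rw [← z.sum_one_of_subset (V := insert p z.wt.support) (Finset.subset_insert _ _)]
  exact Finset.single_le_sum (fun q _ => z.nonneg q) (Finset.mem_insert_self _ _)

theorem exists_pos (z : BSp T) : ∃ p, 0 < z.wt p := by
  by_contra h
  push Not at h
  have := z.sum_one_of_subset (V := z.wt.support) subset_rfl
  rw [Finset.sum_eq_zero fun p _ => le_antisymm (h p) (z.nonneg p)] at this
  exact zero_ne_one this

theorem mem_support_iff (z : BSp T) (p : Chain T) : p ∈ z.wt.support ↔ 0 < z.wt p := by
  rw [Finsupp.mem_support_iff]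
  exact ⟨fun h => lt_of_le_of_ne (z.nonneg p) (Ne.symm h), fun h => h.ne'⟩

/-- The point of a simplex with given barycentric coordinates. -/
def mkOn (s : Finset (Chain T)) (hs : IsChain (· ≤ ·) (s : Set (Chain T)))
    (w : stdSimplex ℝ s) : BSp T where
  wt := (Finsupp.equivFunOnFinite.symm (w : s → ℝ)).embDomain (Function.Embedding.subtype _)
  nonneg p := by
    by_cases hp : p ∈ Set.range (Function.Embedding.subtype (· ∈ s))
    · obtain ⟨i, rfl⟩ := hp
      rw [Finsupp.embDomain_apply_self]
      exact w.2.1 i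
    · rw [Finsupp.embDomain_of_notMem_range _ _ _ hp]
  sum_eq := by
    rw [Finsupp.sum_embDomain, Finsupp.sum_fintype _ _ (fun _ => rfl)]
    exact w.2.2
  isChain := by
    refine hs.mono fun p hp => ?_
    simp only [Finset.mem_coe, Finsupp.support_embDomain, Finset.mem_map] at hp
    obtain ⟨i, -, rfl⟩ := hp
    exact i.2

@[simp]
theorem mkOn_wt_mem (s : Finset (Chain T)) (hs : IsChain (· ≤ ·) (s : Set (Chain T)))
    (w : stdSimplex ℝ s) (i : s) : (mkOn s hs w).wt i.1 = w i :=
  Finsupp.embDomain_apply_self (Function.Embedding.subtype _) _ i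

theorem mkOn_wt_of_notMem (s : Finset (Chain T)) (hs : IsChain (· ≤ ·) (s : Set (Chain T)))
    (w : stdSimplex ℝ s) {p : Chain T} (hp : p ∉ s) : (mkOn s hs w).wt p = 0 :=
  Finsupp.embDomain_of_notMem_range _ _ _ (by rintro ⟨i, rfl⟩; exact hp i.2)

theorem support_mkOn_subset (s : Finset (Chain T)) (hs : IsChain (· ≤ ·) (s : Set (Chain T)))
    (w : stdSimplex ℝ s) : (mkOn s hs w).wt.support ⊆ s := fun p hp => by
  by_contra h
  exact Finsupp.mem_support_iff.mp hp (mkOn_wt_of_notMem s hs w h)

/-- The coordinates of a point in a simplex containing it. -/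
def coordsOn (z : BSp T) (s : Finset (Chain T)) (h : z.wt.support ⊆ s) : stdSimplex ℝ s :=
  ⟨fun i => z.wt i.1, fun i => z.nonneg i.1,
    (Finset.sum_coe_sort s (fun p => z.wt p)).trans (z.sum_one_of_subset h)⟩

theorem mkOn_coordsOn (z : BSp T) (s : Finset (Chain T))
    (hs : IsChain (· ≤ ·) (s : Set (Chain T))) (h : z.wt.support ⊆ s) :
    mkOn s hs (z.coordsOn s h) = z := by
  ext p
  by_cases hp : p ∈ s
  · exact mkOn_wt_mem s hs _ ⟨p, hp⟩
  · rw [mkOn_wt_of_notMem _ _ _ hp, Finsupp.notMem_support_iff.mp fun h' => hp (h h')]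

/-- The map from the disjoint union of all simplices. -/
def fromSimplices (x : Σ s : Simplex T, stdSimplex ℝ s.1) : BSp T := mkOn x.1.1 x.1.2 x.2

instance : TopologicalSpace (BSp T) := TopologicalSpace.coinduced fromSimplices inferInstance

theorem fromSimplices_surjective : Function.Surjective (fromSimplices (T := T)) := fun z =>
  ⟨⟨⟨z.wt.support, z.isChain⟩, z.coordsOn z.wt.support subset_rfl⟩,
    mkOn_coordsOn z z.wt.support z.isChain subset_rfl⟩

theorem isQuotientMap_fromSimplices : IsQuotientMap (fromSimplices (T := T)) :=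
  ⟨⟨rfl⟩, fromSimplices_surjective⟩

theorem continuous_mkOn (s : Finset (Chain T)) (hs : IsChain (· ≤ ·) (s : Set (Chain T))) :
    Continuous (mkOn s hs) :=
  isQuotientMap_fromSimplices.continuous.comp
    (continuous_sigmaMk (σ := fun s : Simplex T => stdSimplex ℝ s.1) (i := ⟨s, hs⟩))

/-- A map out of `BSp T` is continuous iff it is so on every simplex. -/
theorem continuous_iff {X : Type*} [TopologicalSpace X] {f : BSp T → X} :
    Continuous f ↔ ∀ s hs, Continuous fun w => f (mkOn s hs w) := by
  refine ⟨fun h s hs => h.comp (continuous_mkOn s hs), fun h => ?_⟩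
  rw [isQuotientMap_fromSimplices.continuous_iff, continuous_sigma_iff]
  exact fun s => h s.1 s.2

/-- A map out of `BSp T × Y`, `Y` locally compact, is continuous iff it is so on every simplex. -/
theorem continuous_prod_iff {X Y : Type*} [TopologicalSpace X] [TopologicalSpace Y]
    [LocallyCompactSpace Y] {f : BSp T × Y → X} :
    Continuous f ↔
      ∀ s hs, Continuous fun q : stdSimplex ℝ (s : Finset (Chain T)) × Y =>
        f (mkOn s hs q.1, q.2) := by
  refine ⟨fun h s hs => h.comp ((continuous_mkOn s hs).prodMap continuous_id), fun h => ?_⟩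
  refine isQuotientMap_fromSimplices.continuous_lift_prod_left ?_
  let e := (Homeomorph.sigmaProdDistrib (X := fun s : Simplex T => stdSimplex ℝ s.1) (Y := Y))
  rw [← e.symm.comp_continuous_iff', continuous_sigma_iff]
  exact fun s => h s.1 s.2

theorem continuous_wt (p : Chain T) : Continuous fun z : BSp T => z.wt p := by
  rw [continuous_iff]
  intro s hs
  by_cases hp : p ∈ s
  · simpa only [mkOn_wt_mem s hs _ ⟨p, hp⟩] using!
      (continuous_apply (⟨p, hp⟩ : s)).comp continuous_subtype_val
  · simpa only [mkOn_wt_of_notMem s hs _ hp] using! continuous_const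

/-- The open star of a vertex. -/
def star (p : Chain T) : Set (BSp T) := {z | 0 < z.wt p}

theorem isOpen_star (p : Chain T) : IsOpen (star p) :=
  isOpen_lt continuous_const (continuous_wt p)

theorem iUnion_star : ⋃ p, star p = (Set.univ : Set (BSp T)) :=
  Set.eq_univ_of_forall fun z => Set.mem_iUnion.mpr z.exists_pos

instance : T2Space (BSp T) :=
  T2Space.of_injective_continuous (f := fun (z : BSp T) (p : Chain T) => z.wt p)
    (fun _ _ h => BSp.ext (Finsupp.ext (congrFun h))) (continuous_pi continuous_wt)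

/-- Continuity into `BSp T`: finitely many vertices and continuous coordinates. -/
theorem continuous_into {X : Type*} [TopologicalSpace X] {f : X → BSp T} (V : Finset (Chain T))
    (hV : ∀ x, (f x).wt.support ⊆ V) (hc : ∀ p ∈ V, Continuous fun x => (f x).wt p) :
    Continuous f := by
  classical
  let I := {s : Finset (Chain T) // s ∈ V.powerset ∧ IsChain (· ≤ ·) (s : Set (Chain T))}
  have : Finite I :=
    Finite.of_injective (fun i : I => (⟨i.1, i.2.1⟩ : (V.powerset : Finset _)))
      fun a b h => Subtype.ext (congrArg (fun c : V.powerset => c.1) h)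
  let C : I → Set X := fun i => {x | ∀ p ∈ V \ i.1, (f x).wt p = 0}
  refine (locallyFinite_of_finite C).continuous ?_ ?_ ?_
  · refine Set.eq_univ_of_forall fun x => Set.mem_iUnion.mpr
      ⟨⟨(f x).wt.support, Finset.mem_powerset.mpr (hV x), (f x).isChain⟩, fun p hp => ?_⟩
    exact Finsupp.notMem_support_iff.mp (Finset.mem_sdiff.mp hp).2
  · intro i
    simp only [C, Set.ofPred_forall]
    exact isClosed_iInter fun p => isClosed_iInter fun hp =>
      isClosed_eq (hc p (Finset.mem_sdiff.mp hp).1) continuous_const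
  · intro i
    rw [continuousOn_iff_continuous_domRestrict]
    have hsub : ∀ x : C i, (f x).wt.support ⊆ i.1 := fun x p hp => by
      by_contra h
      exact Finsupp.mem_support_iff.mp hp (x.2 p (Finset.mem_sdiff.mpr ⟨hV x hp, h⟩))
    have heq : (C i).domRestrict f =
        fun x : C i => mkOn i.1 i.2.2 ((f x).coordsOn i.1 (hsub x)) :=
      funext fun x => (mkOn_coordsOn _ _ _ _).symm
    rw [heq]
    refine (continuous_mkOn _ _).comp (Continuous.subtype_mk (continuous_pi fun p => ?_) _)
    exact (hc p.1 (Finset.mem_powerset.mp i.2.1 p.2)).comp continuous_subtype_val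

/-- A compact subset meets finitely many vertices. -/
theorem exists_finite_support {K : Set (BSp T)} (hK : IsCompact K) :
    ∃ V : Finset (Chain T), ∀ z ∈ K, z.wt.support ⊆ V := by
  classical
  suffices hfin : {p : Chain T | ∃ z ∈ K, p ∈ z.wt.support}.Finite from
    ⟨hfin.toFinset, fun z hz p hp => hfin.mem_toFinset.mpr ⟨z, hz, hp⟩⟩
  set P := {p : Chain T | ∃ z ∈ K, p ∈ z.wt.support}
  choose pt hptK hpt using fun p : P => p.2
  have hclosed : ∀ S : Set P, IsClosed (pt '' S) := by
    intro S
    rw [← isQuotientMap_fromSimplices.isClosed_preimage, isClosed_sigma_iff]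
    intro s
    set D : Set (stdSimplex ℝ s.1) :=
      Sigma.mk (β := fun s : Simplex T => stdSimplex ℝ s.1) s ⁻¹' (fromSimplices ⁻¹' (pt '' S))
    suffices D.Finite from this.isClosed
    have hsub : D ⊆ (mkOn s.1 s.2) ⁻¹' (pt '' {p : P | p.1 ∈ s.1}) := by
      rintro w ⟨p, -, hp⟩
      refine ⟨p, support_mkOn_subset s.1 s.2 w ?_, hp⟩
      have hp' : pt p = mkOn s.1 s.2 w := hp
      exact hp' ▸ hpt p
    refine Set.Finite.subset ?_ hsub
    refine Set.Finite.preimage ?_ (Set.Finite.image pt ?_)
    · intro w _ w' _ h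
      exact Subtype.ext (funext fun i => by
        exact (mkOn_wt_mem s.1 s.2 w i).symm.trans
          ((congrArg (fun u : BSp T => u.wt i.1) h).trans (mkOn_wt_mem s.1 s.2 w' i)))
    · exact s.1.finite_toSet.preimage Subtype.val_injective.injOn
  have hcomp : IsCompact (pt '' Set.univ) :=
    hK.of_isClosed_subset (hclosed _) (by rintro _ ⟨p, -, rfl⟩; exact hptK p)
  have hdisc : DiscreteTopology (pt '' Set.univ : Set (BSp T)) := by
    rw [discreteTopology_iff_forall_isClosed]
    intro S
    rw [isClosed_induced_iff]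
    refine ⟨pt '' {p | ∃ y ∈ S, pt p = y.1}, hclosed _, ?_⟩
    ext y
    simp only [Set.mem_preimage, Set.mem_image, Set.mem_ofPred_eq]
    constructor
    · rintro ⟨p, ⟨y', hy', hp⟩, hy⟩
      rwa [Subtype.ext (hy.symm.trans hp)]
    · intro hy
      obtain ⟨p, -, hp⟩ := y.2
      exact ⟨p, ⟨y, hy, hp⟩, hp⟩
  have hfinim : (pt '' Set.univ).Finite := hcomp.finite (isDiscrete_iff_discreteTopology.mpr hdisc)
  have : P ⊆ ⋃ z ∈ pt '' Set.univ, (z.wt.support : Set (Chain T)) := fun p hp =>
    Set.mem_biUnion ⟨⟨p, hp⟩, Set.mem_univ _, rfl⟩ (hpt ⟨p, hp⟩)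
  exact (hfinim.biUnion fun z _ => z.wt.support.finite_toSet).subset this

theorem exists_finite_support_map {X : Type*} [TopologicalSpace X] [CompactSpace X]
    (f : C(X, BSp T)) : ∃ V : Finset (Chain T), ∀ x, (f x).wt.support ⊆ V := by
  obtain ⟨V, hV⟩ := exists_finite_support (isCompact_range f.continuous)
  exact ⟨V, fun x => hV _ ⟨x, rfl⟩⟩

instance : UCompactlyGeneratedSpace.{0} (BSp T) :=
  uCompactlyGeneratedSpace_of_coinduced isQuotientMap_fromSimplices.continuous rfl

/-- `BSp T` as a compactly generated space. -/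
def toCG (T : Type) [SmallCategory T] : CompactlyGenerated.{0, 0} :=
  CompactlyGenerated.of.{0, 0} (BSp T)

/-- The vertex of a chain. -/
def vertex (p : Chain T) : BSp T where
  wt := Finsupp.single p 1
  nonneg q := by classical rw [Finsupp.single_apply]; split_ifs <;> norm_num
  sum_eq := Finsupp.sum_single_index rfl
  isChain := by
    rw [Finsupp.support_single p one_ne_zero]
    simp [IsChain]

theorem vertex_wt_self (p : Chain T) : (vertex p).wt p = 1 := Finsupp.single_eq_same

theorem support_vertex (p : Chain T) : (vertex p).wt.support = {p} :=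
  Finsupp.support_single p one_ne_zero

instance [Nonempty T] : Nonempty (BSp T) := ⟨vertex (Classical.arbitrary _)⟩

/-! ### Maps induced by monotone maps of vertices -/

/-- The image of a point under a monotone map of vertices. -/
def pushMono (φ : Chain T → Chain T') (hφ : Monotone φ) (z : BSp T) : BSp T' where
  wt := z.wt.mapDomain φ
  nonneg q := by
    classical
    rw [Finsupp.mapDomain, Finsupp.sum_apply]
    refine Finset.sum_nonneg fun p _ => ?_
    dsimp only
    rw [Finsupp.single_apply]
    split_ifs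
    exacts [z.nonneg p, le_rfl]
  sum_eq := by
    rw [Finsupp.sum_mapDomain_index (fun _ => rfl) (fun _ _ _ => rfl)]
    exact z.sum_eq
  isChain := by
    classical
    refine ((IsChain.image_of_map_rel (· ≤ ·) (· ≤ ·) φ (fun _ _ h => hφ h) z.isChain)).mono fun q hq => ?_
    have := Finsupp.mapDomain_support hq
    simpa using this

theorem pushMono_wt_sum (φ : Chain T → Chain T') (hφ : Monotone φ) (z : BSp T)
    {V : Finset (Chain T)} (hV : z.wt.support ⊆ V) (q : Chain T') [DecidableEq (Chain T')] :
    (pushMono φ hφ z).wt q = ∑ p ∈ V, if φ p = q then z.wt p else 0 := by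
  show (z.wt.mapDomain φ) q = _
  rw [Finsupp.mapDomain, Finsupp.sum_apply,
    Finsupp.sum_of_support_subset _ hV _ (fun p _ => by simp)]
  simp [Finsupp.single_apply]

theorem support_pushMono_subset (φ : Chain T → Chain T') (hφ : Monotone φ) (z : BSp T)
    [DecidableEq (Chain T')] : (pushMono φ hφ z).wt.support ⊆ z.wt.support.image φ :=
  Finsupp.mapDomain_support

theorem continuous_pushMono (φ : Chain T → Chain T') (hφ : Monotone φ) :
    Continuous (pushMono φ hφ) := by
  classical
  rw [continuous_iff]
  intro s hs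
  refine continuous_into (s.image φ) (fun w => ?_) (fun q _ => ?_)
  · exact (support_pushMono_subset φ hφ _).trans (Finset.image_subset_image
      (support_mkOn_subset s hs w))
  · simp only [pushMono_wt_sum φ hφ _ (support_mkOn_subset s hs _)]
    refine continuous_finsetSum _ fun p _ => ?_
    split_ifs
    · exact (continuous_wt p).comp (continuous_mkOn s hs)
    · exact continuous_const

theorem pushMono_pushMono (φ : Chain T → Chain T') (hφ : Monotone φ)
    (ψ : Chain T' → Chain T'') (hψ : Monotone ψ) (z : BSp T) :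
    pushMono ψ hψ (pushMono φ hφ z) = pushMono (ψ ∘ φ) (hψ.comp hφ) z :=
  BSp.ext Finsupp.mapDomain_comp.symm

theorem pushMono_id (z : BSp T) : pushMono id monotone_id z = z :=
  BSp.ext Finsupp.mapDomain_id

theorem pushMono_vertex (φ : Chain T → Chain T') (hφ : Monotone φ) (p : Chain T) :
    pushMono φ hφ (vertex p) = vertex (φ p) :=
  BSp.ext Finsupp.mapDomain_single

/-- The map induced by a functor. -/
def map (F : T ⥤ T') : C(BSp T, BSp T') :=
  ⟨pushMono (Chain.map F) (Chain.map_mono F), continuous_pushMono _ _⟩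

theorem map_wt (F : T ⥤ T') (z : BSp T) : (map F z).wt = z.wt.mapDomain (Chain.map F) := rfl

theorem map_id : map (𝟭 T) = ContinuousMap.id (BSp T) :=
  ContinuousMap.ext fun z => pushMono_id z

theorem map_comp (F : T ⥤ T') (G : T' ⥤ T'') : map (F ⋙ G) = (map G).comp (map F) :=
  ContinuousMap.ext fun z =>
    (pushMono_pushMono _ (Chain.map_mono F) _ (Chain.map_mono G) z).symm

theorem map_vertex (F : T ⥤ T') (p : Chain T) : map F (vertex p) = vertex (p.map F) :=
  pushMono_vertex _ (Chain.map_mono F) p

end BSp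

end Vale.Agent.P259
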