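import Vale.Agent.P259.FreeExt

/-!
# P259: existence of coherators

The free globular extension is initial; iterating the universal adjunction of lifts of all
admissible pairs and taking the union gives a coherator, so `Coherator` and `IdChoice` are not
vacuous.
-/

namespace Vale.Agent.P259

/-- The specification without generators. -/
def thetaSpec : Spec := ⟨fun _ _ => Empty, fun _ _ => True⟩

/-- The category of globular sums, as the free globular extension without generators. -/
noncomputable def theta0 : GlobExt := thetaSpec.free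

theorem theta0_initial : theta0.IsInitial := fun F =>
  ⟨Spec.toModel (P := thetaSpec) ⟨F, fun _ _ x => x.elim, trivial⟩, trivial,
    fun _ _ => Spec.hom_ext fun _ _ x => x.elim⟩

/-- Generators for adjoining lifts of all admissible pairs. -/
inductive StepGen (E : GlobExt) : GSum → GSum → Type
  | old {R S : GSum} (f : E.Hom R S) : StepGen E R S
  | lift (p : AdmPair E) : StepGen E (GSum.disc (p.n + 1)) p.S

/-- The equations for adjoining lifts. -/
structure StepOk (E : GlobExt) (F : GlobExt) (g : ∀ R S, StepGen E R S → F.Hom R S) : Prop where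
  map_id : ∀ S, g S S (.old (E.id S)) = F.id S
  map_comp : ∀ {R S T} (a : E.Hom R S) (b : E.Hom S T),
    g R T (.old (E.comp a b)) = F.comp (g R S (.old a)) (g S T (.old b))
  map_src : ∀ n, g _ _ (.old (E.src n)) = F.src n
  map_tgt : ∀ n, g _ _ (.old (E.tgt n)) = F.tgt n
  map_inl : ∀ S j i hS hi, g _ _ (.old (E.inl S j i hS hi)) = F.inl S j i hS hi
  map_inr : ∀ S j i hS hi, g _ _ (.old (E.inr S j i hS hi)) = F.inr S j i hS hi
  isLift : ∀ p : AdmPair E, F.IsLift (g _ _ (.old p.f)) (g _ _ (.old p.g)) (g _ _ (.lift p))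

/-- The specification of adjoining lifts. -/
def stepSpec (E : GlobExt) : Spec := ⟨StepGen E, StepOk E⟩

/-- The globular extension with lifts adjoined. -/
noncomputable def stepExt (E : GlobExt) : GlobExt := (stepSpec E).free

theorem stepExt_ok (E : GlobExt) : StepOk E (stepExt E) (stepSpec E).ι where
  map_id S := Spec.pext fun M =>
    (Spec.val_ι _ M).trans ((M.ok.map_id S).trans (Spec.val_id S M).symm)
  map_comp a b := Spec.pext fun M =>
    (Spec.val_ι _ M).trans ((M.ok.map_comp a b).trans
      ((congrArg₂ M.F.comp (Spec.val_ι _ M) (Spec.val_ι _ M)).symm.trans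
        (Spec.val_comp _ _ M).symm))
  map_src n := Spec.pext fun M =>
    (Spec.val_ι _ M).trans ((M.ok.map_src n).trans (Spec.val_src n M).symm)
  map_tgt n := Spec.pext fun M =>
    (Spec.val_ι _ M).trans ((M.ok.map_tgt n).trans (Spec.val_tgt n M).symm)
  map_inl S j i hS hi := Spec.pext fun M =>
    (Spec.val_ι _ M).trans ((M.ok.map_inl S j i hS hi).trans (Spec.val_inl S j i hS hi M).symm)
  map_inr S j i hS hi := Spec.pext fun M =>
    (Spec.val_ι _ M).trans ((M.ok.map_inr S j i hS hi).trans (Spec.val_inr S j i hS hi M).symm)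
  isLift p := ⟨Spec.pext fun M =>
      (Spec.val_comp _ _ M).trans ((congrArg₂ M.F.comp (Spec.val_src _ M) (Spec.val_ι _ M)).trans
        ((M.ok.isLift p).1.trans (Spec.val_ι _ M).symm)),
    Spec.pext fun M =>
      (Spec.val_comp _ _ M).trans ((congrArg₂ M.F.comp (Spec.val_tgt _ M) (Spec.val_ι _ M)).trans
        ((M.ok.isLift p).2.trans (Spec.val_ι _ M).symm))⟩

/-- The inclusion into the extension with lifts adjoined. -/
noncomputable def stepMor (E : GlobExt) : GMor E (stepExt E) where
  map f := (stepSpec E).ι _ _ (.old f)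
  map_id := (stepExt_ok E).map_id
  map_comp := (stepExt_ok E).map_comp
  map_src := (stepExt_ok E).map_src
  map_tgt := (stepExt_ok E).map_tgt
  map_inl := (stepExt_ok E).map_inl
  map_inr := (stepExt_ok E).map_inr

/-- The adjoined lift of an admissible pair. -/
noncomputable def stepLift (E : GlobExt) (p : AdmPair E) :
    (stepExt E).Hom (GSum.disc (p.n + 1)) p.S :=
  (stepSpec E).ι _ _ (.lift p)

theorem step_univ (E F : GlobExt) (φ : GMor E F)
    (l : ∀ a : AdmPair E, F.Hom (GSum.disc (a.n + 1)) a.S)
    (hl : ∀ a, F.IsLift (φ.map a.f) (φ.map a.g) (l a)) :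
    ∃! ψ : GMor (stepExt E) F, (stepMor E).comp ψ = φ ∧ ∀ a, ψ.map (stepLift E a) = l a := by
  let g : ∀ R S, StepGen E R S → F.Hom R S := fun _ _ x =>
    match x with
    | .old f => φ.map f
    | .lift p => l p
  let M : (stepSpec E).Model :=
    ⟨F, g, ⟨φ.map_id, φ.map_comp, φ.map_src, φ.map_tgt, φ.map_inl, φ.map_inr, hl⟩⟩
  refine ⟨Spec.toModel M, ⟨?_, fun a => Spec.toModel_ι M _⟩, ?_⟩
  · refine GMor.ext ?_
    funext R S f
    exact Spec.toModel_ι M _
  · rintro ψ ⟨hψ, hψ'⟩
    refine Spec.hom_ext fun R S x => ?_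
    refine Eq.trans ?_ (Spec.toModel_ι M x).symm
    cases x with
    | old f => exact congrArg (fun χ : GMor E F => χ.map f) hψ
    | lift p => exact hψ' p

/-- The stages of the coherator. -/
noncomputable def stageExt : ℕ → GlobExt
  | 0 => theta0
  | k + 1 => stepExt (stageExt k)

/-- The identity morphism. -/
def GMor.refl (E : GlobExt) : GMor E E where
  map f := f
  map_id _ := rfl
  map_comp _ _ := rfl
  map_src _ := rfl
  map_tgt _ := rfl
  map_inl _ _ _ _ _ := rfl
  map_inr _ _ _ _ _ := rfl

/-- The inclusion of a stage into a later stage. -/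
noncomputable def stageMap {k m : ℕ} (h : k ≤ m) : GMor (stageExt k) (stageExt m) :=
  Nat.leRecOn h (fun {m} φ => φ.comp (stepMor (stageExt m))) (GMor.refl _)

theorem stageMap_self (k : ℕ) {R S} (f : (stageExt k).Hom R S) :
    (stageMap (le_refl k)).map f = f := by
  simp only [stageMap, Nat.leRecOn_self]; rfl

theorem stageMap_succ {k m : ℕ} (h : k ≤ m) {R S} (f : (stageExt k).Hom R S) :
    (stageMap (h.trans m.le_succ)).map f = (stepMor _).map ((stageMap h).map f) := by
  simp only [stageMap, Nat.leRecOn_succ h]; rfl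

theorem stageMap_trans {k l m : ℕ} (h : k ≤ l) (h' : l ≤ m) {R S} (f : (stageExt k).Hom R S) :
    (stageMap h').map ((stageMap h).map f) = (stageMap (h.trans h')).map f := by
  induction h' with
  | refl => rw [stageMap_self]
  | @step m h' ih => rw [stageMap_succ h', stageMap_succ (h.trans h'), ih]

/-- Elements of the union are identified when they become equal at some stage. -/
def colimSetoid (R S : GSum) : Setoid (Σ k, (stageExt k).Hom R S) where
  r x y := ∃ (m : ℕ) (hx : x.1 ≤ m) (hy : y.1 ≤ m), (stageMap hx).map x.2 = (stageMap hy).map y.2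
  iseqv := by
    refine ⟨fun x => ⟨x.1, le_rfl, le_rfl, rfl⟩, ?_, ?_⟩
    · rintro x y ⟨m, hx, hy, h⟩
      exact ⟨m, hy, hx, h.symm⟩
    · rintro x y z ⟨m, hx, hy, h⟩ ⟨n, hy', hz, h'⟩
      refine ⟨max m n, hx.trans (le_max_left _ _), hz.trans (le_max_right _ _), ?_⟩
      rw [← stageMap_trans hx (le_max_left m n), h, stageMap_trans,
        ← stageMap_trans hy' (le_max_right m n) y.2, h', stageMap_trans]

/-- The maps of the union of the stages. -/
def CHom (R S : GSum) : Type := Quotient (colimSetoid R S)

/-- The class in the union of a map at a stage. -/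
def CHom.mk (k : ℕ) {R S : GSum} (f : (stageExt k).Hom R S) : CHom R S :=
  Quotient.mk _ ⟨k, f⟩

theorem CHom.mk_stageMap {k m : ℕ} (h : k ≤ m) {R S : GSum} (f : (stageExt k).Hom R S) :
    CHom.mk m ((stageMap h).map f) = CHom.mk k f :=
  Quotient.sound ⟨m, le_rfl, h, stageMap_self m _⟩

theorem CHom.exists_rep {R S : GSum} (x : CHom R S) :
    ∃ k f, CHom.mk k f = x := by
  induction x using Quotient.ind with | _ a => exact ⟨a.1, a.2, rfl⟩

theorem CHom.mk_eq {k : ℕ} {R S : GSum} {f f' : (stageExt k).Hom R S}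
    (h : CHom.mk k f = CHom.mk k f') :
    ∃ m, ∃ hm : k ≤ m, (stageMap hm).map f = (stageMap hm).map f' := by
  obtain ⟨m, hx, _, e⟩ := Quotient.exact h
  exact ⟨m, hx, e⟩

/-- Composition in the union. -/
noncomputable def CHom.comp {R S T : GSum} : CHom R S → CHom S T → CHom R T :=
  Quotient.lift₂
    (fun x y => CHom.mk (max x.1 y.1) ((stageExt _).comp
      ((stageMap (le_max_left x.1 y.1)).map x.2) ((stageMap (le_max_right x.1 y.1)).map y.2)))
    (by
      rintro x y x' y' ⟨m, hx, hx', e⟩ ⟨n, hy, hy', e'⟩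
      set N := max m n with hN
      have h1 : max x.1 y.1 ≤ N := max_le (hx.trans (le_max_left _ _)) (hy.trans (le_max_right _ _))
      have h2 : max x'.1 y'.1 ≤ N :=
        max_le (hx'.trans (le_max_left _ _)) (hy'.trans (le_max_right _ _))
      refine (CHom.mk_stageMap h1 _).symm.trans (Eq.trans ?_ (CHom.mk_stageMap h2 _))
      congr 1
      rw [(stageMap h1).map_comp, (stageMap h2).map_comp, stageMap_trans, stageMap_trans,
        stageMap_trans, stageMap_trans, ← stageMap_trans hx (le_max_left m n), e, stageMap_trans,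
        ← stageMap_trans hy (le_max_right m n), e', stageMap_trans])

theorem CHom.comp_mk (k : ℕ) {R S T : GSum} (f : (stageExt k).Hom R S)
    (g : (stageExt k).Hom S T) :
    CHom.comp (CHom.mk k f) (CHom.mk k g) = CHom.mk k ((stageExt k).comp f g) := by
  refine Eq.trans ?_ (CHom.mk_stageMap (le_max_left k k) _)
  refine congrArg (CHom.mk _) ?_
  exact ((stageMap (le_max_left k k)).map_comp f g).symm

/-- The data of the union of the stages. -/
noncomputable def colimPre : PreExt where
  Hom := CHom
  id S := CHom.mk 0 ((stageExt 0).id S)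
  comp := CHom.comp
  src n := CHom.mk 0 ((stageExt 0).src n)
  tgt n := CHom.mk 0 ((stageExt 0).tgt n)
  inl S j i hS hi := CHom.mk 0 ((stageExt 0).inl S j i hS hi)
  inr S j i hS hi := CHom.mk 0 ((stageExt 0).inr S j i hS hi)

/-- The class, with the bundled type of maps. -/
def cmk (k : ℕ) {R S : GSum} (f : (stageExt k).Hom R S) : colimPre.Hom R S := CHom.mk k f

theorem cmk_comp (k : ℕ) {R S T : GSum} (f : (stageExt k).Hom R S)
    (g : (stageExt k).Hom S T) :
    colimPre.comp (cmk k f) (cmk k g) = cmk k ((stageExt k).comp f g) :=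
  CHom.comp_mk k f g

theorem exists_cmk {R S : GSum} (x : colimPre.Hom R S) : ∃ k f, cmk k f = x :=
  CHom.exists_rep x

theorem cmk_stageMap {k m : ℕ} (h : k ≤ m) {R S : GSum} (f : (stageExt k).Hom R S) :
    cmk m ((stageMap h).map f) = cmk k f :=
  CHom.mk_stageMap h f

theorem cmk_eq {k : ℕ} {R S : GSum} {f f' : (stageExt k).Hom R S} (h : cmk k f = cmk k f') :
    ∃ m, ∃ hm : k ≤ m, (stageMap hm).map f = (stageMap hm).map f' :=
  CHom.mk_eq h

theorem cmk_id (k : ℕ) (S : GSum) : colimPre.id S = cmk k ((stageExt k).id S) :=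
  (cmk_stageMap (Nat.zero_le k) _).symm.trans (congrArg (cmk k) ((stageMap _).map_id S))

theorem cmk_src (k n : ℕ) : colimPre.src n = cmk k ((stageExt k).src n) :=
  (cmk_stageMap (Nat.zero_le k) _).symm.trans (congrArg (cmk k) ((stageMap _).map_src n))

theorem cmk_tgt (k n : ℕ) : colimPre.tgt n = cmk k ((stageExt k).tgt n) :=
  (cmk_stageMap (Nat.zero_le k) _).symm.trans (congrArg (cmk k) ((stageMap _).map_tgt n))

theorem cmk_inl (k : ℕ) (S : GSum) (j i : ℕ) (hS : j < S.last) (hi : j < i) :
    colimPre.inl S j i hS hi = cmk k ((stageExt k).inl S j i hS hi) :=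
  (cmk_stageMap (Nat.zero_le k) _).symm.trans
    (congrArg (cmk k) ((stageMap _).map_inl S j i hS hi))

theorem cmk_inr (k : ℕ) (S : GSum) (j i : ℕ) (hS : j < S.last) (hi : j < i) :
    colimPre.inr S j i hS hi = cmk k ((stageExt k).inr S j i hS hi) :=
  (cmk_stageMap (Nat.zero_le k) _).symm.trans
    (congrArg (cmk k) ((stageMap _).map_inr S j i hS hi))

theorem cmk_srcIter (k : ℕ) {j i : ℕ} (h : j ≤ i) :
    colimPre.srcIter h = cmk k ((stageExt k).srcIter h) := by
  induction h with
  | refl => simp only [PreExt.srcIter, Nat.leRecOn_self]; exact cmk_id k _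
  | @step m h ih =>
    simp only [PreExt.srcIter, Nat.leRecOn_succ h] at ih ⊢
    exact (congrArg₂ colimPre.comp ih (cmk_src k m)).trans (cmk_comp k _ _)

theorem cmk_tgtIter (k : ℕ) {j i : ℕ} (h : j ≤ i) :
    colimPre.tgtIter h = cmk k ((stageExt k).tgtIter h) := by
  induction h with
  | refl => simp only [PreExt.tgtIter, Nat.leRecOn_self]; exact cmk_id k _
  | @step m h ih =>
    simp only [PreExt.tgtIter, Nat.leRecOn_succ h] at ih ⊢
    exact (congrArg₂ colimPre.comp ih (cmk_tgt k m)).trans (cmk_comp k _ _)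

theorem cmk_glueMap (k : ℕ) (S : GSum) {j : ℕ} (hS : j < S.last) :
    colimPre.glueMap S hS = cmk k ((stageExt k).glueMap S hS) := by
  rcases S with ⟨_ | ⟨t, j', i'⟩, hv⟩
  · exact (congrArg₂ colimPre.comp (cmk_tgtIter k _) (cmk_id k _)).trans (cmk_comp k _ _)
  · exact (congrArg₂ colimPre.comp (cmk_tgtIter k _) (cmk_inr k _ _ _ _ _)).trans
      (cmk_comp k _ _)

theorem exists_cmk₂ {R S R' S' : GSum} (x : colimPre.Hom R S) (y : colimPre.Hom R' S') :
    ∃ k f g, cmk k f = x ∧ cmk k g = y := by
  obtain ⟨k, f, rfl⟩ := exists_cmk x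
  obtain ⟨l, g, rfl⟩ := exists_cmk y
  exact ⟨max k l, _, _, cmk_stageMap (le_max_left k l) f, cmk_stageMap (le_max_right k l) g⟩

/-- The union of the stages. -/
noncomputable def colimExt : GlobExt where
  toPreExt := colimPre
  id_comp {R S} x := by
    obtain ⟨k, f, rfl⟩ := exists_cmk x
    rw [cmk_id k, cmk_comp, (stageExt k).id_comp]
  comp_id {R S} x := by
    obtain ⟨k, f, rfl⟩ := exists_cmk x
    rw [cmk_id k, cmk_comp, (stageExt k).comp_id]
  assoc {Q R S T} x y z := by
    obtain ⟨k, f, g, rfl, rfl⟩ := exists_cmk₂ x y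
    obtain ⟨l, h, rfl⟩ := exists_cmk z
    rw [← cmk_stageMap (le_max_left k l) f, ← cmk_stageMap (le_max_left k l) g,
      ← cmk_stageMap (le_max_right k l) h]
    simp only [cmk_comp, (stageExt _).assoc]
  src_src n := by simp only [cmk_src 0, cmk_tgt 0, cmk_comp, (stageExt 0).src_src]
  tgt_src n := by simp only [cmk_src 0, cmk_tgt 0, cmk_comp, (stageExt 0).tgt_src]
  sum_comm S j i hS hi := by
    rw [cmk_glueMap 0, cmk_srcIter 0, cmk_inl 0, cmk_inr 0, cmk_comp, cmk_comp,
      (stageExt 0).sum_comm]
  sum_univ S j i hS hi T x y h := by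
    obtain ⟨k, u, v, rfl, rfl⟩ := exists_cmk₂ x y
    rw [cmk_glueMap k, cmk_srcIter k, cmk_comp, cmk_comp] at h
    obtain ⟨m, hm, e⟩ := cmk_eq h
    rw [(stageMap hm).map_comp, (stageMap hm).map_comp, GMor.mapF_glueMap,
      GMor.mapF_srcIter] at e
    obtain ⟨w, ⟨hl, hr⟩, huniq⟩ := (stageExt m).sum_univ S j i hS hi T _ _ e
    refine ⟨cmk m w, ⟨?_, ?_⟩, ?_⟩
    · rw [cmk_inl m, cmk_comp, hl, cmk_stageMap]
    · rw [cmk_inr m, cmk_comp, hr, cmk_stageMap]
    · rintro z ⟨zl, zr⟩
      obtain ⟨l, f, rfl⟩ := exists_cmk z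
      have kl : k ≤ max m l := hm.trans (le_max_left m l)
      rw [← cmk_stageMap (le_max_right m l) f, ← cmk_stageMap kl u, cmk_inl (max m l),
        cmk_comp] at zl
      rw [← cmk_stageMap (le_max_right m l) f, ← cmk_stageMap kl v, cmk_inr (max m l),
        cmk_comp] at zr
      obtain ⟨a, ha, el⟩ := cmk_eq zl
      obtain ⟨b, hb, er⟩ := cmk_eq zr
      set N := max a b with hN
      have h1 : max m l ≤ N := ha.trans (le_max_left a b)
      have h2 : m ≤ N := (le_max_left m l).trans h1
      have h3 : l ≤ N := (le_max_right m l).trans h1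
      have el' := congrArg (stageMap (le_max_left a b)).map el
      have er' := congrArg (stageMap (le_max_right a b)).map er
      rw [stageMap_trans, stageMap_trans, GMor.map_comp, GMor.map_inl, stageMap_trans,
        stageMap_trans] at el'
      rw [stageMap_trans, stageMap_trans, GMor.map_comp, GMor.map_inr, stageMap_trans,
        stageMap_trans] at er'
      rw [← cmk_stageMap h3 f, ← cmk_stageMap h2 w]
      congr 1
      have hwl : (stageExt N).comp ((stageExt N).inl S j i hS hi) ((stageMap h2).map w)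
          = (stageMap (hm.trans h2)).map u := by
        rw [← (stageMap h2).map_inl, ← (stageMap h2).map_comp, hl, stageMap_trans]
      have hwr : (stageExt N).comp ((stageExt N).inr S j i hS hi) ((stageMap h2).map w)
          = (stageMap (hm.trans h2)).map v := by
        rw [← (stageMap h2).map_inr, ← (stageMap h2).map_comp, hr, stageMap_trans]
      have e' := congrArg (stageMap h2).map e
      rw [(stageMap h2).map_comp, (stageMap h2).map_comp, GMor.mapF_glueMap, GMor.mapF_srcIter,
        stageMap_trans, stageMap_trans] at e'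
      exact ((stageExt N).sum_univ S j i hS hi T _ _ e').unique ⟨el', er'⟩ ⟨hwl, hwr⟩

/-- The inclusion of a stage in the union. -/
noncomputable def toColim (k : ℕ) : GMor (stageExt k) colimExt where
  map f := cmk k f
  map_id S := (cmk_id k S).symm
  map_comp f g := (cmk_comp k f g).symm
  map_src n := (cmk_src k n).symm
  map_tgt n := (cmk_tgt k n).symm
  map_inl S j i hS hi := (cmk_inl k S j i hS hi).symm
  map_inr S j i hS hi := (cmk_inr k S j i hS hi).symm

theorem colim_lift (n : ℕ) (S : GSum) (x y : colimExt.Hom (GSum.disc n) S)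
    (hp : colimExt.Parallel x y) (hd : S.dim ≤ n + 1) : ∃ h, colimExt.IsLift x y h := by
  obtain ⟨k, f, g, rfl, rfl⟩ := exists_cmk₂ x y
  have hex : ∃ m, ∃ hm : k ≤ m,
      (stageExt m).Parallel ((stageMap hm).map f) ((stageMap hm).map g) := by
    cases n with
    | zero => exact ⟨k, le_rfl, trivial⟩
    | succ n =>
      obtain ⟨hs, ht⟩ := hp
      have hs' : colimPre.comp (colimPre.src n) (cmk k f) =
          colimPre.comp (colimPre.src n) (cmk k g) := hs
      have ht' : colimPre.comp (colimPre.tgt n) (cmk k f) =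
          colimPre.comp (colimPre.tgt n) (cmk k g) := ht
      rw [cmk_src k, cmk_comp, cmk_comp] at hs'
      rw [cmk_tgt k, cmk_comp, cmk_comp] at ht'
      obtain ⟨a, ha, es⟩ := cmk_eq hs'
      obtain ⟨b, hb, et⟩ := cmk_eq ht'
      refine ⟨max a b, ha.trans (le_max_left a b), ?_, ?_⟩
      · have := congrArg (stageMap (le_max_left a b)).map es
        rw [stageMap_trans, stageMap_trans, GMor.map_comp, GMor.map_comp, GMor.map_src] at this
        exact this
      · have := congrArg (stageMap (le_max_right a b)).map et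
        rw [stageMap_trans, stageMap_trans, GMor.map_comp, GMor.map_comp, GMor.map_tgt] at this
        exact this
  obtain ⟨m, hm, hpar⟩ := hex
  let p : AdmPair (stageExt m) := ⟨n, S, _, _, hpar, hd⟩
  refine ⟨cmk (m + 1) (stepLift (stageExt m) p), ?_, ?_⟩
  · show colimPre.comp (colimPre.src n) (cmk (m + 1) (stepLift (stageExt m) p)) = cmk k f
    rw [cmk_src (m + 1), ← cmk_stageMap (hm.trans m.le_succ) f, stageMap_succ hm]
    exact (cmk_comp (m + 1) _ _).trans
      (congrArg (cmk (m + 1)) ((stepExt_ok (stageExt m)).isLift p).1)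
  · show colimPre.comp (colimPre.tgt n) (cmk (m + 1) (stepLift (stageExt m) p)) = cmk k g
    rw [cmk_tgt (m + 1), ← cmk_stageMap (hm.trans m.le_succ) g, stageMap_succ hm]
    exact (cmk_comp (m + 1) _ _).trans
      (congrArg (cmk (m + 1)) ((stepExt_ok (stageExt m)).isLift p).2)

theorem colim_univ' (E : GlobExt) (φ : ∀ k, GMor (stageExt k) E)
    (hφ : ∀ k, (stepMor (stageExt k)).comp (φ (k + 1)) = φ k) :
    ∃! ψ : GMor colimExt E, ∀ k, (toColim k).comp ψ = φ k := by
  have hmap : ∀ {k m : ℕ} (h : k ≤ m) {R S} (f : (stageExt k).Hom R S),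
      (φ m).map ((stageMap h).map f) = (φ k).map f := by
    intro k m h R S f
    induction h with
    | refl => rw [stageMap_self]
    | @step m h ih =>
      rw [stageMap_succ h]
      exact (congrArg (fun χ : GMor (stageExt m) E => χ.map ((stageMap h).map f)) (hφ m)).trans ih
  let val : ∀ {R S}, colimPre.Hom R S → E.Hom R S := fun {R S} =>
    Quotient.lift (fun x : Σ k, (stageExt k).Hom R S => (φ x.1).map x.2)
      (fun x y h => by
        obtain ⟨m, hx, hy, e⟩ := h
        rw [← hmap hx, e, hmap hy])
  have hv : ∀ (k : ℕ) {R S} (f : (stageExt k).Hom R S), val (cmk k f) = (φ k).map f :=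
    fun k {R S} f => rfl
  let ψ : GMor colimExt E :=
    { map := val
      map_id := fun S => (φ 0).map_id S
      map_comp := fun {R S T} x y => by
        obtain ⟨k, f, g, rfl, rfl⟩ := exists_cmk₂ x y
        show val (colimPre.comp (cmk k f) (cmk k g)) = _
        rw [cmk_comp, hv, hv, hv, (φ k).map_comp]
      map_src := fun n => (φ 0).map_src n
      map_tgt := fun n => (φ 0).map_tgt n
      map_inl := fun S j i hS hi => (φ 0).map_inl S j i hS hi
      map_inr := fun S j i hS hi => (φ 0).map_inr S j i hS hi }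
  refine ⟨ψ, fun k => ?_, fun χ hχ => ?_⟩
  · refine GMor.ext ?_
    funext R S f
    exact hv k f
  · refine GMor.ext ?_
    funext R S x
    obtain ⟨k, f, rfl⟩ := exists_cmk x
    exact congrArg (fun θ : GMor (stageExt k) E => θ.map f) (hχ k)

/-- The canonical coherator: at every stage all admissible pairs receive a lift. -/
noncomputable def canonicalCoherator : Coherator where
  ext := colimExt
  stage := stageExt
  stage_zero := theta0_initial
  step k := stepMor (stageExt k)
  toExt := toColim
  toExt_step k := by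
    refine GMor.ext ?_
    funext R S f
    exact (congrArg (cmk (k + 1)) ((stageMap_succ le_rfl f).trans
      (congrArg (stepMor (stageExt k)).map (stageMap_self k f))).symm).trans
      (cmk_stageMap k.le_succ f)
  Adj k := AdmPair (stageExt k)
  pair _ a := a
  adjLift k a := stepLift (stageExt k) a
  adjLift_spec k a := (stepExt_ok (stageExt k)).isLift a
  adj_univ k E φ l hl := step_univ (stageExt k) E φ l hl
  colim_univ := colim_univ'
  contractible p := colim_lift p.n p.S p.f p.g p.parallel p.dim_le

theorem parallel_refl (E : GlobExt) : ∀ {n : ℕ} {S : GSum} (f : E.Hom (GSum.disc n) S),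
    E.Parallel f f
  | 0, _, _ => trivial
  | _ + 1, _, _ => ⟨rfl, rfl⟩

/-- Every coherator has a choice of identity cells. -/
theorem idChoice_nonempty (C : Coherator) : Nonempty (IdChoice C) :=
  ⟨{ one := fun n => (C.contractible
        ⟨n, GSum.disc n, C.ext.id _, C.ext.id _, parallel_refl _ _, Nat.le_succ n⟩).choose
     one_spec := fun n => (C.contractible
        ⟨n, GSum.disc n, C.ext.id _, C.ext.id _, parallel_refl _ _, Nat.le_succ n⟩).choose_spec }⟩

/-- The hypotheses of the homotopy hypothesis are satisfiable. -/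
theorem exists_coherator : ∃ C : Coherator, Nonempty (IdChoice C) :=
  ⟨canonicalCoherator, idChoice_nonempty _⟩

end Vale.Agent.P259
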