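import Vale.Agent.P259.CompareResolve

/-!
# P259 (E5): `eps o B phi` is homotopic to `B q`
-/

open CategoryTheory Opposite Topology
open scoped unitInterval

noncomputable section

namespace Vale.Agent.P259

variable {C : Coherator}

theorem El.functor_ext {X : C.Gpd} {J : Type*} [Category J] {F G : J ⥤ El X}
    (h : ∀ i, F.obj i = G.obj i) (e : F ⋙ El.forget X = G ⋙ El.forget X) : F = G := by
  refine CategoryTheory.Functor.ext h fun i j f => El.hom_ext ?_
  show (El.forget X).map (F.map f) =
    (El.forget X).map (eqToHom (h i) ≫ G.map f ≫ eqToHom (h j).symm)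
  rw [Functor.map_comp, Functor.map_comp, eqToHom_map, eqToHom_map]
  exact Functor.congr_hom e f

theorem BSp.ext_mapDomain {T T' : Type} [SmallCategory T] [SmallCategory T'] {z : BSp T'}
    {w : BSp T'} {u : Chain T →₀ ℝ} {φ ψ : Chain T → Chain T'} (hz : z.wt = u.mapDomain φ)
    (hw : w.wt = u.mapDomain ψ) (h : ∀ q ∈ u.support, φ q = ψ q) : z = w :=
  BSp.ext (hz.trans ((Finsupp.mapDomain_congr h).trans hw.symm))

theorem Chain.restrict_congr {T : Type} [SmallCategory T] {c c' : Chain T} (e : c = c')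
    {s : Finset ℕ} (h : s ⊆ c.levels) (h' : s ⊆ c'.levels) (hs : s.Nonempty) :
    c.restrict s h hs = c'.restrict s h' hs := by
  subst e
  rfl

theorem Chain.restrict_of_le {T : Type} [SmallCategory T] {r p : Chain T} (h : r ≤ p) :
    p.restrict r.levels h.1 r.nonempty = r := by
  obtain ⟨s, hs, F⟩ := r
  have hs' : s ⊆ p.levels := h.1
  obtain rfl : F = levelIncl hs' ⋙ p.fct := h.2.symm
  rfl

theorem Chain.map_topHom {T : Type} [SmallCategory T] {q p : Chain T} (h : q ≤ p) (i : q.levels) :
    q.fct.map (homOfLE (Finset.le_max' _ _ i.2 : i ≤ q.topLevel)) ≫ Chain.topHom h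
      = eqToHom (Chain.obj_eq h i) ≫ p.fct.map (homOfLE (Finset.le_max' _ _ (h.1 i.2) :
          (⟨i.1, h.1 i.2⟩ : p.levels) ≤ p.topLevel)) := by
  obtain ⟨sq, hq, Fq⟩ := q
  have hs : sq ⊆ p.levels := h.1
  obtain rfl : Fq = levelIncl hs ⋙ p.fct := h.2.symm
  refine (congrArg (fun g => _ ≫ g) (Category.id_comp _)).trans ?_
  exact (p.fct.map_comp _ _).symm.trans (Category.id_comp _).symm

namespace Coherator

variable (C)

/-- A chain of globular sums as a chain of elements of the representable of its top. -/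
def liftTop (p : Chain C.ext.Obj) : Chain (El (C.rep p.top.sum)) where
  levels := p.levels
  nonempty := p.nonempty
  fct :=
    { obj := fun i => ⟨(p.fct.obj i).sum,
        p.fct.map (homOfLE (Finset.le_max' _ _ i.2 : i ≤ p.topLevel))⟩
      map := fun {i j} f => ⟨p.fct.map f, by
        show C.ext.comp (p.fct.map f) (p.fct.map _) = p.fct.map _
        exact (p.fct.map_comp f _).symm⟩
      map_id := fun i => El.hom_ext (p.fct.map_id i)
      map_comp := fun f g => El.hom_ext (p.fct.map_comp f g) }

theorem liftTop_forget (p : Chain C.ext.Obj) : (C.liftTop p).map (El.forget _) = p := by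
  obtain ⟨s, hs, F⟩ := p
  rfl

open scoped Classical in
/-- The lifts of the faces. -/
def liftFace (p q : Chain C.ext.Obj) : Chain (El (C.rep p.top.sum)) :=
  if h : q.levels ⊆ p.levels then (C.liftTop p).restrict q.levels h q.nonempty else C.liftTop p

theorem liftFace_eq {p q : Chain C.ext.Obj} (h : q ≤ p) :
    C.liftFace p q = (C.liftTop p).restrict q.levels h.1 q.nonempty := dif_pos h.1

theorem liftFace_monotoneOn (p : Chain C.ext.Obj) :
    MonotoneOn (C.liftFace p) (Chain.lower p : Set (Chain C.ext.Obj)) := by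
  intro r hr q hq hrq
  rw [C.liftFace_eq (Chain.mem_lower.1 hr), C.liftFace_eq (Chain.mem_lower.1 hq)]
  exact ⟨hrq.1, rfl⟩

/-- The lift of the simplices. -/
def liftSimplex (p : Chain C.ext.Obj) : C(BSp.Below p, C.WS p.top.sum) :=
  BSp.pushAlong ⟨Subtype.val, continuous_subtype_val⟩ (Chain.lower p)
    (fun z _ hq => Chain.mem_lower.2 (z.2 _ hq)) (C.liftFace p) (C.liftFace_monotoneOn p)

theorem liftSimplex_wt (p : Chain C.ext.Obj) (z : BSp.Below p) :
    (C.liftSimplex p z).wt = z.1.wt.mapDomain (C.liftFace p) := rfl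

theorem liftTop_restrict {q p : Chain C.ext.Obj} (h : q ≤ p) :
    (C.liftTop q).map (El.map (C.hat (C.rep p.top.sum) (Chain.topHom h)))
      = (C.liftTop p).restrict q.levels h.1 q.nonempty := by
  obtain ⟨sq, hq, Fq⟩ := q
  have hs : sq ⊆ p.levels := h.1
  obtain rfl : Fq = levelIncl hs ⋙ p.fct := h.2.symm
  show Chain.mk sq hq _ = Chain.mk sq hq _
  congr 1
  refine El.functor_ext (fun i => ?_) rfl
  refine congrArg (El.mk (p.fct.obj ⟨i.1, hs i.2⟩).sum) ?_
  exact (Chain.map_topHom h i).trans (Category.id_comp _)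

theorem liftSimplex_incl {q p : Chain C.ext.Obj} (h : q ≤ p) (z : BSp.Below q) :
    C.wMap (Chain.topHom h) (C.liftSimplex q z) = C.liftSimplex p (BSp.belowIncl h z) := by
  refine BSp.ext_mapDomain ?_ (C.liftSimplex_wt p _) ?_
    (φ := Chain.map (El.map (C.hat (C.rep p.top.sum) (Chain.topHom h))) ∘ C.liftFace q)
  · exact Finsupp.mapDomain_comp.symm
  · intro r hr
    have hrq : r ≤ q := z.2 r hr
    show Chain.map _ (C.liftFace q r) = C.liftFace p r
    rw [C.liftFace_eq hrq, C.liftFace_eq (hrq.trans h)]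
    exact Chain.restrict_congr (C.liftTop_restrict h) hrq.1 hrq.1 r.nonempty

open scoped Classical in
/-- The boundary values. -/
def phiBdFun (p : Chain C.ext.Obj) (x : BSp.Below p × ConeCoords.interval.bdry) :
    C.Cyl p.top.sum :=
  if (x.2 : I) = 0 then C.inP _ (C.epsSimplex p x.1, 0) else C.inW _ (C.liftSimplex p x.1)

theorem continuous_phiBdFun (p : Chain C.ext.Obj) : Continuous (C.phiBdFun p) := by
  classical
  let A : Bool → Set (BSp.Below p × ConeCoords.interval.bdry) := fun b =>
    match b with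
    | false => {x | (x.2 : I) = 0}
    | true => {x | (x.2 : I) = 1}
  have h10 : (1 : I) ≠ 0 := fun e => one_ne_zero (congrArg Subtype.val e)
  refine (locallyFinite_of_finite A).continuous ?_ ?_ ?_
  · refine Set.eq_univ_of_forall fun x => Set.mem_iUnion.2 ?_
    rcases (ConeCoords.mem_bdry_interval _).1 x.2.2 with h | h
    exacts [⟨false, h⟩, ⟨true, h⟩]
  · rintro (_ | _) <;>
      exact isClosed_eq (continuous_subtype_val.comp continuous_snd) continuous_const
  · rintro (_ | _)
    · refine ((C.inP _).continuous.comp (((C.epsSimplex p).continuous.comp continuous_fst).prodMk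
        (continuous_const (y := (0 : I))))).continuousOn.congr fun x hx => ?_
      exact if_pos hx
    · refine ((C.inW _).continuous.comp
        ((C.liftSimplex p).continuous.comp continuous_fst)).continuousOn.congr fun x hx => ?_
      exact if_neg fun e => h10 ((show (x.2 : I) = 1 from hx).symm.trans e)

/-- The data defining the homotopy. -/
def phiData : FlagData.{0} C.ext.Obj ConeCoords.interval where
  Z a := C.Cyl a.sum
  top _ := inferInstance
  m f := C.cylAct f
  m_id a x := ContinuousMap.congr_fun (C.cylAct_id a.sum) x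
  m_comp f g x := ContinuousMap.congr_fun (C.cylAct_comp f g) x
  bd p := ⟨C.phiBdFun p, C.continuous_phiBdFun p⟩
  bd_compat {q p} h z t := by
    show C.cylAct (Chain.topHom h) (C.phiBdFun q (z, t)) = C.phiBdFun p (BSp.belowIncl h z, t)
    unfold phiBdFun
    split_ifs with ht
    · exact (C.cylAct_inP _ _ _).trans ((C.theta_zero _ _).trans
        (congrArg (fun w => C.inP p.top.sum (w, 0)) (C.epsSimplex_incl h z).symm))
    · exact (C.cylAct_inW _ _).trans (congrArg (C.inW p.top.sum) (C.liftSimplex_incl h z))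
  null a A _ _ f := C.cyl_cptNull a.sum A f

variable (X : C.Gpd)

/-- The cocone of the resolution. -/
abbrev phiCocone (t : El (C.res X)) : C(C.Cyl t.sum, C.BX X) := (C.asRes t.elt).desc

theorem phiCocone_spec {t t' : El (C.res X)} (f : t ⟶ t') (x : C.Cyl t.sum) :
    C.phiCocone X t' (C.cylAct f.hom x) = C.phiCocone X t x := by
  refine (ContinuousMap.congr_fun (ResElt.desc_act f.hom (C.asRes t'.elt)) x).symm.trans ?_
  exact congrArg (fun e : C.ResElt X t.sum => e.desc x) f.act_eq

theorem liftTop_resQ (p : Chain (El (C.res X))) :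
    (C.liftTop (p.map (El.forget _))).map (El.map (C.hat X (C.asRes p.top.elt).elt))
      = p.map (El.map (C.resQ X)) := by
  show Chain.mk p.levels p.nonempty _ = Chain.mk p.levels p.nonempty _
  congr 1
  refine El.functor_ext (fun i => ?_) rfl
  refine congrArg (El.mk (p.fct.obj i).sum) ?_
  exact congrArg (fun e : C.ResElt X (p.fct.obj i).sum => e.elt)
      (ElHom.act_eq (p.fct.map (homOfLE (Finset.le_max' _ _ i.2 : i ≤ p.topLevel))))

/-- The map realising the homotopy. -/
def phiGlob : C(C.BX (C.res X) × I, C.BX X) :=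
  C.phiData.glob (El.forget (C.res X)) (C.phiCocone X) (C.phiCocone_spec X)

theorem phiGlob_zero (z : C.BX (C.res X)) :
    C.phiGlob X (z, 0) = C.eps (C.BX X) (C.bMap (C.resPhi X) z) := by
  have h0 : (0 : I) ∈ ConeCoords.interval.bdry := (ConeCoords.mem_bdry_interval _).2 (Or.inl rfl)
  refine (C.phiData.glob_bd (El.forget (C.res X)) (C.phiCocone X) (C.phiCocone_spec X) z
    ⟨0, h0⟩).trans ?_
  refine Eq.trans ?_ (C.eps_eq (C.bMap (C.resPhi X) z) (z.maxV.map (El.map (C.resPhi X)))
    (BSp.map_mem_below _ z.toBelow)).symm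
  show C.phiCocone X z.maxV.top (C.phiBdFun (z.maxV.map (El.forget (C.res X)))
    (BSp.belowMap (El.forget (C.res X)) z.maxV z.toBelow, ⟨0, h0⟩)) = _
  rw [phiBdFun, if_pos rfl]
  have hz : BSp.map (El.forget _) (BSp.map (El.map (C.resPhi X)) z)
      = BSp.map (El.forget (C.res X)) z := by
    rw [← ContinuousMap.comp_apply, ← BSp.map_comp]
    rfl
  exact congrArg (fun w => (C.asRes z.maxV.top.elt).path
    (C.epsSimplex (z.maxV.map (El.forget _)) w) 0) (Subtype.ext hz.symm)

theorem phiGlob_one (z : C.BX (C.res X)) :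
    C.phiGlob X (z, 1) = C.bMap (C.resQ X) z := by
  classical
  have h10 : (1 : I) ≠ 0 := fun e => one_ne_zero (congrArg Subtype.val e)
  have h1 : (1 : I) ∈ ConeCoords.interval.bdry := (ConeCoords.mem_bdry_interval _).2 (Or.inr rfl)
  refine (C.phiData.glob_bd (El.forget (C.res X)) (C.phiCocone X) (C.phiCocone_spec X) z
    ⟨1, h1⟩).trans ?_
  show C.phiCocone X z.maxV.top (C.phiBdFun (z.maxV.map (El.forget (C.res X)))
    (BSp.belowMap (El.forget (C.res X)) z.maxV z.toBelow, ⟨1, h1⟩)) = _
  rw [phiBdFun, if_neg h10]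
  refine BSp.ext_mapDomain (u := z.wt)
    (φ := Chain.map (El.map (C.hat X (C.asRes z.maxV.top.elt).elt)) ∘
      (C.liftFace (z.maxV.map (El.forget _)) ∘ Chain.map (El.forget _))) ?_
    (BSp.map_wt _ z) ?_
  · rw [Finsupp.mapDomain_comp]
    exact (congrArg (Finsupp.mapDomain _) Finsupp.mapDomain_comp).symm
  · intro r hr
    have hle : r ≤ z.maxV := z.le_maxV hr
    show Chain.map _ (C.liftFace _ (r.map (El.forget _))) = r.map (El.map (C.resQ X))
    rw [C.liftFace_eq (Chain.map_mono _ hle)]
    refine (Chain.restrict_congr (C.liftTop_resQ X z.maxV) hle.1 hle.1 r.nonempty).trans ?_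
    exact congrArg (Chain.map (El.map (C.resQ X))) (Chain.restrict_of_le hle)

/-- `eps ∘ B phi` is homotopic to `B q`. -/
theorem eps_resPhi_homotopic :
    ((C.eps (C.BX X)).comp (C.bMap (C.resPhi X))).Homotopic (C.bMap (C.resQ X)) :=
  ⟨{ toFun := fun q => C.phiGlob X (q.2, q.1)
     continuous_toFun := (C.phiGlob X).continuous.comp (continuous_snd.prodMk continuous_fst)
     map_zero_left := fun z => C.phiGlob_zero X z
     map_one_left := fun z => C.phiGlob_one X z }⟩

end Coherator

end Vale.Agent.P259
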