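import Mathlib

/-!
# P259 (E): cone coordinates and extension along them
-/

open Set Topology
open scoped unitInterval

noncomputable section

namespace Vale.Agent.P259

/-- Cone coordinates on a space: a depth function `c` and the radial contraction `κ` towards the
points of depth `1`. -/
structure ConeCoords (X : Type) [TopologicalSpace X] where
  c : C(X, I)
  κ : C(I × X, X)
  κ_zero : ∀ x, κ (0, x) = x
  c_κ : ∀ (s : I) x, (c (κ (s, x)) : ℝ) = (1 - (s : ℝ)) * (c x : ℝ) + (s : ℝ)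
  inj : ∀ (s : I) x y, s ≠ 1 → κ (s, x) = κ (s, y) → x = y
  surj : ∀ (s : I) x, (s : ℝ) ≤ c x → s ≠ 1 → ∃ y, κ (s, y) = x
  top : ∀ x y, c x = 1 → c y = 1 → x = y

namespace ConeCoords

variable {X Y : Type} [TopologicalSpace X] [TopologicalSpace Y]

/-- The boundary: depth zero. -/
def bdry (K : ConeCoords X) : Set X := {x | K.c x = 0}

theorem isClosed_bdry (K : ConeCoords X) : IsClosed K.bdry :=
  isClosed_eq K.c.continuous continuous_const

theorem κ_one (K : ConeCoords X) (x : X) : K.c (K.κ (1, x)) = 1 :=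
  Subtype.ext (by rw [K.c_κ]; simp)

/-- Product of cones. -/
def prod (K : ConeCoords X) (L : ConeCoords Y) : ConeCoords (X × Y) where
  c := ⟨fun z => min (K.c z.1) (L.c z.2),
    (K.c.continuous.comp continuous_fst).min (L.c.continuous.comp continuous_snd)⟩
  κ := ⟨fun q => (K.κ (q.1, q.2.1), L.κ (q.1, q.2.2)),
    (K.κ.continuous.comp (continuous_fst.prodMk (continuous_fst.comp continuous_snd))).prodMk
      (L.κ.continuous.comp (continuous_fst.prodMk (continuous_snd.comp continuous_snd)))⟩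
  κ_zero x := Prod.ext (K.κ_zero _) (L.κ_zero _)
  c_κ s x := by
    show ((min (K.c (K.κ (s, x.1))) (L.c (L.κ (s, x.2))) : I) : ℝ)
      = (1 - (s : ℝ)) * ((min (K.c x.1) (L.c x.2) : I) : ℝ) + (s : ℝ)
    have hs : 0 ≤ 1 - (s : ℝ) := by linarith [s.2.2]
    have hm : ∀ a b : I, ((min a b : I) : ℝ) = min (a : ℝ) b := fun a b =>
      Monotone.map_min (f := fun u : I => (u : ℝ)) (fun _ _ h => h)
    rw [hm, hm, K.c_κ, L.c_κ, mul_min_of_nonneg _ _ hs, min_add_add_right]
  inj s x y hs h := Prod.ext (K.inj s _ _ hs (congrArg Prod.fst h))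
    (L.inj s _ _ hs (congrArg Prod.snd h))
  surj s x hx hs := by
    have h1 : (s : ℝ) ≤ K.c x.1 := hx.trans (by exact_mod_cast min_le_left (K.c x.1) (L.c x.2))
    have h2 : (s : ℝ) ≤ L.c x.2 := hx.trans (by exact_mod_cast min_le_right (K.c x.1) (L.c x.2))
    obtain ⟨a, ha⟩ := K.surj s x.1 h1 hs
    obtain ⟨b, hb⟩ := L.surj s x.2 h2 hs
    exact ⟨(a, b), Prod.ext ha hb⟩
  top x y hx hy := by
    have hle : ∀ u : X × Y, min (K.c u.1) (L.c u.2) = (1 : I) → K.c u.1 = 1 ∧ L.c u.2 = 1 :=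
      fun u hu => ⟨le_antisymm (K.c u.1).2.2 (hu ▸ min_le_left _ _),
        le_antisymm (L.c u.2).2.2 (hu ▸ min_le_right _ _)⟩
    exact Prod.ext (K.top _ _ (hle x hx).1 (hle y hy).1) (L.top _ _ (hle x hx).2 (hle y hy).2)

theorem mem_bdry_prod (K : ConeCoords X) (L : ConeCoords Y) (z : X × Y) :
    z ∈ (K.prod L).bdry ↔ z.1 ∈ K.bdry ∨ z.2 ∈ L.bdry := by
  show min (K.c z.1) (L.c z.2) = 0 ↔ K.c z.1 = 0 ∨ L.c z.2 = 0
  constructor
  · intro h
    rcases min_choice (K.c z.1) (L.c z.2) with e | e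
    · exact Or.inl (e.symm.trans h)
    · exact Or.inr (e.symm.trans h)
  · rintro (h | h)
    · exact le_antisymm (h ▸ min_le_left _ _) (min (K.c z.1) (L.c z.2)).2.1
    · exact le_antisymm (h ▸ min_le_right _ _) (min (K.c z.1) (L.c z.2)).2.1

/-- A single point. -/
def point : ConeCoords Unit where
  c := ContinuousMap.const _ 1
  κ := ContinuousMap.const _ ()
  κ_zero _ := rfl
  c_κ s _ := by simp
  inj _ _ _ _ _ := rfl
  surj _ _ _ _ := ⟨(), rfl⟩
  top _ _ _ _ := rfl

theorem bdry_point : point.bdry = ∅ := by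
  ext x
  simp [bdry, point]

/-- The distance to the end points, doubled. -/
def intervalDepth : C(I, I) where
  toFun t := ⟨1 - |2 * (t : ℝ) - 1|, by
    have : |2 * (t : ℝ) - 1| ≤ 1 := abs_le.2 ⟨by linarith [t.2.1], by linarith [t.2.2]⟩
    exact ⟨by linarith, by linarith [abs_nonneg (2 * (t : ℝ) - 1)]⟩⟩
  continuous_toFun := continuous_induced_rng.2 (by simp only [Function.comp_def]; fun_prop)

/-- Moving towards the midpoint. -/
def intervalMove : C(I × I, I) where
  toFun q := ⟨(1 - (q.1 : ℝ)) * (q.2 : ℝ) + (q.1 : ℝ) / 2, by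
    constructor <;> nlinarith [q.1.2.1, q.1.2.2, q.2.2.1, q.2.2.2]⟩
  continuous_toFun := continuous_induced_rng.2 (by simp only [Function.comp_def]; fun_prop)

/-- The interval, as a cone over its end points. -/
def interval : ConeCoords I where
  c := intervalDepth
  κ := intervalMove
  κ_zero x := Subtype.ext (by simp [intervalMove])
  c_κ s x := by
    show 1 - |2 * ((1 - (s : ℝ)) * (x : ℝ) + (s : ℝ) / 2) - 1|
      = (1 - (s : ℝ)) * (1 - |2 * (x : ℝ) - 1|) + (s : ℝ)
    have e : 2 * ((1 - (s : ℝ)) * (x : ℝ) + (s : ℝ) / 2) - 1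
        = (1 - (s : ℝ)) * (2 * (x : ℝ) - 1) := by ring
    rw [e, abs_mul, abs_of_nonneg (by linarith [s.2.2] : (0 : ℝ) ≤ 1 - (s : ℝ))]
    ring
  inj s x y hs h := by
    have h' : (1 - (s : ℝ)) * (x : ℝ) + (s : ℝ) / 2 = (1 - (s : ℝ)) * (y : ℝ) + (s : ℝ) / 2 :=
      congrArg Subtype.val h
    have : (1 - (s : ℝ)) ≠ 0 := fun e => hs (Subtype.ext (sub_eq_zero.1 e).symm)
    exact Subtype.ext (mul_left_cancel₀ this (by linarith))
  surj s x hx hs := by
    have hx' : (s : ℝ) ≤ 1 - |2 * (x : ℝ) - 1| := hx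
    have hpos : 0 < 1 - (s : ℝ) :=
      sub_pos.2 (lt_of_le_of_ne s.2.2 fun e => hs (Subtype.ext e))
    have hb := abs_le.1 (show |2 * (x : ℝ) - 1| ≤ 1 - (s : ℝ) by linarith)
    refine ⟨⟨((x : ℝ) - (s : ℝ) / 2) / (1 - (s : ℝ)), ?_, ?_⟩, Subtype.ext ?_⟩
    · exact div_nonneg (by linarith) hpos.le
    · rw [div_le_one hpos]; linarith
    · show (1 - (s : ℝ)) * (((x : ℝ) - (s : ℝ) / 2) / (1 - (s : ℝ))) + (s : ℝ) / 2 = (x : ℝ)
      rw [mul_div_cancel₀ _ hpos.ne']; ring
  top x y hx hy := by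
    have h1 : 1 - |2 * (x : ℝ) - 1| = 1 := congrArg Subtype.val hx
    have h2 : 1 - |2 * (y : ℝ) - 1| = 1 := congrArg Subtype.val hy
    have h1' : 2 * (x : ℝ) - 1 = 0 := abs_eq_zero.1 (by linarith)
    have h2' : 2 * (y : ℝ) - 1 = 0 := abs_eq_zero.1 (by linarith)
    exact Subtype.ext (by linarith)

theorem mem_bdry_interval (t : I) : t ∈ interval.bdry ↔ t = 0 ∨ t = 1 := by
  constructor
  · intro h
    have h1 : 1 - |2 * (t : ℝ) - 1| = 0 := congrArg Subtype.val (show intervalDepth t = 0 from h)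
    rcases (abs_eq (zero_le_one' ℝ)).1 (show |2 * (t : ℝ) - 1| = 1 by linarith) with e | e
    · exact Or.inr (Subtype.ext (show (t : ℝ) = 1 by linarith))
    · exact Or.inl (Subtype.ext (show (t : ℝ) = 0 by linarith))
  · rintro (rfl | rfl) <;>
      exact (show intervalDepth _ = 0 from Subtype.ext (by norm_num [intervalDepth]))

/-- Maps on the boundary extend if they are null-homotopic. -/
theorem extend {Z : Type*} [TopologicalSpace Z] [Nonempty Z] [CompactSpace X] [T2Space X]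
    (K : ConeCoords X) (f : C(K.bdry, Z)) (hf : ∃ z, f.Homotopic (ContinuousMap.const _ z)) :
    ∃ F : C(X, Z), ∀ x : K.bdry, F x = f x := by
  by_cases hne : K.bdry.Nonempty
  swap
  · exact ⟨ContinuousMap.const _ (Classical.arbitrary Z), fun x => absurd ⟨x.1, x.2⟩ hne⟩
  obtain ⟨z, ⟨H⟩⟩ := hf
  have : CompactSpace K.bdry := isCompact_iff_compactSpace.1 K.isClosed_bdry.isCompact
  let q : C(I × K.bdry, X) :=
    K.κ.comp ((ContinuousMap.id I).prodMap ⟨Subtype.val, continuous_subtype_val⟩)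
  have hqc : ∀ u : I × K.bdry, (K.c (q u) : ℝ) = u.1 := fun u => by
    show (K.c (K.κ (u.1, u.2.1)) : ℝ) = u.1
    rw [K.c_κ, show K.c u.2.1 = 0 from u.2.2]
    simp
  have hsurj : Function.Surjective q := by
    intro x
    by_cases h1 : K.c x = 1
    · obtain ⟨b, hb⟩ := hne
      exact ⟨(1, ⟨b, hb⟩), K.top _ _ (K.κ_one b) h1⟩
    · obtain ⟨y, hy⟩ := K.surj (K.c x) x le_rfl h1
      have hy0 : K.c y = 0 := by
        have := congrArg (fun u => (K.c u : ℝ)) hy
        simp only [K.c_κ] at this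
        have h1' : (K.c x : ℝ) ≠ 1 := fun e => h1 (Subtype.ext e)
        have h2 : (1 - (K.c x : ℝ)) * (K.c y : ℝ) = 0 := by linarith
        exact Subtype.ext ((mul_eq_zero.1 h2).resolve_left (sub_ne_zero.2 (Ne.symm h1')))
      exact ⟨(K.c x, ⟨y, hy0⟩), hy⟩
  have hqm : IsQuotientMap q := q.continuous.isClosedMap.isQuotientMap q.continuous hsurj
  let G : C(I × K.bdry, Z) := H.toContinuousMap
  have hG : Function.FactorsThrough G q := by
    rintro ⟨s, a⟩ ⟨s', a'⟩ h
    obtain rfl : s = s' := by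
      have h2 := congrArg (fun u => (K.c u : ℝ)) h
      simp only [hqc] at h2
      exact Subtype.ext h2
    by_cases hs : s = 1
    · subst hs
      exact (H.map_one_left a).trans (H.map_one_left a').symm
    · obtain rfl : a = a' := Subtype.ext (K.inj s _ _ hs h)
      rfl
  refine ⟨hqm.lift G hG, fun x => ?_⟩
  have e : q (0, x) = x.1 := K.κ_zero x.1
  have h2 := ContinuousMap.congr_fun (hqm.lift_comp G hG) (0, x)
  exact ((congrArg (hqm.lift G hG) e).symm.trans h2).trans (H.map_zero_left x)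

end ConeCoords

end Vale.Agent.P259
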