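import Vale.Agent.P259.CompareGamma

/-!
# P259 (E4a): the mapping cylinders of the comparison maps and their functoriality

`C.Cyl S` is the mapping cylinder of `γ_S : |S| → W S`.  The coherator acts on these cylinders,
over the actions on both ends (`C.cylAct`), because they are weakly contractible.
-/

open CategoryTheory Opposite Topology
open scoped unitInterval

noncomputable section

namespace Vale.Agent.P259

namespace Coherator

variable (C : Coherator)

/-- The gluing relation of a cylinder. -/
inductive CylRel (S : GSum) : ((S.space × I) ⊕ C.WS S) → ((S.space × I) ⊕ C.WS S) → Prop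
  | glue (p : S.space) : CylRel S (Sum.inl (p, 1)) (Sum.inr (C.gamma S p))

/-- The mapping cylinder of `γ_S`. -/
def Cyl (S : GSum) : Type := Quot (C.CylRel S)

instance (S : GSum) : TopologicalSpace (C.Cyl S) :=
  inferInstanceAs (TopologicalSpace (Quot (C.CylRel S)))

/-- The cylinder part. -/
def inP (S : GSum) : C(S.space × I, C.Cyl S) :=
  ⟨fun x => Quot.mk _ (Sum.inl x), continuous_quot_mk.comp continuous_inl⟩

/-- The end part. -/
def inW (S : GSum) : C(C.WS S, C.Cyl S) :=
  ⟨fun x => Quot.mk _ (Sum.inr x), continuous_quot_mk.comp continuous_inr⟩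

theorem inP_one (S : GSum) (p : S.space) : C.inP S (p, 1) = C.inW S (C.gamma S p) :=
  Quot.sound (CylRel.glue p)

variable {C}

/-- The map out of a cylinder. -/
def cylDesc {S : GSum} {Y : Type*} [TopologicalSpace Y] (K : C(S.space, C(I, Y)))
    (g : C(C.WS S, Y)) (h : ∀ p, K p 1 = g (C.gamma S p)) : C(C.Cyl S, Y) where
  toFun := Quot.lift (Sum.elim (fun x => K x.1 x.2) g) (by rintro _ _ ⟨p⟩; exact h p)
  continuous_toFun := continuous_quot_lift _ ((continuous_eval.comp
    ((K.continuous.comp continuous_fst).prodMk continuous_snd)).sumElim g.continuous)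

theorem cylDesc_inP {S : GSum} {Y : Type*} [TopologicalSpace Y] (K : C(S.space, C(I, Y)))
    (g : C(C.WS S, Y)) (h) (p : S.space) (t : I) : cylDesc K g h (C.inP S (p, t)) = K p t := rfl

theorem cylDesc_inW {S : GSum} {Y : Type*} [TopologicalSpace Y] (K : C(S.space, C(I, Y)))
    (g : C(C.WS S, Y)) (h) (w : C.WS S) : cylDesc K g h (C.inW S w) = g w := rfl

theorem cyl_ext {S : GSum} {Y : Type*} [TopologicalSpace Y] {f g : C(C.Cyl S, Y)}
    (h1 : ∀ p t, f (C.inP S (p, t)) = g (C.inP S (p, t)))
    (h2 : ∀ w, f (C.inW S w) = g (C.inW S w)) : f = g :=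
  ContinuousMap.ext fun x => Quot.inductionOn x fun y =>
    match y with
    | Sum.inl q => h1 q.1 q.2
    | Sum.inr w => h2 w

variable (C)

/-- Sliding a cylinder into its end. -/
def cylSlideFun (S : GSum) (x : C.Cyl S) (s : I) : C.Cyl S :=
  Quot.lift (Sum.elim (fun q => C.inP S (q.1, max q.2 s)) (C.inW S))
    (by
      rintro _ _ ⟨p⟩
      show C.inP S (p, max 1 s) = C.inW S (C.gamma S p)
      rw [max_eq_left (show s ≤ 1 from s.2.2), C.inP_one]) x

theorem continuous_cylSlideFun (S : GSum) :
    Continuous fun q : C.Cyl S × I => C.cylSlideFun S q.1 q.2 := by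
  refine (isQuotientMap_quot_mk (r := C.CylRel S)).continuous_lift_prod_left ?_
  rw [← (Homeomorph.sumProdDistrib (X := S.space × I) (Y := C.WS S) (Z := I)).symm.comp_continuous_iff',
    continuous_sum_dom]
  constructor
  · exact (C.inP S).continuous.comp
      ((continuous_fst.comp continuous_fst).prodMk
        ((continuous_snd.comp continuous_fst).max continuous_snd))
  · exact (C.inW S).continuous.comp continuous_fst

theorem cyl_cptNull (S : GSum) : CptNull (C.Cyl S) := by
  intro A _ _ f
  let r : C(C.Cyl S, C.WS S) :=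
    cylDesc ((constPath (C.WS S)).comp (C.gamma S)) (ContinuousMap.id _) fun _ => rfl
  obtain ⟨z, hz⟩ := C.ws_cptNull S A (r.comp f)
  refine ⟨C.inW S z, ContinuousMap.Homotopic.trans ⟨{
    toFun := fun q => C.cylSlideFun S (f q.2) q.1
    continuous_toFun := (C.continuous_cylSlideFun S).comp
      ((f.continuous.comp continuous_snd).prodMk continuous_fst)
    map_zero_left := fun a => ?_
    map_one_left := fun a => ?_ }⟩ ((ContinuousMap.Homotopic.refl (C.inW S)).comp hz)⟩
  · generalize f a = x
    refine Quot.inductionOn x fun y => ?_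
    rcases y with ⟨p, t⟩ | w
    · show C.inP S (p, max t 0) = C.inP S (p, t)
      rw [max_eq_left (show (0 : I) ≤ t from t.2.1)]
    · rfl
  · show C.cylSlideFun S (f a) 1 = C.inW S (r (f a))
    generalize f a = x
    refine Quot.inductionOn x fun y => ?_
    rcases y with ⟨p, t⟩ | w
    · show C.inP S (p, max t 1) = C.inW S (C.gamma S p)
      rw [max_eq_right (show t ≤ 1 from t.2.2), C.inP_one]
    · rfl

/-- A map of globular sums together with a map of cylinders over it. -/
@[ext]
structure CylHom (R S : GSum) : Type where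
  hom : C.ext.Hom R S
  path : C(R.space, C(I, C.Cyl S))
  path_zero : ∀ p, path p 0 = C.inP S (C.realMap hom p, 0)
  path_one : ∀ p, path p 1 = C.inW S (C.wMap hom (C.gamma R p))

variable {C}

/-- The map of cylinders. -/
def CylHom.toMap {R S : GSum} (h : C.CylHom R S) : C(C.Cyl R, C.Cyl S) :=
  cylDesc h.path ((C.inW S).comp (C.wMap h.hom)) h.path_one

/-- The straight map of cylinders. -/
def CylHom.straight {R S : GSum} (f : C.ext.Hom R S)
    (hf : (C.gamma S).comp (C.realMap f) = (C.wMap f).comp (C.gamma R)) : C.CylHom R S where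
  hom := f
  path := ((C.inP S).comp ((C.realMap f).prodMap (ContinuousMap.id I))).curry
  path_zero _ := rfl
  path_one p := (C.inP_one S (C.realMap f p)).trans
    (congrArg (C.inW S) (ContinuousMap.congr_fun hf p))

/-- Straightness. -/
def CylHom.IsStraight {R S : GSum} (h : C.CylHom R S) : Prop :=
  ∀ p t, h.path p t = C.inP S (C.realMap h.hom p, t)

theorem CylHom.straight_isStraight {R S : GSum} (f : C.ext.Hom R S) (hf) :
    (CylHom.straight f hf).IsStraight := fun _ _ => rfl

theorem CylHom.IsStraight.ext {R S : GSum} {h h' : C.CylHom R S} (s : h.IsStraight)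
    (s' : h'.IsStraight) (e : h.hom = h'.hom) : h = h' := by
  refine CylHom.ext e (ContinuousMap.ext fun p => ContinuousMap.ext fun t => ?_)
  rw [s p t, s' p t, e]

/-- Composition. -/
def CylHom.trans {R S T : GSum} (g : C.CylHom R S) (h : C.CylHom S T) : C.CylHom R T where
  hom := C.ext.comp g.hom h.hom
  path := (postPath h.toMap).comp g.path
  path_zero p := by
    show h.toMap (g.path p 0) = _
    rw [g.path_zero, C.realMap_comp]
    exact h.path_zero _
  path_one p := by
    show h.toMap (g.path p 1) = _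
    rw [g.path_one, C.wMap_comp]
    rfl

theorem CylHom.toMap_trans {R S T : GSum} (g : C.CylHom R S) (h : C.CylHom S T) :
    (g.trans h).toMap = h.toMap.comp g.toMap := by
  refine cyl_ext (fun p t => rfl) fun w => ?_
  show C.inW T (C.wMap (C.ext.comp g.hom h.hom) w) = _
  rw [C.wMap_comp]
  rfl

theorem CylHom.IsStraight.trans {R S T : GSum} {g : C.CylHom R S} {h : C.CylHom S T}
    (sg : g.IsStraight) (sh : h.IsStraight) : (g.trans h).IsStraight := fun p t => by
  show h.toMap (g.path p t) = C.inP T (C.realMap (C.ext.comp g.hom h.hom) p, t)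
  rw [sg p t, C.realMap_comp]
  exact sh _ _

theorem CylHom.trans_path {R S T : GSum} {g : C.CylHom R S} (sg : g.IsStraight)
    (h : C.CylHom S T) (p : R.space) :
    (g.trans h).path p = h.path (C.realMap g.hom p) := by
  refine ContinuousMap.ext fun t => ?_
  show h.toMap (g.path p t) = _
  rw [sg p t]
  rfl

variable (C)

theorem gamma_id (S : GSum) : (C.gamma S).comp (C.realMap (C.ext.id S))
    = (C.wMap (C.ext.id S)).comp (C.gamma S) := by
  rw [C.realMap_id, C.wMap_id, ContinuousMap.comp_id, ContinuousMap.id_comp]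

theorem gamma_src (n : ℕ) : (C.gamma (GSum.disc (n + 1))).comp (C.realMap (C.ext.src n))
    = (C.wMap (C.ext.src n)).comp (C.gamma (GSum.disc n)) := by
  rw [C.realMap_src]
  exact C.gammaDisc_low n

theorem gamma_tgt (n : ℕ) : (C.gamma (GSum.disc (n + 1))).comp (C.realMap (C.ext.tgt n))
    = (C.wMap (C.ext.tgt n)).comp (C.gamma (GSum.disc n)) := by
  rw [C.realMap_tgt]
  exact C.gammaDisc_high n

/-- The data of the extension of cylinders. -/
def cylPre : PreExt where
  Hom R S := C.CylHom R S
  id S := CylHom.straight (C.ext.id S) (C.gamma_id S)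
  comp g h := g.trans h
  src n := CylHom.straight (C.ext.src n) (C.gamma_src n)
  tgt n := CylHom.straight (C.ext.tgt n) (C.gamma_tgt n)
  inl S j i hS hi := CylHom.straight (C.ext.inl S j i hS hi) (by
    rw [C.realMap_inl]; exact C.gamma_inl S j i hS hi)
  inr S j i hS hi := CylHom.straight (C.ext.inr S j i hS hi) (by
    rw [C.realMap_inr]; exact C.gamma_inr S j i hS hi)

theorem cylPre_srcIter {j i : ℕ} (h : j ≤ i) :
    (C.cylPre.srcIter h).IsStraight ∧ (C.cylPre.srcIter h).hom = C.ext.srcIter h := by
  induction i, h using Nat.le_induction with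
  | base =>
    simp only [PreExt.srcIter, Nat.leRecOn_self]
    exact ⟨fun _ _ => rfl, rfl⟩
  | succ n h ih =>
    simp only [PreExt.srcIter] at ih ⊢
    rw [Nat.leRecOn_succ h, Nat.leRecOn_succ h]
    exact ⟨ih.1.trans (fun _ _ => rfl),
      congrArg (fun f => C.ext.comp f (C.ext.src n)) ih.2⟩

theorem cylPre_tgtIter {j i : ℕ} (h : j ≤ i) :
    (C.cylPre.tgtIter h).IsStraight ∧ (C.cylPre.tgtIter h).hom = C.ext.tgtIter h := by
  induction i, h using Nat.le_induction with
  | base =>
    simp only [PreExt.tgtIter, Nat.leRecOn_self]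
    exact ⟨fun _ _ => rfl, rfl⟩
  | succ n h ih =>
    simp only [PreExt.tgtIter] at ih ⊢
    rw [Nat.leRecOn_succ h, Nat.leRecOn_succ h]
    exact ⟨ih.1.trans (fun _ _ => rfl),
      congrArg (fun f => C.ext.comp f (C.ext.tgt n)) ih.2⟩

theorem cylPre_glueMap (S : GSum) {j : ℕ} (hS : j < S.last) :
    (C.cylPre.glueMap S hS).IsStraight ∧ (C.cylPre.glueMap S hS).hom = C.ext.glueMap S hS := by
  have h : (C.cylPre.lastIncl S).IsStraight ∧
      (C.cylPre.lastIncl S).hom = C.ext.lastIncl S := by
    induction S using GSum.rec' with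
    | hd n => exact ⟨fun _ _ => rfl, rfl⟩
    | hs S j i hS' hi ih => exact ⟨fun _ _ => rfl, rfl⟩
  exact ⟨(C.cylPre_tgtIter hS.le).1.trans h.1,
    congrArg₂ C.ext.comp (C.cylPre_tgtIter hS.le).2 h.2⟩

theorem cylPre_sum_univ (S : GSum) (j i : ℕ) (hS : j < S.last) (hi : j < i) (T : GSum)
    (u : C.CylHom S T) (v : C.CylHom (GSum.disc i) T)
    (h : (C.cylPre.glueMap S hS).trans u = (C.cylPre.srcIter hi.le).trans v) :
    ∃! w : C.CylHom (S.snoc j i hS hi) T, (C.cylPre.inl S j i hS hi).trans w = u ∧
      (C.cylPre.inr S j i hS hi).trans w = v := by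
  obtain ⟨hg, hge⟩ := C.cylPre_glueMap S hS
  obtain ⟨hs, hse⟩ := C.cylPre_srcIter (j := j) hi.le
  have hf : C.ext.comp (C.ext.glueMap S hS) u.hom = C.ext.comp (C.ext.srcIter hi.le) v.hom := by
    have := congrArg CylHom.hom h
    rwa [show ((C.cylPre.glueMap S hS).trans u).hom = C.ext.comp (C.ext.glueMap S hS) u.hom from
      congrArg (fun f => C.ext.comp f u.hom) hge,
      show ((C.cylPre.srcIter hi.le).trans v).hom = C.ext.comp (C.ext.srcIter hi.le) v.hom from
      congrArg (fun f => C.ext.comp f v.hom) hse] at this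
  have hθ : u.path.comp (S.real.glue hS) = v.path.comp (lowIter hi.le) := by
    refine ContinuousMap.ext fun a => ?_
    have e1 := (CylHom.trans_path hg u a).symm.trans
      ((congrArg (fun k : C.CylHom (GSum.disc j) T => k.path a) h).trans
        (CylHom.trans_path hs v a))
    have eg : C.realMap (C.cylPre.glueMap S hS).hom a = S.real.glue hS a :=
      (congrArg (fun f : C.ext.Hom (GSum.disc j) S => C.realMap f a) hge).trans
        (ContinuousMap.congr_fun (C.realMap_glueMap S hS) a)
    have es : C.realMap (C.cylPre.srcIter hi.le).hom a = lowIter hi.le a :=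
      (congrArg (fun f : C.ext.Hom (GSum.disc j) (GSum.disc i) => C.realMap f a) hse).trans
        (ContinuousMap.congr_fun (C.realMap_srcIter hi.le) a)
    exact (congrArg u.path eg).symm.trans (e1.trans (congrArg v.path es))
  obtain ⟨F, ⟨hF1, hF2⟩, hFu⟩ := C.ext.sum_univ S j i hS hi T u.hom v.hom hf
  obtain ⟨W, ⟨hW1, hW2⟩, hWu⟩ := S.real.glued_univ hS hi u.path v.path hθ
  have e0 : ((evalAt (C.Cyl T) 0).comp W) =
      (C.inP T).comp ((C.realMap F).prodMk (ContinuousMap.const _ 0)) := by
    refine S.real.glued_hom_ext hS hi (ContinuousMap.ext fun x => ?_) (ContinuousMap.ext fun x => ?_)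
    · refine (congrArg (fun k : C(I, C.Cyl T) => k 0) (ContinuousMap.congr_fun hW1 x)).trans
        ((u.path_zero x).trans ?_)
      show C.inP T (C.realMap u.hom x, 0) = C.inP T (C.realMap F (S.real.inX hS hi x), 0)
      rw [← hF1, C.realMap_comp, C.realMap_inl]
      rfl
    · refine (congrArg (fun k : C(I, C.Cyl T) => k 0) (ContinuousMap.congr_fun hW2 x)).trans
        ((v.path_zero x).trans ?_)
      show C.inP T (C.realMap v.hom x, 0) = C.inP T (C.realMap F (S.real.inD hS hi x), 0)
      rw [← hF2, C.realMap_comp, C.realMap_inr]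
      rfl
  have e1 : ((evalAt (C.Cyl T) 1).comp W) =
      ((C.inW T).comp (C.wMap F)).comp (C.gamma (S.snoc j i hS hi)) := by
    refine S.real.glued_hom_ext hS hi (ContinuousMap.ext fun x => ?_) (ContinuousMap.ext fun x => ?_)
    · refine (congrArg (fun k : C(I, C.Cyl T) => k 1) (ContinuousMap.congr_fun hW1 x)).trans
        ((u.path_one x).trans ?_)
      show C.inW T (C.wMap u.hom (C.gamma S x))
        = C.inW T (C.wMap F (C.gamma _ (S.real.inX hS hi x)))
      rw [← hF1, C.wMap_comp]
      exact congrArg (fun w => C.inW T (C.wMap F w))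
        (ContinuousMap.congr_fun (C.gamma_inl S j i hS hi) x).symm
    · refine (congrArg (fun k : C(I, C.Cyl T) => k 1) (ContinuousMap.congr_fun hW2 x)).trans
        ((v.path_one x).trans ?_)
      show C.inW T (C.wMap v.hom (C.gamma _ x))
        = C.inW T (C.wMap F (C.gamma _ (S.real.inD hS hi x)))
      rw [← hF2, C.wMap_comp]
      exact congrArg (fun w => C.inW T (C.wMap F w))
        (ContinuousMap.congr_fun (C.gamma_inr S j i hS hi) x).symm
  refine ⟨⟨F, W, ContinuousMap.congr_fun e0, ContinuousMap.congr_fun e1⟩, ⟨?_, ?_⟩, fun w hw => ?_⟩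
  · refine CylHom.ext hF1 (ContinuousMap.ext fun x => ?_)
    refine (CylHom.trans_path (g := C.cylPre.inl S j i hS hi) (fun _ _ => rfl) _ x).trans ?_
    show W (C.realMap (C.ext.inl S j i hS hi) x) = u.path x
    rw [C.realMap_inl]
    exact ContinuousMap.congr_fun hW1 x
  · refine CylHom.ext hF2 (ContinuousMap.ext fun x => ?_)
    refine (CylHom.trans_path (g := C.cylPre.inr S j i hS hi) (fun _ _ => rfl) _ x).trans ?_
    show W (C.realMap (C.ext.inr S j i hS hi) x) = v.path x
    rw [C.realMap_inr]
    exact ContinuousMap.congr_fun hW2 x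
  · refine CylHom.ext (hFu w.hom ⟨congrArg CylHom.hom hw.1, congrArg CylHom.hom hw.2⟩)
      (hWu w.path ⟨ContinuousMap.ext fun x => ?_, ContinuousMap.ext fun x => ?_⟩)
    · refine Eq.trans ?_ ((CylHom.trans_path (g := C.cylPre.inl S j i hS hi) (fun _ _ => rfl) w
        x).symm.trans (congrArg (fun k : C.CylHom S T => k.path x) hw.1))
      exact congrArg w.path (ContinuousMap.congr_fun (C.realMap_inl S j i hS hi) x).symm
    · refine Eq.trans ?_ ((CylHom.trans_path (g := C.cylPre.inr S j i hS hi) (fun _ _ => rfl) w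
        x).symm.trans (congrArg (fun k : C.CylHom (GSum.disc i) T => k.path x) hw.2))
      exact congrArg w.path (ContinuousMap.congr_fun (C.realMap_inr S j i hS hi) x).symm

/-- The extension of cylinders. -/
def cylExt : GlobExt where
  toPreExt := C.cylPre
  id_comp {R S} h := by
    refine CylHom.ext (C.ext.id_comp h.hom) (ContinuousMap.ext fun p => ?_)
    exact (CylHom.trans_path (g := C.cylPre.id R) (fun _ _ => rfl) h p).trans
      (congrArg h.path (ContinuousMap.congr_fun (C.realMap_id R) p))
  comp_id {R S} h := by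
    refine CylHom.ext (C.ext.comp_id h.hom) (ContinuousMap.ext fun p => ContinuousMap.ext fun t => ?_)
    show (CylHom.straight (C.ext.id S) (C.gamma_id S)).toMap (h.path p t) = h.path p t
    generalize h.path p t = x
    refine Quot.inductionOn x fun y => ?_
    rcases y with ⟨q, s⟩ | w
    · show C.inP S (C.realMap (C.ext.id S) q, s) = _
      rw [C.realMap_id]; rfl
    · show C.inW S (C.wMap (C.ext.id S) w) = _
      rw [C.wMap_id]; rfl
  assoc f g h := by
    refine CylHom.ext (C.ext.assoc f.hom g.hom h.hom) (ContinuousMap.ext fun p =>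
      ContinuousMap.ext fun t => ?_)
    exact (ContinuousMap.congr_fun (CylHom.toMap_trans g h) (f.path p t)).symm
  src_src n := CylHom.IsStraight.ext
    (CylHom.IsStraight.trans (g := C.cylPre.src n) (h := C.cylPre.src (n + 1))
      (fun _ _ => rfl) (fun _ _ => rfl))
    (CylHom.IsStraight.trans (g := C.cylPre.src n) (h := C.cylPre.tgt (n + 1))
      (fun _ _ => rfl) (fun _ _ => rfl)) (C.ext.src_src n)
  tgt_src n := CylHom.IsStraight.ext
    (CylHom.IsStraight.trans (g := C.cylPre.tgt n) (h := C.cylPre.src (n + 1))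
      (fun _ _ => rfl) (fun _ _ => rfl))
    (CylHom.IsStraight.trans (g := C.cylPre.tgt n) (h := C.cylPre.tgt (n + 1))
      (fun _ _ => rfl) (fun _ _ => rfl)) (C.ext.tgt_src n)
  sum_comm S j i hS hi := ((C.cylPre_glueMap S hS).1.trans (fun _ _ => rfl)).ext
    ((C.cylPre_srcIter hi.le).1.trans (fun _ _ => rfl))
    ((congrArg (fun f => C.ext.comp f _) (C.cylPre_glueMap S hS).2).trans
      ((C.ext.sum_comm S j i hS hi).trans
        (congrArg (fun f => C.ext.comp f _) (C.cylPre_srcIter hi.le).2).symm))
  sum_univ S j i hS hi T u v h := C.cylPre_sum_univ S j i hS hi T u v h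

/-- Forgetting the paths. -/
def cylForget : GMor C.cylExt C.ext where
  map h := h.hom
  map_id _ := rfl
  map_comp _ _ := rfl
  map_src _ := rfl
  map_tgt _ := rfl
  map_inl _ _ _ _ _ := rfl
  map_inr _ _ _ _ _ := rfl

theorem cylExt_lift {n : ℕ} {S : GSum} (f g : C.CylHom (GSum.disc n) S)
    (hpar : C.cylExt.Parallel f g) (F : C.ext.Hom (GSum.disc (n + 1)) S)
    (hF : C.ext.IsLift f.hom g.hom F) : ∃ h, C.cylExt.IsLift f g h ∧ h.hom = F := by
  have hb : ∀ x : Disc n, ‖(x : EuclideanSpace ℝ (Fin n))‖ = 1 → f.path x = g.path x := by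
    cases n with
    | zero => exact fun x hx => absurd hx (disc_zero_norm x)
    | succ m =>
      refine fun x hx => parallel_boundary (a := f.path) (b := g.path) ?_ ?_ x hx
      · refine ContinuousMap.ext fun y => ?_
        have e := (CylHom.trans_path (g := C.cylPre.src m) (fun _ _ => rfl) f y).symm.trans
          ((congrArg (fun k : C.CylHom (GSum.disc m) S => k.path y) hpar.1).trans
            (CylHom.trans_path (g := C.cylPre.src m) (fun _ _ => rfl) g y))
        have hy : C.realMap (C.ext.src m) y = low m y :=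
          ContinuousMap.congr_fun (C.realMap_src m) y
        exact (congrArg f.path hy).symm.trans (e.trans (congrArg g.path hy))
      · refine ContinuousMap.ext fun y => ?_
        have e := (CylHom.trans_path (g := C.cylPre.tgt m) (fun _ _ => rfl) f y).symm.trans
          ((congrArg (fun k : C.CylHom (GSum.disc m) S => k.path y) hpar.2).trans
            (CylHom.trans_path (g := C.cylPre.tgt m) (fun _ _ => rfl) g y))
        have hy : C.realMap (C.ext.tgt m) y = high m y :=
          ContinuousMap.congr_fun (C.realMap_tgt m) y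
        exact (congrArg f.path hy).symm.trans (e.trans (congrArg g.path hy))
  have hlow : C.realMap f.hom = (C.realMap F).comp (low n) := by
    rw [← hF.1, C.realMap_comp, C.realMap_src]
    rfl
  have hhigh : C.realMap g.hom = (C.realMap F).comp (high n) := by
    rw [← hF.2, C.realMap_comp, C.realMap_tgt]
    rfl
  have hwlow : ∀ x, C.wMap F (C.gamma (GSum.disc (n + 1)) (low n x))
      = C.wMap f.hom (C.gamma (GSum.disc n) x) := fun x => by
    rw [← hF.1, C.wMap_comp]
    exact congrArg (C.wMap F) (ContinuousMap.congr_fun (C.gammaDisc_low n) x)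
  have hwhigh : ∀ x, C.wMap F (C.gamma (GSum.disc (n + 1)) (high n x))
      = C.wMap g.hom (C.gamma (GSum.disc n) x) := fun x => by
    rw [← hF.2, C.wMap_comp]
    exact congrArg (C.wMap F) (ContinuousMap.congr_fun (C.gammaDisc_high n) x)
  obtain ⟨K, hl, hh, h0, h1⟩ := (C.cyl_cptNull S).exists_fill_cyl f.path g.path hb
    ((C.inP S).comp ((C.realMap F).prodMk (ContinuousMap.const _ 0)))
    ((C.inW S).comp ((C.wMap F).comp (C.gamma (GSum.disc (n + 1)))))
    (fun x => (f.path_zero x).trans (by rw [hlow]; rfl))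
    (fun x => (f.path_one x).trans (congrArg (C.inW S) (hwlow x).symm))
    (fun x => (g.path_zero x).trans (by rw [hhigh]; rfl))
    (fun x => (g.path_one x).trans (congrArg (C.inW S) (hwhigh x).symm))
  refine ⟨⟨F, K, ContinuousMap.congr_fun h0, ContinuousMap.congr_fun h1⟩, ⟨?_, ?_⟩, rfl⟩
  · refine CylHom.ext hF.1 (ContinuousMap.ext fun x => ?_)
    refine (CylHom.trans_path (fun _ _ => rfl) _ x).trans ?_
    show K (C.realMap (C.ext.src n) x) = f.path x
    rw [C.realMap_src]
    exact ContinuousMap.congr_fun hl x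
  · refine CylHom.ext hF.2 (ContinuousMap.ext fun x => ?_)
    refine (CylHom.trans_path (fun _ _ => rfl) _ x).trans ?_
    show K (C.realMap (C.ext.tgt n) x) = g.path x
    rw [C.realMap_tgt]
    exact ContinuousMap.congr_fun hh x

theorem exists_cylMor : ∃ φ : GMor C.ext C.cylExt, φ.comp C.cylForget = GMor.idMor C.ext := by
  classical
  obtain ⟨φ, hφ⟩ := C.exists_mor (ι := Unit) (fun _ => C.cylExt)
    (fun k φ => (φ ()).comp C.cylForget = C.toExt k)
    (fun φ => (C.stage_zero C.ext).unique trivial trivial)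
    (fun k φ hk => by
      have hk' : ∀ {R S} (f : (C.stage k).Hom R S),
          ((φ ()).map f).hom = (C.toExt (k + 1)).map ((C.step k).map f) := fun f =>
        (congrArg (fun χ : GMor (C.stage k) C.ext => χ.map f) hk).trans
          (C.toExt_map_step k f).symm
      have hF : ∀ a, C.ext.IsLift ((φ ()).map (C.pair k a).f).hom ((φ ()).map (C.pair k a).g).hom
          ((C.toExt (k + 1)).map (C.adjLift k a)) := fun a => by
        rw [hk', hk']
        constructor
        · rw [← (C.adjLift_spec k a).1, GMor.map_comp, GMor.map_src]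
        · rw [← (C.adjLift_spec k a).2, GMor.map_comp, GMor.map_tgt]
      choose l hl hle using fun a : C.Adj k =>
        C.cylExt_lift _ _ ((φ ()).map_parallel (C.pair k a).parallel) _ (hF a)
      obtain ⟨ψ, ⟨hψ, hψl⟩, -⟩ := C.adj_univ k C.cylExt (φ ()) l hl
      refine ⟨fun _ => ψ, fun _ => hψ, ?_⟩
      refine (C.adj_univ k C.ext ((φ ()).comp C.cylForget)
        (fun a => (C.toExt (k + 1)).map (C.adjLift k a)) hF).unique ⟨?_, fun a => ?_⟩
        ⟨?_, fun a => rfl⟩
      · rw [← GMor.comp_assoc, hψ]
      · exact (congrArg CylHom.hom (hψl a)).trans (hle a)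
      · rw [C.toExt_step, hk])
  exact ⟨φ (), (C.colim_univ C.ext C.toExt C.toExt_step).unique
    (fun k => (GMor.comp_assoc _ _ _).symm.trans (hφ k)) (fun k => rfl)⟩

/-- The action of the coherator on cylinders. -/
def cylMor : GMor C.ext C.cylExt := C.exists_cylMor.choose

theorem cylMor_hom {R S : GSum} (f : C.ext.Hom R S) :
    CylHom.hom (C.cylMor.map f) = f :=
  congrArg (fun χ : GMor C.ext C.ext => χ.map f) C.exists_cylMor.choose_spec

/-- The homotopy part of the action. -/
def theta {R S : GSum} (f : C.ext.Hom R S) : C(R.space, C(I, C.Cyl S)) :=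
  CylHom.path (C.cylMor.map f)

theorem theta_zero {R S : GSum} (f : C.ext.Hom R S) (p : R.space) :
    C.theta f p 0 = C.inP S (C.realMap f p, 0) :=
  (CylHom.path_zero (C.cylMor.map f) p).trans (by rw [C.cylMor_hom])

theorem theta_one {R S : GSum} (f : C.ext.Hom R S) (p : R.space) :
    C.theta f p 1 = C.inW S (C.wMap f (C.gamma R p)) :=
  (CylHom.path_one (C.cylMor.map f) p).trans (by rw [C.cylMor_hom])

/-- The map of cylinders. -/
def cylAct {R S : GSum} (f : C.ext.Hom R S) : C(C.Cyl R, C.Cyl S) :=
  cylDesc (C.theta f) ((C.inW S).comp (C.wMap f)) (C.theta_one f)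

theorem cylAct_inP {R S : GSum} (f : C.ext.Hom R S) (p : R.space) (t : I) :
    C.cylAct f (C.inP R (p, t)) = C.theta f p t := rfl

theorem cylAct_inW {R S : GSum} (f : C.ext.Hom R S) (w : C.WS R) :
    C.cylAct f (C.inW R w) = C.inW S (C.wMap f w) := rfl

theorem cylAct_eq {R S : GSum} (f : C.ext.Hom R S) :
    C.cylAct f = CylHom.toMap (C.cylMor.map f) := by
  refine cyl_ext (fun p t => rfl) fun w => ?_
  show C.inW S (C.wMap f w) = C.inW S (C.wMap (CylHom.hom (C.cylMor.map f)) w)
  rw [C.cylMor_hom]

theorem cylAct_id (S : GSum) : C.cylAct (C.ext.id S) = ContinuousMap.id (C.Cyl S) := by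
  rw [cylAct_eq, GMor.map_id]
  refine cyl_ext (fun p t => ?_) fun w => ?_
  · show C.inP S (C.realMap (C.ext.id S) p, t) = C.inP S (p, t)
    rw [C.realMap_id]
    rfl
  · show C.inW S (C.wMap (C.ext.id S) w) = C.inW S w
    rw [C.wMap_id]
    rfl

theorem cylAct_comp {R S T : GSum} (f : C.ext.Hom R S) (g : C.ext.Hom S T) :
    C.cylAct (C.ext.comp f g) = (C.cylAct g).comp (C.cylAct f) := by
  rw [cylAct_eq, cylAct_eq, cylAct_eq, GMor.map_comp]
  exact CylHom.toMap_trans _ _

theorem theta_eq_straight {R S : GSum} (f : C.ext.Hom R S)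
    (h : (C.cylMor.map f).IsStraight) (p : R.space) (t : I) :
    C.theta f p t = C.inP S (C.realMap f p, t) :=
  (h p t).trans (by rw [C.cylMor_hom])

theorem theta_src (n : ℕ) (p : Disc n) (t : I) :
    C.theta (C.ext.src n) p t = C.inP (GSum.disc (n + 1)) (low n p, t) := by
  refine (C.theta_eq_straight (C.ext.src n) ?_ p t).trans ?_
  · rw [GMor.map_src]; exact fun _ _ => rfl
  · exact congrArg (fun x => C.inP (GSum.disc (n + 1)) (x, t))
      (ContinuousMap.congr_fun (C.realMap_src n) p)

theorem theta_tgt (n : ℕ) (p : Disc n) (t : I) :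
    C.theta (C.ext.tgt n) p t = C.inP (GSum.disc (n + 1)) (high n p, t) := by
  refine (C.theta_eq_straight (C.ext.tgt n) ?_ p t).trans ?_
  · rw [GMor.map_tgt]; exact fun _ _ => rfl
  · exact congrArg (fun x => C.inP (GSum.disc (n + 1)) (x, t))
      (ContinuousMap.congr_fun (C.realMap_tgt n) p)

theorem theta_inl (S : GSum) (j i : ℕ) (hS : j < S.last) (hi : j < i) (p : S.space) (t : I) :
    C.theta (C.ext.inl S j i hS hi) p t = C.inP (S.snoc j i hS hi) (S.real.inX hS hi p, t) := by
  refine (C.theta_eq_straight (C.ext.inl S j i hS hi) ?_ p t).trans ?_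
  · rw [GMor.map_inl]; exact fun _ _ => rfl
  · exact congrArg (fun x => C.inP (S.snoc j i hS hi) (x, t))
      (ContinuousMap.congr_fun (C.realMap_inl S j i hS hi) p)

theorem theta_inr (S : GSum) (j i : ℕ) (hS : j < S.last) (hi : j < i) (p : Disc i) (t : I) :
    C.theta (C.ext.inr S j i hS hi) p t = C.inP (S.snoc j i hS hi) (S.real.inD hS hi p, t) := by
  refine (C.theta_eq_straight (C.ext.inr S j i hS hi) ?_ p t).trans ?_
  · rw [GMor.map_inr]; exact fun _ _ => rfl
  · exact congrArg (fun x => C.inP (S.snoc j i hS hi) (x, t))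
      (ContinuousMap.congr_fun (C.realMap_inr S j i hS hi) p)

theorem theta_srcIter {j i : ℕ} (h : j ≤ i) (p : Disc j) (t : I) :
    C.theta (C.ext.srcIter h) p t = C.inP (GSum.disc i) (lowIter h p, t) := by
  refine (C.theta_eq_straight (C.ext.srcIter h) ?_ p t).trans ?_
  · rw [C.cylMor.map_srcIter]; exact (C.cylPre_srcIter h).1
  · exact congrArg (fun x => C.inP (GSum.disc i) (x, t))
      (ContinuousMap.congr_fun (C.realMap_srcIter h) p)

theorem theta_glueMap (S : GSum) {j : ℕ} (hS : j < S.last) (p : Disc j) (t : I) :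
    C.theta (C.ext.glueMap S hS) p t = C.inP S (S.real.glue hS p, t) := by
  refine (C.theta_eq_straight (C.ext.glueMap S hS) ?_ p t).trans ?_
  · rw [C.cylMor.map_glueMap]; exact (C.cylPre_glueMap S hS).1
  · exact congrArg (fun x => C.inP S (x, t))
      (ContinuousMap.congr_fun (C.realMap_glueMap S hS) p)

end Coherator

end Vale.Agent.P259
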