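import Vale.Agent.P259.BHomotopy
import Vale.Agent.P259.CompareCone

/-!
# P259 (E): maps out of a classifying space built by recursion over chains

`FlagData` prescribes target spaces for the objects of a category, maps for its morphisms, and
boundary values.  If the targets are null-homotopic for compact sources, compatible maps on all
simplices exist (`FlagData.Φ`), and with a cocone they glue to a map out of the classifying
space (`FlagData.glob`).
-/

open CategoryTheory Set Topology
open scoped unitInterval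

noncomputable section

namespace Vale.Agent.P259

universe u

variable {T : Type} [SmallCategory T]

namespace Chain

theorem exists_max_of_isChain {s : Finset (Chain T)} (hs : IsChain (· ≤ ·) (s : Set (Chain T)))
    (hne : s.Nonempty) : ∃ p ∈ s, ∀ q ∈ s, q ≤ p := by
  obtain ⟨p, hp, hmax⟩ := s.exists_max_image (fun q => q.levels.card) hne
  refine ⟨p, hp, fun q hq => ?_⟩
  rcases hs.total hq hp with h | h
  · exact h
  · rcases eq_or_lt_of_le h with rfl | hlt
    · exact le_rfl
    · exact absurd (hmax q hq) (not_le.2 (card_lt_card hlt))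

theorem finite_lower (p : Chain T) : {q : Chain T | q ≤ p}.Finite := by
  classical
  let f : {s : Finset ℕ // s ∈ p.levels.powerset} → Chain T := fun s =>
    if h : s.1.Nonempty then p.restrict s.1 (Finset.mem_powerset.1 s.2) h else p
  refine (Set.finite_range f).subset ?_
  rintro q ⟨hl, e⟩
  refine ⟨⟨q.levels, Finset.mem_powerset.2 hl⟩, ?_⟩
  show dite _ _ _ = q
  rw [dif_pos q.nonempty]
  obtain ⟨s, hs, F⟩ := q
  have hl' : s ⊆ p.levels := hl
  obtain rfl : F = levelIncl hl' ⋙ p.fct := e.symm
  rfl

/-- The chains below a given one. -/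
def lower (p : Chain T) : Finset (Chain T) := (finite_lower p).toFinset

@[simp] theorem mem_lower {p q : Chain T} : q ∈ lower p ↔ q ≤ p := Set.Finite.mem_toFinset _

end Chain

namespace BSp

theorem exists_max (z : BSp T) : ∃ m ∈ z.wt.support, ∀ q ∈ z.wt.support, q ≤ m := by
  refine Chain.exists_max_of_isChain z.isChain ?_
  obtain ⟨p, hp⟩ := z.exists_pos
  exact ⟨p, (z.mem_support_iff p).2 hp⟩

/-- The largest vertex carrying a point. -/
def maxV (z : BSp T) : Chain T := z.exists_max.choose

theorem maxV_mem (z : BSp T) : z.maxV ∈ z.wt.support := z.exists_max.choose_spec.1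

theorem le_maxV (z : BSp T) {q : Chain T} (h : q ∈ z.wt.support) : q ≤ z.maxV :=
  z.exists_max.choose_spec.2 q h

/-- The points supported below a chain. -/
abbrev Below (p : Chain T) : Type := {z : BSp T // ∀ q ∈ z.wt.support, q ≤ p}

theorem maxV_le {p : Chain T} (z : Below p) : z.1.maxV ≤ p := z.2 _ (maxV_mem z.1)

/-- A point as a point below its largest vertex. -/
def toBelow (z : BSp T) : Below z.maxV := ⟨z, fun _ h => z.le_maxV h⟩

/-- Inclusion of lower simplices. -/
def belowIncl {q p : Chain T} (h : q ≤ p) : C(Below q, Below p) :=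
  ⟨fun z => ⟨z.1, fun r hr => (z.2 r hr).trans h⟩, continuous_subtype_val.subtype_mk _⟩

@[simp] theorem belowIncl_val {q p : Chain T} (h : q ≤ p) (z : Below q) :
    (belowIncl h z).1 = z.1 := rfl

theorem isClosed_supp_le (p : Chain T) :
    IsClosed {z : BSp T | ∀ q ∈ z.wt.support, q ≤ p} := by
  have : {z : BSp T | ∀ q ∈ z.wt.support, q ≤ p} = ⋂ q ∈ {q | ¬ q ≤ p}, {z | z.wt q = 0} := by
    ext z
    simp only [Set.mem_iInter, Set.mem_ofPred_eq, Finsupp.mem_support_iff]
    exact ⟨fun h q hq => by_contra fun h0 => hq (h q h0),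
      fun h q hq => by_contra fun hq' => hq (h q hq')⟩
  rw [this]
  exact isClosed_biInter fun q _ => isClosed_eq (continuous_wt q) continuous_const

instance (p : Chain T) : CompactSpace (Below p) := by
  classical
  have : Finite {s : Finset (Chain T) // s ∈ (Chain.lower p).powerset ∧
      IsChain (· ≤ ·) (s : Set (Chain T))} :=
    Finite.of_injective (fun i => (⟨i.1, i.2.1⟩ : ((Chain.lower p).powerset : Finset _)))
      fun a b h => Subtype.ext (congrArg (fun c : (Chain.lower p).powerset => c.1) h)
  refine isCompact_iff_compactSpace.1 (IsCompact.of_isClosed_subset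
    (isCompact_iUnion fun i : {s : Finset (Chain T) // s ∈ (Chain.lower p).powerset ∧
      IsChain (· ≤ ·) (s : Set (Chain T))} => isCompact_range (continuous_mkOn i.1 i.2.2))
    (isClosed_supp_le p) fun z hz => ?_)
  exact Set.mem_iUnion.2 ⟨⟨z.wt.support,
    Finset.mem_powerset.2 (fun q hq => Chain.mem_lower.2 (hz q hq)), z.isChain⟩,
    z.coordsOn _ subset_rfl, mkOn_coordsOn z _ _ subset_rfl⟩

theorem isChain_vertex {p : Chain T} (z : Below p) :
    IsChain (· ≤ ·) ((z.1.wt.support : Set (Chain T)) ∪ ((vertex p).wt.support : Set (Chain T))) := by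
  rw [support_vertex, Finset.coe_singleton]
  rintro a (ha | ha) b (hb | hb) hab
  · exact z.1.isChain ha hb hab
  · exact Or.inl (Set.mem_singleton_iff.1 hb ▸ z.2 a ha)
  · exact Or.inr (Set.mem_singleton_iff.1 ha ▸ z.2 b hb)
  · exact absurd ((Set.mem_singleton_iff.1 ha).trans (Set.mem_singleton_iff.1 hb).symm) hab

theorem support_sub_vertex {p : Chain T} (z : Below p) (t : I) :
    ∀ q ∈ (lineComb z.1 (vertex p) (isChain_vertex z) t).wt.support, q ≤ p := by
  classical
  intro q hq
  rcases Finset.mem_union.1 (support_lineComb_subset _ _ _ _ hq) with h | h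
  · exact z.2 q h
  · rw [support_vertex, Finset.mem_singleton] at h
    exact h.le

theorem vertex_wt_ne {p q : Chain T} (h : q ≠ p) : (vertex p).wt q = 0 :=
  Finsupp.single_eq_of_ne h

theorem eq_vertex_of_wt (z : BSp T) {p : Chain T} (h : z.wt p = 1) : z = vertex p := by
  classical
  refine BSp.ext (Finsupp.ext fun q => ?_)
  by_cases hq : q = p
  · rw [hq, h, vertex_wt_self]
  · rw [vertex_wt_ne hq]
    have hs : z.wt p + z.wt q ≤ 1 := by
      rw [← z.sum_one_of_subset (V := insert p (insert q z.wt.support))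
        ((Finset.subset_insert _ _).trans (Finset.subset_insert _ _)),
        ← Finset.sum_pair (f := fun r => z.wt r) (Ne.symm hq)]
      exact Finset.sum_le_sum_of_subset_of_nonneg (by simp [Finset.insert_subset_iff])
        fun r _ _ => z.nonneg r
    linarith [z.nonneg q]

/-- The simplex below a chain as a cone over the lower ones. -/
def belowCone (p : Chain T) : ConeCoords (Below p) where
  c := ⟨fun z => ⟨z.1.wt p, z.1.nonneg p, z.1.le_one p⟩,
    Continuous.subtype_mk ((continuous_wt p).comp continuous_subtype_val) _⟩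
  κ := ⟨fun u => ⟨lineComb u.2.1 (vertex p) (isChain_vertex u.2) u.1, support_sub_vertex _ _⟩,
    Continuous.subtype_mk (lineHomotopyOfFinite
      (⟨Subtype.val, continuous_subtype_val⟩ : C(Below p, BSp T))
      (ContinuousMap.const _ (vertex p)) (Chain.lower p)
      (fun z q hq => Chain.mem_lower.2 (z.2 q hq))
      (fun _ q hq => Chain.mem_lower.2 (le_of_eq (Finset.mem_singleton.1 (support_vertex p ▸ hq))))
      isChain_vertex).continuous _⟩
  κ_zero z := Subtype.ext (lineComb_zero z.1 (vertex p) (isChain_vertex z))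
  c_κ s z := by
    show (lineComb z.1 (vertex p) (isChain_vertex z) s).wt p = _
    rw [lineComb_wt, vertex_wt_self, mul_one]
    rfl
  inj s x y hs h := by
    refine Subtype.ext (BSp.ext (Finsupp.ext fun q => ?_))
    have h' : (1 - (s : ℝ)) * x.1.wt q + (s : ℝ) * (vertex p).wt q
        = (1 - (s : ℝ)) * y.1.wt q + (s : ℝ) * (vertex p).wt q :=
      congrArg (fun w : Below p => w.1.wt q) h
    exact mul_left_cancel₀ (sub_ne_zero.2 fun e => hs (Subtype.ext e.symm)) (add_right_cancel h')
  surj s z hz hs := by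
    classical
    have hz' : (s : ℝ) ≤ z.1.wt p := hz
    have hpos : 0 < 1 - (s : ℝ) :=
      sub_pos.2 (lt_of_le_of_ne s.2.2 fun e => hs (Subtype.ext e))
    let w : Chain T →₀ ℝ := (1 - (s : ℝ))⁻¹ • (z.1.wt - (s : ℝ) • Finsupp.single p 1)
    have hw : ∀ q, w q = (1 - (s : ℝ))⁻¹ * (z.1.wt q - (s : ℝ) * (vertex p).wt q) := fun q => rfl
    have hsupp : ∀ q ∈ w.support, q ∈ insert p z.1.wt.support := fun q hq => by
      by_contra hn
      rw [Finset.mem_insert, not_or, Finsupp.notMem_support_iff] at hn
      exact Finsupp.mem_support_iff.1 hq (by rw [hw, hn.2, vertex_wt_ne hn.1]; ring)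
    have hnonneg : ∀ q, 0 ≤ w q := fun q => by
      rw [hw]
      refine mul_nonneg (inv_nonneg.2 hpos.le) ?_
      by_cases hq : q = p
      · rw [hq, vertex_wt_self, mul_one]; linarith
      · rw [vertex_wt_ne hq]; simpa using z.1.nonneg q
    have hle : ∀ q ∈ w.support, q ≤ p := fun q hq => by
      rcases Finset.mem_insert.1 (hsupp q hq) with rfl | h
      exacts [le_rfl, z.2 q h]
    let y : BSp T :=
      { wt := w
        nonneg := hnonneg
        sum_eq := by
          rw [Finsupp.sum_of_support_subset _ (fun q hq => hsupp q hq) _ (fun _ _ => rfl)]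
          simp only [hw, ← Finset.mul_sum, Finset.sum_sub_distrib]
          rw [z.1.sum_one_of_subset (Finset.subset_insert _ _),
            (vertex p).sum_one_of_subset (by rw [support_vertex]; simp), mul_one,
            inv_mul_cancel₀ hpos.ne']
        isChain := fun a ha b hb hab => by
          rcases Finset.mem_insert.1 (hsupp a ha) with rfl | ha'
          · exact Or.inr (hle b hb)
          · rcases Finset.mem_insert.1 (hsupp b hb) with rfl | hb'
            · exact Or.inl (hle a ha)
            · exact z.1.isChain ha' hb' hab }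
    refine ⟨⟨y, hle⟩, Subtype.ext (BSp.ext (Finsupp.ext fun q => ?_))⟩
    show (1 - (s : ℝ)) * w q + (s : ℝ) * (vertex p).wt q = z.1.wt q
    rw [hw, ← mul_assoc, mul_inv_cancel₀ hpos.ne']
    ring
  top x y hx hy := Subtype.ext
    ((eq_vertex_of_wt x.1 (congrArg Subtype.val hx)).trans
      (eq_vertex_of_wt y.1 (congrArg Subtype.val hy)).symm)

theorem maxV_lt_of_mem_bdry {p : Chain T} {z : Below p} (h : z ∈ (belowCone p).bdry) :
    z.1.maxV < p :=
  lt_of_le_of_ne (maxV_le z) fun e => by
    have h0 : z.1.wt p = 0 := congrArg Subtype.val (show (belowCone p).c z = 0 from h)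
    exact Finsupp.mem_support_iff.1 (maxV_mem z.1) ((congrArg z.1.wt e).trans h0)

theorem map_mem_below {T' : Type} [SmallCategory T'] (F : T ⥤ T') {p : Chain T} (z : Below p) :
    ∀ q ∈ (map F z.1).wt.support, q ≤ p.map F := by
  classical
  intro q hq
  obtain ⟨r, hr, rfl⟩ := Finset.mem_image.1 (Finsupp.mapDomain_support hq)
  exact Chain.map_mono F (z.2 r hr)

/-- Functoriality of the simplices below chains. -/
def belowMap {T' : Type} [SmallCategory T'] (F : T ⥤ T') (p : Chain T) :
    C(Below p, Below (p.map F)) :=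
  ⟨fun z => ⟨map F z.1, map_mem_below F z⟩,
    ((map F).continuous.comp continuous_subtype_val).subtype_mk _⟩

end BSp

open BSp

/-- Data for constructing maps simplex by simplex. -/
structure FlagData (T : Type) [SmallCategory T] {J : Type} [TopologicalSpace J]
    (K : ConeCoords J) : Type (u + 1) where
  Z : T → Type u
  top : ∀ a, TopologicalSpace (Z a)
  m : ∀ {a b : T}, (a ⟶ b) → C(Z a, Z b)
  m_id : ∀ a x, m (𝟙 a) x = x
  m_comp : ∀ {a b c : T} (f : a ⟶ b) (g : b ⟶ c) x, m (f ≫ g) x = m g (m f x)
  bd : ∀ p : Chain T, C(Below p × K.bdry, Z p.top)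
  bd_compat : ∀ {q p : Chain T} (h : q ≤ p) (z : Below q) (t : K.bdry),
    m (Chain.topHom h) (bd q (z, t)) = bd p (belowIncl h z, t)
  null : ∀ (a : T) (A : Type) [TopologicalSpace A] [CompactSpace A] (f : C(A, Z a)),
    ∃ z, f.Homotopic (ContinuousMap.const A z)

attribute [instance] FlagData.top

namespace FlagData

variable {J : Type} [TopologicalSpace J] [CompactSpace J] [T2Space J] {K : ConeCoords J}
  (D : FlagData.{u} T K)

theorem nonempty_Z (a : T) : Nonempty (D.Z a) := by
  obtain ⟨z, -⟩ := D.null a Empty ⟨fun e => e.elim, by continuity⟩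
  exact ⟨z⟩

/-- The conditions on the map of one simplex, given the lower ones. -/
def Spec (p : Chain T) (prev : ∀ q, q < p → C(Below q × J, D.Z q.top))
    (F : C(Below p × J, D.Z p.top)) : Prop :=
  (∀ z (t : K.bdry), F (z, t.1) = D.bd p (z, t)) ∧
    ∀ q (h : q < p) (z : Below q) (t : J),
      F (belowIncl h.le z, t) = D.m (Chain.topHom h.le) (prev q h (z, t))

theorem exists_spec (p : Chain T) (prev : ∀ q, q < p → C(Below q × J, D.Z q.top))
    (hb : ∀ q h z (t : K.bdry), prev q h (z, t.1) = D.bd q (z, t))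
    (hc : ∀ q h r (h' : r < q) (z : Below r) (t : J),
      prev q h (belowIncl h'.le z, t) = D.m (Chain.topHom h'.le) (prev r (h'.trans h) (z, t))) :
    ∃ F, D.Spec p prev F := by
  classical
  set L := (belowCone p).prod K
  have hlt : ∀ x : L.bdry, x.1.2 ∉ K.bdry → x.1.1.1.maxV < p := fun x hx =>
    maxV_lt_of_mem_bdry (((ConeCoords.mem_bdry_prod _ _ x.1).1 x.2).resolve_right hx)
  let g : L.bdry → D.Z p.top := fun x =>
    if hx : x.1.2 ∈ K.bdry then D.bd p (x.1.1, ⟨x.1.2, hx⟩)
    else D.m (Chain.topHom (hlt x hx).le) (prev _ (hlt x hx) (x.1.1.1.toBelow, x.1.2))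
  have hg : ∀ (x : L.bdry) (q : Chain T) (h : q < p) (hz : ∀ r ∈ x.1.1.1.wt.support, r ≤ q),
      g x = D.m (Chain.topHom h.le) (prev q h (⟨x.1.1.1, hz⟩, x.1.2)) := by
    intro x q h hz
    show dite _ _ _ = _
    split_ifs with hx
    · rw [hb q h ⟨x.1.1.1, hz⟩ ⟨x.1.2, hx⟩, D.bd_compat]
      rfl
    · rcases eq_or_lt_of_le (hz _ (maxV_mem x.1.1.1)) with e | e
      · subst e; rfl
      · have := hc q h _ e x.1.1.1.toBelow x.1.2
        rw [show (⟨x.1.1.1, hz⟩ : Below q) = belowIncl e.le x.1.1.1.toBelow from Subtype.ext rfl,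
          this, ← D.m_comp, Chain.topHom_comp]
  have hcont : Continuous g := by
    have : Finite {q : Chain T // q < p} :=
      ((Chain.finite_lower p).subset fun q (h : q < p) => h.le).to_subtype
    let A : Option {q : Chain T // q < p} → Set L.bdry := fun o =>
      o.elim {x | x.1.2 ∈ K.bdry} fun q => {x | ∀ r ∈ x.1.1.1.wt.support, r ≤ q.1}
    refine (locallyFinite_of_finite A).continuous ?_ ?_ ?_
    · refine Set.eq_univ_of_forall fun x => Set.mem_iUnion.2 ?_
      by_cases hx : x.1.2 ∈ K.bdry
      · exact ⟨none, hx⟩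
      · exact ⟨some ⟨_, hlt x hx⟩, fun r hr => x.1.1.1.le_maxV hr⟩
    · rintro (_ | q)
      · exact K.isClosed_bdry.preimage (continuous_snd.comp continuous_subtype_val)
      · exact (isClosed_supp_le q.1).preimage (continuous_subtype_val.comp
          (continuous_fst.comp continuous_subtype_val))
    · rintro (_ | q) <;> rw [continuousOn_iff_continuous_domRestrict]
      · have e : (A none).domRestrict g =
            fun x : A none => D.bd p (x.1.1.1, ⟨x.1.1.2, x.2⟩) := funext fun x => dif_pos x.2
        rw [e]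
        exact (D.bd p).continuous.comp
          (((continuous_fst.comp continuous_subtype_val).comp continuous_subtype_val).prodMk
            (((continuous_snd.comp continuous_subtype_val).comp continuous_subtype_val).subtype_mk _))
      · have e : (A (some q)).domRestrict g = fun x : A (some q) =>
            D.m (Chain.topHom q.2.le) (prev q.1 q.2 (⟨x.1.1.1.1, x.2⟩, x.1.1.2)) :=
          funext fun x => hg x.1 q.1 q.2 x.2
        rw [e]
        exact (D.m _).continuous.comp ((prev q.1 q.2).continuous.comp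
          (((continuous_subtype_val.comp (continuous_fst.comp continuous_subtype_val)).comp
            continuous_subtype_val).subtype_mk _ |>.prodMk
            ((continuous_snd.comp continuous_subtype_val).comp continuous_subtype_val)))
  have : CompactSpace L.bdry := isCompact_iff_compactSpace.1 L.isClosed_bdry.isCompact
  have := D.nonempty_Z p.top
  obtain ⟨F, hF⟩ := L.extend ⟨g, hcont⟩ (D.null _ _ _)
  refine ⟨F, fun z t => ?_, fun q h z t => ?_⟩
  · have hm : (z, t.1) ∈ L.bdry := (ConeCoords.mem_bdry_prod _ _ _).2 (Or.inr t.2)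
    exact (hF ⟨_, hm⟩).trans (dif_pos t.2)
  · have hm : (belowIncl h.le z, t) ∈ L.bdry := by
      refine (ConeCoords.mem_bdry_prod _ _ _).2 (Or.inl ?_)
      show (belowCone p).c _ = 0
      refine Subtype.ext ?_
      show z.1.wt p = 0
      exact Finsupp.notMem_support_iff.1 fun hp => absurd (z.2 p hp) h.not_ge
    exact (hF ⟨_, hm⟩).trans (hg ⟨_, hm⟩ q h z.2)

open scoped Classical in
/-- One step of the recursion. -/
def step (p : Chain T) (prev : ∀ q, q < p → C(Below q × J, D.Z q.top)) :
    C(Below p × J, D.Z p.top) :=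
  if h : ∃ F, D.Spec p prev F then h.choose
  else ContinuousMap.const _ (D.nonempty_Z p.top).some

theorem chain_wf : WellFounded ((· < ·) : Chain T → Chain T → Prop) :=
  Subrelation.wf (r := InvImage (· < ·) fun p : Chain T => p.levels.card)
    (fun h => Chain.card_lt_card h) (InvImage.wf _ wellFounded_lt)

/-- The maps on all simplices. -/
def Φ (p : Chain T) : C(Below p × J, D.Z p.top) :=
  chain_wf.fix (C := fun p => C(Below p × J, D.Z p.top)) D.step p

theorem Φ_spec (p : Chain T) : D.Spec p (fun q _ => D.Φ q) (D.Φ p) := by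
  induction p using chain_wf.induction with
  | _ p ih =>
    have hex : ∃ F, D.Spec p (fun q _ => D.Φ q) F :=
      D.exists_spec p _ (fun q h => (ih q h).1) fun q h r h' => (ih q h).2 r h'
    have e : D.Φ p = D.step p (fun q _ => D.Φ q) := WellFounded.fix_eq _ _ _
    rw [e, step, dif_pos hex]
    exact hex.choose_spec

attribute [irreducible] Φ

theorem Φ_bd (p : Chain T) (z : Below p) (t : K.bdry) : D.Φ p (z, t.1) = D.bd p (z, t) :=
  (D.Φ_spec p).1 z t

theorem Φ_incl {q p : Chain T} (h : q ≤ p) (z : Below q) (t : J) :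
    D.Φ p (belowIncl h z, t) = D.m (Chain.topHom h) (D.Φ q (z, t)) := by
  rcases eq_or_lt_of_le h with rfl | hlt
  · rw [Chain.topHom_refl, D.m_id]
    rfl
  · exact (D.Φ_spec p).2 q hlt z t

section Glob

variable {T' : Type} [SmallCategory T'] (sh : T' ⥤ T) {Y : Type*} [TopologicalSpace Y]
  (u : ∀ t : T', C(D.Z (sh.obj t), Y))
  (hu : ∀ {t t' : T'} (f : t ⟶ t') x, u t' (D.m (sh.map f) x) = u t x)

/-- The glued map, as a function. -/
def globFun (x : BSp T' × J) : Y :=
  u x.1.maxV.top (D.Φ (x.1.maxV.map sh) (belowMap sh _ x.1.toBelow, x.2))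

include hu in
theorem globFun_eq (z : BSp T') (p : Chain T') (hz : ∀ q ∈ z.wt.support, q ≤ p) (t : J) :
    D.globFun sh u (z, t) = u p.top (D.Φ (p.map sh) (belowMap sh p ⟨z, hz⟩, t)) := by
  have h : z.maxV ≤ p := hz _ (maxV_mem z)
  have e := D.Φ_incl (Chain.map_mono sh h) (belowMap sh _ z.toBelow) t
  rw [Chain.topHom_map] at e
  refine Eq.trans ?_ (congrArg (u p.top) e).symm
  exact (hu (Chain.topHom h) _).symm

/-- The glued map. -/
def glob : C(BSp T' × J, Y) where
  toFun := D.globFun sh u
  continuous_toFun := by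
    rw [continuous_prod_iff]
    intro s hs
    rcases s.eq_empty_or_nonempty with rfl | hne
    · have : IsEmpty (stdSimplex ℝ ↥(∅ : Finset (Chain T'))) :=
        ⟨fun w => by simpa using w.2.2⟩
      exact continuous_of_discreteTopology
    · obtain ⟨p, -, hmax⟩ := Chain.exists_max_of_isChain hs hne
      have hsub : ∀ w, ∀ q ∈ (mkOn s hs w).wt.support, q ≤ p :=
        fun w q hq => hmax q (support_mkOn_subset s hs w hq)
      let A : C(stdSimplex ℝ s × J, Below p) :=
        ⟨fun q => ⟨mkOn s hs q.1, hsub q.1⟩,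
          Continuous.subtype_mk ((continuous_mkOn s hs).comp continuous_fst) _⟩
      let B : C(stdSimplex ℝ s × J, Below (p.map sh) × J) :=
        ((belowMap sh p).comp A).prodMk ContinuousMap.snd
      refine ((u p.top).comp ((D.Φ (p.map sh)).comp B)).continuous.congr fun q => ?_
      exact (D.globFun_eq sh u hu _ p (hsub q.1) q.2).symm

theorem glob_eq (z : BSp T') (p : Chain T') (hz : ∀ q ∈ z.wt.support, q ≤ p) (t : J) :
    D.glob sh u hu (z, t) = u p.top (D.Φ (p.map sh) (belowMap sh p ⟨z, hz⟩, t)) :=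
  D.globFun_eq sh u hu z p hz t

theorem glob_bd (z : BSp T') (t : K.bdry) :
    D.glob sh u hu (z, t.1) =
      u z.maxV.top (D.bd (z.maxV.map sh) (belowMap sh _ z.toBelow, t)) :=
  congrArg (u z.maxV.top) (D.Φ_bd _ _ t)

theorem glob_comp {Y' : Type*} [TopologicalSpace Y'] (f : C(Y, Y'))
    (u' : ∀ t : T', C(D.Z (sh.obj t), Y'))
    (hu' : ∀ {t t' : T'} (g : t ⟶ t') x, u' t' (D.m (sh.map g) x) = u' t x)
    (h : ∀ t x, u' t x = f (u t x)) (z : BSp T') (t : J) :
    D.glob sh u' hu' (z, t) = f (D.glob sh u hu (z, t)) :=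
  h _ _

theorem glob_map {T'' : Type} [SmallCategory T''] (F : T'' ⥤ T')
    (u' : ∀ t : T'', C(D.Z ((F ⋙ sh).obj t), Y))
    (hu' : ∀ {t t' : T''} (g : t ⟶ t') x, u' t' (D.m ((F ⋙ sh).map g) x) = u' t x)
    (h : ∀ t x, u' t x = u (F.obj t) x) (z : BSp T'') (t : J) :
    D.glob sh u hu (BSp.map F z, t) = D.glob (F ⋙ sh) u' hu' (z, t) := by
  rw [D.glob_eq sh u hu (BSp.map F z) (z.maxV.map F) (map_mem_below F z.toBelow) t]
  refine Eq.trans ?_ (h _ _).symm
  have hz : BSp.map sh (BSp.map F z) = BSp.map (F ⋙ sh) z := by rw [BSp.map_comp]; rfl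
  exact congrArg (fun w => u (F.obj z.maxV.top) (D.Φ ((z.maxV.map F).map sh) (w, t)))
    (Subtype.ext hz)

end Glob

end FlagData

end Vale.Agent.P259
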