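import Vale.Agent.P259.DiscFunctor

/-!
# P259: the fundamental groupoid of an arbitrary space
-/

noncomputable section

open CategoryTheory Opposite
open scoped unitInterval

namespace Vale.Agent.P259

variable (C : Coherator)

/-- The continuous map of realisations given by a map of the coherator. -/
abbrev Coherator.realMap {R S : GSum} (f : C.ext.Hom R S) : C(R.space, S.space) :=
  C.toTopExt.map f

theorem Coherator.realMap_src (n : ℕ) : C.realMap (C.ext.src n) = low n := C.toTopExt.map_src n

theorem Coherator.realMap_tgt (n : ℕ) : C.realMap (C.ext.tgt n) = high n := C.toTopExt.map_tgt n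

theorem Coherator.realMap_id (S : GSum) : C.realMap (C.ext.id S) = ContinuousMap.id _ :=
  C.toTopExt.map_id S

theorem Coherator.realMap_comp {R S T : GSum} (f : C.ext.Hom R S) (g : C.ext.Hom S T) :
    C.realMap (C.ext.comp f g) = (C.realMap g).comp (C.realMap f) :=
  C.toTopExt.map_comp f g

theorem Coherator.realMap_inl (S : GSum) (j i : ℕ) (hS : j < S.last) (hi : j < i) :
    C.realMap (C.ext.inl S j i hS hi) = S.real.inX hS hi :=
  C.toTopExt.map_inl S j i hS hi

theorem Coherator.realMap_inr (S : GSum) (j i : ℕ) (hS : j < S.last) (hi : j < i) :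
    C.realMap (C.ext.inr S j i hS hi) = S.real.inD hS hi :=
  C.toTopExt.map_inr S j i hS hi

theorem Coherator.realMap_srcIter {j i : ℕ} (h : j ≤ i) :
    C.realMap (C.ext.srcIter h) = lowIter h :=
  (C.toTopExt.map_srcIter h).trans (topPre_srcIter h)

theorem Coherator.realMap_glueMap (S : GSum) {j : ℕ} (hS : j < S.last) :
    C.realMap (C.ext.glueMap S hS) = S.real.glue hS :=
  (C.toTopExt.map_glueMap S hS).trans (topPre_glueMap S hS)

variable (Z : Type) [TopologicalSpace Z]

/-- The presheaf `C(D -, Z)`. -/
def Coherator.piTopPresheaf : C.ext.Objᵒᵖ ⥤ Type where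
  obj R := C(R.unop.sum.space, Z)
  map f := TypeCat.ofHom fun a => a.comp (C.realMap f.unop)
  map_id R := by
    refine ConcreteCategory.hom_ext _ _ fun a => ?_
    show (a : C(R.unop.sum.space, Z)).comp (C.realMap (C.ext.id R.unop.sum)) = a
    rw [C.realMap_id]
    rfl
  map_comp {R S T} f g := by
    refine ConcreteCategory.hom_ext _ _ fun a => ?_
    show (a : C(R.unop.sum.space, Z)).comp (C.realMap (C.ext.comp g.unop f.unop)) = _
    rw [C.realMap_comp]
    rfl

theorem Coherator.piTopPresheaf_act {R S : GSum} (f : C.ext.Hom R S) (a : C(S.space, Z)) :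
    act (C.piTopPresheaf Z) f a = a.comp (C.realMap f) := rfl

theorem Coherator.piTopPresheaf_model : IsGroupoidModel C.ext (C.piTopPresheaf Z) := by
  intro S j i hS hi a b h
  have h' : (a : C(S.space, Z)).comp (S.real.glue hS) = (b : C(Disc i, Z)).comp (lowIter hi.le) :=
    (congrArg (fun m => ContinuousMap.comp (a : C(S.space, Z)) m) (C.realMap_glueMap S hS)).symm.trans
      (h.trans (congrArg (fun m => ContinuousMap.comp (b : C(Disc i, Z)) m) (C.realMap_srcIter hi.le)))
  obtain ⟨w, ⟨h1, h2⟩, huniq⟩ := S.real.glued_univ hS hi (a : C(S.space, Z))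
    (b : C(Disc i, Z)) h'
  refine ⟨w, ⟨?_, ?_⟩, fun c hc => huniq c ⟨?_, ?_⟩⟩
  · exact (congrArg (fun m => ContinuousMap.comp w m) (C.realMap_inl S j i hS hi)).trans h1
  · exact (congrArg (fun m => ContinuousMap.comp w m) (C.realMap_inr S j i hS hi)).trans h2
  · exact (congrArg (fun m => ContinuousMap.comp c m) (C.realMap_inl S j i hS hi)).symm.trans hc.1
  · exact (congrArg (fun m => ContinuousMap.comp c m) (C.realMap_inr S j i hS hi)).symm.trans hc.2

/-- The fundamental groupoid of a space, not necessarily compactly generated. -/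
def Coherator.piTop : C.Gpd := ⟨C.piTopPresheaf Z, C.piTopPresheaf_model Z⟩

/-- A cell of the fundamental groupoid as a map of the disc. -/
abbrev Coherator.asMap {n : ℕ} (a : C.cells (C.piTop Z) n) : C(Disc n, Z) := a

theorem Coherator.piTop_src (n : ℕ) (a : C.cells (C.piTop Z) (n + 1)) :
    act (C.piTop Z).obj (C.ext.src n) a = (C.asMap Z a).comp (low n) :=
  congrArg (fun m => ContinuousMap.comp (C.asMap Z a) m) (C.realMap_src n)

theorem Coherator.piTop_tgt (n : ℕ) (a : C.cells (C.piTop Z) (n + 1)) :
    act (C.piTop Z).obj (C.ext.tgt n) a = (C.asMap Z a).comp (high n) :=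
  congrArg (fun m => ContinuousMap.comp (C.asMap Z a) m) (C.realMap_tgt n)

variable {Z} {W : Type} [TopologicalSpace W] {V : Type} [TopologicalSpace V]

/-- Functoriality of the fundamental groupoid. -/
def Coherator.piTopMap (f : C(Z, W)) : C.piTop Z ⟶ C.piTop W :=
  ObjectProperty.homMk
    { app := fun R => TypeCat.ofHom fun a => f.comp (a : C(R.unop.sum.space, Z))
      naturality := fun _ _ _ => rfl }

theorem Coherator.piTopMap_id : C.piTopMap (ContinuousMap.id Z) = 𝟙 _ := rfl

theorem Coherator.piTopMap_comp (f : C(Z, W)) (g : C(W, V)) :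
    C.piTopMap (g.comp f) = C.piTopMap f ≫ C.piTopMap g := rfl

/-- The fundamental groupoid as a functor on all spaces. -/
def Coherator.piTopFunctor : TopCat.{0} ⥤ C.Gpd where
  obj Y := C.piTop Y
  map f := C.piTopMap f.hom
  map_id _ := rfl
  map_comp _ _ := rfl

/-- On compactly generated spaces it agrees with the fundamental groupoid of the disc functor. -/
def Coherator.piInftyIso :
    C.discFunctor.piInfty ≅ CompactlyGenerated.compactlyGeneratedToTop.{0, 0} ⋙ C.piTopFunctor :=
  NatIso.ofComponents (fun Y => ObjectProperty.isoMk _ (NatIso.ofComponents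
    (fun R => Equiv.toIso
      { toFun := fun a => ConcreteCategory.hom a
        invFun := fun a => ConcreteCategory.ofHom a
        left_inv := fun _ => rfl
        right_inv := fun _ => rfl })
    (fun _ => rfl))) (fun _ => rfl)

end Vale.Agent.P259
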