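import Vale.Agent.P259.CompareEl
import Vale.Agent.P259.CompareFlag
import Vale.Agent.P259.DiscPi

/-!
# P259 (E1): the natural map from the classifying space of the fundamental groupoid to the space
-/

open CategoryTheory Opposite Topology
open scoped unitInterval

noncomputable section

namespace Vale.Agent.P259

namespace Coherator

variable (C : Coherator)

/-- The data defining `ε`. -/
def epsData : FlagData.{0} C.ext.Obj ConeCoords.point where
  Z a := a.sum.space
  top _ := inferInstance
  m f := C.realMap f
  m_id a x := ContinuousMap.congr_fun (C.realMap_id a.sum) x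
  m_comp f g x := ContinuousMap.congr_fun (C.realMap_comp f g) x
  bd p :=
    haveI : IsEmpty ConeCoords.point.bdry := ⟨fun t => by
      have h : (t : Unit) ∈ ConeCoords.point.bdry := t.2
      simp [ConeCoords.bdry_point] at h⟩
    ⟨fun x => isEmptyElim x.2, continuous_of_discreteTopology⟩
  bd_compat _ _ t := absurd t.2 (by simp [ConeCoords.bdry_point])
  null a A _ _ f := by
    obtain ⟨z, hz⟩ := id_nullhomotopic a.sum.space
    exact ⟨z, hz.comp (ContinuousMap.Homotopic.refl f)⟩

/-- The maps of the simplices into the realisations. -/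
def epsSimplex (p : Chain C.ext.Obj) : C(BSp.Below p, p.top.sum.space) :=
  (C.epsData.Φ p).comp ((ContinuousMap.id _).prodMk (ContinuousMap.const _ ()))

theorem epsSimplex_incl {q p : Chain C.ext.Obj} (h : q ≤ p) (z : BSp.Below q) :
    C.epsSimplex p (BSp.belowIncl h z) = C.realMap (Chain.topHom h) (C.epsSimplex q z) :=
  C.epsData.Φ_incl h z ()

variable {Y : Type} [TopologicalSpace Y]

/-- The elements of `piTop Y` as a cocone. -/
abbrev epsCocone (Y : Type) [TopologicalSpace Y] (t : El (C.piTop Y)) :
    C(t.sum.space, Y) := t.elt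

theorem epsCocone_spec {t t' : El (C.piTop Y)} (f : t ⟶ t') (x : t.sum.space) :
    C.epsCocone Y t' (C.realMap f.hom x) = C.epsCocone Y t x :=
  ContinuousMap.congr_fun f.act_eq x

/-- The natural map `B (el (Pi Y)) ⟶ Y`. -/
def eps (Y : Type) [TopologicalSpace Y] : C(C.BX (C.piTop Y), Y) :=
  (C.epsData.glob (El.forget (C.piTop Y)) (C.epsCocone Y) C.epsCocone_spec).comp
    ((ContinuousMap.id _).prodMk (ContinuousMap.const _ ()))

theorem eps_eq (z : C.BX (C.piTop Y)) (p : Chain (El (C.piTop Y)))
    (hz : ∀ q ∈ z.wt.support, q ≤ p) :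
    C.eps Y z = C.epsCocone Y p.top
      (C.epsSimplex (p.map (El.forget _)) (BSp.belowMap _ p ⟨z, hz⟩)) :=
  C.epsData.glob_eq (El.forget (C.piTop Y)) (C.epsCocone Y) C.epsCocone_spec z p hz ()

theorem eps_natural {W : Type} [TopologicalSpace W] (f : C(Y, W)) :
    (C.eps W).comp (C.bMap (C.piTopMap f)) = f.comp (C.eps Y) := by
  ext z
  show C.eps W (BSp.map (El.map (C.piTopMap f)) z) = f (C.eps Y z)
  refine (C.eps_eq _ (z.maxV.map (El.map (C.piTopMap f))) (BSp.map_mem_below _ z.toBelow)).trans ?_
  rw [C.eps_eq z z.maxV (fun q hq => z.le_maxV hq)]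
  have hz : BSp.map (El.forget (C.piTop W)) (BSp.map (El.map (C.piTopMap f)) z)
      = BSp.map (El.forget (C.piTop Y)) z := by
    rw [← ContinuousMap.comp_apply, ← BSp.map_comp]
    rfl
  exact congrArg (fun w => C.epsCocone W ((El.map (C.piTopMap f)).obj z.maxV.top)
    (C.epsSimplex ((z.maxV.map (El.map (C.piTopMap f))).map (El.forget _)) w)) (Subtype.ext hz)

/-- The comparison map of a representable with its realisation. -/
def epsRep (S : GSum) : C(C.WS S, S.space) :=
  (C.eps S.space).comp
    (C.jMap (C.piTop S.space) (S := S) (ContinuousMap.id S.space : C(S.space, S.space)))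

theorem eps_jMap {S : GSum} (a : C(S.space, Y)) :
    (C.eps Y).comp (C.jMap (C.piTop Y) (S := S) a) = a.comp (C.epsRep S) := by
  have h : (C.bMap (C.piTopMap a)).comp
      (C.jMap (C.piTop S.space) (S := S) (ContinuousMap.id S.space : C(S.space, S.space)))
      = C.jMap (C.piTop Y) (S := S) a :=
    C.jMap_natural (C.piTopMap a) _
  rw [← h, ← ContinuousMap.comp_assoc, C.eps_natural]
  rfl

theorem epsRep_natural {R S : GSum} (f : C.ext.Hom R S) :
    (C.epsRep S).comp (C.wMap f) = (C.realMap f).comp (C.epsRep R) := by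
  have h := C.jMap_act (C.piTop S.space) f (ContinuousMap.id S.space : C(S.space, S.space))
  rw [epsRep, ContinuousMap.comp_assoc, ← h]
  exact C.eps_jMap (C.realMap f)

end Coherator

end Vale.Agent.P259
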