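import Vale.Agent.P259.CompareEps
import Vale.Agent.P259.DiscLift

/-!
# P259 (E2): the two ends of the path object give homotopic maps after applying `eps`
-/

open CategoryTheory Opposite Topology
open scoped unitInterval

noncomputable section

namespace Vale.Agent.P259

variable {C : Coherator}

namespace PathData

variable (PD : PathData C)

/-- Degenerate cylinders on elements. -/
def degAt (X : C.Gpd) (S : GSum) (a : X.obj.obj (op ⟨S⟩)) : (PD.P.obj X).obj.obj (op ⟨S⟩) :=
  (C.barEquiv (PD.P.obj X) S).symm ((PD.deg X).bar S (toBar X.obj S a))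

theorem toBar_degAt (X : C.Gpd) (S : GSum) (a : X.obj.obj (op ⟨S⟩)) :
    toBar (PD.P.obj X).obj S (PD.degAt X S a) = (PD.deg X).bar S (toBar X.obj S a) :=
  (C.barEquiv (PD.P.obj X) S).apply_symm_apply _

theorem degAt_natural {X Y : C.Gpd} (φ : X ⟶ Y) (S : GSum) (a : X.obj.obj (op ⟨S⟩)) :
    C.mapAt (PD.P.map φ) S (PD.degAt X S a) = PD.degAt Y S (C.mapAt φ S a) := by
  apply (C.barEquiv (PD.P.obj Y) S).injective
  show toBar (PD.P.obj Y).obj S _ = toBar (PD.P.obj Y).obj S _
  rw [← toBar_natural, PD.toBar_degAt, PD.toBar_degAt, ← toBar_natural, ← GHom.bar_comp,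
    ← GHom.bar_comp]
  exact congrArg (fun g : GHom _ _ => g.bar S (toBar X.obj S a))
    (GHom.ext (funext fun n => funext fun b => PD.deg_natural φ n b))

theorem ev0_degAt (X : C.Gpd) (S : GSum) (a : X.obj.obj (op ⟨S⟩)) :
    C.mapAt (PD.ev0.app X) S (PD.degAt X S a) = a := by
  apply (C.barEquiv X S).injective
  show toBar X.obj S _ = toBar X.obj S a
  refine (toBar_natural _ S _).symm.trans ?_
  rw [PD.toBar_degAt, ← GHom.bar_comp]
  refine Eq.trans ?_ (GHom.bar_id S _)
  exact congrArg (fun g : GHom _ _ => g.bar S (toBar X.obj S a))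
    (GHom.ext (funext fun n => funext fun b => PD.ev0_deg X n b))

theorem ev0_natural {X Y : C.Gpd} (φ : X ⟶ Y) (S : GSum) (v : (PD.P.obj X).obj.obj (op ⟨S⟩)) :
    C.mapAt (PD.ev0.app Y) S (C.mapAt (PD.P.map φ) S v) = C.mapAt φ S (C.mapAt (PD.ev0.app X) S v) :=
  congrArg (fun ψ : PD.P.obj X ⟶ Y => C.mapAt ψ S v) (PD.ev0.naturality φ)

theorem ev1_natural {X Y : C.Gpd} (φ : X ⟶ Y) (S : GSum) (v : (PD.P.obj X).obj.obj (op ⟨S⟩)) :
    C.mapAt (PD.ev1.app Y) S (C.mapAt (PD.P.map φ) S v) = C.mapAt φ S (C.mapAt (PD.ev1.app X) S v) :=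
  congrArg (fun ψ : PD.P.obj X ⟶ Y => C.mapAt ψ S v) (PD.ev1.naturality φ)

theorem cylLift_congr {W X : C.Gpd} (π0 π1 : W ⟶ X) (L : PairLift π0 π1) (S : GSum)
    {y y' : W.obj.obj (op ⟨S⟩)} {z0 z0' z1 z1' : (PD.P.obj X).obj.obj (op ⟨S⟩)}
    (hy : y = y') (e0 : z0 = z0') (e1 : z1 = z1') (h0 h1 h0' h1') :
    PD.cylLift π0 π1 L S y z0 z1 h0 h1 = PD.cylLift π0 π1 L S y' z0' z1' h0' h1' := by
  subst hy e0 e1
  rfl

/-- The elements of paths in a space at a sum. -/
abbrev pathsAt (Y : TopCat.{0}) (S : GSum) : Type := (PD.P.obj (C.piTop Y)).obj.obj (op ⟨S⟩)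

/-- The start of an element of paths, as a map of spaces. -/
abbrev start (Y : TopCat.{0}) (S : GSum) (v : PD.pathsAt Y S) : C(S.space, Y) :=
  C.mapAt (PD.ev0.app (C.piTop Y)) S v

/-- The end of an element of paths, as a map of spaces. -/
abbrev finish (Y : TopCat.{0}) (S : GSum) (v : PD.pathsAt Y S) : C(S.space, Y) :=
  C.mapAt (PD.ev1.app (C.piTop Y)) S v

/-- Natural families of points indexed by the elements of paths. -/
def NatPt (S : GSum) : Type 1 :=
  {η : ∀ Y : TopCat.{0}, PD.pathsAt Y S → Y //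
    ∀ (Y W : TopCat.{0}) (f : C(Y, W)) (v : PD.pathsAt Y S),
      f (η Y v) = η W (C.mapAt (PD.P.map (C.piTopMap f)) S v)}

instance (S : GSum) : TopologicalSpace (PD.NatPt S) :=
  inferInstanceAs (TopologicalSpace {η : ∀ Y : TopCat.{0}, PD.pathsAt Y S → Y //
    ∀ (Y W : TopCat.{0}) (f : C(Y, W)) (v : PD.pathsAt Y S),
      f (η Y v) = η W (C.mapAt (PD.P.map (C.piTopMap f)) S v)})

theorem continuous_app (S : GSum) (Y : TopCat.{0}) (v : PD.pathsAt Y S) :
    Continuous fun η : PD.NatPt S => η.1 Y v :=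
  (continuous_apply v).comp ((continuous_apply Y).comp continuous_subtype_val)

theorem continuous_natPt {A : Type*} [TopologicalSpace A] {S : GSum} {g : A → PD.NatPt S}
    (h : ∀ Y v, Continuous fun a => (g a).1 Y v) : Continuous g :=
  continuous_induced_rng.2 (continuous_pi fun Y => continuous_pi fun v => h Y v)

/-- Precomposition with the operations. -/
def natPtMap {R S : GSum} (f : C.ext.Hom R S) : C(PD.NatPt R, PD.NatPt S) where
  toFun η := ⟨fun Y v => η.1 Y (act (PD.P.obj (C.piTop Y)).obj f v), fun Y W g v =>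
    (η.2 Y W g _).trans (congrArg (η.1 W) (act_natural _ f v))⟩
  continuous_toFun := PD.continuous_natPt fun _ _ => PD.continuous_app R _ _

/-- Evaluating the start of elements of paths at a point. -/
def startPt (S : GSum) : C(S.space, PD.NatPt S) where
  toFun s := ⟨fun Y v => PD.start Y S v s, fun _ _ g v =>
    (congrArg (fun a : C(S.space, _) => a s) (PD.ev0_natural (C.piTopMap g) S v)).symm⟩
  continuous_toFun := PD.continuous_natPt fun Y v => (PD.start Y S v).continuous

/-- Evaluating the end of elements of paths at a point. -/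
def finishPt (S : GSum) : C(S.space, PD.NatPt S) where
  toFun s := ⟨fun Y v => PD.finish Y S v s, fun _ _ g v =>
    (congrArg (fun a : C(S.space, _) => a s) (PD.ev1_natural (C.piTopMap g) S v)).symm⟩
  continuous_toFun := PD.continuous_natPt fun Y v => (PD.finish Y S v).continuous

theorem natPtMap_startPt {R S : GSum} (f : C.ext.Hom R S) (s : R.space) :
    PD.natPtMap f (PD.startPt R s) = PD.startPt S (C.realMap f s) :=
  Subtype.ext (funext fun Y => funext fun v =>
    congrArg (fun a : C(R.space, Y) => a s) (act_natural (PD.ev0.app (C.piTop Y)).hom f v))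

theorem natPtMap_finishPt {R S : GSum} (f : C.ext.Hom R S) (s : R.space) :
    PD.natPtMap f (PD.finishPt R s) = PD.finishPt S (C.realMap f s) :=
  Subtype.ext (funext fun Y => funext fun v =>
    congrArg (fun a : C(R.space, Y) => a s) (act_natural (PD.ev1.app (C.piTop Y)).hom f v))

/-- The constant path at the start, as an element. -/
abbrev constElt (Y : TopCat.{0}) (S : GSum) (v : PD.pathsAt Y S) :
    (C.piTop C(I, Y)).obj.obj (op ⟨S⟩) :=
  ((constPath Y).comp (PD.start Y S v) : C(S.space, C(I, Y)))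

/-- A path of elements from `v` to the degenerate element at its start. -/
def slideElt (Y : TopCat.{0}) (S : GSum) (v : PD.pathsAt Y S) :
    PD.pathsAt (TopCat.of C(I, Y)) S :=
  PD.cylLift (C.pathEv0 Y) (C.pathEv1 Y) (C.pathPairLift Y) S (PD.constElt Y S v) v
    (PD.degAt (C.piTop Y) S (PD.start Y S v)) rfl (PD.ev0_degAt _ _ _)

theorem slideElt_natural {Y W : TopCat.{0}} (f : C(Y, W)) (S : GSum) (v : PD.pathsAt Y S) :
    C.mapAt (PD.P.map (C.piTopMap (postPath f))) S (PD.slideElt Y S v)
      = PD.slideElt W S (C.mapAt (PD.P.map (C.piTopMap f)) S v) := by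
  have hs : PD.start W S (C.mapAt (PD.P.map (C.piTopMap f)) S v) = f.comp (PD.start Y S v) :=
    PD.ev0_natural (C.piTopMap f) S v
  refine (PD.cylLift_natural (C.pathPairLift Y) (C.pathPairLift W) (C.piTopMap (postPath f))
    (C.piTopMap f) (C.pathPairLift_commutes Y f) S _ _ _ rfl (PD.ev0_degAt _ _ _) ?_ ?_).trans
    (PD.cylLift_congr _ _ _ S ?_ rfl ?_ _ _ _ _)
  · exact hs.trans (ContinuousMap.ext fun _ => rfl)
  · rw [PD.degAt_natural, PD.ev0_degAt]
    exact ContinuousMap.ext fun _ => rfl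
  · show (postPath f).comp ((constPath Y).comp (PD.start Y S v))
      = (constPath W).comp (PD.start W S (C.mapAt (PD.P.map (C.piTopMap f)) S v))
    rw [hs]
    exact ContinuousMap.ext fun _ => ContinuousMap.ext fun _ => rfl
  · rw [PD.degAt_natural, hs]
    rfl

/-- The value at the degenerate element of the identity. -/
def degPt (S : GSum) : C(PD.NatPt S, S.space) :=
  ⟨fun η => η.1 (TopCat.of S.space)
    (PD.degAt (C.piTop S.space) S (ContinuousMap.id S.space : C(S.space, S.space))),
    PD.continuous_app S _ _⟩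

theorem app_degAt {S : GSum} (η : PD.NatPt S) (Y : TopCat.{0}) (a : C(S.space, Y)) :
    η.1 Y (PD.degAt (C.piTop Y) S a) = a (PD.degPt S η) := by
  refine Eq.trans (congrArg (η.1 Y) ?_) (η.2 (TopCat.of S.space) Y a _).symm
  exact (PD.degAt_natural (C.piTopMap a) S (ContinuousMap.id S.space : C(S.space, S.space))).symm

/-- Sliding natural families to those factoring through the start. -/
def slide (S : GSum) :
    (ContinuousMap.id (PD.NatPt S)).Homotopy ((PD.startPt S).comp (PD.degPt S)) where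
  toFun q := ⟨fun Y v => (q.2.1 (TopCat.of C(I, Y)) (PD.slideElt Y S v) : C(I, Y)) q.1,
    fun Y W f v => by
      refine (congrArg (fun γ : C(I, W) => γ q.1) (q.2.2 (TopCat.of C(I, Y)) (TopCat.of C(I, W))
        (postPath f) (PD.slideElt Y S v))).trans ?_
      exact congrArg (fun x => (q.2.1 (TopCat.of C(I, W)) x : C(I, W)) q.1)
        (PD.slideElt_natural f S v)⟩
  continuous_toFun := PD.continuous_natPt fun Y v =>
    (continuous_eval : Continuous fun p : C(I, Y) × I => p.1 p.2).comp
      (((PD.continuous_app S (TopCat.of C(I, Y)) (PD.slideElt Y S v)).comp continuous_snd).prodMk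
        continuous_fst)
  map_zero_left η := Subtype.ext (funext fun Y => funext fun v =>
    (η.2 (TopCat.of C(I, Y)) Y (evalAt Y 0) _).trans
      (congrArg (η.1 Y) (PD.cylLift_π0 _ _ _ _ _ _ _ _ _)))
  map_one_left η := Subtype.ext (funext fun Y => funext fun v =>
    ((η.2 (TopCat.of C(I, Y)) Y (evalAt Y 1) _).trans
      (congrArg (η.1 Y) (PD.cylLift_π1 _ _ _ _ _ _ _ _ _))).trans (PD.app_degAt η Y _))

theorem natPt_cptNull (S : GSum) (A : Type) [TopologicalSpace A] [CompactSpace A]
    (f : C(A, PD.NatPt S)) : ∃ z, f.Homotopic (ContinuousMap.const A z) := by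
  obtain ⟨z, hz⟩ := id_nullhomotopic S.space
  refine ⟨PD.startPt S z, ?_⟩
  have h1 := ContinuousMap.Homotopic.comp ⟨PD.slide S⟩ (ContinuousMap.Homotopic.refl f)
  have h2 := (ContinuousMap.Homotopic.refl (PD.startPt S)).comp
    (hz.comp (ContinuousMap.Homotopic.refl ((PD.degPt S).comp f)))
  exact h1.trans h2

open scoped Classical in
/-- The boundary values. -/
def evBdFun (p : Chain C.ext.Obj) (x : BSp.Below p × ConeCoords.interval.bdry) :
    PD.NatPt p.top.sum :=
  if (x.2 : I) = 0 then PD.startPt _ (C.epsSimplex p x.1) else PD.finishPt _ (C.epsSimplex p x.1)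

theorem continuous_evBdFun (p : Chain C.ext.Obj) : Continuous (PD.evBdFun p) := by
  classical
  let A : Bool → Set (BSp.Below p × ConeCoords.interval.bdry) := fun b =>
    match b with
    | false => {x | (x.2 : I) = 0}
    | true => {x | (x.2 : I) = 1}
  have h10 : (1 : I) ≠ 0 := fun e => one_ne_zero (congrArg Subtype.val e)
  refine (locallyFinite_of_finite A).continuous ?_ ?_ ?_
  · refine Set.eq_univ_of_forall fun x => Set.mem_iUnion.2 ?_
    rcases (ConeCoords.mem_bdry_interval _).1 x.2.2 with h | h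
    exacts [⟨false, h⟩, ⟨true, h⟩]
  · rintro (_ | _) <;>
      exact isClosed_eq (continuous_subtype_val.comp continuous_snd) continuous_const
  · rintro (_ | _)
    · refine ((PD.startPt _).continuous.comp
        ((C.epsSimplex p).continuous.comp continuous_fst)).continuousOn.congr fun x hx => ?_
      exact if_pos hx
    · refine ((PD.finishPt _).continuous.comp
        ((C.epsSimplex p).continuous.comp continuous_fst)).continuousOn.congr fun x hx => ?_
      exact if_neg fun e => h10 ((show (x.2 : I) = 1 from hx).symm.trans e)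

/-- The data defining the homotopy. -/
def evData : FlagData.{1} C.ext.Obj ConeCoords.interval where
  Z a := PD.NatPt a.sum
  top _ := inferInstance
  m f := PD.natPtMap f
  m_id a η := Subtype.ext (funext fun Y => funext fun v => congrArg (η.1 Y) (act_id _ v))
  m_comp f g η := Subtype.ext (funext fun Y => funext fun v =>
    congrArg (η.1 Y) (act_comp _ f g v))
  bd p := ⟨PD.evBdFun p, PD.continuous_evBdFun p⟩
  bd_compat {q p} h z t := by
    show PD.natPtMap (Chain.topHom h) (PD.evBdFun q (z, t))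
      = PD.evBdFun p (BSp.belowIncl h z, t)
    unfold evBdFun
    split_ifs with ht
    · exact (PD.natPtMap_startPt _ _).trans
        (congrArg (PD.startPt p.top.sum) (C.epsSimplex_incl h z).symm)
    · exact (PD.natPtMap_finishPt _ _).trans
        (congrArg (PD.finishPt p.top.sum) (C.epsSimplex_incl h z).symm)
  null a A _ _ f := PD.natPt_cptNull a.sum A f

variable (Y : Type) [TopologicalSpace Y]

/-- The cocone of the paths in `Y`. -/
def evCocone (t : El (PD.P.obj (C.piTop Y))) : C(PD.NatPt t.sum, Y) :=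
  ⟨fun η => η.1 (TopCat.of Y) t.elt, PD.continuous_app t.sum (TopCat.of Y) t.elt⟩

theorem evCocone_spec {t t' : El (PD.P.obj (C.piTop Y))} (f : t ⟶ t') (η : PD.NatPt t.sum) :
    PD.evCocone Y t' (PD.natPtMap f.hom η) = PD.evCocone Y t η :=
  congrArg (η.1 (TopCat.of Y)) f.act_eq

/-- The map realising the homotopy. -/
def evGlob : C(C.BX (PD.P.obj (C.piTop Y)) × I, Y) :=
  PD.evData.glob (El.forget _) (PD.evCocone Y) (PD.evCocone_spec Y)

theorem evGlob_zero (z : C.BX (PD.P.obj (C.piTop Y))) :
    PD.evGlob Y (z, 0) = C.eps Y (C.bMap (PD.ev0.app (C.piTop Y)) z) := by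
  have h0 : (0 : I) ∈ ConeCoords.interval.bdry := (ConeCoords.mem_bdry_interval _).2 (Or.inl rfl)
  refine (PD.evData.glob_bd (El.forget _) (PD.evCocone Y) (PD.evCocone_spec Y) z ⟨0, h0⟩).trans ?_
  refine Eq.trans ?_ (C.eps_eq (C.bMap (PD.ev0.app (C.piTop Y)) z)
    (z.maxV.map (El.map (PD.ev0.app (C.piTop Y)))) (BSp.map_mem_below _ z.toBelow)).symm
  show PD.evCocone Y z.maxV.top (PD.evBdFun (z.maxV.map (El.forget _))
    (BSp.belowMap (El.forget _) z.maxV z.toBelow, ⟨0, h0⟩)) = _
  rw [evBdFun, if_pos rfl]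
  have hz : BSp.map (El.forget _) (BSp.map (El.map (PD.ev0.app (C.piTop Y))) z)
      = BSp.map (El.forget (PD.P.obj (C.piTop Y))) z := by
    rw [← ContinuousMap.comp_apply, ← BSp.map_comp]
    rfl
  exact congrArg (fun w => PD.start (TopCat.of Y) z.maxV.top.sum z.maxV.top.elt
    (C.epsSimplex (z.maxV.map (El.forget _)) w)) (Subtype.ext hz.symm)

theorem evGlob_one (z : C.BX (PD.P.obj (C.piTop Y))) :
    PD.evGlob Y (z, 1) = C.eps Y (C.bMap (PD.ev1.app (C.piTop Y)) z) := by
  have h10 : (1 : I) ≠ 0 := fun e => one_ne_zero (congrArg Subtype.val e)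
  have h1 : (1 : I) ∈ ConeCoords.interval.bdry := (ConeCoords.mem_bdry_interval _).2 (Or.inr rfl)
  refine (PD.evData.glob_bd (El.forget _) (PD.evCocone Y) (PD.evCocone_spec Y) z ⟨1, h1⟩).trans ?_
  refine Eq.trans ?_ (C.eps_eq (C.bMap (PD.ev1.app (C.piTop Y)) z)
    (z.maxV.map (El.map (PD.ev1.app (C.piTop Y)))) (BSp.map_mem_below _ z.toBelow)).symm
  show PD.evCocone Y z.maxV.top (PD.evBdFun (z.maxV.map (El.forget _))
    (BSp.belowMap (El.forget _) z.maxV z.toBelow, ⟨1, h1⟩)) = _
  rw [evBdFun, if_neg h10]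
  have hz : BSp.map (El.forget _) (BSp.map (El.map (PD.ev1.app (C.piTop Y))) z)
      = BSp.map (El.forget (PD.P.obj (C.piTop Y))) z := by
    rw [← ContinuousMap.comp_apply, ← BSp.map_comp]
    rfl
  exact congrArg (fun w => PD.finish (TopCat.of Y) z.maxV.top.sum z.maxV.top.elt
    (C.epsSimplex (z.maxV.map (El.forget _)) w)) (Subtype.ext hz.symm)

/-- The two ends of the path object give homotopic maps. -/
theorem eps_ev_homotopic :
    ((C.eps Y).comp (C.bMap (PD.ev0.app (C.piTop Y)))).Homotopic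
      ((C.eps Y).comp (C.bMap (PD.ev1.app (C.piTop Y)))) :=
  ⟨{ toFun := fun q => PD.evGlob Y (q.2, q.1)
     continuous_toFun := (PD.evGlob Y).continuous.comp (continuous_snd.prodMk continuous_fst)
     map_zero_left := fun z => PD.evGlob_zero Y z
     map_one_left := fun z => PD.evGlob_one Y z }⟩

end PathData

end Vale.Agent.P259
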