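import Vale.Agent.P259.CompareCyl

/-!
# P259 (E4): the resolution `X'` with its maps to `X` and to the fundamental groupoid of `B X`
-/

open CategoryTheory Opposite Topology
open scoped unitInterval

noncomputable section

namespace Vale.Agent.P259

section Retraction

variable {Z : Type} [TopologicalSpace Z] {n : ℕ}

/-- A map given on the side and on the upper end of a cylinder over a disc extends. -/
theorem exists_side_top (φ : C({v : Disc (n + 1) // ‖(v : EuclideanSpace ℝ (Fin (n + 1)))‖ = 1},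
      C(I, Z))) (f1 : C(Disc (n + 1), Z))
    (h1 : ∀ (v : Disc (n + 1)) (hv : ‖(v : EuclideanSpace ℝ (Fin (n + 1)))‖ = 1),
      φ ⟨v, hv⟩ 1 = f1 v) :
    ∃ K : C(Disc (n + 1), C(I, Z)),
      (∀ (v : Disc (n + 1)) (hv : ‖(v : EuclideanSpace ℝ (Fin (n + 1)))‖ = 1), K v = φ ⟨v, hv⟩) ∧
        ∀ v, K v 1 = f1 v := by
  classical
  let den : Disc (n + 1) × I → ℝ := fun q =>
    max (1 + (q.2 : ℝ)) (2 * ‖(q.1 : EuclideanSpace ℝ (Fin (n + 1)))‖)
  have hden : ∀ q, 1 ≤ den q := fun q => le_max_of_le_left (by linarith [q.2.2.1])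
  have hdenc : Continuous den := by fun_prop
  have hmem : ∀ q : Disc (n + 1) × I,
      ‖(2 / den q) • (q.1 : EuclideanSpace ℝ (Fin (n + 1)))‖
        = 2 * ‖(q.1 : EuclideanSpace ℝ (Fin (n + 1)))‖ / den q := fun q => by
    have h0 : (0 : ℝ) ≤ 2 / den q := div_nonneg zero_le_two (zero_le_one.trans (hden q))
    rw [norm_smul, Real.norm_eq_abs, abs_of_nonneg h0]
    ring
  let w : C(Disc (n + 1) × I, Disc (n + 1)) :=
    ⟨fun q => ⟨(2 / den q) • (q.1 : EuclideanSpace ℝ (Fin (n + 1))), by
      rw [mem_closedBall_zero_iff, hmem, div_le_one (by linarith [hden q])]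
      exact le_max_right _ _⟩,
    continuous_induced_rng.2 (((continuous_const (y := (2 : ℝ))).div hdenc
      fun q => (zero_lt_one.trans_le (hden q)).ne').smul
      (continuous_subtype_val.comp continuous_fst))⟩
  let τ : C(Disc (n + 1) × I, I) :=
    ⟨fun q => Set.projIcc (0 : ℝ) 1 zero_le_one
      ((1 + (q.2 : ℝ)) / max ‖(q.1 : EuclideanSpace ℝ (Fin (n + 1)))‖ (1 / 2) - 1),
    continuous_projIcc.comp ((Continuous.div (by fun_prop) (by fun_prop) fun q =>
      (lt_max_of_lt_right (by norm_num : (0 : ℝ) < 1 / 2)).ne').sub continuous_const)⟩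
  let G : Disc (n + 1) × I → Z := fun q =>
    if h : ‖(w q : EuclideanSpace ℝ (Fin (n + 1)))‖ = 1 then φ ⟨w q, h⟩ (τ q) else f1 (w q)
  let A : Bool → Set (Disc (n + 1) × I) := fun b =>
    match b with
    | false => {q | 2 * ‖(q.1 : EuclideanSpace ℝ (Fin (n + 1)))‖ ≤ 1 + (q.2 : ℝ)}
    | true => {q | 1 + (q.2 : ℝ) ≤ 2 * ‖(q.1 : EuclideanSpace ℝ (Fin (n + 1)))‖}
  have hA : ∀ q ∈ A false, G q = f1 (w q) := by
    intro q (hq : 2 * ‖(q.1 : EuclideanSpace ℝ (Fin (n + 1)))‖ ≤ 1 + (q.2 : ℝ))
    show dite _ _ _ = _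
    split_ifs with h
    · have e : den q = 1 + (q.2 : ℝ) := max_eq_left hq
      have h' : 2 * ‖(q.1 : EuclideanSpace ℝ (Fin (n + 1)))‖ / den q = 1 := (hmem q).symm.trans h
      have hpos : (0 : ℝ) < 1 + (q.2 : ℝ) := by linarith [q.2.2.1]
      rw [e, div_eq_one_iff_eq hpos.ne'] at h'
      have hρ : (1 / 2 : ℝ) ≤ ‖(q.1 : EuclideanSpace ℝ (Fin (n + 1)))‖ := by linarith [q.2.2.1]
      have hτ : τ q = 1 := by
        refine Set.projIcc_of_right_le zero_le_one ?_
        have hρ0 : ‖(q.1 : EuclideanSpace ℝ (Fin (n + 1)))‖ ≠ 0 := by linarith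
        rw [max_eq_left hρ, ← h', mul_div_assoc, div_self hρ0, mul_one]
        norm_num
      rw [hτ, h1]
    · rfl
  have hB : ∀ q, q ∈ A true → ‖(w q : EuclideanSpace ℝ (Fin (n + 1)))‖ = 1 := by
    intro q (hq : 1 + (q.2 : ℝ) ≤ 2 * ‖(q.1 : EuclideanSpace ℝ (Fin (n + 1)))‖)
    refine (hmem q).trans ?_
    rw [show den q = 2 * ‖(q.1 : EuclideanSpace ℝ (Fin (n + 1)))‖ from max_eq_right hq,
      div_self (by linarith [q.2.2.1])]
  have hc : Continuous G := by
    refine (locallyFinite_of_finite A).continuous ?_ ?_ ?_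
    · refine Set.eq_univ_of_forall fun q => Set.mem_iUnion.2 ?_
      rcases le_total (2 * ‖(q.1 : EuclideanSpace ℝ (Fin (n + 1)))‖) (1 + (q.2 : ℝ)) with h | h
      exacts [⟨false, h⟩, ⟨true, h⟩]
    · rintro (_ | _) <;> exact isClosed_le (by fun_prop) (by fun_prop)
    · rintro (_ | _) <;> rw [continuousOn_iff_continuous_domRestrict]
      · have e : (A false).domRestrict G = fun q : A false => f1 (w q.1) :=
          funext fun q => hA q.1 q.2
        rw [e]
        exact f1.continuous.comp (w.continuous.comp continuous_subtype_val)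
      · have e : (A true).domRestrict G = fun q : A true => φ ⟨w q.1, hB q.1 q.2⟩ (τ q.1) :=
          funext fun q => dif_pos (hB q.1 q.2)
        rw [e]
        exact continuous_eval.comp ((φ.continuous.comp
          ((w.continuous.comp continuous_subtype_val).subtype_mk _)).prodMk
          (τ.continuous.comp continuous_subtype_val))
  refine ⟨(⟨G, hc⟩ : C(Disc (n + 1) × I, Z)).curry, fun v hv => ContinuousMap.ext fun t => ?_,
    fun v => ?_⟩
  · show G (v, t) = φ ⟨v, hv⟩ t
    have hBv : (v, t) ∈ A true := by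
      show 1 + (t : ℝ) ≤ 2 * ‖(v : EuclideanSpace ℝ (Fin (n + 1)))‖
      rw [hv]; linarith [t.2.2]
    have ew : w (v, t) = v := by
      refine Subtype.ext ?_
      show (2 / max (1 + (t : ℝ)) (2 * ‖(v : EuclideanSpace ℝ (Fin (n + 1)))‖)) •
        (v : EuclideanSpace ℝ (Fin (n + 1))) = _
      rw [hv, max_eq_right (by linarith [t.2.2]), mul_one, div_self two_ne_zero, one_smul]
    have eτ : τ (v, t) = t := by
      show Set.projIcc (0 : ℝ) 1 zero_le_one ((1 + (t : ℝ)) / max ‖(v : EuclideanSpace ℝ (Fin (n + 1)))‖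
        (1 / 2) - 1) = t
      rw [hv, max_eq_left (by norm_num), div_one, add_sub_cancel_left, Set.projIcc_of_mem _ t.2]
    refine (dif_pos (hB _ hBv)).trans ?_
    rw [eτ]
    exact congrArg (fun u => φ u t) (Subtype.ext ew)
  · show G (v, 1) = f1 v
    have hAv : (v, (1 : I)) ∈ A false := by
      show 2 * ‖(v : EuclideanSpace ℝ (Fin (n + 1)))‖ ≤ 1 + ((1 : I) : ℝ)
      have := norm_le_one v
      norm_num
      linarith
    refine (hA _ hAv).trans (congrArg f1 (Subtype.ext ?_))
    show (2 / max (1 + ((1 : I) : ℝ)) (2 * ‖(v : EuclideanSpace ℝ (Fin (n + 1)))‖)) •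
      (v : EuclideanSpace ℝ (Fin (n + 1))) = _
    have e : max (1 + ((1 : I) : ℝ)) (2 * ‖(v : EuclideanSpace ℝ (Fin (n + 1)))‖) = 2 := by
      have := norm_le_one v
      norm_num
      linarith
    rw [e, div_self two_ne_zero, one_smul]

end Retraction

namespace Coherator

variable (C : Coherator)

/-- An element of the resolution: an element of `X` with a path to its comparison map. -/
@[ext]
structure ResElt (X : C.Gpd) (S : GSum) : Type where
  elt : X.obj.obj (op ⟨S⟩)
  path : C(S.space, C(I, C.BX X))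
  path_one : ∀ p, path p 1 = C.jMap X elt (C.gamma S p)

variable {C} {X Y : C.Gpd}

/-- The map out of the cylinder given by an element. -/
def ResElt.desc {S : GSum} (e : C.ResElt X S) : C(C.Cyl S, C.BX X) :=
  cylDesc e.path (C.jMap X e.elt) e.path_one

/-- The operations. -/
def ResElt.act {R S : GSum} (f : C.ext.Hom R S) (e : C.ResElt X S) : C.ResElt X R where
  elt := Vale.Agent.P259.act X.obj f e.elt
  path := (postPath e.desc).comp (C.theta f)
  path_one p := by
    show e.desc (C.theta f p 1) = _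
    rw [C.theta_one, C.jMap_act]
    rfl

theorem ResElt.desc_act {R S : GSum} (f : C.ext.Hom R S) (e : C.ResElt X S) :
    (e.act f).desc = e.desc.comp (C.cylAct f) := by
  refine cyl_ext (fun p t => rfl) fun w => ?_
  show C.jMap X (Vale.Agent.P259.act X.obj f e.elt) w = C.jMap X e.elt (C.wMap f w)
  rw [C.jMap_act]
  rfl

theorem ResElt.act_path {R S : GSum} (f : C.ext.Hom R S) (e : C.ResElt X S) (p : R.space)
    (p' : S.space) (h : ∀ t, C.theta f p t = C.inP S (p', t)) : (e.act f).path p = e.path p' :=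
  ContinuousMap.ext fun t => congrArg e.desc (h t)

theorem ResElt.act_id {S : GSum} (e : C.ResElt X S) : e.act (C.ext.id S) = e := by
  refine ResElt.ext (Vale.Agent.P259.act_id X.obj e.elt)
    (ContinuousMap.ext fun p => ResElt.act_path _ e p p fun t => ?_)
  rw [← C.cylAct_inP (C.ext.id S) p t, C.cylAct_id]
  rfl

theorem ResElt.act_comp {R S T : GSum} (f : C.ext.Hom R S) (g : C.ext.Hom S T)
    (e : C.ResElt X T) : e.act (C.ext.comp f g) = (e.act g).act f := by
  refine ResElt.ext (Vale.Agent.P259.act_comp X.obj f g e.elt)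
    (ContinuousMap.ext fun p => ContinuousMap.ext fun t => ?_)
  show e.desc (C.theta (C.ext.comp f g) p t) = (e.act g).desc (C.theta f p t)
  rw [ResElt.desc_act, ← C.cylAct_inP (C.ext.comp f g) p t, C.cylAct_comp]
  rfl

variable (C)

/-- The resolution as a presheaf. -/
def resPresheaf (X : C.Gpd) : C.ext.Objᵒᵖ ⥤ Type where
  obj R := C.ResElt X R.unop.sum
  map f := TypeCat.ofHom fun e => e.act f.unop
  map_id R := ConcreteCategory.hom_ext _ _ fun e => ResElt.act_id (e : C.ResElt X R.unop.sum)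
  map_comp {R S T} f g := ConcreteCategory.hom_ext _ _ fun e =>
    ResElt.act_comp g.unop f.unop (e : C.ResElt X R.unop.sum)

theorem resPresheaf_model (X : C.Gpd) : IsGroupoidModel C.ext (C.resPresheaf X) := by
  intro S j i hS hi a b h
  let a' : C.ResElt X S := a
  let b' : C.ResElt X (GSum.disc i) := b
  have he : Vale.Agent.P259.act X.obj (C.ext.glueMap S hS) a'.elt
      = Vale.Agent.P259.act X.obj (C.ext.srcIter hi.le) b'.elt := congrArg ResElt.elt h
  obtain ⟨c, ⟨hc1, hc2⟩, hcu⟩ := X.property S j i hS hi a'.elt b'.elt he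
  have hp : a'.path.comp (S.real.glue hS) = b'.path.comp (lowIter hi.le) := by
    refine ContinuousMap.ext fun q => ?_
    exact (ResElt.act_path (C.ext.glueMap S hS) a' q _ (C.theta_glueMap S hS q)).symm.trans
      ((congrArg (fun e : C.ResElt X (GSum.disc j) => e.path q) h).trans
        (ResElt.act_path (C.ext.srcIter hi.le) b' q _ (C.theta_srcIter hi.le q)))
  obtain ⟨W, ⟨hW1, hW2⟩, hWu⟩ := S.real.glued_univ hS hi a'.path b'.path hp
  have hone : (evalAt (C.BX X) 1).comp W
      = (C.jMap X c).comp (C.gamma (S.snoc j i hS hi)) := by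
    refine S.real.glued_hom_ext hS hi (ContinuousMap.ext fun x => ?_) (ContinuousMap.ext fun x => ?_)
    · refine (congrArg (fun k : C(I, C.BX X) => k 1) (ContinuousMap.congr_fun hW1 x)).trans
        ((a'.path_one x).trans ?_)
      rw [← hc1, C.jMap_act]
      exact congrArg (C.jMap X c) (ContinuousMap.congr_fun (C.gamma_inl S j i hS hi) x).symm
    · refine (congrArg (fun k : C(I, C.BX X) => k 1) (ContinuousMap.congr_fun hW2 x)).trans
        ((b'.path_one x).trans ?_)
      rw [← hc2, C.jMap_act]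
      exact congrArg (C.jMap X c) (ContinuousMap.congr_fun (C.gamma_inr S j i hS hi) x).symm
  let w : C.ResElt X (S.snoc j i hS hi) := ⟨c, W, ContinuousMap.congr_fun hone⟩
  refine ⟨w, ⟨?_, ?_⟩, fun d hd => ?_⟩
  · refine ResElt.ext hc1 (ContinuousMap.ext fun x => ?_)
    exact (ResElt.act_path (C.ext.inl S j i hS hi) w x _ (C.theta_inl S j i hS hi x)).trans
      (ContinuousMap.congr_fun hW1 x)
  · refine ResElt.ext hc2 (ContinuousMap.ext fun x => ?_)
    exact (ResElt.act_path (C.ext.inr S j i hS hi) w x _ (C.theta_inr S j i hS hi x)).trans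
      (ContinuousMap.congr_fun hW2 x)
  · let d' : C.ResElt X (S.snoc j i hS hi) := d
    refine ResElt.ext (hcu d'.elt ⟨congrArg ResElt.elt hd.1, congrArg ResElt.elt hd.2⟩)
      (hWu d'.path ⟨ContinuousMap.ext fun x => ?_, ContinuousMap.ext fun x => ?_⟩)
    · exact (ResElt.act_path (C.ext.inl S j i hS hi) d' x _ (C.theta_inl S j i hS hi x)).symm.trans
        (congrArg (fun e : C.ResElt X S => e.path x) hd.1)
    · exact (ResElt.act_path (C.ext.inr S j i hS hi) d' x _ (C.theta_inr S j i hS hi x)).symm.trans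
        (congrArg (fun e : C.ResElt X (GSum.disc i) => e.path x) hd.2)

/-- The resolution `X'`. -/
def res (X : C.Gpd) : C.Gpd := ⟨C.resPresheaf X, C.resPresheaf_model X⟩

/-- An element of the resolution. -/
abbrev asRes {X : C.Gpd} {S : GSum} (e : (C.res X).obj.obj (op ⟨S⟩)) : C.ResElt X S := e

theorem resMap_path_one {X Y : C.Gpd} (φ : X ⟶ Y) {S : GSum} (e : C.ResElt X S) (p : S.space) :
    (postPath (C.bMap φ)).comp e.path p 1
      = C.jMap Y (φ.hom.app (op ⟨S⟩) e.elt) (C.gamma S p) := by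
  show C.bMap φ (e.path p 1) = _
  rw [e.path_one, ← C.jMap_natural]
  rfl

/-- Functoriality of the resolution on elements. -/
def resMapElt {X Y : C.Gpd} (φ : X ⟶ Y) {S : GSum} (e : C.ResElt X S) : C.ResElt Y S where
  elt := φ.hom.app (op ⟨S⟩) e.elt
  path := (postPath (C.bMap φ)).comp e.path
  path_one := C.resMap_path_one φ e

theorem desc_resMapElt {X Y : C.Gpd} (φ : X ⟶ Y) {S : GSum} (e : C.ResElt X S) :
    (C.resMapElt φ e).desc = (C.bMap φ).comp e.desc := by
  refine cyl_ext (fun p t => rfl) fun w => ?_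
  show C.jMap Y (φ.hom.app (op ⟨S⟩) e.elt) w = C.bMap φ (C.jMap X e.elt w)
  rw [← C.jMap_natural]
  rfl

/-- Functoriality of the resolution. -/
def resMap {X Y : C.Gpd} (φ : X ⟶ Y) : C.res X ⟶ C.res Y :=
  ObjectProperty.homMk
    { app := fun R => TypeCat.ofHom fun e => C.resMapElt φ (e : C.ResElt X R.unop.sum)
      naturality := fun R S f => by
        refine ConcreteCategory.hom_ext _ _ fun e => ?_
        refine ResElt.ext (act_natural φ.hom f.unop (e : C.ResElt X R.unop.sum).elt)
          (ContinuousMap.ext fun p => ContinuousMap.ext fun t => ?_)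
        exact (ContinuousMap.congr_fun (C.desc_resMapElt φ (e : C.ResElt X R.unop.sum))
          (C.theta f.unop p t)).symm }

/-- The projection of the resolution. -/
def resQ (X : C.Gpd) : C.res X ⟶ X :=
  ObjectProperty.homMk
    { app := fun R => TypeCat.ofHom fun e => (e : C.ResElt X R.unop.sum).elt
      naturality := fun _ _ _ => rfl }

/-- The map of the resolution to the fundamental groupoid of the classifying space. -/
def resPhi (X : C.Gpd) : C.res X ⟶ C.piTop (C.BX X) :=
  ObjectProperty.homMk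
    { app := fun R => TypeCat.ofHom fun e =>
        ((evalAt (C.BX X) 0).comp (e : C.ResElt X R.unop.sum).path : C(R.unop.sum.space, C.BX X))
      naturality := fun R S f => by
        refine ConcreteCategory.hom_ext _ _ fun e => ContinuousMap.ext fun p => ?_
        show (e : C.ResElt X R.unop.sum).desc (C.theta f.unop p 0)
          = (e : C.ResElt X R.unop.sum).path (C.realMap f.unop p) 0
        rw [C.theta_zero]
        rfl }

theorem resQ_natural {X Y : C.Gpd} (φ : X ⟶ Y) : C.resMap φ ≫ C.resQ Y = C.resQ X ≫ φ := rfl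

theorem resPhi_natural {X Y : C.Gpd} (φ : X ⟶ Y) :
    C.resMap φ ≫ C.resPhi Y = C.resPhi X ≫ C.piTopMap (C.bMap φ) := rfl

/-- The paths of the resolution give a homotopy from `φ` to `ψ ∘ q`. -/
def resHomotopy (X : C.Gpd) : GHom (C.gs (C.res X)) (C.gs (C.piTop C(I, C.BX X))) where
  app n e := ((C.asRes (S := GSum.disc n) e).path : C(Disc n, C(I, C.BX X)))
  app_s n e := by
    refine (C.piTop_src C(I, C.BX X) n _).trans ?_
    exact ContinuousMap.ext fun p =>
      (ResElt.act_path (C.ext.src n) (C.asRes (S := GSum.disc (n + 1)) e) p _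
        (C.theta_src n p)).symm
  app_t n e := by
    refine (C.piTop_tgt C(I, C.BX X) n _).trans ?_
    exact ContinuousMap.ext fun p =>
      (ResElt.act_path (C.ext.tgt n) (C.asRes (S := GSum.disc (n + 1)) e) p _
        (C.theta_tgt n p)).symm

theorem resHomotopy_zero (X : C.Gpd) (n : ℕ) (e : C.cells (C.res X) n) :
    C.mapCell (C.pathEv0 (C.BX X)) n ((C.resHomotopy X).app n e) = C.mapCell (C.resPhi X) n e :=
  rfl

theorem resHomotopy_one (X : C.Gpd) (n : ℕ) (e : C.cells (C.res X) n) :
    C.mapCell (C.pathEv1 (C.BX X)) n ((C.resHomotopy X).app n e)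
      = (C.psi X).app n (C.mapCell (C.resQ X) n e) :=
  ContinuousMap.ext fun p => (C.asRes (S := GSum.disc n) e).path_one p

theorem resElt_boundary {n : ℕ} (a b : C.cells (C.res X) n) (hab : (C.gs (C.res X)).Par a b)
    (x : Disc n) (hx : ‖(x : EuclideanSpace ℝ (Fin n))‖ = 1) :
    (C.asRes (S := GSum.disc n) a).path x = (C.asRes (S := GSum.disc n) b).path x := by
  cases n with
  | zero => exact absurd hx (disc_zero_norm x)
  | succ m =>
    refine parallel_boundary (a := (C.asRes (S := GSum.disc (m + 1)) a).path)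
      (b := (C.asRes (S := GSum.disc (m + 1)) b).path) ?_ ?_ x hx
    · exact ContinuousMap.ext fun y =>
        (ResElt.act_path (C.ext.src m) (C.asRes (S := GSum.disc (m + 1)) a) y _
          (C.theta_src m y)).symm.trans
          ((congrArg (fun e : C.ResElt X (GSum.disc m) => e.path y) hab.1).trans
            (ResElt.act_path (C.ext.src m) (C.asRes (S := GSum.disc (m + 1)) b) y _
              (C.theta_src m y)))
    · exact ContinuousMap.ext fun y =>
        (ResElt.act_path (C.ext.tgt m) (C.asRes (S := GSum.disc (m + 1)) a) y _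
          (C.theta_tgt m y)).symm.trans
          ((congrArg (fun e : C.ResElt X (GSum.disc m) => e.path y) hab.2).trans
            (ResElt.act_path (C.ext.tgt m) (C.asRes (S := GSum.disc (m + 1)) b) y _
              (C.theta_tgt m y)))

theorem jMap_gamma_low {n : ℕ} (h : C.cells X (n + 1)) (x : Disc n) :
    C.jMap X h (C.gamma (GSum.disc (n + 1)) (low n x))
      = C.jMap X (Vale.Agent.P259.act X.obj (C.ext.src n) h) (C.gamma (GSum.disc n) x) := by
  rw [C.jMap_act]
  exact congrArg (C.jMap X h) (ContinuousMap.congr_fun (C.gammaDisc_low n) x)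

theorem jMap_gamma_high {n : ℕ} (h : C.cells X (n + 1)) (x : Disc n) :
    C.jMap X h (C.gamma (GSum.disc (n + 1)) (high n x))
      = C.jMap X (Vale.Agent.P259.act X.obj (C.ext.tgt n) h) (C.gamma (GSum.disc n) x) := by
  rw [C.jMap_act]
  exact congrArg (C.jMap X h) (ContinuousMap.congr_fun (C.gammaDisc_high n) x)

theorem exists_resFill {n : ℕ} (a b : C.ResElt X (GSum.disc n)) (h : C.cells X (n + 1))
    (hb : ∀ x : Disc n, ‖(x : EuclideanSpace ℝ (Fin n))‖ = 1 → a.path x = b.path x)
    (hs : Vale.Agent.P259.act X.obj (C.ext.src n) h = a.elt)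
    (ht : Vale.Agent.P259.act X.obj (C.ext.tgt n) h = b.elt) :
    ∃ K : C(Disc (n + 1), C(I, C.BX X)), (∀ x, K (low n x) = a.path x) ∧
      (∀ x, K (high n x) = b.path x) ∧
      ∀ v, K v 1 = C.jMap X h (C.gamma (GSum.disc (n + 1)) v) := by
  obtain ⟨φ, hφa, hφb⟩ := exists_sphere_map a.path b.path hb
  obtain ⟨K, hK, hK1⟩ := exists_side_top φ ((C.jMap X h).comp (C.gamma (GSum.disc (n + 1))))
    (fun v hv => by
      rcases le_total 0 ((v : EuclideanSpace ℝ (Fin (n + 1))) (Fin.last n)) with hl | hl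
      · obtain ⟨x, rfl⟩ : ∃ x, v = high n x := ⟨_, (sphere_cases v hv).1 hl⟩
        show φ ⟨high n x, hv⟩ 1 = C.jMap X h (C.gamma (GSum.disc (n + 1)) (high n x))
        rw [hφb x hv, C.jMap_gamma_high h x, ht]
        exact b.path_one x
      · obtain ⟨x, rfl⟩ : ∃ x, v = low n x := ⟨_, (sphere_cases v hv).2 hl⟩
        show φ ⟨low n x, hv⟩ 1 = C.jMap X h (C.gamma (GSum.disc (n + 1)) (low n x))
        rw [hφa x hv, C.jMap_gamma_low h x, hs]
        exact a.path_one x)
  refine ⟨K, fun x => ?_, fun x => ?_, hK1⟩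
  · have e : ‖((low n x : Disc (n + 1)) : EuclideanSpace ℝ (Fin (n + 1)))‖ = 1 :=
      norm_hemisphere x (by norm_num)
    exact (hK _ e).trans (hφa x e)
  · have e : ‖((high n x : Disc (n + 1)) : EuclideanSpace ℝ (Fin (n + 1)))‖ = 1 :=
      norm_hemisphere x (by norm_num)
    exact (hK _ e).trans (hφb x e)

theorem resQ_trivFib (X : C.Gpd) : IsTrivFib (C.resQ X) := by
  constructor
  · intro x
    exact ⟨(⟨x, (constPath (C.BX X)).comp ((C.jMap X x).comp (C.gamma (GSum.disc 0))),
      fun _ => rfl⟩ : C.ResElt X (GSum.disc 0)), rfl⟩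
  · intro n a b h hab hs ht
    obtain ⟨K, hl, hh, h1⟩ := C.exists_resFill (C.asRes (S := GSum.disc n) a)
      (C.asRes (S := GSum.disc n) b) h (C.resElt_boundary a b hab) hs ht
    let e : C.ResElt X (GSum.disc (n + 1)) := ⟨h, K, h1⟩
    refine ⟨e, ?_, ?_, rfl⟩
    · refine ResElt.ext hs (ContinuousMap.ext fun x => ?_)
      exact (ResElt.act_path (C.ext.src n) e x _ (C.theta_src n x)).trans (hl x)
    · refine ResElt.ext ht (ContinuousMap.ext fun x => ?_)
      exact (ResElt.act_path (C.ext.tgt n) e x _ (C.theta_tgt n x)).trans (hh x)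

end Coherator

end Vale.Agent.P259
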