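import Vale.Agent.P259.MainSurj
import Vale.Agent.P259.CompareEps
import Vale.Agent.P259.CompareResolve

/-!
# P259 (F): spheres in the paths starting at a point

The two evaluations of the path object induce homotopic maps on spheres of a dimension in which
classifying spaces of contractible groupoids are connected.  So the end points of a sphere of
paths starting at a fixed point extend over the cube.
-/

open CategoryTheory Opposite Set Topology
open scoped unitInterval

noncomputable section

namespace Vale.Agent.P259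

/-- The comparison of the resolution with the identity after `eps` (proved in module E). -/
def EpsResolve (C : Coherator) : Prop :=
  ∀ X : C.Gpd, ((C.eps (C.BX X)).comp (C.bMap (C.resPhi X))).Homotopic (C.bMap (C.resQ X))

/-- After `eps` the two evaluations are homotopic (proved in module E). -/
def EpsEvals {C : Coherator} (Pd : PathData C) : Prop :=
  ∀ (Y : Type) [TopologicalSpace Y],
    ((C.eps Y).comp (C.bMap (Pd.ev0.app (C.piTop Y)))).Homotopic
      ((C.eps Y).comp (C.bMap (Pd.ev1.app (C.piTop Y))))

variable {C : Coherator} (c : IdChoice C) (Pd : PathData C)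

/-- The boundary of a cube with the coordinates renamed. -/
def boundaryMap {α β : Type} (e : α ≃ β) : C(Cube.boundary α, Cube.boundary β) :=
  ⟨fun u => ⟨fun b => u.1 (e.symm b), by
    obtain ⟨i, hi⟩ := u.2
    exact ⟨e i, by simpa using hi⟩⟩,
    Continuous.subtype_mk (continuous_pi fun b =>
      ((continuous_apply (e.symm b)).comp continuous_subtype_val :
        Continuous fun u : Cube.boundary α => u.1 (e.symm b))) _⟩

theorem boundaryMap_symm {α β : Type} (e : α ≃ β) (u : Cube.boundary α) :
    boundaryMap e.symm (boundaryMap e u) = u :=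
  Subtype.ext (funext fun a => by simp [boundaryMap])

include Pd in
/-- The two evaluations of the path object induce homotopic maps on spheres. -/
theorem homotopic_evals (hsub : LiftSub) (hext : CubeExtOfPi) (he5 : EpsResolve C)
    (he2 : EpsEvals Pd) {n : ℕ} (hs : ∀ j, j + 1 < n → SurjAt c j) (X : C.Gpd)
    (sg : C(Cube.boundary (Fin (n + 1)), C.BX (Pd.P.obj X))) :
    ((C.bMap (Pd.ev0.app X)).comp sg).Homotopic ((C.bMap (Pd.ev1.app X)).comp sg) := by
  let r : Pd.P.obj (C.res X) ⟶ Pd.P.obj X := Pd.P.map (C.resQ X)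
  have hr : IsTrivFib r := Pd.map_trivFib _ (C.resQ_trivFib X)
  obtain ⟨tg, htg⟩ := hsub (El (Pd.P.obj X)) (El (Pd.P.obj (C.res X))) (El.map r) n
    (fun a => cubeExtLE_comma_of_trivFib c Pd r hext hr a hs) sg
  let k : Pd.P.obj (C.res X) ⟶ Pd.P.obj (C.piTop (C.BX X)) := Pd.P.map (C.resPhi X)
  have key : ∀ ev : Pd.P ⟶ 𝟭 C.Gpd,
      ((C.bMap (ev.app X)).comp sg).Homotopic
        (((C.eps (C.BX X)).comp (C.bMap (ev.app (C.piTop (C.BX X))))).comp
          ((C.bMap k).comp tg)) := by
    intro ev
    refine ((ContinuousMap.Homotopic.refl (C.bMap (ev.app X))).comp htg.symm).trans ?_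
    have e1 : (C.bMap (ev.app X)).comp ((BSp.map (El.map r)).comp tg) =
        (C.bMap (C.resQ X)).comp ((C.bMap (ev.app (C.res X))).comp tg) :=
      ContinuousMap.ext fun u => by
        show C.bMap (ev.app X) (C.bMap r (tg u)) =
          C.bMap (C.resQ X) (C.bMap (ev.app (C.res X)) (tg u))
        rw [C.bMap_bMap, C.bMap_bMap]
        exact congrArg (fun φ => C.bMap φ (tg u)) (ev.naturality (C.resQ X))
    have e2 : ((C.eps (C.BX X)).comp (C.bMap (C.resPhi X))).comp
          ((C.bMap (ev.app (C.res X))).comp tg) =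
        ((C.eps (C.BX X)).comp (C.bMap (ev.app (C.piTop (C.BX X))))).comp ((C.bMap k).comp tg) :=
      ContinuousMap.ext fun u => by
        show C.eps (C.BX X) (C.bMap (C.resPhi X) (C.bMap (ev.app (C.res X)) (tg u))) =
          C.eps (C.BX X) (C.bMap (ev.app (C.piTop (C.BX X))) (C.bMap k (tg u)))
        rw [C.bMap_bMap, C.bMap_bMap]
        exact congrArg (fun φ => C.eps (C.BX X) (C.bMap φ (tg u)))
          (ev.naturality (C.resPhi X)).symm
    rw [e1, ← e2]
    exact ((he5 X).comp (ContinuousMap.Homotopic.refl _)).symm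
  exact (key Pd.ev0).trans (((he2 (C.BX X)).comp (ContinuousMap.Homotopic.refl _)).trans
    (key Pd.ev1).symm)

include Pd in
/-- The end points of spheres of paths starting at a point extend over the cube. -/
theorem sphereExt_pathsFrom (hsub : LiftSub) (hext : CubeExtOfPi) (he5 : EpsResolve C)
    (he2 : EpsEvals Pd) {n : ℕ} (hs : ∀ j, j + 1 < n → SurjAt c j) (X : C.Gpd)
    (x : C.cells X 0) : SphereExt (Pd.pathsFromEnd X x) (n + 1) := by
  intro ι _ hk sg
  have : Nonempty ι := Fintype.card_pos_iff.1 (by omega)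
  let e : ι ≃ Fin (n + 1) := Fintype.equivFinOfCardEq hk
  let p : Pd.pathsFrom X x ⟶ Pd.P.obj X := pbSnd (C.hat X x) (Pd.ev0.app X)
  have h := (homotopic_evals c Pd hsub hext he5 he2 hs X
    (((C.bMap p).comp sg).comp (boundaryMap e.symm))).comp
      (ContinuousMap.Homotopic.refl (boundaryMap e))
  obtain ⟨b, hb⟩ := cubeExt_WS C (GSum.disc 0) ι
    ((C.bMap (pbFst (C.hat X x) (Pd.ev0.app X))).comp sg)
  let F₀ : C(ι → I, C.BX X) := (C.jMap X x).comp b
  let f : C(Cube.boundary ι, C.BX X) := (C.bMap (Pd.pathsFromEnd X x)).comp sg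
  have hh : (F₀.comp ⟨Subtype.val, continuous_subtype_val⟩).Homotopic f := by
    have l : F₀.comp ⟨Subtype.val, continuous_subtype_val⟩ =
        ((C.bMap (Pd.ev0.app X)).comp (((C.bMap p).comp sg).comp (boundaryMap e.symm))).comp
          (boundaryMap e) := ContinuousMap.ext fun u => by
      show C.jMap X x (b u.1) =
        C.bMap (Pd.ev0.app X) (C.bMap p (sg (boundaryMap e.symm (boundaryMap e u))))
      rw [boundaryMap_symm, hb]
      exact (C.bMap_bMap _ (C.hat X x) (sg u)).trans
        ((congrArg (fun φ => C.bMap φ (sg u)) (pb_comm (C.hat X x) (Pd.ev0.app X))).trans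
          (C.bMap_bMap p (Pd.ev0.app X) (sg u)).symm)
    have r : f = ((C.bMap (Pd.ev1.app X)).comp
        (((C.bMap p).comp sg).comp (boundaryMap e.symm))).comp (boundaryMap e) :=
      ContinuousMap.ext fun u => by
        show C.bMap (Pd.pathsFromEnd X x) (sg u) =
          C.bMap (Pd.ev1.app X) (C.bMap p (sg (boundaryMap e.symm (boundaryMap e u))))
        rw [boundaryMap_symm, C.bMap_bMap]
        rfl
    rw [l, r]
    exact h
  obtain ⟨H⟩ := hh
  exact CubeLemma.exists_extension_of_homotopic F₀ f H

end Vale.Agent.P259
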