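import Vale.Agent.P259.CompareBPhi
import Vale.Agent.P259.CompareEv
import Vale.Agent.P259.AssemblyMain
import Vale.Agent.P259.MainSphere

/-!
# P259 (E): the interface of module E in the forms used by the assembly and the induction
-/

noncomputable section

open CategoryTheory Opposite
open scoped unitInterval

namespace Vale.Agent.P259

namespace Coherator

variable (C : Coherator)

theorem resMapElt_id (X : C.Gpd) {S : GSum} (e : C.ResElt X S) : C.resMapElt (𝟙 X) e = e := by
  refine ResElt.ext rfl (ContinuousMap.ext fun p => ContinuousMap.ext fun t => ?_)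
  show C.bMap (𝟙 X) (e.path p t) = e.path p t
  rw [C.bMap_id]
  rfl

theorem resMapElt_comp {X Y Z : C.Gpd} (φ : X ⟶ Y) (χ : Y ⟶ Z) {S : GSum} (e : C.ResElt X S) :
    C.resMapElt (φ ≫ χ) e = C.resMapElt χ (C.resMapElt φ e) := by
  refine ResElt.ext rfl (ContinuousMap.ext fun p => ContinuousMap.ext fun t => ?_)
  show C.bMap (φ ≫ χ) (e.path p t) = C.bMap χ (C.bMap φ (e.path p t))
  rw [C.bMap_bMap]

/-- The resolution as a functor. -/
def resFunctor : C.Gpd ⥤ C.Gpd where
  obj := C.res
  map φ := C.resMap φ
  map_id X := by
    refine ObjectProperty.hom_ext _ (NatTrans.ext (funext fun R =>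
      ConcreteCategory.hom_ext _ _ fun e => ?_))
    exact C.resMapElt_id X (e : C.ResElt X R.unop.sum)
  map_comp {X Y Z} φ χ := by
    refine ObjectProperty.hom_ext _ (NatTrans.ext (funext fun R =>
      ConcreteCategory.hom_ext _ _ fun e => ?_))
    exact C.resMapElt_comp φ χ (e : C.ResElt X R.unop.sum)

/-- The resolution with its two maps. -/
def resolution : Resolution C where
  res := C.resFunctor
  q :=
    { app := fun X => C.resQ X
      naturality := fun _ _ φ => C.resQ_natural φ }
  phi :=
    { app := fun X => C.resPhi X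
      naturality := fun _ _ φ => C.resPhi_natural φ }
  q_trivFib X := C.resQ_trivFib X
  phi_model X := ⟨C.resHomotopy X,
    fun n e p => ContinuousMap.congr_fun (C.resHomotopy_zero X n e) p,
    fun n e p => ContinuousMap.congr_fun (C.resHomotopy_one X n e) p⟩

theorem eps_resolve : EpsResolve C := C.eps_resPhi_homotopic

end Coherator

theorem PathData.eps_evals {C : Coherator} (Pd : PathData C) : EpsEvals Pd :=
  fun Y _ => Pd.eps_ev_homotopic Y

end Vale.Agent.P259
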