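import Vale.Agent.P259.Ops

/-!
# P259: conjugation of cells by edges at a lower level
-/

open CategoryTheory Opposite

namespace Vale.Agent.P259

variable {C : Coherator}

namespace Fam

variable {R : TFun C}

open Classical in
/-- A chosen filler, when there is one. -/
noncomputable def fillOf {n : ℕ} (A B : Fam R n) : Fam R (n + 1) :=
  if h : A.Rel B then h.choose else Fam.one A

theorem fillOf_s {n : ℕ} {A B : Fam R n} (h : A.Rel B) : (fillOf A B).s = A := by
  rw [fillOf, dif_pos h]
  exact h.choose_spec.1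

theorem fillOf_t {n : ℕ} {A B : Fam R n} (h : A.Rel B) : (fillOf A B).t = B := by
  rw [fillOf, dif_pos h]
  exact h.choose_spec.2

end Fam

/-! ### Operations on single cells -/

namespace Coherator

/-- The chosen identity cell. -/
noncomputable def oneC (X : C.Gpd) {n : ℕ} (a : (C.gs X).cell n) : (C.gs X).cell (n + 1) :=
  (Fam.one (discT (C := C) n)).app X ((C.gs X).one n a)

theorem s_oneC (X : C.Gpd) {n : ℕ} (a : (C.gs X).cell n) : (C.gs X).s (C.oneC X a) = a :=
  congrFun (congrFun (congrArg Nat'.app (Fam.one_s (discT (C := C) n))) X) ((C.gs X).one n a)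

theorem t_oneC (X : C.Gpd) {n : ℕ} (a : (C.gs X).cell n) : (C.gs X).t (C.oneC X a) = a :=
  congrFun (congrFun (congrArg Nat'.app (Fam.one_t (discT (C := C) n))) X) ((C.gs X).one n a)

/-- The chosen inverse cell. -/
noncomputable def invC (X : C.Gpd) {n : ℕ} (a : (C.gs X).cell (n + 1)) : (C.gs X).cell (n + 1) :=
  (Fam.inv (discT (C := C) (n + 1))).app X ((C.gs X).one (n + 1) a)

theorem s_invC (X : C.Gpd) {n : ℕ} (a : (C.gs X).cell (n + 1)) :
    (C.gs X).s (C.invC X a) = (C.gs X).t a :=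
  congrFun (congrFun (congrArg Nat'.app (Fam.inv_s (discT (C := C) (n + 1)))) X)
    ((C.gs X).one (n + 1) a)

theorem t_invC (X : C.Gpd) {n : ℕ} (a : (C.gs X).cell (n + 1)) :
    (C.gs X).t (C.invC X a) = (C.gs X).s a :=
  congrFun (congrFun (congrArg Nat'.app (Fam.inv_t (discT (C := C) (n + 1)))) X)
    ((C.gs X).one (n + 1) a)

theorem oneC_natural {X Y : C.Gpd} (φ : X ⟶ Y) {n : ℕ} (a : (C.gs X).cell n) :
    (gsMap φ.hom).app (n + 1) (C.oneC X a) = C.oneC Y ((gsMap φ.hom).app n a) :=
  (Fam.one (discT (C := C) n)).nat φ _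

theorem invC_natural {X Y : C.Gpd} (φ : X ⟶ Y) {n : ℕ} (a : (C.gs X).cell (n + 1)) :
    (gsMap φ.hom).app (n + 1) (C.invC X a) = C.invC Y ((gsMap φ.hom).app (n + 1) a) :=
  (Fam.inv (discT (C := C) (n + 1))).nat φ _

end Coherator

/-! ### Triples -/

/-- Composable triples (edge, cell, edge) at level `r`. -/
abbrev triT (C : Coherator) (r i : ℕ) (h : r < i) : TFun C where
  obj X := {x : (C.gs X).cell (r + 1) × (C.gs X).cell i × (C.gs X).cell (r + 1) //
    (C.gs X).t x.1 = (C.gs X).sIter h.le x.2.1 ∧ (C.gs X).tIter h.le x.2.1 = (C.gs X).s x.2.2}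
  map {X Y} φ x := ⟨((gsMap φ.hom).app _ x.1.1, (gsMap φ.hom).app _ x.1.2.1,
      (gsMap φ.hom).app _ x.1.2.2),
    by rw [(gsMap φ.hom).app_t, (gsMap φ.hom).app_sIter, x.2.1],
    by rw [(gsMap φ.hom).app_tIter, (gsMap φ.hom).app_s, x.2.2]⟩

/-- The table of a triple. -/
abbrev triSum (r i : ℕ) (h : r < i) : GSum :=
  ((GSum.disc (r + 1)).snoc r i r.lt_succ_self h).snoc r (r + 1) h r.lt_succ_self

theorem hasFill_triT (C : Coherator) {r i n : ℕ} (h : r < i) (hr : r ≤ n) (hi : i ≤ n + 1) :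
    HasFill (triT C r i h) n := by
  let f : Nat' (triT C r i h) (barT C (triSum r i h)) :=
    { app := fun X x => GSet.Bar.mk' (GSet.Bar.mk' ((C.gs X).one (r + 1) x.1.1) x.1.2.1 (by
          show (C.gs X).tIter _ x.1.1 = _
          rw [GSet.tIter_succ _ le_rfl, GSet.tIter_self]
          exact x.2.1)) x.1.2.2 (by
          show (C.gs X).tIter _ x.1.2.1 = _
          rw [GSet.sIter_succ _ le_rfl, GSet.sIter_self]
          exact x.2.2)
      nat := fun φ x => GSet.Bar.ext'
        (((gsMap φ.hom).bar_fst _).trans (GSet.Bar.ext' ((gsMap φ.hom).bar_fst _)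
          ((gsMap φ.hom).bar_snd _)))
        ((gsMap φ.hom).bar_snd _) }
  let g : Nat' (barT C (triSum r i h)) (triT C r i h) :=
    { app := fun X p => ⟨(p.fst.fst.1, p.fst.snd, p.snd),
        by
          have e := p.fst.glue
          exact ((((C.gs X).tIter_succ (j := r) (n := r) le_rfl _).trans
            ((C.gs X).tIter_self _)).symm.trans e),
        by
          have e := p.glue
          exact e.trans (((C.gs X).sIter_succ (j := r) (n := r) le_rfl _).trans
            ((C.gs X).sIter_self _))⟩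
      nat := fun φ p => by
        apply Subtype.ext
        simp only [GHom.bar_fst, GHom.bar_snd]
        rfl }
  exact (hasFill_barT C (triSum r i h) n
    (max_le (max_le (Nat.succ_le_succ hr) hi) (Nat.succ_le_succ hr))).of_retract f g (fun X x => rfl)

/-- The source of a triple. -/
abbrev triS (C : Coherator) (r i : ℕ) (h : r < i) :
    Nat' (triT C r (i + 1) (Nat.lt_succ_of_lt h)) (triT C r i h) where
  app X x := ⟨(x.1.1, (C.gs X).s x.1.2.1, x.1.2.2),
    x.2.1.trans ((C.gs X).sIter_succ h.le _),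
    (((C.gs X).tIter_s h _).trans ((C.gs X).tIter_succ h.le _).symm).trans x.2.2⟩
  nat φ x := Subtype.ext (Prod.ext rfl (Prod.ext ((gsMap φ.hom).app_s _ _).symm rfl))

/-- The target of a triple. -/
abbrev triTgt (C : Coherator) (r i : ℕ) (h : r < i) :
    Nat' (triT C r (i + 1) (Nat.lt_succ_of_lt h)) (triT C r i h) where
  app X x := ⟨(x.1.1, (C.gs X).t x.1.2.1, x.1.2.2),
    (x.2.1.trans ((C.gs X).sIter_succ h.le _)).trans ((C.gs X).sIter_t h _).symm,
    ((C.gs X).tIter_succ h.le _).symm.trans x.2.2⟩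
  nat φ x := Subtype.ext (Prod.ext rfl (Prod.ext ((gsMap φ.hom).app_t _ _).symm rfl))

/-- The first edge of a triple. -/
abbrev triP (C : Coherator) (r i : ℕ) (h : r < i) : Fam (triT C r i h) (r + 1) where
  app _ x := x.1.1
  nat _ _ := rfl

/-- The middle cell of a triple. -/
abbrev triA (C : Coherator) (r i : ℕ) (h : r < i) : Fam (triT C r i h) i where
  app _ x := x.1.2.1
  nat _ _ := rfl

/-- The last edge of a triple. -/
abbrev triQ (C : Coherator) (r i : ℕ) (h : r < i) : Fam (triT C r i h) (r + 1) where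
  app _ x := x.1.2.2
  nat _ _ := rfl

/-- The universal conjugation. -/
noncomputable def conjU (C : Coherator) (r : ℕ) :
    ∀ (i : ℕ) (h : r < i), Fam (triT C r i h) i
  | 0, h => absurd h (Nat.not_lt_zero r)
  | i + 1, h =>
      if hr : r < i then
        Fam.fillOf ((conjU C r i hr).pre (triS C r i hr)) ((conjU C r i hr).pre (triTgt C r i hr))
      else
        have e : i = r := by omega
        Fam.fillOf (e.symm ▸ (triP C r (i + 1) h).s) (e.symm ▸ (triQ C r (i + 1) h).t)

theorem conjU_base_aux (C : Coherator) (r : ℕ) (h : r < r + 1) :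
    ((triP C r (r + 1) h).s).Rel (triQ C r (r + 1) h).t := by
  refine hasFill_triT C h le_rfl le_rfl _ _ ?_
  cases r with
  | zero => exact fun X x => trivial
  | succ m =>
    intro X x
    have e1 : (C.gs X).t x.1.1 = (C.gs X).s x.1.2.1 := by
      rw [x.2.1, GSet.sIter_succ _ le_rfl, GSet.sIter_self]
    have e2 : (C.gs X).t x.1.2.1 = (C.gs X).s x.1.2.2 := by
      rw [← x.2.2, GSet.tIter_succ _ le_rfl, GSet.tIter_self]
    constructor
    · show (C.gs X).s ((C.gs X).s x.1.1) = (C.gs X).s ((C.gs X).t x.1.2.2)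
      rw [(C.gs X).ss, e1, (C.gs X).ss, e2, (C.gs X).ss]
    · show (C.gs X).t ((C.gs X).s x.1.1) = (C.gs X).t ((C.gs X).t x.1.2.2)
      rw [(C.gs X).ts, e1, (C.gs X).ts, e2, (C.gs X).ts]

theorem conjU_base (C : Coherator) (r : ℕ) :
    (conjU C r (r + 1) r.lt_succ_self).s = (triP C r (r + 1) r.lt_succ_self).s ∧
      (conjU C r (r + 1) r.lt_succ_self).t = (triQ C r (r + 1) r.lt_succ_self).t := by
  rw [conjU, dif_neg (lt_irrefl r)]
  exact ⟨Fam.fillOf_s (conjU_base_aux C r _), Fam.fillOf_t (conjU_base_aux C r _)⟩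

theorem conjU_rel (C : Coherator) (r : ℕ) : ∀ (i : ℕ) (h : r < i),
    ((conjU C r i h).pre (triS C r i h)).Rel ((conjU C r i h).pre (triTgt C r i h))
  | 0, h => absurd h (Nat.not_lt_zero r)
  | i + 1, h => by
      refine hasFill_triT C _ (by omega) le_rfl _ _ ?_
      by_cases hr : r < i
      · have ih := conjU_rel C r i hr
        have hs : (conjU C r (i + 1) h).s = (conjU C r i hr).pre (triS C r i hr) := by
          rw [conjU, dif_pos hr]
          exact Fam.fillOf_s ih
        have ht : (conjU C r (i + 1) h).t = (conjU C r i hr).pre (triTgt C r i hr) := by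
          rw [conjU, dif_pos hr]
          exact Fam.fillOf_t ih
        refine Fam.par_of_eq ?_ ?_
        · rw [Fam.pre_s, Fam.pre_s, hs]
          refine Nat'.ext (funext fun X => funext fun x => ?_)
          exact congrArg ((conjU C r i hr).app X)
            (Subtype.ext (Prod.ext rfl (Prod.ext ((C.gs X).ss _) rfl)))
        · rw [Fam.pre_t, Fam.pre_t, ht]
          refine Nat'.ext (funext fun X => funext fun x => ?_)
          exact congrArg ((conjU C r i hr).app X)
            (Subtype.ext (Prod.ext rfl (Prod.ext ((C.gs X).ts _) rfl)))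
      · obtain rfl : i = r := by omega
        exact Fam.par_of_eq
          (by rw [Fam.pre_s, Fam.pre_s, (conjU_base C i).1]; rfl)
          (by rw [Fam.pre_t, Fam.pre_t, (conjU_base C i).2]; rfl)

theorem conjU_succ (C : Coherator) (r i : ℕ) (h : r < i) :
    (conjU C r (i + 1) (Nat.lt_succ_of_lt h)).s = (conjU C r i h).pre (triS C r i h) ∧
      (conjU C r (i + 1) (Nat.lt_succ_of_lt h)).t
        = (conjU C r i h).pre (triTgt C r i h) := by
  rw [conjU, dif_pos h]
  exact ⟨Fam.fillOf_s (conjU_rel C r i h), Fam.fillOf_t (conjU_rel C r i h)⟩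

/-- Composite of an edge, a cell and an edge. -/
noncomputable def Coherator.kap (X : C.Gpd) {r i : ℕ} (h : r < i) (p : (C.gs X).cell (r + 1))
    (a : (C.gs X).cell i) (q : (C.gs X).cell (r + 1))
    (hp : (C.gs X).t p = (C.gs X).sIter h.le a) (hq : (C.gs X).tIter h.le a = (C.gs X).s q) :
    (C.gs X).cell i :=
  (conjU C r i h).app X ⟨(p, a, q), hp, hq⟩

theorem Coherator.kap_congr (X : C.Gpd) {r i : ℕ} (h : r < i) {p p' : (C.gs X).cell (r + 1)}
    {a a' : (C.gs X).cell i} {q q' : (C.gs X).cell (r + 1)} (ep : p = p') (ea : a = a')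
    (eq : q = q') (hp hq hp' hq') :
    C.kap X h p a q hp hq = C.kap X h p' a' q' hp' hq' := by
  subst ep ea eq
  rfl

theorem Coherator.s_kap_base (X : C.Gpd) {r : ℕ} (p a q : (C.gs X).cell (r + 1)) (hp hq) :
    (C.gs X).s (C.kap X r.lt_succ_self p a q hp hq) = (C.gs X).s p :=
  congrFun (congrFun (congrArg Nat'.app (conjU_base C r).1) X) ⟨(p, a, q), hp, hq⟩

theorem Coherator.t_kap_base (X : C.Gpd) {r : ℕ} (p a q : (C.gs X).cell (r + 1)) (hp hq) :
    (C.gs X).t (C.kap X r.lt_succ_self p a q hp hq) = (C.gs X).t q :=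
  congrFun (congrFun (congrArg Nat'.app (conjU_base C r).2) X) ⟨(p, a, q), hp, hq⟩

theorem Coherator.s_kap (X : C.Gpd) {r i : ℕ} (h : r < i) (p : (C.gs X).cell (r + 1))
    (a : (C.gs X).cell (i + 1)) (q : (C.gs X).cell (r + 1)) (hp hq) :
    (C.gs X).s (C.kap X (Nat.lt_succ_of_lt h) p a q hp hq)
      = C.kap X h p ((C.gs X).s a) q
          (hp.trans ((C.gs X).sIter_succ h.le a))
          ((((C.gs X).tIter_s h a).trans ((C.gs X).tIter_succ h.le a).symm).trans hq) :=
  congrFun (congrFun (congrArg Nat'.app (conjU_succ C r i h).1) X) ⟨(p, a, q), hp, hq⟩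

theorem Coherator.t_kap (X : C.Gpd) {r i : ℕ} (h : r < i) (p : (C.gs X).cell (r + 1))
    (a : (C.gs X).cell (i + 1)) (q : (C.gs X).cell (r + 1)) (hp hq) :
    (C.gs X).t (C.kap X (Nat.lt_succ_of_lt h) p a q hp hq)
      = C.kap X h p ((C.gs X).t a) q
          ((hp.trans ((C.gs X).sIter_succ h.le a)).trans ((C.gs X).sIter_t h a).symm)
          (((C.gs X).tIter_succ h.le a).symm.trans hq) :=
  congrFun (congrFun (congrArg Nat'.app (conjU_succ C r i h).2) X) ⟨(p, a, q), hp, hq⟩

theorem Coherator.kap_natural {X Y : C.Gpd} (φ : X ⟶ Y) {r i : ℕ} (h : r < i)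
    (p : (C.gs X).cell (r + 1)) (a : (C.gs X).cell i) (q : (C.gs X).cell (r + 1)) (hp hq) :
    (gsMap φ.hom).app i (C.kap X h p a q hp hq)
      = C.kap Y h ((gsMap φ.hom).app _ p) ((gsMap φ.hom).app _ a) ((gsMap φ.hom).app _ q)
          (by rw [(gsMap φ.hom).app_t, (gsMap φ.hom).app_sIter, hp])
          (by rw [(gsMap φ.hom).app_tIter, (gsMap φ.hom).app_s, hq]) :=
  (conjU C r i h).nat φ ⟨(p, a, q), hp, hq⟩

end Vale.Agent.P259
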