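import Vale.Agent.P259.CylHop

/-!
# P259: the inverse system of stages and its limit
-/

open CategoryTheory Opposite

namespace Vale.Agent.P259

variable {C : Coherator}

theorem rho_base_ok {r : ℕ} {X : C.Gpd} {i : ℕ} (x : ((cyl C 1 r).obj X).cell i) :
    SameBelow (C.gs X) r i x.1.1.1.1 x.1.2.1.2 := by
  intro j hj hjr
  obtain ⟨h1, h2⟩ := x.1.2.2 j hj (Nat.lt_succ_of_lt hjr)
  have e : x.1.2.1.1 = C.conjE X r i x.1.1 := x.2.symm
  constructor
  · rw [← h1, e]
    refine Eq.trans ?_ ((C.conjHom X r).app_sIter hj x.1.1).symm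
    show _ = C.conjE X r j _
    rw [C.conjE_lt X hjr]
    exact ((edgeProj C r).hom X).app_sIter hj x.1.1
  · rw [← h2, e]
    refine Eq.trans ?_ ((C.conjHom X r).app_tIter hj x.1.1).symm
    show _ = C.conjE X r j _
    rw [C.conjE_lt X hjr]
    exact ((edgeProj C r).hom X).app_tIter hj x.1.1

/-- The projection between consecutive stages, over the first endpoint. -/
noncomputable def rho (C : Coherator) : ∀ (d r : ℕ) (X : C.Gpd),
    {f : GHom ((cyl C (d + 1) r).obj X) ((cyl C d r).obj X) //
      ∀ i x, ((cyl C d r).e0 X).app i (f.app i x) = ((cyl C (d + 1) r).e0 X).app i x}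
  | 0, r, X =>
      ⟨{ app := fun i x => ⟨(x.1.1.1.1, x.1.2.1.2), rho_base_ok x⟩
         app_s := fun i x => rfl
         app_t := fun i x => rfl }, fun _ _ => rfl⟩
  | d + 1, r, X =>
      let f := rho C d (r + 1) X
      ⟨{ app := fun i x => ⟨(x.1.1, f.1.app i x.1.2), x.2.trans (f.2 i x.1.2).symm⟩
         app_s := fun i x => Subtype.ext (Prod.ext rfl (f.1.app_s i x.1.2))
         app_t := fun i x => Subtype.ext (Prod.ext rfl (f.1.app_t i x.1.2)) }, fun _ _ => rfl⟩

theorem rho_e1 (C : Coherator) : ∀ (d r : ℕ) (X : C.Gpd) (i : ℕ) x,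
    ((cyl C d r).e1 X).app i ((rho C d r X).1.app i x) = ((cyl C (d + 1) r).e1 X).app i x
  | 0, _, _, _, _ => rfl
  | d + 1, r, X, i, x => rho_e1 C d (r + 1) X i x.1.2

theorem rho_map (C : Coherator) : ∀ (d r : ℕ) {X Y : C.Gpd} (φ : X ⟶ Y) (i : ℕ) x,
    ((cyl C d r).map φ).app i ((rho C d r X).1.app i x)
      = (rho C d r Y).1.app i (((cyl C (d + 1) r).map φ).app i x)
  | 0, _, _, _, _, _, _ => rfl
  | d + 1, r, _, _, φ, i, x => Subtype.ext (Prod.ext rfl (rho_map C d (r + 1) φ i x.1.2))

theorem rho_bijective (C : Coherator) : ∀ (d r i : ℕ), i < r + d → ∀ X : C.Gpd,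
    Function.Bijective ((rho C d r X).1.app i)
  | 0, r, i, hi, X => by
      constructor
      · intro x y h
        refine low_ext (C := C) (d := 1) (r := r) hi ?_
        rw [← (rho C 0 r X).2, ← (rho C 0 r X).2, h]
      · intro y
        refine ⟨lowCell (d := 1) hi X (((cyl C 0 r).e0 X).app i y), ?_⟩
        refine low_ext (C := C) (d := 0) (r := r) hi ?_
        rw [(rho C 0 r X).2, e0_lowCell]
  | d + 1, r, i, hi, X => by
      obtain ⟨hinj, hsurj⟩ := rho_bijective C d (r + 1) i (by omega) X
      constructor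
      · intro x y h
        have h' := congrArg Subtype.val h
        exact Subtype.ext (Prod.ext (congrArg Prod.fst h' :) (hinj (congrArg Prod.snd h' :)))
      · intro y
        obtain ⟨q, hq⟩ := hsurj y.1.2
        refine ⟨⟨(y.1.1, q), y.2.trans ?_⟩, Subtype.ext (Prod.ext rfl hq)⟩
        rw [← (rho C d (r + 1) X).2, hq]

/-! ### The limit -/

/-- The limit of the stages: a cell of dimension `i` is a cell of the first stage that is final
in that dimension. -/
noncomputable abbrev cylInf (C : Coherator) : GOver C where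
  obj X :=
    { cell := fun i => ((cyl C (i + 1) 0).obj X).cell i
      s := fun {n} x => (rho C (n + 1) 0 X).1.app n (((cyl C (n + 2) 0).obj X).s x)
      t := fun {n} x => (rho C (n + 1) 0 X).1.app n (((cyl C (n + 2) 0).obj X).t x)
      ss := fun {n} x => by
        rw [(rho C (n + 2) 0 X).1.app_s, (rho C (n + 2) 0 X).1.app_s,
          ((cyl C (n + 3) 0).obj X).ss]
      ts := fun {n} x => by
        rw [(rho C (n + 2) 0 X).1.app_t, (rho C (n + 2) 0 X).1.app_t,
          ((cyl C (n + 3) 0).obj X).ts] }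
  map {X Y} φ :=
    { app := fun i x => ((cyl C (i + 1) 0).map φ).app i x
      app_s := fun n x => by
        show (rho C (n + 1) 0 Y).1.app n _ = ((cyl C (n + 1) 0).map φ).app n _
        rw [((cyl C (n + 2) 0).map φ).app_s, rho_map]
      app_t := fun n x => by
        show (rho C (n + 1) 0 Y).1.app n _ = ((cyl C (n + 1) 0).map φ).app n _
        rw [((cyl C (n + 2) 0).map φ).app_t, rho_map] }
  e0 X :=
    { app := fun i x => ((cyl C (i + 1) 0).e0 X).app i x
      app_s := fun n x => by
        show (C.gs X).s _ = ((cyl C (n + 1) 0).e0 X).app n _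
        rw [(rho C (n + 1) 0 X).2, ((cyl C (n + 2) 0).e0 X).app_s]
      app_t := fun n x => by
        show (C.gs X).t _ = ((cyl C (n + 1) 0).e0 X).app n _
        rw [(rho C (n + 1) 0 X).2, ((cyl C (n + 2) 0).e0 X).app_t] }
  e1 X :=
    { app := fun i x => ((cyl C (i + 1) 0).e1 X).app i x
      app_s := fun n x => by
        show (C.gs X).s _ = ((cyl C (n + 1) 0).e1 X).app n _
        rw [rho_e1, ((cyl C (n + 2) 0).e1 X).app_s]
      app_t := fun n x => by
        show (C.gs X).t _ = ((cyl C (n + 1) 0).e1 X).app n _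
        rw [rho_e1, ((cyl C (n + 2) 0).e1 X).app_t] }
  nat0 φ n a := (cyl C (n + 1) 0).nat0 φ n a
  nat1 φ n a := (cyl C (n + 1) 0).nat1 φ n a

/-- The projection of a stage to the limit, in the dimensions where it is final. -/
noncomputable def toInf (C : Coherator) : ∀ (D : ℕ) (X : C.Gpd) (i : ℕ), i < D →
    ((cyl C D 0).obj X).cell i → ((cylInf C).obj X).cell i
  | 0, _, i, hi, _ => absurd hi (Nat.not_lt_zero i)
  | D + 1, X, i, hi, x =>
      if h : i = D then cast (by subst h; rfl) x
      else toInf C D X i (by omega) ((rho C D 0 X).1.app i x)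

theorem toInf_self (C : Coherator) (X : C.Gpd) (i : ℕ) (x : ((cyl C (i + 1) 0).obj X).cell i) :
    toInf C (i + 1) X i i.lt_succ_self x = x := by
  rw [toInf, dif_pos rfl, cast_eq]

theorem toInf_succ (C : Coherator) (X : C.Gpd) {D i : ℕ} (hi : i < D)
    (x : ((cyl C (D + 1) 0).obj X).cell i) :
    toInf C (D + 1) X i (Nat.lt_succ_of_lt hi) x
      = toInf C D X i hi ((rho C D 0 X).1.app i x) := by
  rw [toInf, dif_neg (Nat.ne_of_lt hi)]

theorem toInf_bijective (C : Coherator) : ∀ (D : ℕ) (X : C.Gpd) (i : ℕ) (hi : i < D),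
    Function.Bijective (toInf C D X i hi)
  | 0, _, i, hi => absurd hi (Nat.not_lt_zero i)
  | D + 1, X, i, hi => by
      by_cases h : i = D
      · subst h
        exact ⟨fun x y e => by rwa [toInf_self, toInf_self] at e, fun y => ⟨y, toInf_self C X i y⟩⟩
      · have hlt : i < D := by omega
        rw [show toInf C (D + 1) X i hi
          = toInf C D X i hlt ∘ (rho C D 0 X).1.app i from funext fun x => toInf_succ C X hlt x]
        exact (toInf_bijective C D X i hlt).comp (rho_bijective C D 0 i (by omega) X)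

theorem toInf_e0 (C : Coherator) : ∀ (D : ℕ) (X : C.Gpd) (i : ℕ) (hi : i < D) x,
    ((cylInf C).e0 X).app i (toInf C D X i hi x) = ((cyl C D 0).e0 X).app i x
  | 0, _, i, hi, _ => absurd hi (Nat.not_lt_zero i)
  | D + 1, X, i, hi, x => by
      by_cases h : i = D
      · subst h
        rw [toInf_self]
      · rw [toInf_succ C X (by omega : i < D), toInf_e0, (rho C D 0 X).2]

theorem toInf_e1 (C : Coherator) : ∀ (D : ℕ) (X : C.Gpd) (i : ℕ) (hi : i < D) x,
    ((cylInf C).e1 X).app i (toInf C D X i hi x) = ((cyl C D 0).e1 X).app i x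
  | 0, _, i, hi, _ => absurd hi (Nat.not_lt_zero i)
  | D + 1, X, i, hi, x => by
      by_cases h : i = D
      · subst h
        rw [toInf_self]
      · rw [toInf_succ C X (by omega : i < D), toInf_e1, rho_e1]

theorem toInf_map (C : Coherator) : ∀ (D : ℕ) {X Y : C.Gpd} (φ : X ⟶ Y) (i : ℕ) (hi : i < D) x,
    ((cylInf C).map φ).app i (toInf C D X i hi x)
      = toInf C D Y i hi (((cyl C D 0).map φ).app i x)
  | 0, _, _, _, i, hi, _ => absurd hi (Nat.not_lt_zero i)
  | D + 1, X, Y, φ, i, hi, x => by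
      by_cases h : i = D
      · subst h
        rw [toInf_self, toInf_self]
      · rw [toInf_succ C X (by omega : i < D), toInf_succ C Y (by omega : i < D), toInf_map,
          rho_map]

theorem toInf_faces (C : Coherator) : ∀ (D : ℕ) (X : C.Gpd) (i : ℕ) (hi : i + 1 < D) x,
    ((cylInf C).obj X).s (toInf C D X (i + 1) hi x)
        = toInf C D X i (i.lt_succ_self.trans hi) (((cyl C D 0).obj X).s x) ∧
      ((cylInf C).obj X).t (toInf C D X (i + 1) hi x)
        = toInf C D X i (i.lt_succ_self.trans hi) (((cyl C D 0).obj X).t x)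
  | 0, _, i, hi, _ => absurd hi (Nat.not_lt_zero _)
  | D + 1, X, i, hi, x => by
      by_cases h : i + 1 = D
      · subst h
        rw [toInf_self, toInf_succ C X i.lt_succ_self, toInf_succ C X i.lt_succ_self, toInf_self,
          toInf_self]
        exact ⟨rfl, rfl⟩
      · have hlt : i + 1 < D := by omega
        rw [toInf_succ C X hlt, toInf_succ C X (i.lt_succ_self.trans hlt),
          toInf_succ C X (i.lt_succ_self.trans hlt), ← (rho C D 0 X).1.app_s,
          ← (rho C D 0 X).1.app_t]
        exact toInf_faces C D X i hlt _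

/-- Projection to the limit as a map of globular sets. -/
noncomputable def downLE (C : Coherator) (n : ℕ) (X : C.Gpd) :
    GHomLE ((cyl C (n + 1) 0).obj X) ((cylInf C).obj X) n where
  app i hi x := toInf C (n + 1) X i (Nat.lt_succ_of_le hi) x
  app_s i hi x := (toInf_faces C (n + 1) X i (Nat.lt_succ_of_le hi) x).1
  app_t i hi x := (toInf_faces C (n + 1) X i (Nat.lt_succ_of_le hi) x).2

/-- The inverse of the projection to the limit. -/
noncomputable def upLE (C : Coherator) (n : ℕ) (X : C.Gpd) :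
    GHomLE ((cylInf C).obj X) ((cyl C (n + 1) 0).obj X) n where
  app i hi x :=
    (Equiv.ofBijective _ (toInf_bijective C (n + 1) X i (Nat.lt_succ_of_le hi))).symm x
  app_s i hi x := by
    apply (toInf_bijective C (n + 1) X i _).1
    rw [← (toInf_faces C (n + 1) X i (Nat.lt_succ_of_le hi) _).1]
    simp only [Equiv.ofBijective_apply_symm_apply]
  app_t i hi x := by
    apply (toInf_bijective C (n + 1) X i _).1
    rw [← (toInf_faces C (n + 1) X i (Nat.lt_succ_of_le hi) _).2]
    simp only [Equiv.ofBijective_apply_symm_apply]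

theorem down_up (C : Coherator) (n : ℕ) (X : C.Gpd) (i : ℕ) (hi : i ≤ n) (x) :
    (downLE C n X).app i hi ((upLE C n X).app i hi x) = x :=
  Equiv.ofBijective_apply_symm_apply _ _ x

theorem up_down (C : Coherator) (n : ℕ) (X : C.Gpd) (i : ℕ) (hi : i ≤ n) (x) :
    (upLE C n X).app i hi ((downLE C n X).app i hi x) = x :=
  Equiv.ofBijective_symm_apply_apply _ _ x

theorem up_map (C : Coherator) (n : ℕ) {X Y : C.Gpd} (φ : X ⟶ Y) (i : ℕ) (hi : i ≤ n) (x) :
    ((cyl C (n + 1) 0).map φ).app i ((upLE C n X).app i hi x)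
      = (upLE C n Y).app i hi (((cylInf C).map φ).app i x) := by
  apply (toInf_bijective C (n + 1) Y i (Nat.lt_succ_of_le hi)).1
  rw [← toInf_map]
  simp only [upLE, Equiv.ofBijective_apply_symm_apply]

theorem up_e0 (C : Coherator) (n : ℕ) (X : C.Gpd) (i : ℕ) (hi : i ≤ n) (x) :
    ((cyl C (n + 1) 0).e0 X).app i ((upLE C n X).app i hi x) = ((cylInf C).e0 X).app i x := by
  rw [← toInf_e0 C (n + 1) X i (Nat.lt_succ_of_le hi)]
  simp only [upLE, Equiv.ofBijective_apply_symm_apply]

theorem up_e1 (C : Coherator) (n : ℕ) (X : C.Gpd) (i : ℕ) (hi : i ≤ n) (x) :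
    ((cyl C (n + 1) 0).e1 X).app i ((upLE C n X).app i hi x) = ((cylInf C).e1 X).app i x := by
  rw [← toInf_e1 C (n + 1) X i (Nat.lt_succ_of_le hi)]
  simp only [upLE, Equiv.ofBijective_apply_symm_apply]

end Vale.Agent.P259
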