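import Vale.Agent.P259.CylMain
import Vale.Agent.P259.CylRho
import Vale.Agent.P259.Interface

/-!
# P259: fillers in the tower with one prescribed endpoint

A boundary in the tower, together with a filler of its first endpoint, extends to a cell of the
tower; over a trivial fibration the extension can be chosen over a given cell of the tower.
-/

open CategoryTheory Opposite

namespace Vale.Agent.P259

variable {C : Coherator}

theorem GSet.par_st (G : GSet) : ∀ {n : ℕ} (a : G.cell (n + 1)), G.Par (G.s a) (G.t a)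
  | 0, _ => trivial
  | _ + 1, a => ⟨G.ss a, G.ts a⟩

theorem GHom.map_par {G H : GSet} (f : GHom G H) : ∀ {n : ℕ} {a b : G.cell n},
    G.Par a b → H.Par (f.app n a) (f.app n b)
  | 0, _, _, _ => trivial
  | _ + 1, a, b, h => ⟨by rw [f.app_s, f.app_s, h.1], by rw [f.app_t, f.app_t, h.2]⟩

theorem GHomLE.map_par {G H : GSet} {N : ℕ} (f : GHomLE G H N) : ∀ {n : ℕ} (hn : n ≤ N)
    {a b : G.cell n}, G.Par a b → H.Par (f.app n hn a) (f.app n hn b)
  | 0, _, _, _, _ => trivial
  | _ + 1, hn, a, b, h => ⟨by rw [f.app_s, f.app_s, h.1], by rw [f.app_t, f.app_t, h.2]⟩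

theorem ECell.src_boundary {r n : ℕ} {G : GSet} (hn : r ≤ n) {c c' : ECell r G n}
    (hpar : (edgeGSet r G).Par c c') (a : G.cell (n + 1)) (hs : G.s a = c.1.1)
    (ht : G.t a = c'.1.1) (e : ECell r G (n + 1))
    (he : e.1.1 = a) (hU : ∀ h, e.1.2 h = boundaryEdges hn c c') : e.src = c ∧ e.tgt = c' := by
  constructor
  · refine ECell.ext' ((congrArg G.s he).trans hs) fun h => ?_
    simp only [ECell.src, hU, boundaryEdges]
    by_cases hnr : n = r
    · subst hnr
      rw [if_pos rfl, if_pos rfl]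
      exact Prod.ext rfl ((c.2 h).2.2 rfl)
    · rw [if_neg hnr, if_neg hnr]
  · refine ECell.ext' ((congrArg G.t he).trans ht) fun h => ?_
    simp only [ECell.tgt, hU, boundaryEdges]
    by_cases hnr : n = r
    · subst hnr
      rw [if_pos rfl, if_pos rfl]
      exact Prod.ext rfl ((c'.2 h).2.2 rfl)
    · rw [if_neg hnr, if_neg hnr]
      exact ECell.par_edges hpar (by omega) h

theorem ECell.edges_of_faces {r n : ℕ} {G : GSet} (hn : r ≤ n) (x : ECell r G (n + 1))
    (h : r ≤ n + 1) : x.1.2 h = boundaryEdges hn x.src x.tgt := by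
  simp only [ECell.src, ECell.tgt, boundaryEdges]
  by_cases hnr : n = r
  · subst hnr
    simp
  · simp [hnr]

theorem boundaryEdges_map {r n : ℕ} (hn : r ≤ n) {X Y : C.Gpd} (φ : X ⟶ Y)
    (c c' : ECell r (C.gs X) n) :
    boundaryEdges hn ((edgeMap r (gsMap φ.hom)).app n c) ((edgeMap r (gsMap φ.hom)).app n c')
      = ((gsMap φ.hom).app _ (boundaryEdges hn c c').1,
          (gsMap φ.hom).app _ (boundaryEdges hn c c').2) := by
  unfold boundaryEdges
  split <;> rfl

theorem map_lift_zero {X Y : C.Gpd} {φ : X ⟶ Y} (hφ : IsTrivFib φ) (y : (C.gs Y).cell 0) :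
    ∃ x, (gsMap φ.hom).app 0 x = y :=
  hφ.1 y

theorem map_lift {X Y : C.Gpd} {φ : X ⟶ Y} (hφ : IsTrivFib φ) {n : ℕ}
    {x y : (C.gs X).cell n} (hp : (C.gs X).Par x y) (h : (C.gs Y).cell (n + 1))
    (hs : (C.gs Y).s h = (gsMap φ.hom).app n x) (ht : (C.gs Y).t h = (gsMap φ.hom).app n y) :
    ∃ w, (C.gs X).s w = x ∧ (C.gs X).t w = y ∧ (gsMap φ.hom).app (n + 1) w = h :=
  hφ.2 n x y h hp hs ht

/-- A boundary and a filler of its first endpoint extend to a cell of the tower. -/
theorem exists_forward (C : Coherator) : ∀ (d r n : ℕ), n + 1 < r + d → ∀ (X : C.Gpd)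
    (c c' : ((cyl C d r).obj X).cell n), ((cyl C d r).obj X).Par c c' →
    ∀ a : (C.gs X).cell (n + 1), (C.gs X).s a = ((cyl C d r).e0 X).app n c →
      (C.gs X).t a = ((cyl C d r).e0 X).app n c' →
      ∃ q, ((cyl C d r).obj X).s q = c ∧ ((cyl C d r).obj X).t q = c' ∧
        ((cyl C d r).e0 X).app (n + 1) q = a := by
  intro d
  induction d with
  | zero =>
    intro r n hn X c c' _ a hs ht
    have hlt : n + 1 < r := by omega
    refine ⟨lowCell hlt X a, ?_, ?_, e0_lowCell hlt X a⟩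
    · refine low_ext (C := C) (d := 0) (r := r) (X := X) (by omega : n < r) ?_
      rw [← ((cyl C 0 r).e0 X).app_s, e0_lowCell, hs]
    · refine low_ext (C := C) (d := 0) (r := r) (X := X) (by omega : n < r) ?_
      rw [← ((cyl C 0 r).e0 X).app_t, e0_lowCell, ht]
  | succ d ih =>
    intro r n hn X c c' hpar a hs ht
    rcases lt_trichotomy r (n + 1) with hr | hr | hr
    · have hrn : r ≤ n := Nat.lt_succ_iff.mp hr
      let e : ECell r (C.gs X) (n + 1) := ⟨(a, fun _ => boundaryEdges hrn c.1.1 c'.1.1),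
        boundaryEdges_ok hrn (step_par_edge hpar).1 a hs ht⟩
      obtain ⟨es, et⟩ := ECell.src_boundary hrn (step_par_edge hpar).1 a hs ht e rfl fun _ => rfl
      obtain ⟨q, q1, q2, q3⟩ := ih (r + 1) n (by omega) X c.1.2 c'.1.2 (step_par_edge hpar).2
        (C.conjE X r (n + 1) e)
        (((C.conjHom X r).app_s n e).trans ((congrArg (C.conjE X r n) es).trans c.2))
        (((C.conjHom X r).app_t n e).trans ((congrArg (C.conjE X r n) et).trans c'.2))
      exact ⟨⟨(e, q), q3.symm⟩, Subtype.ext (Prod.ext es q1), Subtype.ext (Prod.ext et q2), rfl⟩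
    · subst hr
      let e : ECell (n + 1) (C.gs X) (n + 1) := ⟨(a, fun _ => (C.oneC X a, C.oneC X a)), fun h =>
        ⟨(C.s_oneC X a).trans ((C.gs X).sIter_self a).symm,
          (C.s_oneC X a).trans ((C.gs X).tIter_self a).symm, fun _ => rfl⟩⟩
      refine ⟨⟨(e, lowCell (n + 1).lt_succ_self X a), (C.conjE_eq X e).trans
        ((C.t_oneC X a).trans (e0_lowCell (n + 1).lt_succ_self X a).symm)⟩, ?_, ?_, rfl⟩
      · exact low_ext (C := C) (d := d + 1) (r := n + 1) (X := X) n.lt_succ_self hs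
      · exact low_ext (C := C) (d := d + 1) (r := n + 1) (X := X) n.lt_succ_self ht
    · refine ⟨lowCell hr X a, ?_, ?_, e0_lowCell hr X a⟩
      · refine low_ext (C := C) (d := d + 1) (r := r) (X := X) (by omega : n < r) ?_
        rw [← ((cyl C (d + 1) r).e0 X).app_s, e0_lowCell, hs]
      · refine low_ext (C := C) (d := d + 1) (r := r) (X := X) (by omega : n < r) ?_
        rw [← ((cyl C (d + 1) r).e0 X).app_t, e0_lowCell, ht]

/-- Over a trivial fibration, boundaries extend over a given cell of the tower. -/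
theorem exists_over (C : Coherator) : ∀ (d r n : ℕ), n + 1 < r + d → ∀ {X Y : C.Gpd}
    (φ : X ⟶ Y), IsTrivFib φ → ∀ (c c' : ((cyl C d r).obj X).cell n),
    ((cyl C d r).obj X).Par c c' → ∀ (h : ((cyl C d r).obj Y).cell (n + 1)),
    ((cyl C d r).obj Y).s h = ((cyl C d r).map φ).app n c →
    ((cyl C d r).obj Y).t h = ((cyl C d r).map φ).app n c' →
    ∀ a : (C.gs X).cell (n + 1), (C.gs X).s a = ((cyl C d r).e0 X).app n c →
      (C.gs X).t a = ((cyl C d r).e0 X).app n c' →
      (gsMap φ.hom).app (n + 1) a = ((cyl C d r).e0 Y).app (n + 1) h →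
      ∃ q, ((cyl C d r).obj X).s q = c ∧ ((cyl C d r).obj X).t q = c' ∧
        ((cyl C d r).e0 X).app (n + 1) q = a ∧ ((cyl C d r).map φ).app (n + 1) q = h := by
  intro d
  induction d with
  | zero =>
    intro r n hn X Y φ _ c c' _ h _ _ a hs ht ha
    have hlt : n + 1 < r := by omega
    refine ⟨lowCell hlt X a, ?_, ?_, e0_lowCell hlt X a, ?_⟩
    · refine low_ext (C := C) (d := 0) (r := r) (X := X) (by omega : n < r) ?_
      rw [← ((cyl C 0 r).e0 X).app_s, e0_lowCell, hs]
    · refine low_ext (C := C) (d := 0) (r := r) (X := X) (by omega : n < r) ?_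
      rw [← ((cyl C 0 r).e0 X).app_t, e0_lowCell, ht]
    · refine low_ext (C := C) (d := 0) (r := r) (X := Y) hlt ?_
      rw [map_lowCell, e0_lowCell, ha]
  | succ d ih =>
    intro r n hn X Y φ hφ c c' hpar h hs' ht' a hs ht ha
    rcases lt_trichotomy r (n + 1) with hr | hr | hr
    · have hrn : r ≤ n := Nat.lt_succ_iff.mp hr
      let e : ECell r (C.gs X) (n + 1) := ⟨(a, fun _ => boundaryEdges hrn c.1.1 c'.1.1),
        boundaryEdges_ok hrn (step_par_edge hpar).1 a hs ht⟩
      obtain ⟨es, et⟩ := ECell.src_boundary hrn (step_par_edge hpar).1 a hs ht e rfl fun _ => rfl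
      have hes : h.1.1.src = (edgeMap r (gsMap φ.hom)).app n c.1.1 :=
        congrArg (fun z => z.1.1) hs'
      have het : h.1.1.tgt = (edgeMap r (gsMap φ.hom)).app n c'.1.1 :=
        congrArg (fun z => z.1.1) ht'
      have hme : (edgeMap r (gsMap φ.hom)).app (n + 1) e = h.1.1 := by
        refine ECell.ext' ha fun hh => ?_
        rw [ECell.edges_of_faces hrn h.1.1 hh, hes, het, boundaryEdges_map hrn φ]
        rfl
      obtain ⟨q, q1, q2, q3, q4⟩ := ih (r + 1) n (by omega) φ hφ c.1.2 c'.1.2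
        (step_par_edge hpar).2 h.1.2 (congrArg (fun z => z.1.2) hs')
        (congrArg (fun z => z.1.2) ht') (C.conjE X r (n + 1) e)
        (((C.conjHom X r).app_s n e).trans ((congrArg (C.conjE X r n) es).trans c.2))
        (((C.conjHom X r).app_t n e).trans ((congrArg (C.conjE X r n) et).trans c'.2))
        ((C.conjHom_natural φ r (n + 1) e).trans ((congrArg (C.conjE Y r (n + 1)) hme).trans h.2))
      exact ⟨⟨(e, q), q3.symm⟩, Subtype.ext (Prod.ext es q1), Subtype.ext (Prod.ext et q2), rfl,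
        Subtype.ext (Prod.ext hme q4)⟩
    · subst hr
      let W : (C.gs Y).cell (n + 1 + 1) := (h.1.1.1.2 le_rfl).1
      have hWs : (C.gs Y).s W = (gsMap φ.hom).app (n + 1) a :=
        ((h.1.1.2 le_rfl).1.trans ((C.gs Y).sIter_self _)).trans ha.symm
      obtain ⟨b, bs, bt, bm⟩ := map_lift hφ ((C.gs X).par_st a) ((C.gs Y).t W)
        ((((C.gs Y).ss W).symm.trans (congrArg (C.gs Y).s hWs)).trans ((gsMap φ.hom).app_s n a))
        ((((C.gs Y).ts W).symm.trans (congrArg (C.gs Y).t hWs)).trans ((gsMap φ.hom).app_t n a))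
      obtain ⟨u, us, ut, um⟩ := map_lift hφ
        (show (C.gs X).Par a b from ⟨bs.symm, bt.symm⟩) W hWs bm.symm
      let e : ECell (n + 1) (C.gs X) (n + 1) := ⟨(a, fun _ => (u, u)), fun _ =>
        ⟨us.trans ((C.gs X).sIter_self a).symm, us.trans ((C.gs X).tIter_self a).symm,
          fun _ => rfl⟩⟩
      refine ⟨⟨(e, lowCell (n + 1).lt_succ_self X b), (C.conjE_eq X e).trans
        (ut.trans (e0_lowCell (n + 1).lt_succ_self X b).symm)⟩, ?_, ?_, rfl, ?_⟩
      · exact low_ext (C := C) (d := d + 1) (r := n + 1) (X := X) n.lt_succ_self hs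
      · exact low_ext (C := C) (d := d + 1) (r := n + 1) (X := X) n.lt_succ_self ht
      · refine Subtype.ext (Prod.ext (ECell.ext' ha fun _ => ?_) ?_)
        · exact Prod.ext um (um.trans ((h.1.1.2 le_rfl).2.2 rfl))
        · refine low_ext (C := C) (d := d) (r := n + 1 + 1) (X := Y) (n + 1).lt_succ_self ?_
          show ((cyl C d (n + 1 + 1)).e0 Y).app (n + 1)
              (((cyl C d (n + 1 + 1)).map φ).app (n + 1) (lowCell (n + 1).lt_succ_self X b))
            = ((cyl C d (n + 1 + 1)).e0 Y).app (n + 1) h.1.2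
          rw [map_lowCell, e0_lowCell, bm]
          exact (C.conjE_eq Y h.1.1).symm.trans h.2
    · refine ⟨lowCell hr X a, ?_, ?_, e0_lowCell hr X a, ?_⟩
      · refine low_ext (C := C) (d := d + 1) (r := r) (X := X) (by omega : n < r) ?_
        rw [← ((cyl C (d + 1) r).e0 X).app_s, e0_lowCell, hs]
      · refine low_ext (C := C) (d := d + 1) (r := r) (X := X) (by omega : n < r) ?_
        rw [← ((cyl C (d + 1) r).e0 X).app_t, e0_lowCell, ht]
      · refine low_ext (C := C) (d := d + 1) (r := r) (X := Y) hr ?_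
        rw [map_lowCell, e0_lowCell, ha]

/-! ### In the limit -/

/-- A boundary in the limit and a filler of its first endpoint extend to a cell of the limit. -/
theorem exists_inf_forward (C : Coherator) (X : C.Gpd) (n : ℕ)
    (c c' : ((cylInf C).obj X).cell n) (hpar : ((cylInf C).obj X).Par c c')
    (a : (C.gs X).cell (n + 1)) (hs : (C.gs X).s a = ((cylInf C).e0 X).app n c)
    (ht : (C.gs X).t a = ((cylInf C).e0 X).app n c') :
    ∃ q, ((cylInf C).obj X).s q = c ∧ ((cylInf C).obj X).t q = c' ∧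
      ((cylInf C).e0 X).app (n + 1) q = a := by
  have hn : n ≤ n + 1 := n.le_succ
  obtain ⟨q, q1, q2, q3⟩ := exists_forward C (n + 2) 0 n (by omega) X
    ((upLE C (n + 1) X).app n hn c) ((upLE C (n + 1) X).app n hn c')
    ((upLE C (n + 1) X).map_par hn hpar) a
    (hs.trans (up_e0 C (n + 1) X n hn c).symm) (ht.trans (up_e0 C (n + 1) X n hn c').symm)
  refine ⟨(downLE C (n + 1) X).app (n + 1) le_rfl q, ?_, ?_, ?_⟩
  · rw [(downLE C (n + 1) X).app_s n le_rfl, q1]
    exact down_up C (n + 1) X n hn c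
  · rw [(downLE C (n + 1) X).app_t n le_rfl, q2]
    exact down_up C (n + 1) X n hn c'
  · exact (toInf_e0 C (n + 2) X (n + 1) (n + 1).lt_succ_self q).trans q3

/-- In the limit, boundaries lift over trivial fibrations. -/
theorem exists_inf_over (C : Coherator) {X Y : C.Gpd} (φ : X ⟶ Y) (hφ : IsTrivFib φ) (n : ℕ)
    (c c' : ((cylInf C).obj X).cell n) (hpar : ((cylInf C).obj X).Par c c')
    (h : ((cylInf C).obj Y).cell (n + 1))
    (hs : ((cylInf C).obj Y).s h = ((cylInf C).map φ).app n c)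
    (ht : ((cylInf C).obj Y).t h = ((cylInf C).map φ).app n c') :
    ∃ q, ((cylInf C).obj X).s q = c ∧ ((cylInf C).obj X).t q = c' ∧
      ((cylInf C).map φ).app (n + 1) q = h := by
  have hn : n ≤ n + 1 := n.le_succ
  obtain ⟨a, as, at', am⟩ := map_lift hφ (((cylInf C).e0 X).map_par hpar)
    (((cylInf C).e0 Y).app (n + 1) h)
    ((((cylInf C).e0 Y).app_s n h).trans
      ((congrArg (((cylInf C).e0 Y).app n) hs).trans ((cylInf C).nat0 φ n c).symm))
    ((((cylInf C).e0 Y).app_t n h).trans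
      ((congrArg (((cylInf C).e0 Y).app n) ht).trans ((cylInf C).nat0 φ n c').symm))
  obtain ⟨q, q1, q2, -, q4⟩ := exists_over C (n + 2) 0 n (by omega) φ hφ
    ((upLE C (n + 1) X).app n hn c) ((upLE C (n + 1) X).app n hn c')
    ((upLE C (n + 1) X).map_par hn hpar) ((upLE C (n + 1) Y).app (n + 1) le_rfl h)
    (((upLE C (n + 1) Y).app_s n le_rfl h).trans ((congrArg _ hs).trans
      (up_map C (n + 1) φ n hn c).symm))
    (((upLE C (n + 1) Y).app_t n le_rfl h).trans ((congrArg _ ht).trans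
      (up_map C (n + 1) φ n hn c').symm))
    a (as.trans (up_e0 C (n + 1) X n hn c).symm) (at'.trans (up_e0 C (n + 1) X n hn c').symm)
    (am.trans (up_e0 C (n + 1) Y (n + 1) le_rfl h).symm)
  refine ⟨(downLE C (n + 1) X).app (n + 1) le_rfl q, ?_, ?_, ?_⟩
  · rw [(downLE C (n + 1) X).app_s n le_rfl, q1]
    exact down_up C (n + 1) X n hn c
  · rw [(downLE C (n + 1) X).app_t n le_rfl, q2]
    exact down_up C (n + 1) X n hn c'
  · refine (toInf_map C (n + 2) φ (n + 1) (n + 1).lt_succ_self q).trans ?_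
    rw [q4]
    exact down_up C (n + 1) Y (n + 1) le_rfl h

/-- In the limit, points lift over trivial fibrations. -/
theorem exists_inf_over_zero (C : Coherator) {X Y : C.Gpd} (φ : X ⟶ Y) (hφ : IsTrivFib φ)
    (h : ((cylInf C).obj Y).cell 0) : ∃ q, ((cylInf C).map φ).app 0 q = h := by
  let W : (C.gs Y).cell 1 := (h.1.1.1.2 le_rfl).1
  obtain ⟨a, ha⟩ := map_lift_zero hφ h.1.1.1.1
  obtain ⟨b, hb⟩ := map_lift_zero hφ ((C.gs Y).t W)
  obtain ⟨u, us, ut, um⟩ := map_lift hφ (show (C.gs X).Par a b from trivial) W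
    (((h.1.1.2 le_rfl).1.trans ((C.gs Y).sIter_self _)).trans ha.symm) hb.symm
  let e : ECell 0 (C.gs X) 0 := ⟨(a, fun _ => (u, u)), fun _ =>
    ⟨us.trans ((C.gs X).sIter_self a).symm, us.trans ((C.gs X).tIter_self a).symm, fun _ => rfl⟩⟩
  refine ⟨⟨(e, lowCell Nat.one_pos X b), (C.conjE_eq X e).trans
    (ut.trans (e0_lowCell Nat.one_pos X b).symm)⟩, ?_⟩
  refine Subtype.ext (Prod.ext (ECell.ext' ha fun _ => ?_) ?_)
  · exact Prod.ext um (um.trans ((h.1.1.2 le_rfl).2.2 rfl))
  · refine low_ext (C := C) (d := 0) (r := 1) (X := Y) Nat.one_pos ?_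
    show ((cyl C 0 1).e0 Y).app 0 (((cyl C 0 1).map φ).app 0 (lowCell Nat.one_pos X b))
      = ((cyl C 0 1).e0 Y).app 0 h.1.2
    rw [map_lowCell, e0_lowCell, hb]
    exact (C.conjE_eq Y h.1.1).symm.trans h.2

end Vale.Agent.P259
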