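import Vale.Agent.P259.CylOps

/-!
# P259: operations from natural fillers
-/

open CategoryTheory Opposite

namespace Vale.Agent.P259

variable {C : Coherator}

/-! ### The operations of a groupoid on tuples are functorial -/

theorem Coherator.bact_id (X : C.Gpd) {S : GSum} (p : (C.gs X).Bar S) :
    C.bact X (C.ext.id S) p = p := by
  obtain ⟨x, rfl⟩ := (C.barEquiv X S).surjective p
  show C.bact X _ (toBar X.obj S x) = toBar X.obj S x
  rw [C.bact_toBar, act_id]

theorem Coherator.bact_comp (X : C.Gpd) {R S T : GSum} (f : C.ext.Hom R S) (g : C.ext.Hom S T)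
    (p : (C.gs X).Bar T) : C.bact X (C.ext.comp f g) p = C.bact X f (C.bact X g p) := by
  obtain ⟨x, rfl⟩ := (C.barEquiv X T).surjective p
  show C.bact X _ (toBar X.obj T x) = C.bact X f (C.bact X g (toBar X.obj T x))
  rw [C.bact_toBar, C.bact_toBar, C.bact_toBar, act_comp]

theorem Coherator.bact_src (X : C.Gpd) (n : ℕ) (p : (C.gs X).Bar (GSum.disc (n + 1))) :
    C.bact X (C.ext.src n) p = (C.gs X).one n ((C.gs X).s p.1) := by
  obtain ⟨x, rfl⟩ := (C.barEquiv X _).surjective p
  exact C.bact_toBar X _ x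

theorem Coherator.bact_tgt (X : C.Gpd) (n : ℕ) (p : (C.gs X).Bar (GSum.disc (n + 1))) :
    C.bact X (C.ext.tgt n) p = (C.gs X).one n ((C.gs X).t p.1) := by
  obtain ⟨x, rfl⟩ := (C.barEquiv X _).surjective p
  exact C.bact_toBar X _ x

theorem Coherator.bact_inl (X : C.Gpd) {S : GSum} {j i : ℕ} (hS : j < S.last) (hi : j < i)
    (p : (C.gs X).Bar (S.snoc j i hS hi)) : C.bact X (C.ext.inl S j i hS hi) p = p.fst := by
  obtain ⟨x, rfl⟩ := (C.barEquiv X _).surjective p
  exact (C.bact_toBar X _ x).trans (toBar_fst X.obj x).symm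

theorem Coherator.bact_inr (X : C.Gpd) {S : GSum} {j i : ℕ} (hS : j < S.last) (hi : j < i)
    (p : (C.gs X).Bar (S.snoc j i hS hi)) :
    C.bact X (C.ext.inr S j i hS hi) p = (C.gs X).one i p.snd := by
  obtain ⟨x, rfl⟩ := (C.barEquiv X _).surjective p
  exact (C.bact_toBar X _ x).trans (congrArg ((C.gs X).one i) (toBar_snd X.obj x).symm)

/-! ### The invariant -/

section
variable {G : GOver C} {E : GlobExt}

/-- A map of the source extension acts naturally, compatibly with both endpoints. -/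
def GoodMap (τ : GMor E C.ext) (φ : ∀ X, GMor E (G.obj X).endExt) {R S : GSum}
    (h : E.Hom R S) : Prop :=
  (∀ {X Y : C.Gpd} (f : X ⟶ Y) (p : (G.obj X).Bar S),
    (G.map f).bar R ((φ X).map h p) = (φ Y).map h ((G.map f).bar S p)) ∧
  (∀ (X : C.Gpd) (p : (G.obj X).Bar S),
    (G.e0 X).bar R ((φ X).map h p) = C.bact X (τ.map h) ((G.e0 X).bar S p)) ∧
  ∀ (X : C.Gpd) (p : (G.obj X).Bar S),
    (G.e1 X).bar R ((φ X).map h p) = C.bact X (τ.map h) ((G.e1 X).bar S p)

theorem goodMap_closed (τ : GMor E C.ext) (φ : ∀ X, GMor E (G.obj X).endExt) :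
    E.Closed (fun h => GoodMap τ φ h) where
  id S := ⟨fun f p => by rw [(φ _).map_id, (φ _).map_id]; rfl,
    fun X p => by rw [(φ X).map_id, τ.map_id, C.bact_id]; rfl,
    fun X p => by rw [(φ X).map_id, τ.map_id, C.bact_id]; rfl⟩
  comp {R S T} f g hf hg := by
    refine ⟨fun {X Y} u p => ?_, fun X p => ?_, fun X p => ?_⟩
    · rw [(φ X).map_comp, (φ Y).map_comp]
      exact (hf.1 u _).trans (congrArg ((φ Y).map f) (hg.1 u p))
    · rw [(φ X).map_comp, τ.map_comp, C.bact_comp]
      exact (hf.2.1 X _).trans (congrArg (C.bact X (τ.map f)) (hg.2.1 X p))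
    · rw [(φ X).map_comp, τ.map_comp, C.bact_comp]
      exact (hf.2.2 X _).trans (congrArg (C.bact X (τ.map f)) (hg.2.2 X p))
  src n := by
    refine ⟨fun {X Y} u p => ?_, fun X p => ?_, fun X p => ?_⟩
    · rw [(φ X).map_src, (φ Y).map_src]
      exact congrArg ((G.obj Y).one n) ((G.map u).app_s n p.1).symm
    · rw [(φ X).map_src, τ.map_src, C.bact_src]
      exact congrArg ((C.gs X).one n) ((G.e0 X).app_s n p.1).symm
    · rw [(φ X).map_src, τ.map_src, C.bact_src]
      exact congrArg ((C.gs X).one n) ((G.e1 X).app_s n p.1).symm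
  tgt n := by
    refine ⟨fun {X Y} u p => ?_, fun X p => ?_, fun X p => ?_⟩
    · rw [(φ X).map_tgt, (φ Y).map_tgt]
      exact congrArg ((G.obj Y).one n) ((G.map u).app_t n p.1).symm
    · rw [(φ X).map_tgt, τ.map_tgt, C.bact_tgt]
      exact congrArg ((C.gs X).one n) ((G.e0 X).app_t n p.1).symm
    · rw [(φ X).map_tgt, τ.map_tgt, C.bact_tgt]
      exact congrArg ((C.gs X).one n) ((G.e1 X).app_t n p.1).symm
  inl S j i hS hi := by
    refine ⟨fun {X Y} u p => ?_, fun X p => ?_, fun X p => ?_⟩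
    · rw [(φ X).map_inl, (φ Y).map_inl]
      exact ((G.map u).bar_fst p).symm
    · rw [(φ X).map_inl, τ.map_inl, C.bact_inl]
      exact ((G.e0 X).bar_fst p).symm
    · rw [(φ X).map_inl, τ.map_inl, C.bact_inl]
      exact ((G.e1 X).bar_fst p).symm
  inr S j i hS hi := by
    refine ⟨fun {X Y} u p => ?_, fun X p => ?_, fun X p => ?_⟩
    · rw [(φ X).map_inr, (φ Y).map_inr]
      exact congrArg ((G.obj Y).one i) ((G.map u).bar_snd p).symm
    · rw [(φ X).map_inr, τ.map_inr, C.bact_inr]
      exact congrArg ((C.gs X).one i) ((G.e0 X).bar_snd p).symm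
    · rw [(φ X).map_inr, τ.map_inr, C.bact_inr]
      exact congrArg ((C.gs X).one i) ((G.e1 X).bar_snd p).symm
  pair S j i hS hi T w hl hr := by
    have one_inj : ∀ (A : GSet) {a b : A.cell i}, A.one i a = A.one i b → a = b :=
      fun A a b h => (A.one i).injective h
    have el : ∀ X p, ((φ X).map w p).fst = (φ X).map (E.comp (E.inl S j i hS hi) w) p :=
      fun X p => by
        rw [(φ X).map_comp, (φ X).map_inl]
        rfl
    have er : ∀ X p, (G.obj X).one i ((φ X).map w p).snd
        = (φ X).map (E.comp (E.inr S j i hS hi) w) p := fun X p => by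
        rw [(φ X).map_comp, (φ X).map_inr]
        rfl
    have bl : ∀ X q, (C.bact X (τ.map w) q).fst
        = C.bact X (τ.map (E.comp (E.inl S j i hS hi) w)) q := fun X q => by
      rw [τ.map_comp, τ.map_inl, C.bact_comp, C.bact_inl]
    have br : ∀ X q, (C.gs X).one i (C.bact X (τ.map w) q).snd
        = C.bact X (τ.map (E.comp (E.inr S j i hS hi) w)) q := fun X q => by
      rw [τ.map_comp, τ.map_inr, C.bact_comp, C.bact_inr]
    refine ⟨fun {X Y} u p => GSet.Bar.ext' ?_ (one_inj _ ?_),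
      fun X p => GSet.Bar.ext' ?_ (one_inj _ ?_), fun X p => GSet.Bar.ext' ?_ (one_inj _ ?_)⟩
    · rw [GHom.bar_fst, el, el]
      exact hl.1 u p
    · rw [GHom.bar_snd, er, ← GHom.bar_one, er]
      exact hr.1 u p
    · rw [GHom.bar_fst, el, bl]
      exact hl.2.1 X p
    · rw [GHom.bar_snd, br, ← GHom.bar_one, er]
      exact hr.2.1 X p
    · rw [GHom.bar_fst, el, bl]
      exact hl.2.2 X p
    · rw [GHom.bar_snd, br, ← GHom.bar_one, er]
      exact hr.2.2 X p

end

/-- Natural fillers of natural boundaries on tuples of shapes of admissible dimension. -/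
def FillProp (G : GOver C) : Prop :=
  ∀ (S : GSum) (n : ℕ), S.dim ≤ n + 1 → ∀ c c' : GFam G.toGFun (G.toGFun.barF S) n, c.Par c' →
    ∀ a a' : Fam (G.toGFun.barF S) (n + 1), a.s = GFam.e0 c → a.t = GFam.e0 c' →
      a'.s = GFam.e1 c → a'.t = GFam.e1 c' →
      ((∀ X i, i ≤ n + 1 → ∀ z, (G.e0 X).app i z = (G.e1 X).app i z) → a = a') →
      ∃ q : GFam G.toGFun (G.toGFun.barF S) (n + 1),
        GFam.s q = c ∧ GFam.t q = c' ∧ GFam.e0 q = a ∧ GFam.e1 q = a'

/-- The image of a map to `S` as a family of cells on tuples. -/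
noncomputable def famOfMap (G : GOver C) (e : ∀ X, GHom (G.obj X) (C.gs X))
    (hnat : ∀ {X Y : C.Gpd} (f : X ⟶ Y) n a,
      (gsMap f.hom).app n ((e X).app n a) = (e Y).app n ((G.map f).app n a))
    {n : ℕ} {S : GSum} (h : C.ext.Hom (GSum.disc n) S) : Fam (G.toGFun.barF S) n where
  app X p := (C.bact X h ((e X).bar S p)).1
  nat {X Y} f p := by
    show (gsMap f.hom).app n _ = (C.bact Y h ((e Y).bar S ((G.map f).bar S p))).1
    have hb : (gsMap f.hom).bar S ((e X).bar S p) = (e Y).bar S ((G.map f).bar S p) := by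
      rw [← GHom.bar_comp, ← GHom.bar_comp]
      exact GHomLE.bar_congr _ _ (fun n _ a => hnat f n a) S le_rfl p
    rw [← hb, ← C.bact_natural]
    rfl

theorem exists_genLift (G : GOver C) (hG : FillProp G) (k : ℕ)
    (φ : ∀ X : C.Gpd, GMor (C.stage k) (G.obj X).endExt)
    (hk : ∀ (R S : GSum) (h : (C.stage k).Hom R S), GoodMap (C.toExt k) φ h)
    (P : AdmPair (C.stage k)) (l : (C.stage (k + 1)).Hom (GSum.disc (P.n + 1)) P.S)
    (hl : (C.stage (k + 1)).IsLift ((C.step k).map P.f) ((C.step k).map P.g) l) :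
    ∃ q : GFam G.toGFun (G.toGFun.barF P.S) (P.n + 1),
      (∀ X p, (G.obj X).one _ ((G.obj X).s (q.app X p)) = (φ X).map P.f p) ∧
      (∀ X p, (G.obj X).one _ ((G.obj X).t (q.app X p)) = (φ X).map P.g p) ∧
      (∀ X p, (C.gs X).one _ ((G.e0 X).app _ (q.app X p))
        = C.bact X ((C.toExt (k + 1)).map l) ((G.e0 X).bar _ p)) ∧
      (∀ X p, (C.gs X).one _ ((G.e1 X).app _ (q.app X p))
        = C.bact X ((C.toExt (k + 1)).map l) ((G.e1 X).bar _ p)) := by
  obtain ⟨n, S, f, g, hfg, hdim⟩ := P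
  dsimp only at l hl ⊢
  let mk : (C.stage k).Hom (GSum.disc n) S → GFam G.toGFun (G.toGFun.barF S) n := fun f =>
    ⟨fun X p => ((φ X).map f p).1, fun {X Y} u p =>
      congrArg Subtype.val ((hk _ _ f).1 u p)⟩
  have par : (mk f).Par (mk g) := by
    intro X p
    cases n with
    | zero => exact trivial
    | succ m =>
      obtain ⟨h1, h2⟩ := hfg
      have e1 := congrFun (congrArg (φ X).map h1) p
      have e2 := congrFun (congrArg (φ X).map h2) p
      rw [(φ X).map_comp, (φ X).map_comp, (φ X).map_src] at e1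
      rw [(φ X).map_comp, (φ X).map_comp, (φ X).map_tgt] at e2
      exact ⟨congrArg Subtype.val e1, congrArg Subtype.val e2⟩
  let L := (C.toExt (k + 1)).map l
  have hLs : C.ext.comp (C.ext.src n) L = (C.toExt k).map f := by
    rw [← (C.toExt (k + 1)).map_src, ← (C.toExt (k + 1)).map_comp, hl.1, C.toExt_map_step]
  have hLt : C.ext.comp (C.ext.tgt n) L = (C.toExt k).map g := by
    rw [← (C.toExt (k + 1)).map_tgt, ← (C.toExt (k + 1)).map_comp, hl.2, C.toExt_map_step]
  have fs : ∀ (e : ∀ X, GHom (G.obj X) (C.gs X)) hnat X p,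
      (C.gs X).s ((famOfMap G e hnat L).app X p)
        = (C.bact X ((C.toExt k).map f) ((e X).bar S p)).1 := fun e hnat X p => by
    rw [← hLs, C.bact_comp, C.bact_src]
    rfl
  have ft : ∀ (e : ∀ X, GHom (G.obj X) (C.gs X)) hnat X p,
      (C.gs X).t ((famOfMap G e hnat L).app X p)
        = (C.bact X ((C.toExt k).map g) ((e X).bar S p)).1 := fun e hnat X p => by
    rw [← hLt, C.bact_comp, C.bact_tgt]
    rfl
  obtain ⟨q, q1, q2, q3, q4⟩ := hG S n hdim (mk f) (mk g) par
    (famOfMap G G.e0 G.nat0 L) (famOfMap G G.e1 G.nat1 L)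
    (Fam.ext_app fun X p => (fs G.e0 G.nat0 X p).trans
      (congrArg Subtype.val ((hk _ _ f).2.1 X p)).symm)
    (Fam.ext_app fun X p => (ft G.e0 G.nat0 X p).trans
      (congrArg Subtype.val ((hk _ _ g).2.1 X p)).symm)
    (Fam.ext_app fun X p => (fs G.e1 G.nat1 X p).trans
      (congrArg Subtype.val ((hk _ _ f).2.2 X p)).symm)
    (Fam.ext_app fun X p => (ft G.e1 G.nat1 X p).trans
      (congrArg Subtype.val ((hk _ _ g).2.2 X p)).symm)
    (fun hlow => Fam.ext_app fun X p => by
      show (C.bact X L ((G.e0 X).bar S p)).1 = (C.bact X L ((G.e1 X).bar S p)).1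
      rw [← GHom.toLE_bar (G.e0 X) S hdim p, ← GHom.toLE_bar (G.e1 X) S hdim p,
        GHomLE.bar_congr ((G.e0 X).toLE (n + 1)) ((G.e1 X).toLE (n + 1))
          (fun i hi z => hlow X i hi z) S hdim p])
  exact ⟨q, fun X p => Subtype.ext (congrFun (congrFun (congrArg Nat'.app q1) X) p),
    fun X p => Subtype.ext (congrFun (congrFun (congrArg Nat'.app q2) X) p),
    fun X p => Subtype.ext (congrFun (congrFun (congrArg Nat'.app q3) X) p),
    fun X p => Subtype.ext (congrFun (congrFun (congrArg Nat'.app q4) X) p)⟩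

/-- Natural fillers give operations. -/
theorem exists_gops (G : GOver C) (hG : FillProp G) : Nonempty (GOps G) := by
  let Good : ∀ k, (∀ X : C.Gpd, GMor (C.stage k) (G.obj X).endExt) → Prop := fun k φ =>
    ∀ (R S : GSum) (h : (C.stage k).Hom R S), GoodMap (C.toExt k) φ h
  obtain ⟨φ, hφ⟩ := C.exists_mor (fun X => (G.obj X).endExt) Good
    (fun φ R S h => C.stage_zero.induction (fun h => GoodMap (C.toExt 0) φ h)
      (goodMap_closed _ _) h)
    (by
      intro k φ hk
      choose q hs ht h0 h1 using fun a : C.Adj k =>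
        exists_genLift G hG k φ hk (C.pair k a) (C.adjLift k a) (C.adjLift_spec k a)
      let lift : ∀ (X : C.Gpd) (a : C.Adj k),
          (G.obj X).endExt.Hom (GSum.disc ((C.pair k a).n + 1)) (C.pair k a).S :=
        fun X a p => (G.obj X).one _ ((q a).app X p)
      have hlift : ∀ X a, (G.obj X).endExt.IsLift ((φ X).map (C.pair k a).f)
          ((φ X).map (C.pair k a).g) (lift X a) := fun X a =>
        ⟨funext fun p => hs a X p, funext fun p => ht a X p⟩
      choose φ' hstep hgen using fun X =>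
        (C.adj_univ k _ (φ X) (lift X) (hlift X)).exists
      refine ⟨φ', hstep, fun R S h => ?_⟩
      refine C.stage_induction k (fun h => GoodMap (C.toExt (k + 1)) φ' h)
        (goodMap_closed _ _) (fun {R S} f => ?_) (fun a => ?_) h
      · have e : ∀ X p, (φ' X).map ((C.step k).map f) p = (φ X).map f p := fun X p => by
          rw [← hstep X]
          rfl
        refine ⟨fun u p => ?_, fun X p => ?_, fun X p => ?_⟩
        · rw [e, e]
          exact (hk _ _ f).1 u p
        · rw [e, C.toExt_map_step]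
          exact (hk _ _ f).2.1 X p
        · rw [e, C.toExt_map_step]
          exact (hk _ _ f).2.2 X p
      · refine ⟨fun {X Y} u p => ?_, fun X p => ?_, fun X p => ?_⟩
        · rw [hgen X a, hgen Y a]
          exact congrArg ((G.obj Y).one _) ((q a).nat u p)
        · rw [hgen X a]
          exact h0 a X p
        · rw [hgen X a]
          exact h1 a X p)
  have hall : ∀ (R S : GSum) (h : C.ext.Hom R S), GoodMap (GMor.idMor C.ext) φ h :=
    fun R S h => C.ext_induction (fun h => GoodMap (GMor.idMor C.ext) φ h) (goodMap_closed _ _)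
      (fun k R S f => hφ k R S f) h
  exact ⟨{
    φ := φ
    natural := fun u R S h p => (hall R S h).1 u p
    ev0 := fun X R S h p => (hall R S h).2.1 X p
    ev1 := fun X R S h p => (hall R S h).2.2 X p }⟩

end Vale.Agent.P259
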