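import Vale.Agent.P259.CylFill

/-!
# P259: the endpoints of cylinders form a fibration above the level
-/

open CategoryTheory Opposite

namespace Vale.Agent.P259

variable {C : Coherator}

/-- Conjugation one dimension above the level is a composite, up to a cell. -/
theorem conjU_rel_cmp (C : Coherator) (r : ℕ)
    (h1 : (triP C r (r + 1) r.lt_succ_self).t = (triA C r (r + 1) r.lt_succ_self).s)
    (h2 : (triA C r (r + 1) r.lt_succ_self).t = (triQ C r (r + 1) r.lt_succ_self).s) :
    (conjU C r (r + 1) r.lt_succ_self).Rel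
      (Fam.cmp (Fam.cmp (triP C r (r + 1) r.lt_succ_self) (triA C r (r + 1) r.lt_succ_self) h1)
        (triQ C r (r + 1) r.lt_succ_self) ((Fam.cmp_t _ _ h1).trans h2)) :=
  hasFill_triT C r.lt_succ_self r.le_succ (Nat.le_succ _) _ _
    (Fam.par_of_eq (by rw [(conjU_base C r).1, Fam.cmp_s, Fam.cmp_s])
      (by rw [(conjU_base C r).2, Fam.cmp_t]))

/-- A cell of the tower at its level, from two parallel cells joined by a cell. -/
theorem exists_cylEdge (C : Coherator) : ∀ (d n : ℕ) (R : TFun C) (a a' : Fam R n),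
    a.Par a' → (0 < d → a.Rel a') →
      ∃ q : GFam (cyl C d n).toGFun R n, q.e0 = a ∧ q.e1 = a'
  | 0, n, R, a, a', hpar, _ => by
      refine ⟨⟨fun X x => ⟨(a.app X x, a'.app X x), fun j hj hjn => ?_⟩,
        fun φ x => Subtype.ext (Prod.ext (a.nat φ x) (a'.nat φ x))⟩, rfl, rfl⟩
      obtain ⟨k, rfl⟩ : ∃ k, n = k + 1 := ⟨n - 1, by omega⟩
      obtain ⟨hs, ht⟩ := hpar X x
      show (C.gs X).sIter hj (a.app X x) = (C.gs X).sIter hj (a'.app X x) ∧
        (C.gs X).tIter hj (a.app X x) = (C.gs X).tIter hj (a'.app X x)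
      rw [GSet.sIter_succ _ (Nat.lt_succ_iff.mp hjn), GSet.sIter_succ _ (Nat.lt_succ_iff.mp hjn),
        GSet.tIter_succ _ (Nat.lt_succ_iff.mp hjn), GSet.tIter_succ _ (Nat.lt_succ_iff.mp hjn),
        hs, ht]
      exact ⟨rfl, rfl⟩
  | d + 1, n, R, a, a', _, hW => by
      obtain ⟨W, hW1, hW2⟩ := hW (Nat.succ_pos d)
      have hWs : ∀ X x, (C.gs X).s (W.app X x) = a.app X x := fun X x =>
        congrFun (congrFun (congrArg Nat'.app hW1) X) x
      have hWt : ∀ X x, (C.gs X).t (W.app X x) = a'.app X x := fun X x =>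
        congrFun (congrFun (congrArg Nat'.app hW2) X) x
      let eFam : GFam (edgeF C n) R n :=
        ⟨fun X x => ⟨(a.app X x, fun _ => (W.app X x, W.app X x)), fun h =>
          ⟨by rw [GSet.sIter_self]; exact hWs X x, by rw [GSet.tIter_self]; exact hWs X x,
            fun _ => rfl⟩⟩,
         fun φ x => ECell.ext' (a.nat φ x) fun _ => Prod.ext (W.nat φ x) (W.nat φ x)⟩
      refine ⟨⟨fun X x => ⟨(eFam.app X x, lowCell n.lt_succ_self X (a'.app X x)),
          (C.conjE_eq X _).trans ((hWt X x).trans (e0_lowCell n.lt_succ_self X _).symm)⟩,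
        fun φ x => Subtype.ext (Prod.ext (eFam.nat φ x)
          ((map_lowCell n.lt_succ_self φ _).trans (congrArg _ (a'.nat φ x))))⟩, rfl, ?_⟩
      exact Fam.ext_app fun X x => e1_lowCell n.lt_succ_self X _

theorem edge_lift_rel {R : TFun C} {r : ℕ} (f u f' : Fam R (r + 1)) (h1 : f.s = u.s)
    (h2 : u.t = f'.s) (hs : (Fam.inv u).t = f.s)
    (he : f.t = (Fam.cmp (Fam.cmp (Fam.inv f) u ((Fam.inv_t f).trans h1)) f'
      ((Fam.cmp_t _ _ _).trans h2)).s) :
    (Fam.cmp (Fam.cmp (Fam.inv u) f hs) (Fam.cmp (Fam.cmp (Fam.inv f) u ((Fam.inv_t f).trans h1)) f'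
      ((Fam.cmp_t _ _ _).trans h2)) ((Fam.cmp_t _ _ _).trans he)).Rel f' := by
  refine (Fam.assoc' _ _ _ hs he).trans ?_
  have e1 : (Fam.cmp f (Fam.cmp (Fam.cmp (Fam.inv f) u ((Fam.inv_t f).trans h1)) f'
      ((Fam.cmp_t _ _ _).trans h2)) he).Rel (Fam.cmp u f' h2) := by
    refine ((Fam.assoc' (Fam.inv f) u f' ((Fam.inv_t f).trans h1) h2).cmp_right f he).trans ?_
    exact Fam.cmp_inv_cancel f (Fam.cmp u f' h2) (by rw [Fam.cmp_s, h1])
  exact (e1.cmp_right (Fam.inv u) (by rw [Fam.cmp_s, hs])).trans (Fam.inv_cmp_cancel u f' h2)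

/-- Cylinders lift cells of both endpoints with prescribed source, above the level. -/
theorem exists_fibLift (C : Coherator) : ∀ (d r n : ℕ), r ≤ n → ∀ (R : TFun C)
    (q : GFam (cyl C d r).toGFun R n) (f f' : Fam R (n + 1)),
    f.s = q.e0 → f'.s = q.e1 →
      ∃ q' : GFam (cyl C d r).toGFun R (n + 1), q'.s = q ∧ q'.e0 = f ∧ q'.e1 = f'
  | 0, r, n, hrn, R, q, f, f', hf, hf' => by
      have e : ∀ X x, (C.gs X).s (f.app X x) = (q.app X x).1.1 := fun X x =>
        congrFun (congrFun (congrArg Nat'.app hf) X) x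
      have e' : ∀ X x, (C.gs X).s (f'.app X x) = (q.app X x).1.2 := fun X x =>
        congrFun (congrFun (congrArg Nat'.app hf') X) x
      have ok : ∀ X x, SameBelow (C.gs X) r (n + 1) (f.app X x) (f'.app X x) := by
        intro X x j hj hjr
        have hjn : j < n := lt_of_lt_of_le hjr hrn
        obtain ⟨h1, h2⟩ := (q.app X x).2 j hjn.le hjr
        constructor
        · rw [GSet.sIter_succ _ hjn.le, GSet.sIter_succ _ hjn.le, e, e']
          exact h1
        · rw [GSet.tIter_succ _ hjn.le, GSet.tIter_succ _ hjn.le, ← (C.gs X).tIter_s hjn,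
            ← (C.gs X).tIter_s hjn, e, e']
          exact h2
      exact ⟨⟨fun X x => ⟨(f.app X x, f'.app X x), ok X x⟩,
          fun φ x => Subtype.ext (Prod.ext (f.nat φ x) (f'.nat φ x))⟩,
        Nat'.ext (funext fun X => funext fun x => Subtype.ext (Prod.ext (e X x) (e' X x))),
        rfl, rfl⟩
  | d + 1, r, n, hrn, R, q, f, f', hf, hf' => by
      have e : ∀ X x, (C.gs X).s (f.app X x) = (q.app X x).1.1.1.1 := fun X x =>
        congrFun (congrFun (congrArg Nat'.app hf) X) x
      let q0 : GFam (cyl C d (r + 1)).toGFun R n :=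
        ⟨fun X x => (q.app X x).1.2, fun φ x => congrArg (fun z => z.1.2) (q.nat φ x)⟩
      rcases Nat.lt_or_eq_of_le hrn with hlt | heq
      · let eFam : GFam (edgeF C r) R (n + 1) :=
          ⟨fun X x => ⟨(f.app X x, fun _ => (q.app X x).1.1.1.2 hrn), fun h => by
            obtain ⟨u1, u2, -⟩ := (q.app X x).1.1.2 hrn
            refine ⟨u1.trans ?_, u2.trans ?_, fun he => absurd he (by omega)⟩
            · rw [GSet.sIter_succ _ hrn, e]
            · rw [GSet.tIter_succ _ hrn, ← (C.gs X).tIter_s hlt, e]⟩,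
           fun φ x => ECell.ext' (f.nat φ x) fun _ =>
             congrArg (fun z => z.1.1.1.2 hrn) (q.nat φ x)⟩
        have esrc : ∀ X x, (eFam.app X x).src = (q.app X x).1.1 := fun X x =>
          ECell.ext' (e X x) fun h => by simp only [eFam, ECell.src, if_neg (Nat.ne_of_gt hlt)]
        let ca : Fam R (n + 1) := ⟨fun X x => C.conjE X r (n + 1) (eFam.app X x),
          fun φ x => (C.conjHom_natural φ r (n + 1) _).trans
            (congrArg (C.conjE _ r (n + 1)) (eFam.nat φ x))⟩
        obtain ⟨q', hs, h0, h1⟩ := exists_fibLift C d (r + 1) n hlt R q0 ca f'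
          (Fam.ext_app fun X x => ((C.conjHom X r).app_s n (eFam.app X x)).trans
            ((congrArg (C.conjE X r n) (esrc X x)).trans (q.app X x).2)) hf'
        refine ⟨⟨fun X x => ⟨(eFam.app X x, q'.app X x),
            (congrFun (congrFun (congrArg Nat'.app h0) X) x).symm⟩,
          fun φ x => Subtype.ext (Prod.ext (eFam.nat φ x) (q'.nat φ x))⟩, ?_, rfl, h1⟩
        exact Nat'.ext (funext fun X => funext fun x => Subtype.ext (Prod.ext (esrc X x)
          (congrFun (congrFun (congrArg Nat'.app hs) X) x)))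
      · subst heq
        let u : Fam R (r + 1) := ⟨fun X x => ((q.app X x).1.1.1.2 le_rfl).1,
          fun φ x => congrArg (fun z => (z.1.1.1.2 le_rfl).1) (q.nat φ x)⟩
        have hu : ∀ X x, (C.gs X).s (u.app X x) = (q.app X x).1.1.1.1 := fun X x => by
          refine ((q.app X x).1.1.2 le_rfl).1.trans ?_
          rw [GSet.sIter_self]
        have hut : ∀ X x, (C.gs X).t (u.app X x) = (C.gs X).s (f'.app X x) := fun X x => by
          refine (C.conjE_eq X _).symm.trans ((q.app X x).2.trans ?_)
          refine ((cyl_low C d (r + 1) r r.lt_succ_self X).1 _).trans ?_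
          exact (congrFun (congrFun (congrArg Nat'.app hf') X) x).symm
        have h1 : f.s = u.s := Fam.ext_app fun X x => (e X x).trans (hu X x).symm
        have h2 : u.t = f'.s := Fam.ext_app hut
        let E : Fam R (r + 1) := Fam.cmp (Fam.cmp (Fam.inv f) u ((Fam.inv_t f).trans h1)) f'
          ((Fam.cmp_t _ _ _).trans h2)
        have hEs : E.s = f.t := by simp only [E, Fam.cmp_s, Fam.inv_s]
        have hEt : E.t = f'.t := by simp only [E, Fam.cmp_t]
        let eFam : GFam (edgeF C r) R (r + 1) :=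
          ⟨fun X x => ⟨(f.app X x, fun _ => (u.app X x, E.app X x)), fun h => by
            refine ⟨(hu X x).trans ((e X x).symm.trans ((C.gs X).sIter_eq_one _).symm), ?_,
              fun he => absurd he (by omega)⟩
            exact (congrFun (congrFun (congrArg Nat'.app hEs) X) x).trans
              ((C.gs X).tIter_eq_one _).symm⟩,
           fun φ x => ECell.ext' (f.nat φ x) fun _ => Prod.ext (u.nat φ x) (E.nat φ x)⟩
        let ca : Fam R (r + 1) := ⟨fun X x => C.conjE X r (r + 1) (eFam.app X x),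
          fun φ x => (C.conjHom_natural φ r (r + 1) _).trans
            (congrArg (C.conjE _ r (r + 1)) (eFam.nat φ x))⟩
        have hs' : (Fam.inv u).t = f.s := by rw [Fam.inv_t, h1]
        let tri : Nat' R (triT C r (r + 1) r.lt_succ_self) :=
          { app := fun X x => ⟨((Fam.inv u).app X x, f.app X x, E.app X x),
              (congrFun (congrFun (congrArg Nat'.app hs') X) x).trans
                ((C.gs X).sIter_eq_one _).symm,
              ((C.gs X).tIter_eq_one _).trans
                (congrFun (congrFun (congrArg Nat'.app hEs) X) x).symm⟩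
            nat := fun φ x => Subtype.ext (Prod.ext ((Fam.inv u).nat φ x)
              (Prod.ext (f.nat φ x) (E.nat φ x))) }
        have hca : ca = (conjU C r (r + 1) r.lt_succ_self).pre tri := Fam.ext_app fun X x => by
          show C.conjE X r (r + 1) (eFam.app X x)
            = (conjU C r (r + 1) r.lt_succ_self).app X (tri.app X x)
          rw [C.conjE_gt X r.lt_succ_self]
          rfl
        have hR : ca.Rel f' := by
          rw [hca]
          refine Fam.Rel.trans ?_ (edge_lift_rel f u f' h1 h2 hs' hEs.symm)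
          have hU := conjU_rel_cmp C r
            (Fam.ext_app fun X x => x.2.1.trans ((C.gs X).sIter_eq_one _))
            (Fam.ext_app fun X x => ((C.gs X).tIter_eq_one _).symm.trans x.2.2)
          exact hU.pre tri
        obtain ⟨q', h0, h1'⟩ := exists_cylEdge C d (r + 1) R ca f'
          (Fam.par_of_eq (by
              rw [hca, Fam.pre_s, (conjU_base C r).1]
              exact Fam.ext_app fun X x =>
                ((congrFun (congrFun (congrArg Nat'.app (Fam.inv_s u)) X) x)).trans (hut X x))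
            (by
              rw [hca, Fam.pre_t, (conjU_base C r).2]
              exact hEt))
          (fun _ => hR)
        refine ⟨⟨fun X x => ⟨(eFam.app X x, q'.app X x),
            (congrFun (congrFun (congrArg Nat'.app h0) X) x).symm⟩,
          fun φ x => Subtype.ext (Prod.ext (eFam.nat φ x) (q'.nat φ x))⟩, ?_, rfl, h1'⟩
        refine Nat'.ext (funext fun X => funext fun x => Subtype.ext (Prod.ext ?_ ?_))
        · show (eFam.app X x).src = (q.app X x).1.1
          refine ECell.ext' (e X x) fun h => ?_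
          simp only [eFam, ECell.src, if_pos trivial]
          exact Prod.ext rfl (((q.app X x).1.1.2 h).2.2 rfl)
        · refine low_ext' (C := C) (d := d) (r := r + 1) (X := X) r.lt_succ_self ?_
          refine (((cyl C d (r + 1)).e1 X).app_s r _).symm.trans ?_
          refine (congrArg (C.gs X).s (congrFun (congrFun (congrArg Nat'.app h1') X) x)).trans ?_
          exact congrFun (congrFun (congrArg Nat'.app hf') X) x

/-- The data for a lift. -/
noncomputable abbrev fibT (C : Coherator) (d r n : ℕ) : TFun C where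
  obj X := {x : ((cyl C d r).obj X).cell n × (C.gs X).cell (n + 1) × (C.gs X).cell (n + 1) //
    (C.gs X).s x.2.1 = ((cyl C d r).e0 X).app n x.1 ∧
      (C.gs X).s x.2.2 = ((cyl C d r).e1 X).app n x.1}
  map {X Y} φ x := ⟨(((cyl C d r).map φ).app n x.1.1, (gsMap φ.hom).app _ x.1.2.1,
      (gsMap φ.hom).app _ x.1.2.2),
    by rw [← (cyl C d r).nat0, (gsMap φ.hom).app_s, x.2.1],
    by rw [← (cyl C d r).nat1, (gsMap φ.hom).app_s, x.2.2]⟩

theorem exists_fibOp (C : Coherator) (d r n : ℕ) (hn : r ≤ n) :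
    ∃ L : GFam (cyl C d r).toGFun (fibT C d r n) (n + 1),
      (L.s).app = (fun _ x => x.1.1) ∧ (GFam.e0 L).app = (fun _ x => x.1.2.1) ∧
        (GFam.e1 L).app = (fun _ x => x.1.2.2) := by
  let q : GFam (cyl C d r).toGFun (fibT C d r n) n := ⟨fun _ x => x.1.1, fun _ _ => rfl⟩
  let f : Fam (fibT C d r n) (n + 1) := ⟨fun _ x => x.1.2.1, fun _ _ => rfl⟩
  let f' : Fam (fibT C d r n) (n + 1) := ⟨fun _ x => x.1.2.2, fun _ _ => rfl⟩
  obtain ⟨L, h1, h2, h3⟩ := exists_fibLift C d r n hn (fibT C d r n) q f f'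
    (Fam.ext_app fun X x => x.2.1) (Fam.ext_app fun X x => x.2.2)
  exact ⟨L, congrArg Nat'.app h1, congrArg Nat'.app h2, congrArg Nat'.app h3⟩

/-- The chosen natural lift. -/
noncomputable def Coherator.fibOp (C : Coherator) (d r n : ℕ) (hn : r ≤ n) :
    GFam (cyl C d r).toGFun (fibT C d r n) (n + 1) :=
  (exists_fibOp C d r n hn).choose

theorem Coherator.fibOp_s (C : Coherator) (d r n : ℕ) (hn : r ≤ n) (X : C.Gpd)
    (x : (fibT C d r n).obj X) :
    ((cyl C d r).obj X).s ((C.fibOp d r n hn).app X x) = x.1.1 :=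
  congrFun (congrFun (exists_fibOp C d r n hn).choose_spec.1 X) x

theorem Coherator.fibOp_e0 (C : Coherator) (d r n : ℕ) (hn : r ≤ n) (X : C.Gpd)
    (x : (fibT C d r n).obj X) :
    ((cyl C d r).e0 X).app _ ((C.fibOp d r n hn).app X x) = x.1.2.1 :=
  congrFun (congrFun (exists_fibOp C d r n hn).choose_spec.2.1 X) x

theorem Coherator.fibOp_e1 (C : Coherator) (d r n : ℕ) (hn : r ≤ n) (X : C.Gpd)
    (x : (fibT C d r n).obj X) :
    ((cyl C d r).e1 X).app _ ((C.fibOp d r n hn).app X x) = x.1.2.2 :=
  congrFun (congrFun (exists_fibOp C d r n hn).choose_spec.2.2 X) x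

end Vale.Agent.P259
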