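import Vale.Agent.P259.Layer

/-!
# P259: cells of the tower below its level, and fillers
-/

open CategoryTheory Opposite

namespace Vale.Agent.P259

variable {C : Coherator}

theorem sameBelow_refl (G : GSet) (M i : ℕ) (a : G.cell i) : SameBelow G M i a a :=
  fun _ _ _ => ⟨rfl, rfl⟩

theorem sameBelow_eq {G : GSet} {M i : ℕ} {a b : G.cell i} (h : SameBelow G M i a b)
    (hi : i < M) : a = b := by
  have := (h i le_rfl hi).1
  rwa [GSet.sIter_self, GSet.sIter_self] at this

/-- Below the level, a cylinder is a single cell. -/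
theorem cyl_low (C : Coherator) : ∀ (d r i : ℕ), i < r → ∀ X : C.Gpd,
    (∀ x, ((cyl C d r).e0 X).app i x = ((cyl C d r).e1 X).app i x) ∧
      Function.Bijective (((cyl C d r).e0 X).app i)
  | 0, r, i, hi, X => by
      refine ⟨fun x => sameBelow_eq x.2 hi, fun x y h => ?_, fun a => ⟨⟨(a, a), sameBelow_refl _ _ _ _⟩, rfl⟩⟩
      apply Subtype.ext
      exact Prod.ext h ((sameBelow_eq x.2 hi).symm.trans (h.trans (sameBelow_eq y.2 hi)))
  | d + 1, r, i, hi, X => by
      obtain ⟨ih, ihb⟩ := cyl_low C d (r + 1) i (Nat.lt_succ_of_lt hi) X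
      refine ⟨fun x => ?_, fun x y h => ?_, fun a => ?_⟩
      · show x.1.1.1.1 = ((cyl C d (r + 1)).e1 X).app i x.1.2
        rw [← ih, ← x.2, C.conjE_lt X hi]
      · refine Subtype.ext (Prod.ext (ECell.ext' h fun hr => absurd hr (by omega)) (ihb.1 ?_))
        rw [← x.2, ← y.2, C.conjE_lt X hi, C.conjE_lt X hi]
        exact h
      · obtain ⟨q, hq⟩ := ihb.2 a
        exact ⟨⟨(⟨(a, fun hr => absurd hr (by omega)), fun hr => absurd hr (by omega)⟩, q),
          (C.conjE_lt X hi _).trans hq.symm⟩, rfl⟩

/-- The cell of the tower below its level given by a cell. -/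
noncomputable def lowCell {d r i : ℕ} (hi : i < r) (X : C.Gpd) (a : (C.gs X).cell i) :
    ((cyl C d r).obj X).cell i :=
  ((cyl_low C d r i hi X).2.2 a).choose

theorem e0_lowCell {d r i : ℕ} (hi : i < r) (X : C.Gpd) (a : (C.gs X).cell i) :
    ((cyl C d r).e0 X).app i (lowCell hi X a) = a :=
  ((cyl_low C d r i hi X).2.2 a).choose_spec

theorem e1_lowCell {d r i : ℕ} (hi : i < r) (X : C.Gpd) (a : (C.gs X).cell i) :
    ((cyl C d r).e1 X).app i (lowCell hi X a) = a :=
  ((cyl_low C d r i hi X).1 _).symm.trans (e0_lowCell hi X a)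

theorem low_ext {d r i : ℕ} (hi : i < r) {X : C.Gpd} {x y : ((cyl C d r).obj X).cell i}
    (h : ((cyl C d r).e0 X).app i x = ((cyl C d r).e0 X).app i y) : x = y :=
  (cyl_low C d r i hi X).2.1 h

theorem low_ext' {d r i : ℕ} (hi : i < r) {X : C.Gpd} {x y : ((cyl C d r).obj X).cell i}
    (h : ((cyl C d r).e1 X).app i x = ((cyl C d r).e1 X).app i y) : x = y :=
  low_ext hi (by rw [(cyl_low C d r i hi X).1, (cyl_low C d r i hi X).1, h])

theorem map_lowCell {d r i : ℕ} (hi : i < r) {X Y : C.Gpd} (φ : X ⟶ Y) (a : (C.gs X).cell i) :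
    ((cyl C d r).map φ).app i (lowCell hi X a) = lowCell hi Y ((gsMap φ.hom).app i a) :=
  low_ext hi (by rw [← (cyl C d r).nat0, e0_lowCell, e0_lowCell])

section
variable {R : TFun C}

/-- A natural family of cells in a natural globular set. -/
abbrev GFam (F : GFun C) (R : TFun C) (n : ℕ) := Nat' R (F.cellF n)

/-- The first endpoint of a family. -/
abbrev GFam.e0 {G : GOver C} {n : ℕ} (q : GFam G.toGFun R n) : Fam R n where
  app X x := (G.e0 X).app n (q.app X x)
  nat φ x := (G.nat0 φ n (q.app _ x)).trans (congrArg _ (q.nat φ x))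

/-- The second endpoint of a family. -/
abbrev GFam.e1 {G : GOver C} {n : ℕ} (q : GFam G.toGFun R n) : Fam R n where
  app X x := (G.e1 X).app n (q.app X x)
  nat φ x := (G.nat1 φ n (q.app _ x)).trans (congrArg _ (q.nat φ x))

/-- The source of a family. -/
abbrev GFam.s {F : GFun C} {n : ℕ} (q : GFam F R (n + 1)) : GFam F R n where
  app X x := (F.obj X).s (q.app X x)
  nat φ x := ((F.map φ).app_s n (q.app _ x)).symm.trans
    (congrArg (F.obj _).s (q.nat φ x))

/-- The target of a family. -/
abbrev GFam.t {F : GFun C} {n : ℕ} (q : GFam F R (n + 1)) : GFam F R n where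
  app X x := (F.obj X).t (q.app X x)
  nat φ x := ((F.map φ).app_t n (q.app _ x)).symm.trans
    (congrArg (F.obj _).t (q.nat φ x))

/-- Parallel families. -/
def GFam.Par {F : GFun C} {n : ℕ} (p q : GFam F R n) : Prop :=
  ∀ X x, (F.obj X).Par (p.app X x) (q.app X x)

theorem Fam.ext_app {n : ℕ} {A B : Fam R n} (h : ∀ X x, A.app X x = B.app X x) : A = B :=
  Nat'.ext (funext fun X => funext fun x => h X x)

end

theorem GSet.Par.refl {G : GSet} {n : ℕ} (a : G.cell n) : G.Par a a := by
  cases n with
  | zero => exact trivial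
  | succ n => exact ⟨rfl, rfl⟩

theorem GSet.sIter_eq_one (G : GSet) {n : ℕ} (a : G.cell (n + 1)) :
    G.sIter n.le_succ a = G.s a := by
  rw [GSet.sIter_succ _ le_rfl, GSet.sIter_self]

theorem GSet.tIter_eq_one (G : GSet) {n : ℕ} (a : G.cell (n + 1)) :
    G.tIter n.le_succ a = G.t a := by
  rw [GSet.tIter_succ _ le_rfl, GSet.tIter_self]

/-- Parallel cells with edges have the same edges, above the level. -/
theorem ECell.par_edges {r : ℕ} {G : GSet} {n : ℕ} {x y : ECell r G n}
    (h : (edgeGSet r G).Par x y) (hr : r < n) (hn : r ≤ n) : x.1.2 hn = y.1.2 hn := by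
  cases n with
  | zero => omega
  | succ k =>
    obtain ⟨hs, ht⟩ := h
    have hk : r ≤ k := Nat.lt_succ_iff.mp hr
    have e1 := congrArg (fun z : ECell r G k => z.1.2 hk) hs
    have e2 := congrArg (fun z : ECell r G k => z.1.2 hk) ht
    simp only [ECell.src, ECell.tgt] at e1 e2
    by_cases hkr : k = r
    · rw [if_pos hkr, if_pos hkr] at e1 e2
      exact Prod.ext (congrArg Prod.fst e1 :) (congrArg Prod.snd e2 :)
    · rw [if_neg hkr, if_neg hkr] at e1
      exact e1

/-- The edges of a filler, from the edges of its boundary. -/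
def boundaryEdges {r n : ℕ} {G : GSet} (hn : r ≤ n) (c c' : ECell r G n) :
    G.cell (r + 1) × G.cell (r + 1) :=
  if n = r then ((c.1.2 hn).1, (c'.1.2 hn).1) else c.1.2 hn

theorem boundaryEdges_ok {r n : ℕ} {G : GSet} (hn : r ≤ n) {c c' : ECell r G n}
    (hpar : (edgeGSet r G).Par c c') (a : G.cell (n + 1)) (hs : G.s a = c.1.1)
    (ht : G.t a = c'.1.1) :
    EdgeOk G r (n + 1) a (fun _ => boundaryEdges hn c c') := by
  intro _
  refine ⟨?_, ?_, fun he => absurd he (by omega)⟩
  · rw [GSet.sIter_succ _ hn, hs]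
    unfold boundaryEdges
    split <;> exact (c.2 hn).1
  · rw [GSet.tIter_succ _ hn, ht]
    unfold boundaryEdges
    by_cases h : n = r
    · subst h
      rw [if_pos rfl]
      refine (c'.2 hn).1.trans ?_
      rw [GSet.sIter_self, GSet.tIter_self]
    · rw [if_neg h, ECell.par_edges hpar (by omega) hn]
      exact (c'.2 hn).2.1

theorem step_par_edge {r : ℕ} {Q : GOver C} {X : C.Gpd} {n : ℕ}
    {x y : ((step r Q).obj X).cell n} (h : ((step r Q).obj X).Par x y) :
    (edgeGSet r (C.gs X)).Par x.1.1 y.1.1 ∧ (Q.obj X).Par x.1.2 y.1.2 := by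
  cases n with
  | zero => exact ⟨trivial, trivial⟩
  | succ k =>
    exact ⟨⟨congrArg (fun z => z.1.1) h.1, congrArg (fun z => z.1.1) h.2⟩,
      ⟨congrArg (fun z => z.1.2) h.1, congrArg (fun z => z.1.2) h.2⟩⟩

/-- Natural fillers in the tower: given a boundary and the two endpoints. -/
theorem exists_cylFill (C : Coherator) : ∀ (d r n : ℕ), r ≤ n + 1 → ∀ (R : TFun C),
    (n + 1 < r + d → HasFill R (n + 1)) →
    ∀ (c c' : GFam (cyl C d r).toGFun R n), c.Par c' →
    ∀ (a a' : Fam R (n + 1)), a.s = c.e0 → a.t = c'.e0 → a'.s = c.e1 → a'.t = c'.e1 →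
      ∃ q : GFam (cyl C d r).toGFun R (n + 1),
        q.s = c ∧ q.t = c' ∧ q.e0 = a ∧ q.e1 = a'
  | 0, r, n, hrn, R, _, c, c', hpar, a, a', has, hat, has', hat' => by
      have ok : ∀ X x, SameBelow (C.gs X) r (n + 1) (a.app X x) (a'.app X x) := by
        intro X x j hj hjr
        have hjn : j ≤ n := by omega
        have e1 : (C.gs X).s (a.app X x) = ((cyl C 0 r).e0 X).app n (c.app X x) :=
          congrFun (congrFun (congrArg Nat'.app has) X) x
        have e2 : (C.gs X).s (a'.app X x) = ((cyl C 0 r).e1 X).app n (c.app X x) :=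
          congrFun (congrFun (congrArg Nat'.app has') X) x
        have e3 : (C.gs X).t (a.app X x) = ((cyl C 0 r).e0 X).app n (c'.app X x) :=
          congrFun (congrFun (congrArg Nat'.app hat) X) x
        have e4 : (C.gs X).t (a'.app X x) = ((cyl C 0 r).e1 X).app n (c'.app X x) :=
          congrFun (congrFun (congrArg Nat'.app hat') X) x
        rw [GSet.sIter_succ _ hjn, GSet.sIter_succ _ hjn, GSet.tIter_succ _ hjn,
          GSet.tIter_succ _ hjn, e1, e2, e3, e4]
        exact ⟨((c.app X x).2 j hjn hjr).1, ((c'.app X x).2 j hjn hjr).2⟩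
      refine ⟨⟨fun X x => ⟨(a.app X x, a'.app X x), ok X x⟩, fun φ x =>
        Subtype.ext (Prod.ext (a.nat φ x) (a'.nat φ x))⟩, ?_, ?_, rfl, rfl⟩
      · exact Nat'.ext (funext fun X => funext fun x => Subtype.ext (Prod.ext
          (congrFun (congrFun (congrArg Nat'.app has) X) x)
          (congrFun (congrFun (congrArg Nat'.app has') X) x)))
      · exact Nat'.ext (funext fun X => funext fun x => Subtype.ext (Prod.ext
          (congrFun (congrFun (congrArg Nat'.app hat) X) x)
          (congrFun (congrFun (congrArg Nat'.app hat') X) x)))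
  | d + 1, r, n, hrn, R, hR, c, c', hpar, a, a', has, hat, has', hat' => by
      rcases Nat.lt_or_eq_of_le hrn with hlt | heq
      · -- above the level: conjugate and recurse
        have hn : r ≤ n := Nat.lt_succ_iff.mp hlt
        let cQ : GFam (cyl C d (r + 1)).toGFun R n :=
          ⟨fun X x => (c.app X x).1.2, fun φ x => congrArg (fun z => z.1.2) (c.nat φ x)⟩
        let cQ' : GFam (cyl C d (r + 1)).toGFun R n :=
          ⟨fun X x => (c'.app X x).1.2, fun φ x => congrArg (fun z => z.1.2) (c'.nat φ x)⟩
        have hs : ∀ X x, (C.gs X).s (a.app X x) = (c.app X x).1.1.1.1 := fun X x =>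
          congrFun (congrFun (congrArg Nat'.app has) X) x
        have ht : ∀ X x, (C.gs X).t (a.app X x) = (c'.app X x).1.1.1.1 := fun X x =>
          congrFun (congrFun (congrArg Nat'.app hat) X) x
        let eFam : GFam (edgeF C r) R (n + 1) :=
          ⟨fun X x => ⟨(a.app X x, fun _ => boundaryEdges hn (c.app X x).1.1 (c'.app X x).1.1),
            boundaryEdges_ok hn (step_par_edge (hpar X x)).1 _ (hs X x) (ht X x)⟩,
           fun {X Y} φ x => ECell.ext' (a.nat φ x) fun h => by
            have e1 := congrArg (fun z => z.1.1.1.2 hn) (c.nat φ x)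
            have e2 := congrArg (fun z => z.1.1.1.2 hn) (c'.nat φ x)
            show ((gsMap φ.hom).app _ (boundaryEdges hn (c.app X x).1.1 (c'.app X x).1.1).1,
              (gsMap φ.hom).app _ (boundaryEdges hn (c.app X x).1.1 (c'.app X x).1.1).2) =
              boundaryEdges hn (c.app Y (R.map φ x)).1.1 (c'.app Y (R.map φ x)).1.1
            unfold boundaryEdges
            split
            · exact Prod.ext (congrArg Prod.fst e1 :) (congrArg Prod.fst e2 :)
            · exact e1⟩
        have esrc : ∀ X x, (eFam.app X x).src = (c.app X x).1.1 := by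
          intro X x
          refine ECell.ext' (hs X x) fun h => ?_
          simp only [eFam, ECell.src, boundaryEdges]
          by_cases hnr : n = r
          · subst hnr
            rw [if_pos rfl, if_pos rfl]
            exact Prod.ext rfl (((c.app X x).1.1.2 h).2.2 rfl)
          · rw [if_neg hnr, if_neg hnr]
        have etgt : ∀ X x, (eFam.app X x).tgt = (c'.app X x).1.1 := by
          intro X x
          refine ECell.ext' (ht X x) fun h => ?_
          simp only [eFam, ECell.tgt, boundaryEdges]
          by_cases hnr : n = r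
          · subst hnr
            rw [if_pos rfl, if_pos rfl]
            exact Prod.ext rfl (((c'.app X x).1.1.2 h).2.2 rfl)
          · rw [if_neg hnr, if_neg hnr]
            exact ECell.par_edges (step_par_edge (hpar X x)).1 (by omega) h
        let ca : Fam R (n + 1) := ⟨fun X x => C.conjE X r (n + 1) (eFam.app X x),
          fun φ x => (C.conjHom_natural φ r (n + 1) _).trans
            (congrArg (C.conjE _ r (n + 1)) (eFam.nat φ x))⟩
        obtain ⟨q, q1, q2, q3, q4⟩ := exists_cylFill C d (r + 1) n (by omega) R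
          (fun h => hR (by omega)) cQ cQ' (fun X x => (step_par_edge (hpar X x)).2) ca a'
          (Fam.ext_app fun X x => ((C.conjHom X r).app_s n (eFam.app X x)).trans
            ((congrArg (C.conjE X r n) (esrc X x)).trans (c.app X x).2))
          (Fam.ext_app fun X x => ((C.conjHom X r).app_t n (eFam.app X x)).trans
            ((congrArg (C.conjE X r n) (etgt X x)).trans (c'.app X x).2))
          has' hat'
        refine ⟨⟨fun X x => ⟨(eFam.app X x, q.app X x),
            (congrFun (congrFun (congrArg Nat'.app q3) X) x).symm⟩,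
          fun φ x => Subtype.ext (Prod.ext (eFam.nat φ x) (q.nat φ x))⟩, ?_, ?_, rfl, ?_⟩
        · exact Nat'.ext (funext fun X => funext fun x => Subtype.ext (Prod.ext (esrc X x)
            (congrFun (congrFun (congrArg Nat'.app q1) X) x)))
        · exact Nat'.ext (funext fun X => funext fun x => Subtype.ext (Prod.ext (etgt X x)
            (congrFun (congrFun (congrArg Nat'.app q2) X) x)))
        · exact q4
      · -- at the level: an edge
        subst heq
        have hlow : ∀ (X : C.Gpd) (z : ((cyl C (d + 1) (n + 1)).obj X).cell n),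
            ((cyl C (d + 1) (n + 1)).e0 X).app n z = ((cyl C (d + 1) (n + 1)).e1 X).app n z :=
          fun X => (cyl_low C (d + 1) (n + 1) n n.lt_succ_self X).1
        have hss : ∀ X x, (C.gs X).s (a.app X x) = (C.gs X).s (a'.app X x) := fun X x =>
          (congrFun (congrFun (congrArg Nat'.app has) X) x).trans
            ((hlow X _).trans (congrFun (congrFun (congrArg Nat'.app has') X) x).symm)
        have htt : ∀ X x, (C.gs X).t (a.app X x) = (C.gs X).t (a'.app X x) := fun X x =>
          (congrFun (congrFun (congrArg Nat'.app hat) X) x).trans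
            ((hlow X _).trans (congrFun (congrFun (congrArg Nat'.app hat') X) x).symm)
        obtain ⟨W, hW1, hW2⟩ := hR (by omega) a a' (fun X x => ⟨hss X x, htt X x⟩)
        have hWs : ∀ X x, (C.gs X).s (W.app X x) = a.app X x := fun X x =>
          congrFun (congrFun (congrArg Nat'.app hW1) X) x
        have hWt : ∀ X x, (C.gs X).t (W.app X x) = a'.app X x := fun X x =>
          congrFun (congrFun (congrArg Nat'.app hW2) X) x
        let eFam : GFam (edgeF C (n + 1)) R (n + 1) :=
          ⟨fun X x => ⟨(a.app X x, fun _ => (W.app X x, W.app X x)), fun h =>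
            ⟨by rw [GSet.sIter_self]; exact hWs X x, by rw [GSet.tIter_self]; exact hWs X x,
              fun _ => rfl⟩⟩,
           fun φ x => ECell.ext' (a.nat φ x) fun _ => Prod.ext (W.nat φ x) (W.nat φ x)⟩
        let q : GFam (cyl C d (n + 1 + 1)).toGFun R (n + 1) :=
          ⟨fun X x => lowCell (n + 1).lt_succ_self X (a'.app X x),
           fun φ x => (map_lowCell _ φ _).trans (congrArg _ (a'.nat φ x))⟩
        have hq : ∀ X x, C.conjE X (n + 1) (n + 1) (eFam.app X x)
            = ((cyl C d (n + 1 + 1)).e0 X).app (n + 1) (q.app X x) := fun X x =>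
          (C.conjE_eq X _).trans ((hWt X x).trans (e0_lowCell (n + 1).lt_succ_self X _).symm)
        refine ⟨⟨fun X x => ⟨(eFam.app X x, q.app X x), hq X x⟩,
          fun φ x => Subtype.ext (Prod.ext (eFam.nat φ x) (q.nat φ x))⟩, ?_, ?_, rfl, ?_⟩
        · exact Nat'.ext (funext fun X => funext fun x => low_ext (C := C) (d := d + 1) (r := n + 1) (X := X) n.lt_succ_self
            (congrFun (congrFun (congrArg Nat'.app has) X) x))
        · exact Nat'.ext (funext fun X => funext fun x => low_ext (C := C) (d := d + 1) (r := n + 1) (X := X) n.lt_succ_self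
            (congrFun (congrFun (congrArg Nat'.app hat) X) x))
        · exact Fam.ext_app fun X x => e1_lowCell (n + 1).lt_succ_self X _

end Vale.Agent.P259
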