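import Vale.Agent.P259.CylFill

/-!
# P259: natural globular sets over pairs equipped with operations
-/

open CategoryTheory Opposite

namespace Vale.Agent.P259

variable {C : Coherator}

/-- Operations on a natural globular set over pairs, natural and compatible with both
endpoints. -/
structure GOps (G : GOver C) where
  φ : ∀ X, GMor C.ext (G.obj X).endExt
  natural : ∀ {X Y : C.Gpd} (f : X ⟶ Y) {R S : GSum} (h : C.ext.Hom R S) (p : (G.obj X).Bar S),
    (G.map f).bar R ((φ X).map h p) = (φ Y).map h ((G.map f).bar S p)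
  ev0 : ∀ (X : C.Gpd) {R S : GSum} (h : C.ext.Hom R S) (p : (G.obj X).Bar S),
    (G.e0 X).bar R ((φ X).map h p) = C.bact X h ((G.e0 X).bar S p)
  ev1 : ∀ (X : C.Gpd) {R S : GSum} (h : C.ext.Hom R S) (p : (G.obj X).Bar S),
    (G.e1 X).bar R ((φ X).map h p) = C.bact X h ((G.e1 X).bar S p)

/-- A map of tuples compatible with operations, as a map to a groupoid. -/
noncomputable def Coherator.homOfBar {E : GSet} (ψ : GMor C.ext E.endExt) (X : C.Gpd)
    (e : GHom E (C.gs X))
    (he : ∀ {R S : GSum} (h : C.ext.Hom R S) (p : E.Bar S),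
      e.bar R (ψ.map h p) = C.bact X h (e.bar S p)) :
    (⟨modelPresheaf E ψ, modelPresheaf_isGroupoidModel E ψ⟩ : C.Gpd) ⟶ X :=
  ObjectProperty.homMk
    { app := fun S => TypeCat.ofHom fun (p : E.Bar S.unop.sum) =>
        (C.barEquiv X S.unop.sum).symm (e.bar S.unop.sum p)
      naturality := by
        intro T U g
        apply ConcreteCategory.hom_ext
        intro p
        show (C.barEquiv X U.unop.sum).symm (e.bar U.unop.sum (ψ.map g.unop p))
          = act X.obj g.unop ((C.barEquiv X T.unop.sum).symm (e.bar T.unop.sum p))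
        apply (C.barEquiv X U.unop.sum).injective
        rw [Equiv.apply_symm_apply]
        exact he g.unop p }

namespace GOps

variable {G : GOver C} (O : GOps G)

/-- The groupoid of tuples. -/
abbrev model (X : C.Gpd) : C.Gpd :=
  ⟨modelPresheaf (G.obj X) (O.φ X), modelPresheaf_isGroupoidModel (G.obj X) (O.φ X)⟩

/-- The functorial map. -/
def mapHom {X Y : C.Gpd} (f : X ⟶ Y) : O.model X ⟶ O.model Y :=
  ObjectProperty.homMk
    { app := fun S => TypeCat.ofHom fun (p : (G.obj X).Bar S.unop.sum) =>
        (G.map f).bar S.unop.sum p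
      naturality := by
        intro T U g
        apply ConcreteCategory.hom_ext
        intro p
        exact O.natural f g.unop p }

/-- The first endpoint. -/
noncomputable def evHom0 (X : C.Gpd) : O.model X ⟶ X :=
  C.homOfBar (O.φ X) X (G.e0 X) (O.ev0 X)

/-- The second endpoint. -/
noncomputable def evHom1 (X : C.Gpd) : O.model X ⟶ X :=
  C.homOfBar (O.φ X) X (G.e1 X) (O.ev1 X)

/-- Cells as cells of the groupoid of tuples. -/
def cIn (X : C.Gpd) : GHom (G.obj X) (C.gs (O.model X)) where
  app n a := (G.obj X).one n a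
  app_s n a := congrFun ((O.φ X).map_src n) ((G.obj X).one (n + 1) a)
  app_t n a := congrFun ((O.φ X).map_tgt n) ((G.obj X).one (n + 1) a)

/-- Cells of the groupoid of tuples as cells. -/
def cOut (X : C.Gpd) : GHom (C.gs (O.model X)) (G.obj X) where
  app _ a := a.1
  app_s n a := (congrArg Subtype.val (congrFun ((O.φ X).map_src n) a)).symm
  app_t n a := (congrArg Subtype.val (congrFun ((O.φ X).map_tgt n) a)).symm

theorem cOut_cIn (X : C.Gpd) (n : ℕ) (a : (G.obj X).cell n) :
    (O.cOut X).app n ((O.cIn X).app n a) = a := rfl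

theorem cIn_cOut (X : C.Gpd) (n : ℕ) (a : (C.gs (O.model X)).cell n) :
    (O.cIn X).app n ((O.cOut X).app n a) = a := rfl

theorem cIn_natural {X Y : C.Gpd} (f : X ⟶ Y) (n : ℕ) (a : (G.obj X).cell n) :
    (gsMap (O.mapHom f).hom).app n ((O.cIn X).app n a) = (O.cIn Y).app n ((G.map f).app n a) :=
  rfl

theorem evHom0_cIn (X : C.Gpd) (n : ℕ) (a : (G.obj X).cell n) :
    (gsMap (O.evHom0 X).hom).app n ((O.cIn X).app n a) = (G.e0 X).app n a := by
  apply (C.barEquiv X (GSum.disc n)).injective
  show C.barEquiv X (GSum.disc n) ((C.barEquiv X (GSum.disc n)).symm _) = _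
  rw [Equiv.apply_symm_apply]
  rfl

theorem evHom1_cIn (X : C.Gpd) (n : ℕ) (a : (G.obj X).cell n) :
    (gsMap (O.evHom1 X).hom).app n ((O.cIn X).app n a) = (G.e1 X).app n a := by
  apply (C.barEquiv X (GSum.disc n)).injective
  show C.barEquiv X (GSum.disc n) ((C.barEquiv X (GSum.disc n)).symm _) = _
  rw [Equiv.apply_symm_apply]
  rfl

end GOps

end Vale.Agent.P259
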