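import Vale.Agent.P259.CylLift
import Vale.Agent.P259.CylOps

/-!
# P259: cylinders from a cell to the double conjugate of that cell
-/

open CategoryTheory Opposite

namespace Vale.Agent.P259

variable {C : Coherator}

/-- A natural map of natural globular sets. -/
structure GNat (F G : GFun C) where
  hom : ∀ X, GHom (F.obj X) (G.obj X)
  nat : ∀ {X Y : C.Gpd} (φ : X ⟶ Y) (n : ℕ) (a : (F.obj X).cell n),
    (G.map φ).app n ((hom X).app n a) = (hom Y).app n ((F.map φ).app n a)

/-- Composition of natural maps. -/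
def GNat.comp {F G H : GFun C} (a : GNat F G) (b : GNat G H) : GNat F H where
  hom X := (a.hom X).comp (b.hom X)
  nat {X Y} φ n x := (b.nat φ n _).trans (congrArg ((b.hom Y).app n) (a.nat φ n x))

theorem GSet.par_eq_sIter {G : GSet} {r n : ℕ} (h : r < n) {a b : G.cell n} (hp : G.Par a b) :
    G.sIter h.le a = G.sIter h.le b ∧ G.tIter h.le a = G.tIter h.le b := by
  obtain ⟨k, rfl⟩ : ∃ k, n = k + 1 := ⟨n - 1, by omega⟩
  rw [G.sIter_succ (Nat.lt_succ_iff.mp h), G.sIter_succ (Nat.lt_succ_iff.mp h),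
    G.tIter_succ (Nat.lt_succ_iff.mp h), G.tIter_succ (Nat.lt_succ_iff.mp h), hp.1, hp.2]
  exact ⟨rfl, rfl⟩

theorem ECell.src_a {r : ℕ} {G : GSet} {i : ℕ} (x : ECell r G (i + 1)) :
    x.src.1.1 = G.s x.1.1 := rfl

theorem ECell.tgt_a {r : ℕ} {G : GSet} {i : ℕ} (x : ECell r G (i + 1)) :
    x.tgt.1.1 = G.t x.1.1 := rfl

theorem ECell.src_U {r : ℕ} {G : GSet} {i : ℕ} (h : r < i) (x : ECell r G (i + 1)) :
    x.src.1.2 h.le = x.1.2 (h.le.trans i.le_succ) := by
  simp only [ECell.src, if_neg (Nat.ne_of_gt h)]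

theorem ECell.tgt_U {r : ℕ} {G : GSet} {i : ℕ} (h : r < i) (x : ECell r G (i + 1)) :
    x.tgt.1.2 h.le = x.1.2 (h.le.trans i.le_succ) := by
  simp only [ECell.tgt, if_neg (Nat.ne_of_gt h)]

/-- Projection to the underlying cell. -/
def edgeProj (C : Coherator) (r : ℕ) : GNat (edgeF C r) (selfF C) where
  hom _ := { app := fun _ x => x.1.1, app_s := fun _ _ => rfl, app_t := fun _ _ => rfl }
  nat _ _ _ := rfl

/-- Natural data for sandwiching a cell between two edges. -/
structure Sandwich (C : Coherator) (r : ℕ) where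
  mid : GNat (edgeF C r) (selfF C)
  left : Fam ((selfF C).cellF (r + 1)) (r + 1)
  right : Fam ((selfF C).cellF (r + 1)) (r + 1)
  left_s : ∀ X u, (C.gs X).s (left.app X u) = (C.gs X).s u
  right_t : ∀ X u, (C.gs X).t (right.app X u) = (C.gs X).s u
  left_t : ∀ X i (h : r < i) (x : ECell r (C.gs X) i),
    (C.gs X).t (left.app X (x.1.2 h.le).1) = (C.gs X).sIter h.le ((mid.hom X).app i x)
  right_s : ∀ X i (h : r < i) (x : ECell r (C.gs X) i),
    (C.gs X).tIter h.le ((mid.hom X).app i x) = (C.gs X).s (right.app X (x.1.2 h.le).2)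

/-- The sandwiched cell (the cell itself in dimensions `≤ r`). -/
noncomputable def Sandwich.cell {r : ℕ} (W : Sandwich C r) (X : C.Gpd) (i : ℕ)
    (x : ECell r (C.gs X) i) : (C.gs X).cell i :=
  if h : r < i then
    C.kap X h (W.left.app X (x.1.2 h.le).1) ((W.mid.hom X).app i x)
      (W.right.app X (x.1.2 h.le).2) (W.left_t X i h x) (W.right_s X i h x)
  else x.1.1

theorem Sandwich.cell_gt {r : ℕ} (W : Sandwich C r) (X : C.Gpd) {i : ℕ} (h : r < i)
    (x : ECell r (C.gs X) i) :
    W.cell X i x = C.kap X h (W.left.app X (x.1.2 h.le).1) ((W.mid.hom X).app i x)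
      (W.right.app X (x.1.2 h.le).2) (W.left_t X i h x) (W.right_s X i h x) := dif_pos h

theorem Sandwich.cell_le {r : ℕ} (W : Sandwich C r) (X : C.Gpd) {i : ℕ} (h : i ≤ r)
    (x : ECell r (C.gs X) i) : W.cell X i x = x.1.1 := dif_neg (by omega)

/-- Sandwiching as a natural map. -/
noncomputable def Sandwich.toGNat {r : ℕ} (W : Sandwich C r) : GNat (edgeF C r) (selfF C) where
  hom X :=
    { app := fun i x => W.cell X i x
      app_s := fun i x => by
        show (C.gs X).s (W.cell X (i + 1) x) = W.cell X i x.src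
        rcases lt_trichotomy r i with h | h | h
        · rw [W.cell_gt X (Nat.lt_succ_of_lt h), W.cell_gt X h, C.s_kap X h]
          refine C.kap_congr X h ?_ ((W.mid.hom X).app_s i x) ?_ _ _ _ _ <;> rw [ECell.src_U h]
        · subst h
          rw [W.cell_gt X r.lt_succ_self, W.cell_le X le_rfl, C.s_kap_base X, W.left_s]
          exact (x.2 r.le_succ).1.trans ((C.gs X).sIter_eq_one _)
        · rw [W.cell_le X h, W.cell_le X h.le]
          rfl
      app_t := fun i x => by
        show (C.gs X).t (W.cell X (i + 1) x) = W.cell X i x.tgt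
        rcases lt_trichotomy r i with h | h | h
        · rw [W.cell_gt X (Nat.lt_succ_of_lt h), W.cell_gt X h, C.t_kap X h]
          refine C.kap_congr X h ?_ ((W.mid.hom X).app_t i x) ?_ _ _ _ _ <;> rw [ECell.tgt_U h]
        · subst h
          rw [W.cell_gt X r.lt_succ_self, W.cell_le X le_rfl, C.t_kap_base X, W.right_t]
          exact (x.2 r.le_succ).2.1.trans ((C.gs X).tIter_eq_one _)
        · rw [W.cell_le X h, W.cell_le X h.le]
          rfl }
  nat {X Y} φ i x := by
    show (gsMap φ.hom).app i (W.cell X i x) = W.cell Y i ((edgeMap r (gsMap φ.hom)).app i x)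
    by_cases h : r < i
    · rw [W.cell_gt X h, W.cell_gt Y h, C.kap_natural]
      exact C.kap_congr Y h (W.left.nat φ _) (W.mid.nat φ i x) (W.right.nat φ _) _ _ _ _
    · rw [W.cell_le X (by omega), W.cell_le Y (by omega)]
      rfl

/-- The universal `u ↦ 1_{s u}`. -/
noncomputable def edgeOne (C : Coherator) (r : ℕ) :
    Fam ((selfF C).cellF (r + 1)) (r + 1) where
  app X u := C.oneC X ((C.gs X).s u)
  nat φ u := (C.oneC_natural φ _).trans (congrArg _ ((gsMap φ.hom).app_s r u).symm)

theorem edge_loop_aux (C : Coherator) (r : ℕ) :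
    (discT (C := C) (r + 1)).t = (Fam.inv (discT (C := C) (r + 1))).s := by
  rw [Fam.inv_s]

/-- The universal `u ↦ u u⁻¹`. -/
noncomputable def edgeLoop (C : Coherator) (r : ℕ) :
    Fam ((selfF C).cellF (r + 1)) (r + 1) :=
  (Fam.cmp (discT (C := C) (r + 1)) (Fam.inv (discT (r + 1))) (edge_loop_aux C r)).pre
    { app := fun X u => (C.gs X).one (r + 1) u
      nat := fun _ _ => rfl }

theorem edgeLoop_s (C : Coherator) (r : ℕ) (X : C.Gpd) (u : (C.gs X).cell (r + 1)) :
    (C.gs X).s ((edgeLoop C r).app X u) = (C.gs X).s u := by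
  have := congrFun (congrFun (congrArg Nat'.app
    (Fam.cmp_s (discT (C := C) (r + 1)) (Fam.inv (discT (r + 1))) (edge_loop_aux C r))) X)
    ((C.gs X).one (r + 1) u)
  exact this

theorem edgeLoop_t (C : Coherator) (r : ℕ) (X : C.Gpd) (u : (C.gs X).cell (r + 1)) :
    (C.gs X).t ((edgeLoop C r).app X u) = (C.gs X).s u := by
  have := congrFun (congrFun (congrArg Nat'.app
    ((Fam.cmp_t (discT (C := C) (r + 1)) (Fam.inv (discT (r + 1))) (edge_loop_aux C r)).trans
      (Fam.inv_t _))) X) ((C.gs X).one (r + 1) u)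
  exact this

/-- `a ↦ 1 a 1`. -/
noncomputable def sandOne (C : Coherator) (r : ℕ) : Sandwich C r where
  mid := edgeProj C r
  left := edgeOne C r
  right := edgeOne C r
  left_s X u := C.s_oneC X _
  right_t X u := C.t_oneC X _
  left_t X i h x := (C.t_oneC X _).trans (x.2 h.le).1
  right_s X i h x := ((x.2 h.le).2.1).symm.trans (C.s_oneC X _).symm

/-- `a ↦ (u u⁻¹) a (v v⁻¹)`. -/
noncomputable def sandLoop (C : Coherator) (r : ℕ) : Sandwich C r where
  mid := edgeProj C r
  left := edgeLoop C r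
  right := edgeLoop C r
  left_s X u := edgeLoop_s C r X u
  right_t X u := edgeLoop_t C r X u
  left_t X i h x := (edgeLoop_t C r X _).trans (x.2 h.le).1
  right_s X i h x := ((x.2 h.le).2.1).symm.trans (edgeLoop_s C r X _).symm

theorem Coherator.sIter_kap (X : C.Gpd) {r : ℕ} : ∀ {i : ℕ} (h : r < i)
    (p : (C.gs X).cell (r + 1)) (a : (C.gs X).cell i) (q : (C.gs X).cell (r + 1)) (hp hq),
    (C.gs X).sIter h.le (C.kap X h p a q hp hq) = (C.gs X).s p ∧
      (C.gs X).tIter h.le (C.kap X h p a q hp hq) = (C.gs X).t q := by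
  intro i h
  induction i, (show r + 1 ≤ i from h) using Nat.le_induction with
  | base =>
    intro p a q hp hq
    exact ⟨((C.gs X).sIter_eq_one _).trans (C.s_kap_base X p a q hp hq),
      ((C.gs X).tIter_eq_one _).trans (C.t_kap_base X p a q hp hq)⟩
  | succ i hi ih =>
    intro p a q hp hq
    have hri : r < i := hi
    constructor
    · rw [GSet.sIter_succ _ hri.le, C.s_kap X hri]
      exact (ih hri _ _ _ _ _).1
    · rw [GSet.tIter_succ _ hri.le, C.t_kap X hri]
      exact (ih hri _ _ _ _ _).2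

theorem Coherator.sIter_conjE (X : C.Gpd) {r i : ℕ} (h : r < i) (x : ECell r (C.gs X) i) :
    (C.gs X).sIter h.le (C.conjE X r i x) = (C.gs X).t (x.1.2 h.le).1 ∧
      (C.gs X).tIter h.le (C.conjE X r i x) = (C.gs X).t (x.1.2 h.le).2 := by
  rw [C.conjE_gt X h]
  exact ⟨(C.sIter_kap X h _ _ _ _ _).1.trans (C.s_invC X _), (C.sIter_kap X h _ _ _ _ _).2⟩

/-- Conjugation, as a natural map. -/
noncomputable def conjN (C : Coherator) (r : ℕ) : GNat (edgeF C r) (selfF C) where
  hom X := C.conjHom X r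
  nat φ n x := C.conjHom_natural φ r n x

/-- `a ↦ u (u⁻¹ a v) v⁻¹`. -/
noncomputable def sandBack (C : Coherator) (r : ℕ) : Sandwich C r where
  mid := conjN C r
  left := { app := fun _ u => u, nat := fun _ _ => rfl }
  right := { app := fun X u => C.invC X u, nat := fun φ u => C.invC_natural φ u }
  left_s _ _ := rfl
  right_t X u := C.t_invC X u
  left_t X i h x := (C.sIter_conjE X h x).1.symm
  right_s X i h x := (C.sIter_conjE X h x).2.trans (C.s_invC X _).symm

/-! ### The three cylinders -/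

section Hops

variable {d r : ℕ}

/-- A natural globular map to a stage of the tower with prescribed endpoints. -/
def IsCylBetween (H : GNat (edgeF C r) (cyl C d (r + 1)).toGFun)
    (A B : GNat (edgeF C r) (selfF C)) : Prop :=
  ∀ X n x, ((cyl C d (r + 1)).e0 X).app n ((H.hom X).app n x) = (A.hom X).app n x ∧
    ((cyl C d (r + 1)).e1 X).app n ((H.hom X).app n x) = (B.hom X).app n x

/-- A globular natural lift of a pair of natural maps out of the cells. -/
theorem exists_selfLift (C : Coherator) (d r : ℕ) (A B : GNat (selfF C) (selfF C))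
    (hlow : ∀ X n, n < r → ∀ a, (A.hom X).app n a = (B.hom X).app n a) :
    ∃ H : GNat (selfF C) (cyl C d r).toGFun, ∀ X n a,
      ((cyl C d r).e0 X).app n ((H.hom X).app n a) = (A.hom X).app n a ∧
        ((cyl C d r).e1 X).app n ((H.hom X).app n a) = (B.hom X).app n a := by
  let f : GNat (selfF C) (selfF C) → ∀ n, Fam ((selfF C).cellF n) n := fun A n =>
    ⟨fun X a => (A.hom X).app n a, fun φ a => A.nat φ n a⟩
  obtain ⟨H, he, hf⟩ := exists_globular_lift C d r (selfF C) (f A) (f B)
    (fun n => Fam.ext_app fun X a => (A.hom X).app_s n a)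
    (fun n => Fam.ext_app fun X a => (A.hom X).app_t n a)
    (fun n => Fam.ext_app fun X a => (B.hom X).app_s n a)
    (fun n => Fam.ext_app fun X a => (B.hom X).app_t n a)
    (fun n hn => Fam.ext_app fun X a => hlow X n hn a)
    (fun n _ _ => hasFill_selfF C n n n.le_succ)
  refine ⟨⟨fun X => { app := fun n a => (H n).app X a
                      app_s := fun n a => congrFun (congrFun (congrArg Nat'.app (hf n).1) X) a
                      app_t := fun n a => congrFun (congrFun (congrArg Nat'.app (hf n).2) X) a },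
    fun φ n a => (H n).nat φ a⟩, fun X n a => ⟨?_, ?_⟩⟩
  · exact congrFun (congrFun (congrArg Nat'.app (he n).1) X) a
  · exact congrFun (congrFun (congrArg Nat'.app (he n).2) X) a

/-- Edges `1` at the two faces of a cell. -/
noncomputable def withOnes (C : Coherator) (r : ℕ) : GNat (selfF C) (edgeF C r) where
  hom X :=
    { app := fun i a => ⟨(a, fun h => (C.oneC X ((C.gs X).sIter h a),
          C.oneC X ((C.gs X).tIter h a))),
        fun h => ⟨C.s_oneC X _, C.s_oneC X _, fun he => by subst he; simp⟩⟩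
      app_s := fun i a => ECell.ext' rfl fun h => by
        rcases Nat.lt_or_eq_of_le h with hlt | heq
        · rw [ECell.src_U hlt]
          exact Prod.ext (congrArg (C.oneC X) ((C.gs X).sIter_succ h a))
            (congrArg (C.oneC X) (((C.gs X).tIter_succ h a).trans ((C.gs X).tIter_s hlt a).symm))
        · subst heq
          simp only [ECell.src, if_pos trivial]
          refine Prod.ext (congrArg (C.oneC X) ((C.gs X).sIter_succ h a))
            (congrArg (C.oneC X) (((C.gs X).sIter_succ h a).trans ?_))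
          exact ((C.gs X).sIter_self _).trans ((C.gs X).tIter_self _).symm
      app_t := fun i a => ECell.ext' rfl fun h => by
        rcases Nat.lt_or_eq_of_le h with hlt | heq
        · rw [ECell.tgt_U hlt]
          exact Prod.ext (congrArg (C.oneC X) (((C.gs X).sIter_succ h a).trans
            ((C.gs X).sIter_t hlt a).symm)) (congrArg (C.oneC X) ((C.gs X).tIter_succ h a))
        · subst heq
          simp only [ECell.tgt, if_pos trivial]
          refine Prod.ext (congrArg (C.oneC X) (((C.gs X).tIter_succ h a).trans ?_))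
            (congrArg (C.oneC X) ((C.gs X).tIter_succ h a))
          exact ((C.gs X).tIter_self _).trans ((C.gs X).sIter_self _).symm }
  nat {X Y} φ i a := ECell.ext' rfl fun h => Prod.ext
    ((C.oneC_natural φ _).trans (congrArg (C.oneC Y) ((gsMap φ.hom).app_sIter h a).symm))
    ((C.oneC_natural φ _).trans (congrArg (C.oneC Y) ((gsMap φ.hom).app_tIter h a).symm))

/-- The identity natural map. -/
def idN (C : Coherator) : GNat (selfF C) (selfF C) where
  hom _ := GHom.id _
  nat _ _ _ := rfl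

theorem exists_hop1 (C : Coherator) (d r : ℕ) :
    ∃ H, IsCylBetween (d := d) H (edgeProj C r) (sandOne C r).toGNat := by
  obtain ⟨H, hH⟩ := exists_selfLift C d (r + 1) (idN C)
    ((withOnes C r).comp (sandOne C r).toGNat)
    (fun X n hn a => ((sandOne C r).cell_le X (Nat.lt_succ_iff.mp hn)
      (((withOnes C r).hom X).app n a)).symm)
  refine ⟨(edgeProj C r).comp H, fun X n x => ⟨(hH X n x.1.1).1, (hH X n x.1.1).2.trans ?_⟩⟩
  show (sandOne C r).cell X n _ = (sandOne C r).cell X n x
  by_cases h : r < n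
  · rw [(sandOne C r).cell_gt X h, (sandOne C r).cell_gt X h]
    refine C.kap_congr X h ?_ rfl ?_ _ _ _ _
    · exact congrArg (C.oneC X) ((C.s_oneC X _).trans (x.2 h.le).1.symm)
    · exact congrArg (C.oneC X) ((C.s_oneC X _).trans (x.2 h.le).2.1.symm)
  · rw [(sandOne C r).cell_le X (by omega), (sandOne C r).cell_le X (by omega)]
    rfl

theorem exists_hop2 (C : Coherator) (d r : ℕ) (O : GOps (cyl C d (r + 1))) :
    ∃ H, IsCylBetween (d := d) H (sandOne C r).toGNat (sandLoop C r).toGNat := by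
  obtain ⟨δ, hδ⟩ := exists_selfLift C d (r + 1) (idN C) (idN C) (fun _ _ _ _ => rfl)
  let src1 : Fam ((selfF C).cellF (r + 1)) r :=
    ⟨fun X u => (C.gs X).s u, fun φ u => ((gsMap φ.hom).app_s r u).symm⟩
  let cu : GFam (cyl C d (r + 1)).toGFun ((selfF C).cellF (r + 1)) r :=
    ⟨fun X u => lowCell r.lt_succ_self X (src1.app X u),
      fun φ u => (map_lowCell r.lt_succ_self φ _).trans (congrArg _ (src1.nat φ u))⟩
  obtain ⟨ε, εs, εt, ε0, ε1⟩ := exists_cylFill C d (r + 1) r le_rfl ((selfF C).cellF (r + 1))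
    (fun _ => hasFill_selfF C (r + 1) (r + 1) (Nat.le_succ _)) cu cu
    (fun X u => GSet.Par.refl _) (edgeOne C r) (edgeLoop C r)
    (Fam.ext_app fun X u => (C.s_oneC X _).trans (e0_lowCell r.lt_succ_self X _).symm)
    (Fam.ext_app fun X u => (C.t_oneC X _).trans (e0_lowCell r.lt_succ_self X _).symm)
    (Fam.ext_app fun X u => (edgeLoop_s C r X u).trans (e1_lowCell r.lt_succ_self X _).symm)
    (Fam.ext_app fun X u => (edgeLoop_t C r X u).trans (e1_lowCell r.lt_succ_self X _).symm)
  let εY : ∀ (X : C.Gpd), (C.gs X).cell (r + 1) → (C.gs (O.model X)).cell (r + 1) := fun X u =>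
    (O.cIn X).app (r + 1) (ε.app X u)
  let aY : ∀ (X : C.Gpd) (i : ℕ), (C.gs X).cell i → (C.gs (O.model X)).cell i := fun X i a =>
    (O.cIn X).app i ((δ.hom X).app i a)
  have εY_s : ∀ X u, (C.gs (O.model X)).s (εY X u)
      = (O.cIn X).app r (lowCell r.lt_succ_self X ((C.gs X).s u)) := fun X u =>
    ((O.cIn X).app_s r _).trans
      (congrArg _ (congrFun (congrFun (congrArg Nat'.app εs) X) u))
  have εY_t : ∀ X u, (C.gs (O.model X)).t (εY X u)
      = (O.cIn X).app r (lowCell r.lt_succ_self X ((C.gs X).s u)) := fun X u =>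
    ((O.cIn X).app_t r _).trans
      (congrArg _ (congrFun (congrFun (congrArg Nat'.app εt) X) u))
  have aY_low : ∀ (X : C.Gpd) (b : (C.gs X).cell r), aY X r b
      = (O.cIn X).app r (lowCell r.lt_succ_self X b) := fun X b =>
    congrArg ((O.cIn X).app r) (low_ext (C := C) (d := d) (r := r + 1) r.lt_succ_self
      ((hδ X r b).1.trans (e0_lowCell r.lt_succ_self X b).symm))
  have hp : ∀ (X : C.Gpd) (i : ℕ) (h : r < i) (x : ECell r (C.gs X) i),
      (C.gs (O.model X)).t (εY X (x.1.2 h.le).1)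
        = (C.gs (O.model X)).sIter h.le (aY X i x.1.1) := fun X i h x => by
    rw [εY_t, (x.2 h.le).1, ← aY_low]
    exact ((((δ.hom X).comp (O.cIn X)).app_sIter h.le x.1.1)).symm
  have hq : ∀ (X : C.Gpd) (i : ℕ) (h : r < i) (x : ECell r (C.gs X) i),
      (C.gs (O.model X)).tIter h.le (aY X i x.1.1)
        = (C.gs (O.model X)).s (εY X (x.1.2 h.le).2) := fun X i h x => by
    rw [εY_s, (x.2 h.le).2.1, ← aY_low]
    exact (((δ.hom X).comp (O.cIn X)).app_tIter h.le x.1.1)
  let cellY : ∀ (X : C.Gpd) (i : ℕ), ECell r (C.gs X) i → (C.gs (O.model X)).cell i :=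
    fun X i x =>
      if h : r < i then
        C.kap (O.model X) h (εY X (x.1.2 h.le).1) (aY X i x.1.1) (εY X (x.1.2 h.le).2)
          (hp X i h x) (hq X i h x)
      else aY X i x.1.1
  have cY_gt : ∀ (X : C.Gpd) (i : ℕ) (h : r < i) (x : ECell r (C.gs X) i),
      cellY X i x = C.kap (O.model X) h (εY X (x.1.2 h.le).1) (aY X i x.1.1)
        (εY X (x.1.2 h.le).2) (hp X i h x) (hq X i h x) := fun X i h x => dif_pos h
  have cY_le : ∀ (X : C.Gpd) (i : ℕ) (h : i ≤ r) (x : ECell r (C.gs X) i),
      cellY X i x = aY X i x.1.1 := fun X i h x => dif_neg (by omega)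
  have faceS : ∀ (X : C.Gpd) (i : ℕ) (x : ECell r (C.gs X) (i + 1)),
      (C.gs (O.model X)).s (cellY X (i + 1) x) = cellY X i x.src := fun X i x => by
    rcases lt_trichotomy r i with h | h | h
    · rw [cY_gt X (i + 1) (Nat.lt_succ_of_lt h), cY_gt X i h, C.s_kap (O.model X) h]
      refine C.kap_congr _ h ?_ ((((δ.hom X).comp (O.cIn X)).app_s i x.1.1)) ?_ _ _ _ _ <;>
        rw [ECell.src_U h]
    · subst h
      rw [cY_gt X (r + 1) r.lt_succ_self, cY_le X r le_rfl, C.s_kap_base (O.model X), εY_s,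
        aY_low]
      exact congrArg (fun z => (O.cIn X).app r (lowCell r.lt_succ_self X z))
        ((x.2 r.le_succ).1.trans ((C.gs X).sIter_eq_one _))
    · rw [cY_le X (i + 1) h, cY_le X i h.le]
      exact ((δ.hom X).comp (O.cIn X)).app_s i x.1.1
  have faceT : ∀ (X : C.Gpd) (i : ℕ) (x : ECell r (C.gs X) (i + 1)),
      (C.gs (O.model X)).t (cellY X (i + 1) x) = cellY X i x.tgt := fun X i x => by
    rcases lt_trichotomy r i with h | h | h
    · rw [cY_gt X (i + 1) (Nat.lt_succ_of_lt h), cY_gt X i h, C.t_kap (O.model X) h]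
      refine C.kap_congr _ h ?_ ((((δ.hom X).comp (O.cIn X)).app_t i x.1.1)) ?_ _ _ _ _ <;>
        rw [ECell.tgt_U h]
    · subst h
      rw [cY_gt X (r + 1) r.lt_succ_self, cY_le X r le_rfl, C.t_kap_base (O.model X), εY_t,
        aY_low]
      exact congrArg (fun z => (O.cIn X).app r (lowCell r.lt_succ_self X z))
        ((x.2 r.le_succ).2.1.trans ((C.gs X).tIter_eq_one _))
    · rw [cY_le X (i + 1) h, cY_le X i h.le]
      exact ((δ.hom X).comp (O.cIn X)).app_t i x.1.1
  have εY_nat : ∀ {X Y : C.Gpd} (φ : X ⟶ Y) (u : (C.gs X).cell (r + 1)),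
      (gsMap (O.mapHom φ).hom).app (r + 1) (εY X u)
        = εY Y ((gsMap φ.hom).app (r + 1) u) := fun {X Y} φ u =>
    (O.cIn_natural φ (r + 1) _).trans (congrArg _ (ε.nat φ u))
  have aY_nat : ∀ {X Y : C.Gpd} (φ : X ⟶ Y) (i : ℕ) (a : (C.gs X).cell i),
      (gsMap (O.mapHom φ).hom).app i (aY X i a) = aY Y i ((gsMap φ.hom).app i a) :=
    fun {X Y} φ i a => (O.cIn_natural φ i _).trans (congrArg _ (δ.nat φ i a))
  have cY_nat : ∀ {X Y : C.Gpd} (φ : X ⟶ Y) (i : ℕ) (x : ECell r (C.gs X) i),
      (gsMap (O.mapHom φ).hom).app i (cellY X i x)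
        = cellY Y i ((edgeMap r (gsMap φ.hom)).app i x) := fun {X Y} φ i x => by
    by_cases h : r < i
    · rw [cY_gt X i h, cY_gt Y i h, C.kap_natural]
      exact C.kap_congr _ h (εY_nat φ _) (aY_nat φ i _) (εY_nat φ _) _ _ _ _
    · rw [cY_le X i (by omega), cY_le Y i (by omega)]
      exact aY_nat φ i _
  refine ⟨⟨fun X =>
    { app := fun i x => (O.cOut X).app i (cellY X i x)
      app_s := fun i x => ((O.cOut X).app_s i _).trans (congrArg _ (faceS X i x))
      app_t := fun i x => ((O.cOut X).app_t i _).trans (congrArg _ (faceT X i x)) },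
    fun {X Y} φ i x => congrArg ((O.cOut Y).app i) (cY_nat φ i x)⟩, fun X n x => ⟨?_, ?_⟩⟩
  · show ((cyl C d (r + 1)).e0 X).app n ((O.cOut X).app n (cellY X n x))
      = (sandOne C r).cell X n x
    rw [← O.evHom0_cIn X n, O.cIn_cOut X n]
    by_cases h : r < n
    · rw [cY_gt X n h, (sandOne C r).cell_gt X h, C.kap_natural]
      exact C.kap_congr X h
        ((O.evHom0_cIn X (r + 1) _).trans (congrFun (congrFun (congrArg Nat'.app ε0) X) _))
        ((O.evHom0_cIn X n _).trans (hδ X n _).1)
        ((O.evHom0_cIn X (r + 1) _).trans (congrFun (congrFun (congrArg Nat'.app ε0) X) _))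
        _ _ _ _
    · rw [cY_le X n (by omega), (sandOne C r).cell_le X (by omega)]
      exact (O.evHom0_cIn X n _).trans (hδ X n _).1
  · show ((cyl C d (r + 1)).e1 X).app n ((O.cOut X).app n (cellY X n x))
      = (sandLoop C r).cell X n x
    rw [← O.evHom1_cIn X n, O.cIn_cOut X n]
    by_cases h : r < n
    · rw [cY_gt X n h, (sandLoop C r).cell_gt X h, C.kap_natural]
      exact C.kap_congr X h
        ((O.evHom1_cIn X (r + 1) _).trans (congrFun (congrFun (congrArg Nat'.app ε1) X) _))
        ((O.evHom1_cIn X n _).trans (hδ X n _).2)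
        ((O.evHom1_cIn X (r + 1) _).trans (congrFun (congrFun (congrArg Nat'.app ε1) X) _))
        _ _ _ _
    · rw [cY_le X n (by omega), (sandLoop C r).cell_le X (by omega)]
      exact (O.evHom1_cIn X n _).trans (hδ X n _).2

end Hops

end Vale.Agent.P259
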