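import Vale.Agent.P259.CylHop

/-!
# P259: the associativity cylinder, and the complete chain of cylinders
-/

open CategoryTheory Opposite

namespace Vale.Agent.P259

variable {C : Coherator}

/-- Conditions on a chain `p, q, a, q', p'`. -/
def ChainOk (G : GSet) (r i : ℕ) (h : r < i)
    (x : G.cell (r + 1) × G.cell (r + 1) × G.cell i × G.cell (r + 1) × G.cell (r + 1)) : Prop :=
  G.t x.1 = G.s x.2.1 ∧ G.t x.2.1 = G.sIter h.le x.2.2.1 ∧
    G.tIter h.le x.2.2.1 = G.s x.2.2.2.1 ∧ G.t x.2.2.2.1 = G.s x.2.2.2.2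

/-- Composable chains `p, q, a, q', p'` at level `r`. -/
abbrev chainT (C : Coherator) (r i : ℕ) (h : r < i) : TFun C where
  obj X := {x : (C.gs X).cell (r + 1) × (C.gs X).cell (r + 1) × (C.gs X).cell i ×
    (C.gs X).cell (r + 1) × (C.gs X).cell (r + 1) // ChainOk (C.gs X) r i h x}
  map {X Y} φ x := ⟨((gsMap φ.hom).app _ x.1.1, (gsMap φ.hom).app _ x.1.2.1,
      (gsMap φ.hom).app _ x.1.2.2.1, (gsMap φ.hom).app _ x.1.2.2.2.1,
      (gsMap φ.hom).app _ x.1.2.2.2.2), by
    obtain ⟨h1, h2, h3, h4⟩ := x.2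
    exact ⟨by rw [(gsMap φ.hom).app_t, (gsMap φ.hom).app_s, h1],
      by rw [(gsMap φ.hom).app_t, (gsMap φ.hom).app_sIter, h2],
      by rw [(gsMap φ.hom).app_tIter, (gsMap φ.hom).app_s, h3],
      by rw [(gsMap φ.hom).app_t, (gsMap φ.hom).app_s, h4]⟩⟩

theorem hasFill_chainT (C : Coherator) {r i : ℕ} (h : r < i) :
    HasFill (chainT C r i h) i := by
  have hl : r < r + 1 := r.lt_succ_self
  let S : GSum := ((((GSum.disc (r + 1)).snoc r (r + 1) hl hl).snoc r i hl h).snoc r (r + 1)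
    h hl).snoc r (r + 1) hl hl
  have t1 : ∀ (G : GSet) (a : G.cell (r + 1)), G.tIter hl.le a = G.t a := fun G a =>
    G.tIter_eq_one a
  have s1 : ∀ (G : GSet) (a : G.cell (r + 1)), G.sIter hl.le a = G.s a := fun G a =>
    G.sIter_eq_one a
  let f : Nat' (chainT C r i h) (barT C S) :=
    { app := fun X x =>
        GSet.Bar.mk' (GSet.Bar.mk' (GSet.Bar.mk' (GSet.Bar.mk' ((C.gs X).one (r + 1) x.1.1)
          x.1.2.1 ((t1 _ _).trans (x.2.1.trans (s1 _ _).symm))) x.1.2.2.1
          ((t1 _ _).trans x.2.2.1)) x.1.2.2.2.1 (x.2.2.2.1.trans (s1 _ _).symm)) x.1.2.2.2.2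
          ((t1 _ _).trans (x.2.2.2.2.trans (s1 _ _).symm))
      nat := fun φ x => by
        refine GSet.Bar.ext' (((gsMap φ.hom).bar_fst _).trans (GSet.Bar.ext'
          (((gsMap φ.hom).bar_fst _).trans (GSet.Bar.ext'
            (((gsMap φ.hom).bar_fst _).trans (GSet.Bar.ext' ((gsMap φ.hom).bar_fst _)
              ((gsMap φ.hom).bar_snd _))) ((gsMap φ.hom).bar_snd _)))
          ((gsMap φ.hom).bar_snd _))) ((gsMap φ.hom).bar_snd _) }
  let g : Nat' (barT C S) (chainT C r i h) :=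
    { app := fun X p => ⟨(p.fst.fst.fst.fst.1, p.fst.fst.fst.snd, p.fst.fst.snd, p.fst.snd, p.snd),
        ((t1 _ _).symm.trans (p.fst.fst.fst.glue.trans (s1 _ _))),
        ((t1 _ _).symm.trans p.fst.fst.glue),
        (p.fst.glue.trans (s1 _ _)),
        ((t1 _ _).symm.trans (p.glue.trans (s1 _ _)))⟩
      nat := fun φ p => by
        apply Subtype.ext
        simp only [GHom.bar_fst, GHom.bar_snd]
        rfl }
  exact (hasFill_barT C S i
    (max_le (max_le (max_le (max_le (by exact Nat.succ_le_succ h.le) (Nat.succ_le_succ h.le))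
      i.le_succ) (Nat.succ_le_succ h.le)) (Nat.succ_le_succ h.le))).of_retract f g
      (fun X x => rfl)

/-- The source of a chain. -/
abbrev chainS (C : Coherator) (r i : ℕ) (h : r < i) :
    Nat' (chainT C r (i + 1) (Nat.lt_succ_of_lt h)) (chainT C r i h) where
  app X x := ⟨(x.1.1, x.1.2.1, (C.gs X).s x.1.2.2.1, x.1.2.2.2.1, x.1.2.2.2.2),
    x.2.1, x.2.2.1.trans ((C.gs X).sIter_succ h.le _),
    (((C.gs X).tIter_s h _).trans ((C.gs X).tIter_succ h.le _).symm).trans x.2.2.2.1, x.2.2.2.2⟩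
  nat φ x := Subtype.ext (Prod.ext rfl (Prod.ext rfl
    (Prod.ext ((gsMap φ.hom).app_s _ _).symm rfl)))

/-- The target of a chain. -/
abbrev chainTgt (C : Coherator) (r i : ℕ) (h : r < i) :
    Nat' (chainT C r (i + 1) (Nat.lt_succ_of_lt h)) (chainT C r i h) where
  app X x := ⟨(x.1.1, x.1.2.1, (C.gs X).t x.1.2.2.1, x.1.2.2.2.1, x.1.2.2.2.2),
    x.2.1, (x.2.2.1.trans ((C.gs X).sIter_succ h.le _)).trans ((C.gs X).sIter_t h _).symm,
    ((C.gs X).tIter_succ h.le _).symm.trans x.2.2.2.1, x.2.2.2.2⟩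
  nat φ x := Subtype.ext (Prod.ext rfl (Prod.ext rfl
    (Prod.ext ((gsMap φ.hom).app_t _ _).symm rfl)))

/-- The composite `p q`. -/
noncomputable def Coherator.cmpC' (X : C.Gpd) {n : ℕ} (p q : (C.gs X).cell (n + 1))
    (h : (C.gs X).t p = (C.gs X).s q) : (C.gs X).cell (n + 1) :=
  (Fam.compU C n).app X (GSet.Bar.mk' ((C.gs X).one (n + 1) p) q
    (((C.gs X).tIter_eq_one p).trans (h.trans ((C.gs X).sIter_eq_one q).symm)))

theorem Coherator.cmpC'_congr (X : C.Gpd) {n : ℕ} {p p' q q' : (C.gs X).cell (n + 1)}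
    (ep : p = p') (eq : q = q') (h h') : C.cmpC' X p q h = C.cmpC' X p' q' h' := by
  subst ep eq
  rfl

theorem Coherator.s_cmpC' (X : C.Gpd) {n : ℕ} (p q : (C.gs X).cell (n + 1)) (h) :
    (C.gs X).s (C.cmpC' X p q h) = (C.gs X).s p :=
  congrFun (congrFun (congrArg Nat'.app (Fam.exists_compU C n).choose_spec.1) X) _

theorem Coherator.t_cmpC' (X : C.Gpd) {n : ℕ} (p q : (C.gs X).cell (n + 1)) (h) :
    (C.gs X).t (C.cmpC' X p q h) = (C.gs X).t q :=
  congrFun (congrFun (congrArg Nat'.app (Fam.exists_compU C n).choose_spec.2) X) _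

theorem Coherator.cmpC'_natural {X Y : C.Gpd} (φ : X ⟶ Y) {n : ℕ}
    (p q : (C.gs X).cell (n + 1)) (h) :
    (gsMap φ.hom).app (n + 1) (C.cmpC' X p q h)
      = C.cmpC' Y ((gsMap φ.hom).app _ p) ((gsMap φ.hom).app _ q)
          (by rw [(gsMap φ.hom).app_t, (gsMap φ.hom).app_s, h]) :=
  ((Fam.compU C n).nat φ _).trans (congrArg ((Fam.compU C n).app Y)
    (GSet.Bar.ext' ((gsMap φ.hom).bar_fst _) ((gsMap φ.hom).bar_snd _)))

/-- `(p q) a (q' p')`. -/
noncomputable def chainOuter (C : Coherator) (r i : ℕ) (h : r < i) : Fam (chainT C r i h) i where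
  app X x := C.kap X h (C.cmpC' X x.1.1 x.1.2.1 x.2.1) x.1.2.2.1
    (C.cmpC' X x.1.2.2.2.1 x.1.2.2.2.2 x.2.2.2.2)
    ((C.t_cmpC' X _ _ _).trans x.2.2.1) (x.2.2.2.1.trans (C.s_cmpC' X _ _ _).symm)
  nat {X Y} φ x := (C.kap_natural φ h _ _ _ _ _).trans
    (C.kap_congr Y h (C.cmpC'_natural φ _ _ _) rfl (C.cmpC'_natural φ _ _ _) _ _ _ _)

theorem chainInner_ok (X : C.Gpd) {r i : ℕ} (h : r < i) (x : (chainT C r i h).obj X) :
    (C.gs X).t x.1.1 = (C.gs X).sIter h.le
        (C.kap X h x.1.2.1 x.1.2.2.1 x.1.2.2.2.1 x.2.2.1 x.2.2.2.1) ∧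
      (C.gs X).tIter h.le (C.kap X h x.1.2.1 x.1.2.2.1 x.1.2.2.2.1 x.2.2.1 x.2.2.2.1)
        = (C.gs X).s x.1.2.2.2.2 :=
  ⟨x.2.1.trans (C.sIter_kap X h _ _ _ _ _).1.symm,
    (C.sIter_kap X h _ _ _ _ _).2.trans x.2.2.2.2⟩

/-- `p (q a q') p'`. -/
noncomputable def chainInner (C : Coherator) (r i : ℕ) (h : r < i) : Fam (chainT C r i h) i where
  app X x := C.kap X h x.1.1 (C.kap X h x.1.2.1 x.1.2.2.1 x.1.2.2.2.1 x.2.2.1 x.2.2.2.1)
    x.1.2.2.2.2 (chainInner_ok X h x).1 (chainInner_ok X h x).2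
  nat {X Y} φ x := (C.kap_natural φ h _ _ _ _ _).trans
    (C.kap_congr Y h rfl (C.kap_natural φ h _ _ _ _ _) rfl _ _ _ _)

/-- A cell with edges, as a chain. -/
noncomputable def toChain (C : Coherator) (r i : ℕ) (h : r < i) :
    Nat' ((edgeF C r).cellF i) (chainT C r i h) where
  app X x := ⟨((x.1.2 h.le).1, C.invC X (x.1.2 h.le).1, x.1.1, (x.1.2 h.le).2,
      C.invC X (x.1.2 h.le).2),
    (C.s_invC X _).symm, (C.t_invC X _).trans (x.2 h.le).1, (x.2 h.le).2.1.symm,
    (C.s_invC X _).symm⟩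
  nat φ x := Subtype.ext (Prod.ext rfl (Prod.ext (C.invC_natural φ _)
    (Prod.ext rfl (Prod.ext rfl (C.invC_natural φ _)))))

section

variable {d r : ℕ}

attribute [local irreducible] Coherator.kap in
theorem exists_hop3 (C : Coherator) (d r : ℕ) :
    ∃ H, IsCylBetween (d := d) H (sandLoop C r).toGNat (sandBack C r).toGNat := by
  let u : Fam (chainT C r (r + 1) r.lt_succ_self) r :=
    ⟨fun X x => (C.gs X).s x.1.1, fun φ x => ((gsMap φ.hom).app_s r _).symm⟩
  let v : Fam (chainT C r (r + 1) r.lt_succ_self) r :=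
    ⟨fun X x => (C.gs X).t x.1.2.2.2.2, fun φ x => ((gsMap φ.hom).app_t r _).symm⟩
  have huv : u.Par v := by
    intro X x
    cases r with
    | zero => exact trivial
    | succ m =>
      obtain ⟨h1, h2, h3, h4⟩ := x.2
      rw [GSet.sIter_eq_one] at h2
      rw [GSet.tIter_eq_one] at h3
      constructor
      · show (C.gs X).s ((C.gs X).s x.1.1) = (C.gs X).s ((C.gs X).t x.1.2.2.2.2)
        rw [(C.gs X).ss, h1, (C.gs X).ss, h2, (C.gs X).ss, h3, (C.gs X).ss, h4, (C.gs X).ss]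
      · show (C.gs X).t ((C.gs X).s x.1.1) = (C.gs X).t ((C.gs X).t x.1.2.2.2.2)
        rw [(C.gs X).ts, h1, (C.gs X).ts, h2, (C.gs X).ts, h3, (C.gs X).ts, h4, (C.gs X).ts]
  obtain ⟨K, he, hbase, hstep⟩ := exists_lift_above C d r (chainT C r) (chainS C r)
    (chainTgt C r)
    (fun n h X x => Subtype.ext (Prod.ext rfl (Prod.ext rfl (Prod.ext ((C.gs X).ss _) rfl))))
    (fun n h X x => Subtype.ext (Prod.ext rfl (Prod.ext rfl (Prod.ext ((C.gs X).ts _) rfl))))
    u v huv (fun X x => rfl) (fun X x => rfl) (chainOuter C r) (chainInner C r)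
    ⟨Fam.ext_app fun X x => (C.s_kap_base X _ _ _ _ _).trans (C.s_cmpC' X _ _ _),
      Fam.ext_app fun X x => (C.t_kap_base X _ _ _ _ _).trans (C.t_cmpC' X _ _ _)⟩
    ⟨Fam.ext_app fun X x => C.s_kap_base X _ _ _ _ _,
      Fam.ext_app fun X x => C.t_kap_base X _ _ _ _ _⟩
    (fun n h => ⟨Fam.ext_app fun X x => C.s_kap X h _ _ _ _ _,
      Fam.ext_app fun X x => C.t_kap X h _ _ _ _ _⟩)
    (fun n h => ⟨Fam.ext_app fun X x => (C.s_kap X h _ _ _ _ _).trans
        (C.kap_congr X h rfl (C.s_kap X h _ _ _ _ _) rfl _ _ _ _),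
      Fam.ext_app fun X x => (C.t_kap X h _ _ _ _ _).trans
        (C.kap_congr X h rfl (C.t_kap X h _ _ _ _ _) rfl _ _ _ _)⟩)
    (fun n h _ => hasFill_chainT C h)
  let cell : ∀ (X : C.Gpd) (i : ℕ), ECell r (C.gs X) i → ((cyl C d (r + 1)).obj X).cell i :=
    fun X i x =>
      if h : r < i then (K i h).app X ((toChain C r i h).app X x)
      else lowCell (by omega : i < r + 1) X x.1.1
  have cgt : ∀ (X : C.Gpd) (i : ℕ) (h : r < i) (x : ECell r (C.gs X) i),
      cell X i x = (K i h).app X ((toChain C r i h).app X x) := fun X i h x => dif_pos h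
  have cle : ∀ (X : C.Gpd) (i : ℕ) (h : i < r + 1) (x : ECell r (C.gs X) i),
      cell X i x = lowCell h X x.1.1 := fun X i h x => dif_neg (by omega)
  have faceS : ∀ (X : C.Gpd) (i : ℕ) (x : ECell r (C.gs X) (i + 1)),
      ((cyl C d (r + 1)).obj X).s (cell X (i + 1) x) = cell X i x.src := fun X i x => by
    rcases lt_trichotomy r i with h | h | h
    · rw [cgt X (i + 1) (Nat.lt_succ_of_lt h), cgt X i h]
      refine (congrFun (congrFun (congrArg Nat'.app (hstep i h).1) X) _).trans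
        (congrArg ((K i h).app X) (Subtype.ext ?_))
      simp only [toChain, chainS, ECell.src_U h, ECell.src_a]
    · subst h
      rw [cgt X (r + 1) r.lt_succ_self, cle X r r.lt_succ_self, (hbase X _).1]
      exact congrArg (lowCell r.lt_succ_self X)
        ((x.2 r.le_succ).1.trans ((C.gs X).sIter_eq_one _))
    · rw [cle X (i + 1) (by omega), cle X i (by omega)]
      refine low_ext (C := C) (d := d) (r := r + 1) (by omega : i < r + 1) ?_
      rw [← ((cyl C d (r + 1)).e0 X).app_s, e0_lowCell, e0_lowCell]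
      rfl
  have faceT : ∀ (X : C.Gpd) (i : ℕ) (x : ECell r (C.gs X) (i + 1)),
      ((cyl C d (r + 1)).obj X).t (cell X (i + 1) x) = cell X i x.tgt := fun X i x => by
    rcases lt_trichotomy r i with h | h | h
    · rw [cgt X (i + 1) (Nat.lt_succ_of_lt h), cgt X i h]
      refine (congrFun (congrFun (congrArg Nat'.app (hstep i h).2) X) _).trans
        (congrArg ((K i h).app X) (Subtype.ext ?_))
      simp only [toChain, chainTgt, ECell.tgt_U h, ECell.tgt_a]
    · subst h
      rw [cgt X (r + 1) r.lt_succ_self, cle X r r.lt_succ_self, (hbase X _).2]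
      exact congrArg (lowCell r.lt_succ_self X)
        ((C.t_invC X _).trans ((x.2 r.le_succ).2.1.trans ((C.gs X).tIter_eq_one _)))
    · rw [cle X (i + 1) (by omega), cle X i (by omega)]
      refine low_ext (C := C) (d := d) (r := r + 1) (by omega : i < r + 1) ?_
      rw [← ((cyl C d (r + 1)).e0 X).app_t, e0_lowCell, e0_lowCell]
      rfl
  refine ⟨⟨fun X => { app := fun i x => cell X i x, app_s := faceS X, app_t := faceT X },
    fun {X Y} φ i x => ?_⟩, fun X n x => ?_⟩
  · show ((cyl C d (r + 1)).map φ).app i (cell X i x)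
      = cell Y i ((edgeMap r (gsMap φ.hom)).app i x)
    by_cases h : r < i
    · rw [cgt X i h, cgt Y i h]
      exact ((K i h).nat φ _).trans (congrArg ((K i h).app Y) ((toChain C r i h).nat φ x))
    · rw [cle X i (by omega), cle Y i (by omega), map_lowCell]
      rfl
  · show ((cyl C d (r + 1)).e0 X).app n (cell X n x) = (sandLoop C r).cell X n x ∧
      ((cyl C d (r + 1)).e1 X).app n (cell X n x) = (sandBack C r).cell X n x
    by_cases h : r < n
    · rw [cgt X n h, (sandLoop C r).cell_gt X h, (sandBack C r).cell_gt X h]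
      refine ⟨(congrFun (congrFun (congrArg Nat'.app (he n h).1) X) _).trans ?_,
        (congrFun (congrFun (congrArg Nat'.app (he n h).2) X) _).trans ?_⟩
      · rfl
      · simp only [chainInner, sandBack, conjN, toChain, Coherator.conjHom, C.conjE_gt X h x]
    · rw [cle X n (by omega), (sandLoop C r).cell_le X (by omega),
        (sandBack C r).cell_le X (by omega)]
      exact ⟨e0_lowCell _ X _, e1_lowCell _ X _⟩

/-- A sequence of three cylinders from a cell to its double conjugate. -/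
structure HopData (C : Coherator) (d r : ℕ) where
  H1 : GNat (edgeF C r) (cyl C d (r + 1)).toGFun
  H2 : GNat (edgeF C r) (cyl C d (r + 1)).toGFun
  H3 : GNat (edgeF C r) (cyl C d (r + 1)).toGFun
  h1 : IsCylBetween H1 (edgeProj C r) (sandOne C r).toGNat
  h2 : IsCylBetween H2 (sandOne C r).toGNat (sandLoop C r).toGNat
  h3 : IsCylBetween H3 (sandLoop C r).toGNat (sandBack C r).toGNat

/-- The cylinders exist as soon as the inner level has operations. -/
noncomputable def HopData.mk' (C : Coherator) (d r : ℕ) (O : GOps (cyl C d (r + 1))) :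
    HopData C d r where
  H1 := (exists_hop1 C d r).choose
  H2 := (exists_hop2 C d r O).choose
  H3 := (exists_hop3 C d r).choose
  h1 := (exists_hop1 C d r).choose_spec
  h2 := (exists_hop2 C d r O).choose_spec
  h3 := (exists_hop3 C d r).choose_spec

end

end Vale.Agent.P259
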