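import Vale.Agent.P259.CylMain
import Vale.Agent.P259.CylRho
import Vale.Agent.P259.Interface

/-!
# P259: the groupoid of cylinders
-/

open CategoryTheory Opposite

namespace Vale.Agent.P259

variable {C : Coherator}

/-! ### Functoriality of the stages -/

theorem GHom.id_app (G : GSet) (n : ℕ) (a : G.cell n) : (GHom.id G).app n a = a := rfl

theorem gsMap_id_app (X : C.Gpd) (n : ℕ) (a : (C.gs X).cell n) :
    (gsMap (𝟙 X : X ⟶ X).hom).app n a = a := rfl

theorem gsMap_comp_app {X Y Z : C.Gpd} (f : X ⟶ Y) (g : Y ⟶ Z) (n : ℕ) (a : (C.gs X).cell n) :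
    (gsMap (f ≫ g).hom).app n a = (gsMap g.hom).app n ((gsMap f.hom).app n a) := rfl

theorem cyl_map_id (C : Coherator) : ∀ (d r : ℕ) (X : C.Gpd) (i : ℕ) x,
    ((cyl C d r).map (𝟙 X)).app i x = x
  | 0, _, _, _, _ => rfl
  | d + 1, r, X, i, x => Subtype.ext (Prod.ext (ECell.ext' rfl fun _ => rfl)
      (cyl_map_id C d (r + 1) X i x.1.2))

theorem cyl_map_comp (C : Coherator) : ∀ (d r : ℕ) {X Y Z : C.Gpd} (f : X ⟶ Y) (g : Y ⟶ Z)
    (i : ℕ) x, ((cyl C d r).map (f ≫ g)).app i x
      = ((cyl C d r).map g).app i (((cyl C d r).map f).app i x)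
  | 0, _, _, _, _, _, _, _, _ => rfl
  | d + 1, r, X, Y, Z, f, g, i, x => Subtype.ext (Prod.ext (ECell.ext' rfl fun _ => rfl)
      (cyl_map_comp C d (r + 1) f g i x.1.2))

theorem GHom.bar_square {A B B' D : GSet} (f : GHom A B) (g : GHom B D) (f' : GHom A B')
    (g' : GHom B' D) (h : ∀ n a, g.app n (f.app n a) = g'.app n (f'.app n a)) (S : GSum)
    (p : A.Bar S) : g.bar S (f.bar S p) = g'.bar S (f'.bar S p) :=
  (GHom.bar_comp f g S p).symm.trans
    ((GHomLE.bar_congr _ _ (fun n _ a => h n a) S le_rfl p).trans (GHom.bar_comp f' g' S p))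

/-! ### Operations on the limit -/

theorem hasFill_infBar (C : Coherator) (S : GSum) (m : ℕ) (hS : S.dim ≤ m) :
    HasFill ((cylInf C).toGFun.barF S) m := by
  refine ((fillBar_and_tr C (m + 1) 0).1 S m hS (by omega)).of_retract
    { app := fun X p => (upLE C m X).bar S hS p
      nat := fun {X Y} f p => by
        show ((cyl C (m + 1) 0).map f).bar S ((upLE C m X).bar S hS p)
          = (upLE C m Y).bar S hS (((cylInf C).map f).bar S p)
        rw [← GHom.toLE_bar ((cyl C (m + 1) 0).map f) S hS,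
          ← GHom.toLE_bar ((cylInf C).map f) S hS, ← GHomLE.bar_comp, ← GHomLE.bar_comp]
        exact GHomLE.bar_congr _ _ (fun i hi a => up_map C m f i hi a) S hS p }
    { app := fun X p => (downLE C m X).bar S hS p
      nat := fun {X Y} f p => by
        show ((cylInf C).map f).bar S ((downLE C m X).bar S hS p)
          = (downLE C m Y).bar S hS (((cyl C (m + 1) 0).map f).bar S p)
        rw [← GHom.toLE_bar ((cyl C (m + 1) 0).map f) S hS,
          ← GHom.toLE_bar ((cylInf C).map f) S hS, ← GHomLE.bar_comp, ← GHomLE.bar_comp]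
        exact GHomLE.bar_congr _ _ (fun i hi a => toInf_map C (m + 1) f i (Nat.lt_succ_of_le hi) a) S hS p }
    fun X p => ?_
  show (downLE C m X).bar S hS ((upLE C m X).bar S hS p) = p
  rw [← GHomLE.bar_comp]
  exact (GHomLE.bar_congr _ ((GHom.id _).toLE m) (fun i hi a => down_up C m X i hi a) S hS
    p).trans ((GHom.toLE_bar _ S hS p).trans (GHom.bar_id S p))

theorem inf_s_top (C : Coherator) (X : C.Gpd) (n : ℕ) (x : ((cyl C (n + 2) 0).obj X).cell (n + 1)) :
    ((cylInf C).obj X).s x
        = toInf C (n + 2) X n (Nat.lt_succ_of_lt n.lt_succ_self) (((cyl C (n + 2) 0).obj X).s x) ∧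
      ((cylInf C).obj X).t x
        = toInf C (n + 2) X n (Nat.lt_succ_of_lt n.lt_succ_self)
            (((cyl C (n + 2) 0).obj X).t x) := by
  have h := toInf_faces C (n + 2) X n (n + 1).lt_succ_self x
  rwa [toInf_self] at h

theorem fillProp_inf (C : Coherator) : FillProp (cylInf C) := by
  intro S n hS c c' hpar a a' h1 h2 h3 h4 _
  let lift : GFam (cylInf C).toGFun ((cylInf C).toGFun.barF S) n →
      GFam (cyl C (n + 2) 0).toGFun ((cylInf C).toGFun.barF S) n := fun c =>
    ⟨fun X x => (upLE C (n + 1) X).app n n.le_succ (c.app X x), fun f x =>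
      (up_map C (n + 1) f n n.le_succ _).trans (congrArg _ (c.nat f x))⟩
  have par : (lift c).Par (lift c') := by
    intro X x
    have := hpar X x
    cases n with
    | zero => exact trivial
    | succ k =>
      exact ⟨((upLE C (k + 2) X).app_s k (Nat.le_succ _) _).trans
          ((congrArg _ this.1).trans ((upLE C (k + 2) X).app_s k (Nat.le_succ _) _).symm),
        ((upLE C (k + 2) X).app_t k (Nat.le_succ _) _).trans
          ((congrArg _ this.2).trans ((upLE C (k + 2) X).app_t k (Nat.le_succ _) _).symm)⟩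
  have e0 : ∀ c, GFam.e0 (lift c) = GFam.e0 c := fun c =>
    Fam.ext_app fun X x => up_e0 C (n + 1) X n n.le_succ _
  have e1 : ∀ c, GFam.e1 (lift c) = GFam.e1 c := fun c =>
    Fam.ext_app fun X x => up_e1 C (n + 1) X n n.le_succ _
  obtain ⟨q, q1, q2, q3, q4⟩ := exists_cylFill C (n + 2) 0 n (Nat.zero_le _)
    ((cylInf C).toGFun.barF S) (fun _ => hasFill_infBar C S (n + 1) hS) (lift c) (lift c') par
    a a' (h1.trans (e0 c).symm) (h2.trans (e0 c').symm) (h3.trans (e1 c).symm)
    (h4.trans (e1 c').symm)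
  refine ⟨⟨fun X x => q.app X x, fun f x => q.nat f x⟩, ?_, ?_, q3, q4⟩
  · refine Nat'.ext (funext fun X => funext fun x => ?_)
    show ((cylInf C).obj X).s (q.app X x) = c.app X x
    exact (inf_s_top C X n _).1.trans ((congrArg _ (congrFun (congrFun (congrArg Nat'.app q1) X)
      x)).trans (down_up C (n + 1) X n n.le_succ _))
  · refine Nat'.ext (funext fun X => funext fun x => ?_)
    show ((cylInf C).obj X).t (q.app X x) = c'.app X x
    exact (inf_s_top C X n _).2.trans ((congrArg _ (congrFun (congrFun (congrArg Nat'.app q2) X)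
      x)).trans (down_up C (n + 1) X n n.le_succ _))

/-- The chosen operations on the limit. -/
noncomputable def Coherator.pathOps (C : Coherator) : GOps (cylInf C) :=
  (exists_gops _ (fillProp_inf C)).some

/-- The groupoid of cylinders, as a functor. -/
noncomputable def Coherator.pathFunctor (C : Coherator) : C.Gpd ⥤ C.Gpd where
  obj X := C.pathOps.model X
  map f := C.pathOps.mapHom f
  map_id X := by
    apply ObjectProperty.hom_ext
    ext S p
    show ((cylInf C).map (𝟙 X)).bar S.unop.sum p = p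
    refine (GHomLE.bar_congr _ ((GHom.id _).toLE _) (fun i _ a => ?_) S.unop.sum le_rfl p).trans
      (GHom.bar_id _ p)
    exact cyl_map_id C (i + 1) 0 X i a
  map_comp {X Y Z} f g := by
    apply ObjectProperty.hom_ext
    ext S p
    show ((cylInf C).map (f ≫ g)).bar S.unop.sum p
      = ((cylInf C).map g).bar S.unop.sum (((cylInf C).map f).bar S.unop.sum p)
    exact (GHomLE.bar_congr _ ((((cylInf C).map f).comp ((cylInf C).map g)).toLE _)
      (fun i _ a => cyl_map_comp C (i + 1) 0 f g i a) S.unop.sum le_rfl p).trans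
      (GHom.bar_comp _ _ S.unop.sum p)

/-- The first endpoint. -/
noncomputable def Coherator.cylEv0 (C : Coherator) : C.pathFunctor ⟶ 𝟭 C.Gpd where
  app X := C.pathOps.evHom0 X
  naturality X Y f := by
    apply ObjectProperty.hom_ext
    ext S p
    show (C.barEquiv Y S.unop.sum).symm (((cylInf C).e0 Y).bar S.unop.sum
        (((cylInf C).map f).bar S.unop.sum p))
      = f.hom.app S ((C.barEquiv X S.unop.sum).symm (((cylInf C).e0 X).bar S.unop.sum p))
    apply (C.barEquiv Y S.unop.sum).injective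
    rw [Equiv.apply_symm_apply]
    refine Eq.trans ?_ (toBar_natural f.hom S.unop.sum _)
    show _ = (gsMap f.hom).bar S.unop.sum
      (C.barEquiv X S.unop.sum ((C.barEquiv X S.unop.sum).symm _))
    rw [Equiv.apply_symm_apply]
    exact GHom.bar_square _ _ _ _ (fun i a => ((cylInf C).nat0 f i a).symm) S.unop.sum p

/-- The second endpoint. -/
noncomputable def Coherator.cylEv1 (C : Coherator) : C.pathFunctor ⟶ 𝟭 C.Gpd where
  app X := C.pathOps.evHom1 X
  naturality X Y f := by
    apply ObjectProperty.hom_ext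
    ext S p
    show (C.barEquiv Y S.unop.sum).symm (((cylInf C).e1 Y).bar S.unop.sum
        (((cylInf C).map f).bar S.unop.sum p))
      = f.hom.app S ((C.barEquiv X S.unop.sum).symm (((cylInf C).e1 X).bar S.unop.sum p))
    apply (C.barEquiv Y S.unop.sum).injective
    rw [Equiv.apply_symm_apply]
    refine Eq.trans ?_ (toBar_natural f.hom S.unop.sum _)
    show _ = (gsMap f.hom).bar S.unop.sum
      (C.barEquiv X S.unop.sum ((C.barEquiv X S.unop.sum).symm _))
    rw [Equiv.apply_symm_apply]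
    exact GHom.bar_square _ _ _ _ (fun i a => ((cylInf C).nat1 f i a).symm) S.unop.sum p

/-! ### Lifts through both endpoints -/

/-- The lift in the limit of two cells with given sources. -/
noncomputable def Coherator.infLift (C : Coherator) (X : C.Gpd) (n : ℕ)
    (q : ((cylInf C).obj X).cell n) (f f' : (C.gs X).cell (n + 1))
    (h : (C.gs X).s f = ((cylInf C).e0 X).app n q)
    (h' : (C.gs X).s f' = ((cylInf C).e1 X).app n q) : ((cylInf C).obj X).cell (n + 1) :=
  (C.fibOp (n + 2) 0 n (Nat.zero_le n)).app X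
    ⟨((upLE C (n + 1) X).app n n.le_succ q, f, f'),
      h.trans (up_e0 C (n + 1) X n n.le_succ q).symm,
      h'.trans (up_e1 C (n + 1) X n n.le_succ q).symm⟩

theorem Coherator.infLift_s (C : Coherator) (X : C.Gpd) (n : ℕ) (q) (f f') (h h') :
    ((cylInf C).obj X).s (C.infLift X n q f f' h h') = q :=
  (inf_s_top C X n _).1.trans ((congrArg _ (C.fibOp_s (n + 2) 0 n (Nat.zero_le n) X _)).trans
    (down_up C (n + 1) X n n.le_succ q))

theorem Coherator.infLift_e0 (C : Coherator) (X : C.Gpd) (n : ℕ) (q) (f f') (h h') :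
    ((cylInf C).e0 X).app (n + 1) (C.infLift X n q f f' h h') = f :=
  C.fibOp_e0 (n + 2) 0 n (Nat.zero_le n) X _

theorem Coherator.infLift_e1 (C : Coherator) (X : C.Gpd) (n : ℕ) (q) (f f') (h h') :
    ((cylInf C).e1 X).app (n + 1) (C.infLift X n q f f' h h') = f' :=
  C.fibOp_e1 (n + 2) 0 n (Nat.zero_le n) X _

theorem Coherator.infLift_natural (C : Coherator) {X Y : C.Gpd} (g : X ⟶ Y) (n : ℕ) (q) (f f')
    (h h') (k k') :
    ((cylInf C).map g).app (n + 1) (C.infLift X n q f f' h h')
      = C.infLift Y n (((cylInf C).map g).app n q) ((gsMap g.hom).app _ f)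
          ((gsMap g.hom).app _ f') k k' :=
  ((C.fibOp (n + 2) 0 n (Nat.zero_le n)).nat g _).trans
    (congrArg ((C.fibOp (n + 2) 0 n (Nat.zero_le n)).app Y)
      (Subtype.ext (Prod.ext (up_map C (n + 1) g n n.le_succ q) rfl)))

/-- Relations of second endpoints pass to first endpoints, cell by cell. -/
theorem inf_rel (C : Coherator) (X : C.Gpd) (n : ℕ) (p p' : ((cylInf C).obj X).cell n)
    (hpar : ((cylInf C).obj X).Par p p') (w : (C.gs X).cell (n + 1))
    (hs : (C.gs X).s w = ((cylInf C).e1 X).app n p)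
    (ht : (C.gs X).t w = ((cylInf C).e1 X).app n p') :
    ∃ v : (C.gs X).cell (n + 1), (C.gs X).s v = ((cylInf C).e0 X).app n p ∧
      (C.gs X).t v = ((cylInf C).e0 X).app n p' := by
  let R : TFun C := { obj := fun Y => X ⟶ Y, map := fun φ g => g ≫ φ }
  let u : ((cylInf C).obj X).cell n → ((cyl C (n + 1) 0).obj X).cell n :=
    (upLE C n X).app n le_rfl
  let fam : ((cylInf C).obj X).cell n → GFam (cyl C (n + 1) 0).toGFun R n := fun p =>
    ⟨fun Y g => ((cyl C (n + 1) 0).map g).app n (u p),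
      fun φ g => (cyl_map_comp C (n + 1) 0 g φ n (u p)).symm⟩
  have hu : ((cyl C (n + 1) 0).obj X).Par (u p) (u p') := by
    cases n with
    | zero => exact trivial
    | succ k =>
      exact ⟨((upLE C (k + 1) X).app_s k le_rfl p).trans
          ((congrArg _ hpar.1).trans ((upLE C (k + 1) X).app_s k le_rfl p').symm),
        ((upLE C (k + 1) X).app_t k le_rfl p).trans
          ((congrArg _ hpar.2).trans ((upLE C (k + 1) X).app_t k le_rfl p').symm)⟩
  let W : Fam R (n + 1) := ⟨fun Y g => (gsMap g.hom).app (n + 1) w, fun φ g => rfl⟩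
  have hW : (GFam.e1 (fam p)).Rel (GFam.e1 (fam p')) := by
    refine ⟨W, Fam.ext_app fun Y g => ?_, Fam.ext_app fun Y g => ?_⟩
    · show (C.gs Y).s ((gsMap g.hom).app (n + 1) w) = _
      rw [(gsMap g.hom).app_s, hs, ← up_e1 C n X n le_rfl p]
      exact (cyl C (n + 1) 0).nat1 g n _
    · show (C.gs Y).t ((gsMap g.hom).app (n + 1) w) = _
      rw [(gsMap g.hom).app_t, ht, ← up_e1 C n X n le_rfl p']
      exact (cyl C (n + 1) 0).nat1 g n _
  obtain ⟨V, hV1, hV2⟩ := (fillBar_and_tr C (n + 1) 0).2 n (by omega) R (fam p) (fam p')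
    (fun Y g => ((cyl C (n + 1) 0).map g).par hu) hW
  refine ⟨V.app X (𝟙 X), ?_, ?_⟩
  · refine (congrFun (congrFun (congrArg Nat'.app hV1) X) (𝟙 X)).trans ?_
    show ((cyl C (n + 1) 0).e0 X).app n (((cyl C (n + 1) 0).map (𝟙 X)).app n (u p)) = _
    rw [cyl_map_id]
    exact up_e0 C n X n le_rfl p
  · refine (congrFun (congrFun (congrArg Nat'.app hV2) X) (𝟙 X)).trans ?_
    show ((cyl C (n + 1) 0).e0 X).app n (((cyl C (n + 1) 0).map (𝟙 X)).app n (u p')) = _
    rw [cyl_map_id]
    exact up_e0 C n X n le_rfl p'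

/-- With a natural reversal and fillers of first endpoints, second endpoints have fillers. -/
theorem inf_backward (C : Coherator) (X : C.Gpd)
    (rev : GHom ((cylInf C).obj X) ((cylInf C).obj X))
    (hrev : ∀ i x, ((cylInf C).e0 X).app i (rev.app i x) = ((cylInf C).e1 X).app i x ∧
      ((cylInf C).e1 X).app i (rev.app i x) = ((cylInf C).e0 X).app i x)
    (fwd : ∀ (n : ℕ) (c c' : ((cylInf C).obj X).cell n), ((cylInf C).obj X).Par c c' →
      ∀ a, (C.gs X).s a = ((cylInf C).e0 X).app n c →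
        (C.gs X).t a = ((cylInf C).e0 X).app n c' →
        ∃ q, ((cylInf C).obj X).s q = c ∧ ((cylInf C).obj X).t q = c' ∧
          ((cylInf C).e0 X).app (n + 1) q = a)
    (n : ℕ) (c c' : ((cylInf C).obj X).cell n) (hpar : ((cylInf C).obj X).Par c c')
    (h : (C.gs X).cell (n + 1)) (hs : (C.gs X).s h = ((cylInf C).e1 X).app n c)
    (ht : (C.gs X).t h = ((cylInf C).e1 X).app n c') :
    ∃ q, ((cylInf C).obj X).s q = c ∧ ((cylInf C).obj X).t q = c' ∧
      ((cylInf C).e1 X).app (n + 1) q = h := by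
  obtain ⟨q2, s2, t2, e2⟩ := fwd n (rev.app n c) (rev.app n c') (rev.par hpar) h
    (hs.trans (hrev n c).1.symm) (ht.trans (hrev n c').1.symm)
  obtain ⟨q, s1, t1, e1⟩ := fwd n c c' hpar (((cylInf C).e1 X).app (n + 1) q2)
    (by rw [((cylInf C).e1 X).app_s, s2, (hrev n c).2])
    (by rw [((cylInf C).e1 X).app_t, t2, (hrev n c').2])
  obtain ⟨v, vs, vt⟩ := inf_rel C X (n + 1) (rev.app (n + 1) q) q2
    ⟨by rw [rev.app_s, s1, s2], by rw [rev.app_t, t1, t2]⟩
    (C.oneC X (((cylInf C).e1 X).app (n + 1) q2))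
    (by rw [C.s_oneC, (hrev (n + 1) q).2, e1]) (C.t_oneC X _)
  rw [(hrev (n + 1) q).1] at vs
  rw [e2] at vt
  let z := C.infLift X (n + 1) q (C.oneC X (((cylInf C).e0 X).app (n + 1) q)) v
    (C.s_oneC X _) vs
  refine ⟨((cylInf C).obj X).t z, ?_, ?_, ?_⟩
  · rw [← ((cylInf C).obj X).ss z, C.infLift_s, s1]
  · rw [← ((cylInf C).obj X).ts z, C.infLift_s, t1]
  · rw [← ((cylInf C).e1 X).app_t, C.infLift_e1, vt]

end Vale.Agent.P259
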