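import Vale.Agent.P259.CylMain
import Vale.Agent.P259.CylRho

/-!
# P259: degenerate cells of the limit cylinder
-/

open CategoryTheory Opposite

namespace Vale.Agent.P259

variable {C : Coherator}

/-- The family of a stage of the tower given by a family of the limit. -/
noncomputable def liftStage {R : TFun C} {i : ℕ} (n : ℕ) (hi : i ≤ n)
    (q : GFam (cylInf C).toGFun R i) : GFam (cyl C (n + 1) 0).toGFun R i where
  app X x := (upLE C n X).app i hi (q.app X x)
  nat φ x := (up_map C n φ i hi _).trans (congrArg _ (q.nat φ x))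

theorem liftStage_par {R : TFun C} {i n : ℕ} (hi : i ≤ n) {q q' : GFam (cylInf C).toGFun R i}
    (h : q.Par q') : (liftStage n hi q).Par (liftStage n hi q') := by
  intro X x
  cases i with
  | zero => exact trivial
  | succ k =>
    exact ⟨((upLE C n X).app_s k hi _).trans ((congrArg _ (h X x).1).trans
        ((upLE C n X).app_s k hi _).symm),
      ((upLE C n X).app_t k hi _).trans ((congrArg _ (h X x).2).trans
        ((upLE C n X).app_t k hi _).symm)⟩

/-- The identity family. -/
abbrev idFam (C : Coherator) (n : ℕ) : Fam ((selfF C).cellF n) n where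
  app _ x := x
  nat _ _ := rfl

/-- Degenerate cylinders in the limit, natural and globular. -/
theorem exists_infDeg (C : Coherator) : ∃ δ : GNat (selfF C) (cylInf C).toGFun, ∀ X n a,
    ((cylInf C).e0 X).app n ((δ.hom X).app n a) = a ∧
      ((cylInf C).e1 X).app n ((δ.hom X).app n a) = a := by
  classical
  let Good : ∀ n, GFam (cylInf C).toGFun ((selfF C).cellF n) n → Prop := fun n q =>
    q.e0 = idFam C n ∧ q.e1 = idFam C n ∧
      GFam.Par (Nat'.comp ((selfF C).sN n) q) (Nat'.comp ((selfF C).tN n) q)
  have h0 : ∃ q, Good 0 q := by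
    obtain ⟨q, hq0, hq1⟩ := exists_cylFill_zero C 1 0 ((selfF C).cellF 0)
      (fun _ _ => hasFill_selfF C 0 0 (Nat.zero_le _)) (idFam C 0) (idFam C 0) (fun _ => rfl)
    exact ⟨q, hq0, hq1, fun _ _ => trivial⟩
  have hstep : ∀ n q, Good n q → ∃ q', Good (n + 1) q' ∧
      q'.s = Nat'.comp ((selfF C).sN n) q ∧ q'.t = Nat'.comp ((selfF C).tN n) q := by
    intro n q ⟨hq0, hq1, hpar⟩
    obtain ⟨q', hs, ht, ha, hb⟩ := exists_cylFill C (n + 2) 0 n (Nat.zero_le _)
      ((selfF C).cellF (n + 1))
      (fun _ => hasFill_selfF C (n + 1) (n + 1) (Nat.le_succ _))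
      (liftStage (n + 1) n.le_succ (Nat'.comp ((selfF C).sN n) q))
      (liftStage (n + 1) n.le_succ (Nat'.comp ((selfF C).tN n) q))
      (liftStage_par n.le_succ hpar) (idFam C (n + 1)) (idFam C (n + 1))
      (Fam.ext_app fun X x => ((up_e0 C (n + 1) X n n.le_succ _).trans
        (congrFun (congrFun (congrArg Nat'.app hq0) X) _)).symm)
      (Fam.ext_app fun X x => ((up_e0 C (n + 1) X n n.le_succ _).trans
        (congrFun (congrFun (congrArg Nat'.app hq0) X) _)).symm)
      (Fam.ext_app fun X x => ((up_e1 C (n + 1) X n n.le_succ _).trans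
        (congrFun (congrFun (congrArg Nat'.app hq1) X) _)).symm)
      (Fam.ext_app fun X x => ((up_e1 C (n + 1) X n n.le_succ _).trans
        (congrFun (congrFun (congrArg Nat'.app hq1) X) _)).symm)
    have key : ∀ (X : C.Gpd) (z : ((cylInf C).obj X).cell n),
        (rho C (n + 1) 0 X).1.app n ((upLE C (n + 1) X).app n n.le_succ z) = z := fun X z =>
      (toInf_self C X n _).symm.trans
        ((toInf_succ C X n.lt_succ_self _).symm.trans (down_up C (n + 1) X n n.le_succ z))
    let Q : GFam (cylInf C).toGFun ((selfF C).cellF (n + 1)) (n + 1) :=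
      ⟨fun X x => q'.app X x, fun φ x => q'.nat φ x⟩
    have es : Q.s = Nat'.comp ((selfF C).sN n) q := Nat'.ext (funext fun X => funext fun x =>
      (congrArg ((rho C (n + 1) 0 X).1.app n)
        (congrFun (congrFun (congrArg Nat'.app hs) X) x)).trans (key X _))
    have et : Q.t = Nat'.comp ((selfF C).tN n) q := Nat'.ext (funext fun X => funext fun x =>
      (congrArg ((rho C (n + 1) 0 X).1.app n)
        (congrFun (congrFun (congrArg Nat'.app ht) X) x)).trans (key X _))
    refine ⟨Q, ⟨Fam.ext_app fun X x => congrFun (congrFun (congrArg Nat'.app ha) X) x,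
      Fam.ext_app fun X x => congrFun (congrFun (congrArg Nat'.app hb) X) x,
      fun X x => ⟨?_, ?_⟩⟩, es, et⟩
    · exact (congrFun (congrFun (congrArg Nat'.app es) X) _).trans
        ((congrArg (q.app X) ((C.gs X).ss x)).trans
          (congrFun (congrFun (congrArg Nat'.app es) X) _).symm)
    · exact (congrFun (congrFun (congrArg Nat'.app et) X) _).trans
        ((congrArg (q.app X) ((C.gs X).ts x)).trans
          (congrFun (congrFun (congrArg Nat'.app et) X) _).symm)
  let H : ∀ n, {q // Good n q} := fun n =>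
    Nat.rec (motive := fun n => {q // Good n q}) ⟨h0.choose, h0.choose_spec⟩
      (fun n q => ⟨(hstep n q.1 q.2).choose, (hstep n q.1 q.2).choose_spec.1⟩) n
  refine ⟨⟨fun X => ⟨fun n a => (H n).1.app X a, fun n a => ?_, fun n a => ?_⟩,
    fun {X Y} φ n a => (H n).1.nat φ a⟩, fun X n a => ⟨?_, ?_⟩⟩
  · exact congrFun (congrFun (congrArg Nat'.app
      (hstep n (H n).1 (H n).2).choose_spec.2.1) X) a
  · exact congrFun (congrFun (congrArg Nat'.app
      (hstep n (H n).1 (H n).2).choose_spec.2.2) X) a
  · exact congrFun (congrFun (congrArg Nat'.app (H n).2.1) X) a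
  · exact congrFun (congrFun (congrArg Nat'.app (H n).2.2.1) X) a

end Vale.Agent.P259
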