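import Vale.Agent.P259.CylL
import Vale.Agent.P259.CylRho

/-!
# P259: lifts of cylinders in the limit, on cells and on tuples
-/

open CategoryTheory Opposite

namespace Vale.Agent.P259

variable {C : Coherator}

theorem rho_hyp {d r : ℕ} {W X : C.Gpd} {π : W ⟶ X} {i : ℕ} {y : (C.gs W).cell i}
    {z : ((cyl C (d + 1) r).obj X).cell i}
    (h : ((cyl C (d + 1) r).e0 X).app i z = (gsMap π.hom).app i y) :
    ((cyl C d r).e0 X).app i ((rho C d r X).1.app i z) = (gsMap π.hom).app i y :=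
  ((rho C d r X).2 i z).trans h

/-- The lift commutes with the projections between stages. -/
theorem cylL_rho (C : Coherator) : ∀ (d r : ℕ) {W X : C.Gpd} {π0 π1 : W ⟶ X}
    (L : LiftPair r π0 π1) (i : ℕ) (hi : i < r + d) (hi' : i < r + (d + 1))
    (y : (C.gs W).cell i) (z0 z1 : ((cyl C (d + 1) r).obj X).cell i) (h0 h1),
    (rho C d r W).1.app i (cylL C (d + 1) r L i hi' y z0 z1 h0 h1).1
      = (cylL C d r L i hi y ((rho C d r X).1.app i z0) ((rho C d r X).1.app i z1)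
          (rho_hyp h0) (rho_hyp h1)).1
  | 0, r, W, X, π0, π1, L, i, hi, hi', y, z0, z1, h0, h1 => by
      refine low_ext (C := C) (d := 0) (r := r) hi ?_
      rw [(rho C 0 r W).2, (cylL C 1 r L i hi' y z0 z1 h0 h1).2.1,
        (cylL C 0 r L i hi y _ _ _ _).2.1]
  | d + 1, r, W, X, π0, π1, L, i, hi, hi', y, z0, z1, h0, h1 =>
      Subtype.ext (Prod.ext rfl
        (cylL_rho C d (r + 1) L.succ i (by omega) (by omega)
          (C.conjE W r i (cylLEdge L y z0 z1 h0 h1)) z0.1.2 z1.1.2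
          (inner0_cylL L y z0 z1 h0 h1) (inner1_cylL L y z0 z1 h0 h1)))

variable {W X W' X' : C.Gpd} {π π0 π1 : W ⟶ X} {π' π0' π1' : W' ⟶ X'}

/-- Cylinders over a cell lifted through a pair with lifts, in the limit. -/
noncomputable def infL (L : LiftPair 0 π0 π1) (i : ℕ) (y : (C.gs W).cell i)
    (z0 z1 : ((cylInf C).obj X).cell i)
    (h0 : ((cylInf C).e0 X).app i z0 = (gsMap π0.hom).app i y)
    (h1 : ((cylInf C).e0 X).app i z1 = (gsMap π1.hom).app i y) :
    {v : ((cylInf C).obj W).cell i // ((cylInf C).e0 W).app i v = y ∧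
      ((cylInf C).map π0).app i v = z0 ∧ ((cylInf C).map π1).app i v = z1} :=
  cylL C (i + 1) 0 L i (by omega) y z0 z1 h0 h1

theorem infL_congr (L : LiftPair 0 π0 π1) {i : ℕ} {y y' : (C.gs W).cell i}
    {z0 z0' z1 z1' : ((cylInf C).obj X).cell i} (ey : y = y') (e0 : z0 = z0') (e1 : z1 = z1')
    (h0 h1 h0' h1') : (infL L i y z0 z1 h0 h1).1 = (infL L i y' z0' z1' h0' h1').1 := by
  subst ey e0 e1
  rfl

theorem infL_hyp_s {i : ℕ} {y : (C.gs W).cell (i + 1)} {z : ((cylInf C).obj X).cell (i + 1)}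
    (h : ((cylInf C).e0 X).app (i + 1) z = (gsMap π.hom).app (i + 1) y) :
    ((cylInf C).e0 X).app i (((cylInf C).obj X).s z) = (gsMap π.hom).app i ((C.gs W).s y) := by
  rw [← ((cylInf C).e0 X).app_s, h, (gsMap π.hom).app_s]

theorem infL_hyp_t {i : ℕ} {y : (C.gs W).cell (i + 1)} {z : ((cylInf C).obj X).cell (i + 1)}
    (h : ((cylInf C).e0 X).app (i + 1) z = (gsMap π.hom).app (i + 1) y) :
    ((cylInf C).e0 X).app i (((cylInf C).obj X).t z) = (gsMap π.hom).app i ((C.gs W).t y) := by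
  rw [← ((cylInf C).e0 X).app_t, h, (gsMap π.hom).app_t]

theorem infL_hyp_natural {w : W ⟶ W'} {f : X ⟶ X'}
    (hc : ∀ n a, (gsMap f.hom).app n ((gsMap π.hom).app n a)
      = (gsMap π'.hom).app n ((gsMap w.hom).app n a))
    {i : ℕ} {y : (C.gs W).cell i} {z : ((cylInf C).obj X).cell i}
    (h : ((cylInf C).e0 X).app i z = (gsMap π.hom).app i y) :
    ((cylInf C).e0 X').app i (((cylInf C).map f).app i z)
      = (gsMap π'.hom).app i ((gsMap w.hom).app i y) := by
  rw [← (cylInf C).nat0, h, hc]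

theorem infL_s (L : LiftPair 0 π0 π1) (i : ℕ) (y : (C.gs W).cell (i + 1))
    (z0 z1 : ((cylInf C).obj X).cell (i + 1)) (h0 h1) :
    ((cylInf C).obj W).s (infL L (i + 1) y z0 z1 h0 h1).1
      = (infL L i ((C.gs W).s y) (((cylInf C).obj X).s z0) (((cylInf C).obj X).s z1)
          (infL_hyp_s h0) (infL_hyp_s h1)).1 :=
  (congrArg ((rho C (i + 1) 0 W).1.app i)
    (cylL_faces C (i + 2) 0 L i (by omega) y z0 z1 h0 h1).1).trans
    (cylL_rho C (i + 1) 0 L i (by omega) (by omega) ((C.gs W).s y)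
      (((cyl C (i + 2) 0).obj X).s z0) (((cyl C (i + 2) 0).obj X).s z1) _ _)

theorem infL_t (L : LiftPair 0 π0 π1) (i : ℕ) (y : (C.gs W).cell (i + 1))
    (z0 z1 : ((cylInf C).obj X).cell (i + 1)) (h0 h1) :
    ((cylInf C).obj W).t (infL L (i + 1) y z0 z1 h0 h1).1
      = (infL L i ((C.gs W).t y) (((cylInf C).obj X).t z0) (((cylInf C).obj X).t z1)
          (infL_hyp_t h0) (infL_hyp_t h1)).1 :=
  (congrArg ((rho C (i + 1) 0 W).1.app i)
    (cylL_faces C (i + 2) 0 L i (by omega) y z0 z1 h0 h1).2).trans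
    (cylL_rho C (i + 1) 0 L i (by omega) (by omega) ((C.gs W).t y)
      (((cyl C (i + 2) 0).obj X).t z0) (((cyl C (i + 2) 0).obj X).t z1) _ _)

/-- The lift in the limit is natural. -/
theorem infL_natural {L : LiftPair 0 π0 π1} {L' : LiftPair 0 π0' π1'} {w : W ⟶ W'} {f : X ⟶ X'}
    (hc : L.Commutes L' w f) (i : ℕ) (y : (C.gs W).cell i)
    (z0 z1 : ((cylInf C).obj X).cell i) (h0 h1) :
    ((cylInf C).map w).app i (infL L i y z0 z1 h0 h1).1
      = (infL L' i ((gsMap w.hom).app i y) (((cylInf C).map f).app i z0)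
          (((cylInf C).map f).app i z1) (infL_hyp_natural hc.comm0 h0)
          (infL_hyp_natural hc.comm1 h1)).1 :=
  cylL_natural C (i + 1) 0 L L' w f hc i (by omega) y z0 z1 h0 h1

theorem infL_hyp_sIter {j n : ℕ} (h : j ≤ n) {y : (C.gs W).cell n}
    {z : ((cylInf C).obj X).cell n}
    (hz : ((cylInf C).e0 X).app n z = (gsMap π.hom).app n y) :
    ((cylInf C).e0 X).app j (((cylInf C).obj X).sIter h z)
      = (gsMap π.hom).app j ((C.gs W).sIter h y) := by
  rw [← ((cylInf C).e0 X).app_sIter, hz, (gsMap π.hom).app_sIter]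

theorem infL_hyp_tIter {j n : ℕ} (h : j ≤ n) {y : (C.gs W).cell n}
    {z : ((cylInf C).obj X).cell n}
    (hz : ((cylInf C).e0 X).app n z = (gsMap π.hom).app n y) :
    ((cylInf C).e0 X).app j (((cylInf C).obj X).tIter h z)
      = (gsMap π.hom).app j ((C.gs W).tIter h y) := by
  rw [← ((cylInf C).e0 X).app_tIter, hz, (gsMap π.hom).app_tIter]

theorem infL_sIter (L : LiftPair 0 π0 π1) {j n : ℕ} (h : j ≤ n) :
    ∀ (y : (C.gs W).cell n) (z0 z1 : ((cylInf C).obj X).cell n) (h0 h1),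
    ((cylInf C).obj W).sIter h (infL L n y z0 z1 h0 h1).1
      = (infL L j ((C.gs W).sIter h y) (((cylInf C).obj X).sIter h z0)
          (((cylInf C).obj X).sIter h z1) (infL_hyp_sIter h h0) (infL_hyp_sIter h h1)).1 := by
  induction n, h using Nat.le_induction with
  | base =>
    intro y z0 z1 h0 h1
    rw [GSet.sIter_self]
    exact infL_congr L (GSet.sIter_self _ y).symm (GSet.sIter_self _ z0).symm
      (GSet.sIter_self _ z1).symm _ _ _ _
  | succ n h ih =>
    intro y z0 z1 h0 h1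
    rw [GSet.sIter_succ _ h, infL_s, ih]
    exact infL_congr L (GSet.sIter_succ _ h y).symm (GSet.sIter_succ _ h z0).symm
      (GSet.sIter_succ _ h z1).symm _ _ _ _

theorem infL_tIter (L : LiftPair 0 π0 π1) {j n : ℕ} (h : j ≤ n) :
    ∀ (y : (C.gs W).cell n) (z0 z1 : ((cylInf C).obj X).cell n) (h0 h1),
    ((cylInf C).obj W).tIter h (infL L n y z0 z1 h0 h1).1
      = (infL L j ((C.gs W).tIter h y) (((cylInf C).obj X).tIter h z0)
          (((cylInf C).obj X).tIter h z1) (infL_hyp_tIter h h0) (infL_hyp_tIter h h1)).1 := by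
  induction n, h using Nat.le_induction with
  | base =>
    intro y z0 z1 h0 h1
    rw [GSet.tIter_self]
    exact infL_congr L (GSet.tIter_self _ y).symm (GSet.tIter_self _ z0).symm
      (GSet.tIter_self _ z1).symm _ _ _ _
  | succ n h ih =>
    intro y z0 z1 h0 h1
    rw [GSet.tIter_succ _ h, infL_t, ih]
    exact infL_congr L (GSet.tIter_succ _ h y).symm (GSet.tIter_succ _ h z0).symm
      (GSet.tIter_succ _ h z1).symm _ _ _ _

/-! ### Lifts on tuples -/

variable {S : GSum} {j i : ℕ} {hS : j < S.last} {hi : j < i}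

theorem barHyp_last {y : (C.gs W).Bar S} {z : ((cylInf C).obj X).Bar S}
    (h : ((cylInf C).e0 X).bar S z = (gsMap π.hom).bar S y) :
    ((cylInf C).e0 X).app S.last z.last = (gsMap π.hom).app S.last y.last :=
  (GHom.bar_last _ S z).symm.trans ((congrArg GSet.Bar.last h).trans (GHom.bar_last _ S y))

theorem barHyp_fst {y : (C.gs W).Bar (S.snoc j i hS hi)}
    {z : ((cylInf C).obj X).Bar (S.snoc j i hS hi)}
    (h : ((cylInf C).e0 X).bar _ z = (gsMap π.hom).bar _ y) :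
    ((cylInf C).e0 X).bar S z.fst = (gsMap π.hom).bar S y.fst :=
  (GHom.bar_fst _ z).symm.trans ((congrArg GSet.Bar.fst h).trans (GHom.bar_fst _ y))

theorem barHyp_snd {y : (C.gs W).Bar (S.snoc j i hS hi)}
    {z : ((cylInf C).obj X).Bar (S.snoc j i hS hi)}
    (h : ((cylInf C).e0 X).bar _ z = (gsMap π.hom).bar _ y) :
    ((cylInf C).e0 X).app i z.snd = (gsMap π.hom).app i y.snd :=
  (GHom.bar_snd _ z).symm.trans ((congrArg GSet.Bar.snd h).trans (GHom.bar_snd _ y))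

variable (L : LiftPair 0 π0 π1)

/-- The conditions on the lift of a tuple. -/
def IsInfBarL (S : GSum) (y : (C.gs W).Bar S) (z0 z1 : ((cylInf C).obj X).Bar S)
    (h0 : ((cylInf C).e0 X).bar S z0 = (gsMap π0.hom).bar S y)
    (h1 : ((cylInf C).e0 X).bar S z1 = (gsMap π1.hom).bar S y)
    (v : ((cylInf C).obj W).Bar S) : Prop :=
  ((cylInf C).e0 W).bar S v = y ∧ ((cylInf C).map π0).bar S v = z0 ∧
    ((cylInf C).map π1).bar S v = z1 ∧
    v.last = (infL L S.last y.last z0.last z1.last (barHyp_last h0) (barHyp_last h1)).1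

theorem infBar_glue {y : (C.gs W).Bar (S.snoc j i hS hi)}
    {z0 z1 : ((cylInf C).obj X).Bar (S.snoc j i hS hi)}
    (h0 : ((cylInf C).e0 X).bar _ z0 = (gsMap π0.hom).bar _ y)
    (h1 : ((cylInf C).e0 X).bar _ z1 = (gsMap π1.hom).bar _ y)
    {v : ((cylInf C).obj W).Bar S}
    (hv : IsInfBarL L S y.fst z0.fst z1.fst (barHyp_fst h0) (barHyp_fst h1) v) :
    ((cylInf C).obj W).tIter hS.le v.last = ((cylInf C).obj W).sIter hi.le
      (infL L i y.snd z0.snd z1.snd (barHyp_snd h0) (barHyp_snd h1)).1 := by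
  rw [hv.2.2.2, infL_tIter, infL_sIter]
  exact infL_congr L y.glue z0.glue z1.glue _ _ _ _

/-- The lift of a tuple. -/
noncomputable def infBarLTbl : ∀ (t : Tbl) (ht : t.Valid) (y : (C.gs W).Bar ⟨t, ht⟩)
    (z0 z1 : ((cylInf C).obj X).Bar ⟨t, ht⟩)
    (h0 : ((cylInf C).e0 X).bar ⟨t, ht⟩ z0 = (gsMap π0.hom).bar ⟨t, ht⟩ y)
    (h1 : ((cylInf C).e0 X).bar ⟨t, ht⟩ z1 = (gsMap π1.hom).bar ⟨t, ht⟩ y),
    {v : ((cylInf C).obj W).Bar ⟨t, ht⟩ // IsInfBarL L ⟨t, ht⟩ y z0 z1 h0 h1 v}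
  | .disc n, _, y, z0, z1, h0, h1 =>
      let w := infL L n y.last z0.last z1.last (barHyp_last h0) (barHyp_last h1)
      ⟨((cylInf C).obj W).one n w.1, Subtype.ext w.2.1, Subtype.ext w.2.2.1,
        Subtype.ext w.2.2.2, rfl⟩
  | .snoc t _ i, ht, y, z0, z1, h0, h1 =>
      let v := infBarLTbl t ht.1 (GSet.Bar.fst (S := ⟨t, ht.1⟩) (hS := ht.2.1) (hi := ht.2.2) y)
        (GSet.Bar.fst (S := ⟨t, ht.1⟩) (hS := ht.2.1) (hi := ht.2.2) z0)
        (GSet.Bar.fst (S := ⟨t, ht.1⟩) (hS := ht.2.1) (hi := ht.2.2) z1)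
        (barHyp_fst h0) (barHyp_fst h1)
      let w := infL L i (GSet.Bar.snd (S := ⟨t, ht.1⟩) (hS := ht.2.1) (hi := ht.2.2) y)
        (GSet.Bar.snd (S := ⟨t, ht.1⟩) (hS := ht.2.1) (hi := ht.2.2) z0)
        (GSet.Bar.snd (S := ⟨t, ht.1⟩) (hS := ht.2.1) (hi := ht.2.2) z1)
        (barHyp_snd h0) (barHyp_snd h1)
      ⟨GSet.Bar.mk' v.1 w.1 (infBar_glue L (S := ⟨t, ht.1⟩) (hS := ht.2.1) (hi := ht.2.2) h0 h1 v.2),
        GSet.Bar.ext' (S := ⟨t, ht.1⟩) (hS := ht.2.1) (hi := ht.2.2)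
          ((GHom.bar_fst _ _).trans v.2.1) ((GHom.bar_snd _ _).trans w.2.1),
        GSet.Bar.ext' (S := ⟨t, ht.1⟩) (hS := ht.2.1) (hi := ht.2.2)
          ((GHom.bar_fst _ _).trans v.2.2.1) ((GHom.bar_snd _ _).trans w.2.2.1),
        GSet.Bar.ext' (S := ⟨t, ht.1⟩) (hS := ht.2.1) (hi := ht.2.2)
          ((GHom.bar_fst _ _).trans v.2.2.2.1) ((GHom.bar_snd _ _).trans w.2.2.2),
        rfl⟩

/-- Cylinders on tuples lifted through a pair with lifts. -/
noncomputable def infBarL (S : GSum) (y : (C.gs W).Bar S) (z0 z1 : ((cylInf C).obj X).Bar S)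
    (h0 : ((cylInf C).e0 X).bar S z0 = (gsMap π0.hom).bar S y)
    (h1 : ((cylInf C).e0 X).bar S z1 = (gsMap π1.hom).bar S y) :
    ((cylInf C).obj W).Bar S :=
  (infBarLTbl L S.tbl S.valid y z0 z1 h0 h1).1

theorem infBarL_e0 (S : GSum) (y : (C.gs W).Bar S) (z0 z1 : ((cylInf C).obj X).Bar S) (h0 h1) :
    ((cylInf C).e0 W).bar S (infBarL L S y z0 z1 h0 h1) = y :=
  (infBarLTbl L S.tbl S.valid y z0 z1 h0 h1).2.1

theorem infBarL_π0 (S : GSum) (y : (C.gs W).Bar S) (z0 z1 : ((cylInf C).obj X).Bar S) (h0 h1) :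
    ((cylInf C).map π0).bar S (infBarL L S y z0 z1 h0 h1) = z0 :=
  (infBarLTbl L S.tbl S.valid y z0 z1 h0 h1).2.2.1

theorem infBarL_π1 (S : GSum) (y : (C.gs W).Bar S) (z0 z1 : ((cylInf C).obj X).Bar S) (h0 h1) :
    ((cylInf C).map π1).bar S (infBarL L S y z0 z1 h0 h1) = z1 :=
  (infBarLTbl L S.tbl S.valid y z0 z1 h0 h1).2.2.2.1

theorem infBarL_congr (S : GSum) {y y' : (C.gs W).Bar S}
    {z0 z0' z1 z1' : ((cylInf C).obj X).Bar S} (ey : y = y') (e0 : z0 = z0') (e1 : z1 = z1')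
    (h0 h1 h0' h1') : infBarL L S y z0 z1 h0 h1 = infBarL L S y' z0' z1' h0' h1' := by
  subst ey e0 e1
  rfl

theorem infBarL_hyp_natural {w : W ⟶ W'} {f : X ⟶ X'}
    (hc : ∀ n a, (gsMap f.hom).app n ((gsMap π.hom).app n a)
      = (gsMap π'.hom).app n ((gsMap w.hom).app n a))
    (S : GSum) {y : (C.gs W).Bar S} {z : ((cylInf C).obj X).Bar S}
    (h : ((cylInf C).e0 X).bar S z = (gsMap π.hom).bar S y) :
    ((cylInf C).e0 X').bar S (((cylInf C).map f).bar S z)
      = (gsMap π'.hom).bar S ((gsMap w.hom).bar S y) := by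
  induction S using GSum.rec' with
  | hd n =>
    exact Subtype.ext (infL_hyp_natural hc (congrArg Subtype.val h))
  | hs S j i hS hi ih =>
    refine GSet.Bar.ext' ?_ ?_
    · simp only [GHom.bar_fst]
      exact ih (barHyp_fst h)
    · simp only [GHom.bar_snd]
      exact infL_hyp_natural hc (barHyp_snd h)

/-- The lift on tuples is natural. -/
theorem infBarL_natural {L' : LiftPair 0 π0' π1'} {w : W ⟶ W'} {f : X ⟶ X'}
    (hc : L.Commutes L' w f) (S : GSum) (y : (C.gs W).Bar S)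
    (z0 z1 : ((cylInf C).obj X).Bar S) (h0 h1) :
    ((cylInf C).map w).bar S (infBarL L S y z0 z1 h0 h1)
      = infBarL L' S ((gsMap w.hom).bar S y) (((cylInf C).map f).bar S z0)
          (((cylInf C).map f).bar S z1) (infBarL_hyp_natural hc.comm0 S h0)
          (infBarL_hyp_natural hc.comm1 S h1) := by
  induction S using GSum.rec' with
  | hd n =>
    exact Subtype.ext (infL_natural hc n y.last z0.last z1.last _ _)
  | hs S j i hS hi ih =>
    refine GSet.Bar.ext' ((GHom.bar_fst _ _).trans ((ih y.fst z0.fst z1.fst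
      (barHyp_fst h0) (barHyp_fst h1)).trans ?_)) ?_
    · exact infBarL_congr L' S (GHom.bar_fst _ y).symm (GHom.bar_fst _ z0).symm
        (GHom.bar_fst _ z1).symm _ _ _ _
    · exact (GHom.bar_snd _ _).trans (infL_natural hc i y.snd z0.snd z1.snd _ _)

end Vale.Agent.P259
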