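import Vale.Agent.P259.CylHop

/-!
# P259: lifting cylinders along a pair of maps with lifts above a level
-/

open CategoryTheory Opposite

namespace Vale.Agent.P259

variable {C : Coherator}

/-- Chosen lifts of cells through a pair of maps, in dimensions `≥ r`. -/
structure LiftPair (r : ℕ) {W X : C.Gpd} (π0 π1 : W ⟶ X) where
  lift : ∀ (n : ℕ), r ≤ n → ∀ (y : (C.gs W).cell n) (f0 f1 : (C.gs X).cell (n + 1)),
    (C.gs X).s f0 = (gsMap π0.hom).app n y → (C.gs X).s f1 = (gsMap π1.hom).app n y →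
      (C.gs W).cell (n + 1)
  lift_s : ∀ n hn y f0 f1 h0 h1, (C.gs W).s (lift n hn y f0 f1 h0 h1) = y
  lift_π0 : ∀ n hn y f0 f1 h0 h1, (gsMap π0.hom).app (n + 1) (lift n hn y f0 f1 h0 h1) = f0
  lift_π1 : ∀ n hn y f0 f1 h0 h1, (gsMap π1.hom).app (n + 1) (lift n hn y f0 f1 h0 h1) = f1

namespace LiftPair

variable {r : ℕ} {W X W' X' : C.Gpd} {π0 π1 : W ⟶ X} {π0' π1' : W' ⟶ X'}

theorem lift_congr (L : LiftPair r π0 π1) {n : ℕ} (hn : r ≤ n) {y y' : (C.gs W).cell n}
    {f0 f0' f1 f1' : (C.gs X).cell (n + 1)} (ey : y = y') (e0 : f0 = f0') (e1 : f1 = f1')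
    (h0 h1 h0' h1') :
    L.lift n hn y f0 f1 h0 h1 = L.lift n hn y' f0' f1' h0' h1' := by
  subst ey e0 e1
  rfl

/-- Forget the lifts at the lowest dimension. -/
def succ (L : LiftPair r π0 π1) : LiftPair (r + 1) π0 π1 where
  lift n hn := L.lift n (r.le_succ.trans hn)
  lift_s n hn := L.lift_s n _
  lift_π0 n hn := L.lift_π0 n _
  lift_π1 n hn := L.lift_π1 n _

/-- Maps of pairs commuting with the lifts. -/
structure Commutes (L : LiftPair r π0 π1) (L' : LiftPair r π0' π1') (w : W ⟶ W') (f : X ⟶ X') :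
    Prop where
  comm0 : ∀ n a, (gsMap f.hom).app n ((gsMap π0.hom).app n a)
    = (gsMap π0'.hom).app n ((gsMap w.hom).app n a)
  comm1 : ∀ n a, (gsMap f.hom).app n ((gsMap π1.hom).app n a)
    = (gsMap π1'.hom).app n ((gsMap w.hom).app n a)
  lift : ∀ n hn y f0 f1 h0 h1 h0' h1',
    (gsMap w.hom).app (n + 1) (L.lift n hn y f0 f1 h0 h1)
      = L'.lift n hn ((gsMap w.hom).app n y) ((gsMap f.hom).app _ f0) ((gsMap f.hom).app _ f1)
          h0' h1'

theorem Commutes.succ {L : LiftPair r π0 π1} {L' : LiftPair r π0' π1'} {w : W ⟶ W'} {f : X ⟶ X'}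
    (h : L.Commutes L' w f) : L.succ.Commutes L'.succ w f :=
  ⟨h.comm0, h.comm1, fun n hn => h.lift n _⟩

end LiftPair

section Step

variable {d r : ℕ} {W X : C.Gpd} {π0 π1 : W ⟶ X} (L : LiftPair r π0 π1) {i : ℕ}
  (y : (C.gs W).cell i) (z0 z1 : ((cyl C (d + 1) r).obj X).cell i)
  (h0 : ((cyl C (d + 1) r).e0 X).app i z0 = (gsMap π0.hom).app i y)
  (h1 : ((cyl C (d + 1) r).e0 X).app i z1 = (gsMap π1.hom).app i y)

theorem cylL_src0 (h : r ≤ i) {π : W ⟶ X} (z : ((cyl C (d + 1) r).obj X).cell i)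
    (hz : ((cyl C (d + 1) r).e0 X).app i z = (gsMap π.hom).app i y) :
    (C.gs X).s (z.1.1.1.2 h).1 = (gsMap π.hom).app r ((C.gs W).sIter h y) :=
  (z.1.1.2 h).1.trans ((congrArg ((C.gs X).sIter h) hz).trans ((gsMap π.hom).app_sIter h y))

theorem cylL_tgt0 (h : r ≤ i) {π : W ⟶ X} (z : ((cyl C (d + 1) r).obj X).cell i)
    (hz : ((cyl C (d + 1) r).e0 X).app i z = (gsMap π.hom).app i y) :
    (C.gs X).s (z.1.1.1.2 h).2 = (gsMap π.hom).app r ((C.gs W).tIter h y) :=
  (z.1.1.2 h).2.1.trans ((congrArg ((C.gs X).tIter h) hz).trans ((gsMap π.hom).app_tIter h y))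

/-- The lifted edges. -/
noncomputable def cylLEdge : ECell r (C.gs W) i :=
  ⟨(y, fun h => (L.lift r le_rfl _ _ _ (cylL_src0 y h z0 h0) (cylL_src0 y h z1 h1),
      L.lift r le_rfl _ _ _ (cylL_tgt0 y h z0 h0) (cylL_tgt0 y h z1 h1))), fun h =>
    ⟨L.lift_s _ _ _ _ _ _ _, L.lift_s _ _ _ _ _ _ _, fun e => by
      subst e
      exact L.lift_congr le_rfl (by rw [GSet.sIter_self, GSet.tIter_self])
        ((z0.1.1.2 h).2.2 rfl) ((z1.1.1.2 h).2.2 rfl) _ _ _ _⟩⟩

theorem map0_cylLEdge :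
    (edgeMap r (gsMap π0.hom)).app i (cylLEdge L y z0 z1 h0 h1) = z0.1.1 :=
  ECell.ext' h0.symm fun _ =>
    Prod.ext (L.lift_π0 _ _ _ _ _ _ _) (L.lift_π0 _ _ _ _ _ _ _)

theorem map1_cylLEdge :
    (edgeMap r (gsMap π1.hom)).app i (cylLEdge L y z0 z1 h0 h1) = z1.1.1 :=
  ECell.ext' h1.symm fun _ =>
    Prod.ext (L.lift_π1 _ _ _ _ _ _ _) (L.lift_π1 _ _ _ _ _ _ _)

theorem inner0_cylL :
    ((cyl C d (r + 1)).e0 X).app i z0.1.2
      = (gsMap π0.hom).app i (C.conjE W r i (cylLEdge L y z0 z1 h0 h1)) := by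
  rw [C.conjHom_natural, map0_cylLEdge]
  exact z0.2.symm

theorem inner1_cylL :
    ((cyl C d (r + 1)).e0 X).app i z1.1.2
      = (gsMap π1.hom).app i (C.conjE W r i (cylLEdge L y z0 z1 h0 h1)) := by
  rw [C.conjHom_natural, map1_cylLEdge]
  exact z1.2.symm

end Step

/-- Cylinders over a cell, lifted through a pair with lifts, in dimensions below the range. -/
noncomputable def cylL (C : Coherator) : ∀ (d r : ℕ) {W X : C.Gpd} {π0 π1 : W ⟶ X}
    (_ : LiftPair r π0 π1) (i : ℕ) (_ : i < r + d) (y : (C.gs W).cell i)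
    (z0 z1 : ((cyl C d r).obj X).cell i),
    ((cyl C d r).e0 X).app i z0 = (gsMap π0.hom).app i y →
    ((cyl C d r).e0 X).app i z1 = (gsMap π1.hom).app i y →
    {v : ((cyl C d r).obj W).cell i // ((cyl C d r).e0 W).app i v = y ∧
      ((cyl C d r).map π0).app i v = z0 ∧ ((cyl C d r).map π1).app i v = z1}
  | 0, r, W, X, π0, π1, _, i, hi, y, z0, z1, h0, h1 =>
      ⟨lowCell (d := 0) hi W y, e0_lowCell (d := 0) hi W y,
        (map_lowCell (d := 0) hi π0 y).trans
          (low_ext (d := 0) hi ((e0_lowCell (d := 0) hi X _).trans h0.symm)),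
        (map_lowCell (d := 0) hi π1 y).trans
          (low_ext (d := 0) hi ((e0_lowCell (d := 0) hi X _).trans h1.symm))⟩
  | d + 1, r, W, X, π0, π1, L, i, hi, y, z0, z1, h0, h1 =>
      let v := cylL C d (r + 1) L.succ i (by omega) (C.conjE W r i (cylLEdge L y z0 z1 h0 h1))
        z0.1.2 z1.1.2 (inner0_cylL L y z0 z1 h0 h1) (inner1_cylL L y z0 z1 h0 h1)
      ⟨⟨(cylLEdge L y z0 z1 h0 h1, v.1), v.2.1.symm⟩, rfl,
        Subtype.ext (Prod.ext (map0_cylLEdge L y z0 z1 h0 h1) v.2.2.1),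
        Subtype.ext (Prod.ext (map1_cylLEdge L y z0 z1 h0 h1) v.2.2.2)⟩

theorem cylL_congr {d r : ℕ} {W X : C.Gpd} {π0 π1 : W ⟶ X} (L : LiftPair r π0 π1) {i : ℕ}
    (hi : i < r + d) {y y' : (C.gs W).cell i} {z0 z0' z1 z1' : ((cyl C d r).obj X).cell i}
    (ey : y = y') (e0 : z0 = z0') (e1 : z1 = z1') (h0 h1 h0' h1') :
    (cylL C d r L i hi y z0 z1 h0 h1).1 = (cylL C d r L i hi y' z0' z1' h0' h1').1 := by
  subst ey e0 e1
  rfl

theorem cylL_faces_hyp {d r : ℕ} {W X : C.Gpd} {π : W ⟶ X} {i : ℕ}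
    {y : (C.gs W).cell (i + 1)} {z : ((cyl C d r).obj X).cell (i + 1)}
    (h : ((cyl C d r).e0 X).app (i + 1) z = (gsMap π.hom).app (i + 1) y) :
    ((cyl C d r).e0 X).app i (((cyl C d r).obj X).s z) = (gsMap π.hom).app i ((C.gs W).s y) ∧
      ((cyl C d r).e0 X).app i (((cyl C d r).obj X).t z)
        = (gsMap π.hom).app i ((C.gs W).t y) := by
  rw [← ((cyl C d r).e0 X).app_s, ← ((cyl C d r).e0 X).app_t, h, (gsMap π.hom).app_s,
    (gsMap π.hom).app_t]
  exact ⟨rfl, rfl⟩

/-- The lift commutes with the faces. -/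
theorem cylL_faces (C : Coherator) : ∀ (d r : ℕ) {W X : C.Gpd} {π0 π1 : W ⟶ X}
    (L : LiftPair r π0 π1) (i : ℕ) (hi : i + 1 < r + d) (y : (C.gs W).cell (i + 1))
    (z0 z1 : ((cyl C d r).obj X).cell (i + 1)) (h0 h1),
    ((cyl C d r).obj W).s (cylL C d r L (i + 1) hi y z0 z1 h0 h1).1
      = (cylL C d r L i (by omega) ((C.gs W).s y) (((cyl C d r).obj X).s z0)
          (((cyl C d r).obj X).s z1) (cylL_faces_hyp h0).1 (cylL_faces_hyp h1).1).1 ∧
    ((cyl C d r).obj W).t (cylL C d r L (i + 1) hi y z0 z1 h0 h1).1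
      = (cylL C d r L i (by omega) ((C.gs W).t y) (((cyl C d r).obj X).t z0)
          (((cyl C d r).obj X).t z1) (cylL_faces_hyp h0).2 (cylL_faces_hyp h1).2).1
  | 0, r, W, X, π0, π1, L, i, hi, y, z0, z1, h0, h1 => by
      have hi' : i < r := by omega
      constructor <;> refine low_ext (C := C) (d := 0) (r := r) hi' ?_
      · rw [← ((cyl C 0 r).e0 W).app_s, (cylL C 0 r L (i + 1) hi y z0 z1 h0 h1).2.1,
          (cylL C 0 r L i _ _ _ _ _ _).2.1]
      · rw [← ((cyl C 0 r).e0 W).app_t, (cylL C 0 r L (i + 1) hi y z0 z1 h0 h1).2.1,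
          (cylL C 0 r L i _ _ _ _ _ _).2.1]
  | d + 1, r, W, X, π0, π1, L, i, hi, y, z0, z1, h0, h1 => by
      have ih := cylL_faces C d (r + 1) L.succ i (by omega)
        (C.conjE W r (i + 1) (cylLEdge L y z0 z1 h0 h1)) z0.1.2 z1.1.2
        (inner0_cylL L y z0 z1 h0 h1) (inner1_cylL L y z0 z1 h0 h1)
      have hs : (cylLEdge L y z0 z1 h0 h1).src
          = cylLEdge L ((C.gs W).s y) (((cyl C (d + 1) r).obj X).s z0)
              (((cyl C (d + 1) r).obj X).s z1) (cylL_faces_hyp h0).1 (cylL_faces_hyp h1).1 := by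
        refine ECell.ext' rfl fun h => ?_
        rcases Nat.lt_or_eq_of_le h with hlt | heq
        · rw [ECell.src_U hlt]
          exact Prod.ext
            (L.lift_congr le_rfl ((C.gs W).sIter_succ h y)
              (congrArg Prod.fst (ECell.src_U hlt z0.1.1)).symm
              (congrArg Prod.fst (ECell.src_U hlt z1.1.1)).symm _ _ _ _)
            (L.lift_congr le_rfl
              (((C.gs W).tIter_succ h y).trans ((C.gs W).tIter_s hlt y).symm)
              (congrArg Prod.snd (ECell.src_U hlt z0.1.1)).symm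
              (congrArg Prod.snd (ECell.src_U hlt z1.1.1)).symm _ _ _ _)
        · subst heq
          have e0 : (((cyl C (d + 1) r).obj X).s z0).1.1.1.2 h
              = ((z0.1.1.1.2 (h.trans r.le_succ)).1, (z0.1.1.1.2 (h.trans r.le_succ)).1) :=
            if_pos rfl
          have e1 : (((cyl C (d + 1) r).obj X).s z1).1.1.1.2 h
              = ((z1.1.1.1.2 (h.trans r.le_succ)).1, (z1.1.1.1.2 (h.trans r.le_succ)).1) :=
            if_pos rfl
          simp only [cylLEdge, ECell.src, if_pos trivial]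
          refine Prod.ext
            (L.lift_congr le_rfl ((C.gs W).sIter_succ h y) (congrArg Prod.fst e0).symm
              (congrArg Prod.fst e1).symm _ _ _ _)
            (L.lift_congr le_rfl ?_ (congrArg Prod.snd e0).symm
              (congrArg Prod.snd e1).symm _ _ _ _)
          rw [GSet.sIter_succ _ h, GSet.sIter_self, GSet.tIter_self]
      have ht : (cylLEdge L y z0 z1 h0 h1).tgt
          = cylLEdge L ((C.gs W).t y) (((cyl C (d + 1) r).obj X).t z0)
              (((cyl C (d + 1) r).obj X).t z1) (cylL_faces_hyp h0).2 (cylL_faces_hyp h1).2 := by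
        refine ECell.ext' rfl fun h => ?_
        rcases Nat.lt_or_eq_of_le h with hlt | heq
        · rw [ECell.tgt_U hlt]
          exact Prod.ext
            (L.lift_congr le_rfl
              (((C.gs W).sIter_succ h y).trans ((C.gs W).sIter_t hlt y).symm)
              (congrArg Prod.fst (ECell.tgt_U hlt z0.1.1)).symm
              (congrArg Prod.fst (ECell.tgt_U hlt z1.1.1)).symm _ _ _ _)
            (L.lift_congr le_rfl ((C.gs W).tIter_succ h y)
              (congrArg Prod.snd (ECell.tgt_U hlt z0.1.1)).symm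
              (congrArg Prod.snd (ECell.tgt_U hlt z1.1.1)).symm _ _ _ _)
        · subst heq
          have e0 : (((cyl C (d + 1) r).obj X).t z0).1.1.1.2 h
              = ((z0.1.1.1.2 (h.trans r.le_succ)).2, (z0.1.1.1.2 (h.trans r.le_succ)).2) :=
            if_pos rfl
          have e1 : (((cyl C (d + 1) r).obj X).t z1).1.1.1.2 h
              = ((z1.1.1.1.2 (h.trans r.le_succ)).2, (z1.1.1.1.2 (h.trans r.le_succ)).2) :=
            if_pos rfl
          simp only [cylLEdge, ECell.tgt, if_pos trivial]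
          refine Prod.ext
            (L.lift_congr le_rfl ?_ (congrArg Prod.fst e0).symm
              (congrArg Prod.fst e1).symm _ _ _ _)
            (L.lift_congr le_rfl ((C.gs W).tIter_succ h y) (congrArg Prod.snd e0).symm
              (congrArg Prod.snd e1).symm _ _ _ _)
          rw [GSet.tIter_succ _ h, GSet.sIter_self, GSet.tIter_self]
      constructor
      · refine Subtype.ext (Prod.ext hs (ih.1.trans ?_))
        exact cylL_congr L.succ _
          (((C.conjHom W r).app_s i _).trans (congrArg (C.conjE W r i) hs)) rfl rfl _ _ _ _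
      · refine Subtype.ext (Prod.ext ht (ih.2.trans ?_))
        exact cylL_congr L.succ _
          (((C.conjHom W r).app_t i _).trans (congrArg (C.conjE W r i) ht)) rfl rfl _ _ _ _

theorem cylL_natural_hyp {d r : ℕ} {W X W' X' : C.Gpd} {π : W ⟶ X} {π' : W' ⟶ X'}
    {w : W ⟶ W'} {f : X ⟶ X'}
    (hc : ∀ n a, (gsMap f.hom).app n ((gsMap π.hom).app n a)
      = (gsMap π'.hom).app n ((gsMap w.hom).app n a))
    {i : ℕ} {y : (C.gs W).cell i} {z : ((cyl C d r).obj X).cell i}
    (h : ((cyl C d r).e0 X).app i z = (gsMap π.hom).app i y) :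
    ((cyl C d r).e0 X').app i (((cyl C d r).map f).app i z)
      = (gsMap π'.hom).app i ((gsMap w.hom).app i y) := by
  rw [← (cyl C d r).nat0, h, hc]

/-- The lift is natural. -/
theorem cylL_natural (C : Coherator) : ∀ (d r : ℕ) {W X W' X' : C.Gpd} {π0 π1 : W ⟶ X}
    {π0' π1' : W' ⟶ X'} (L : LiftPair r π0 π1) (L' : LiftPair r π0' π1') (w : W ⟶ W')
    (f : X ⟶ X') (hc : L.Commutes L' w f) (i : ℕ) (hi : i < r + d) (y : (C.gs W).cell i)
    (z0 z1 : ((cyl C d r).obj X).cell i) (h0 h1),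
    ((cyl C d r).map w).app i (cylL C d r L i hi y z0 z1 h0 h1).1
      = (cylL C d r L' i hi ((gsMap w.hom).app i y) (((cyl C d r).map f).app i z0)
          (((cyl C d r).map f).app i z1) (cylL_natural_hyp hc.comm0 h0)
          (cylL_natural_hyp hc.comm1 h1)).1
  | 0, r, W, X, W', X', π0, π1, π0', π1', L, L', w, f, hc, i, hi, y, z0, z1, h0, h1 => by
      refine low_ext (C := C) (d := 0) (r := r) hi ?_
      rw [← (cyl C 0 r).nat0, (cylL C 0 r L i hi y z0 z1 h0 h1).2.1,
        (cylL C 0 r L' i hi _ _ _ _ _).2.1]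
  | d + 1, r, W, X, W', X', π0, π1, π0', π1', L, L', w, f, hc, i, hi, y, z0, z1, h0, h1 => by
      have ih := cylL_natural C d (r + 1) L.succ L'.succ w f hc.succ i (by omega)
        (C.conjE W r i (cylLEdge L y z0 z1 h0 h1)) z0.1.2 z1.1.2
        (inner0_cylL L y z0 z1 h0 h1) (inner1_cylL L y z0 z1 h0 h1)
      have he : (edgeMap r (gsMap w.hom)).app i (cylLEdge L y z0 z1 h0 h1)
          = cylLEdge L' ((gsMap w.hom).app i y) (((cyl C (d + 1) r).map f).app i z0)
              (((cyl C (d + 1) r).map f).app i z1) (cylL_natural_hyp hc.comm0 h0)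
              (cylL_natural_hyp hc.comm1 h1) := by
        refine ECell.ext' rfl fun h => Prod.ext ?_ ?_
        · refine (hc.lift r le_rfl _ _ _ _ _ ?_ ?_).trans (L'.lift_congr le_rfl
            ((gsMap w.hom).app_sIter h y).symm rfl rfl _ _ _ _)
          · rw [(gsMap f.hom).app_s, cylL_src0 y h z0 h0, hc.comm0]
          · rw [(gsMap f.hom).app_s, cylL_src0 y h z1 h1, hc.comm1]
        · refine (hc.lift r le_rfl _ _ _ _ _ ?_ ?_).trans (L'.lift_congr le_rfl
            ((gsMap w.hom).app_tIter h y).symm rfl rfl _ _ _ _)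
          · rw [(gsMap f.hom).app_s, cylL_tgt0 y h z0 h0, hc.comm0]
          · rw [(gsMap f.hom).app_s, cylL_tgt0 y h z1 h1, hc.comm1]
      refine Subtype.ext (Prod.ext he (ih.trans ?_))
      exact cylL_congr L'.succ _
        ((C.conjHom_natural w r i _).trans (congrArg (C.conjE W' r i) he)) rfl rfl _ _ _ _

end Vale.Agent.P259
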