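import Vale.Agent.P259.CylNorm

/-!
# P259: a linear table for tuples of doubly conjugated cells with edges

A tuple of cells with edges, after double conjugation, depends only on a tuple indexed by a table
in which every maximal group of cells glued above level `r` contributes one first edge, its
conjugated cells and one last edge.  The table is built by recursion on the indexing sum.
-/

open CategoryTheory Opposite

namespace Vale.Agent.P259

variable {C : Coherator}

/-! ### Iterated faces -/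

theorem GSet.sIter_comp (G : GSet) {j k n : ℕ} (h1 : j ≤ k) (h2 : k ≤ n) (a : G.cell n) :
    G.sIter h1 (G.sIter h2 a) = G.sIter (h1.trans h2) a := by
  induction n, h2 using Nat.le_induction with
  | base => rw [G.sIter_self]
  | succ n h2 ih => rw [G.sIter_succ h2, G.sIter_succ (h1.trans h2), ih]

theorem GSet.tIter_comp (G : GSet) {j k n : ℕ} (h1 : j ≤ k) (h2 : k ≤ n) (a : G.cell n) :
    G.tIter h1 (G.tIter h2 a) = G.tIter (h1.trans h2) a := by
  induction n, h2 using Nat.le_induction with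
  | base => rw [G.tIter_self]
  | succ n h2 ih => rw [G.tIter_succ h2, G.tIter_succ (h1.trans h2), ih]

theorem GSet.tIter_sIter_lt (G : GSet) {j k n : ℕ} (h1 : j < k) (h2 : k ≤ n) (a : G.cell n) :
    G.tIter h1.le (G.sIter h2 a) = G.tIter (h1.le.trans h2) a := by
  induction n, h2 using Nat.le_induction with
  | base => rw [G.sIter_self]
  | succ n h2 ih =>
    rw [G.sIter_succ h2, G.tIter_succ (h1.le.trans h2), ih, G.tIter_s (lt_of_lt_of_le h1 h2)]

theorem GSet.sIter_tIter_lt (G : GSet) {j k n : ℕ} (h1 : j < k) (h2 : k ≤ n) (a : G.cell n) :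
    G.sIter h1.le (G.tIter h2 a) = G.sIter (h1.le.trans h2) a := by
  induction n, h2 using Nat.le_induction with
  | base => rw [G.tIter_self]
  | succ n h2 ih =>
    rw [G.tIter_succ h2, G.sIter_succ (h1.le.trans h2), ih, G.sIter_t (lt_of_lt_of_le h1 h2)]

/-- Forgetting the edges. -/
def cellHom (r : ℕ) (G : GSet) : GHom (edgeGSet r G) G where
  app _ x := x.1.1
  app_s _ _ := rfl
  app_t _ _ := rfl

theorem ECell.sIter_a {r : ℕ} {G : GSet} {j i : ℕ} (h : j ≤ i) (x : ECell r G i) :
    ((edgeGSet r G).sIter h x).1.1 = G.sIter h x.1.1 :=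
  ((cellHom r G).app_sIter h x).symm

theorem ECell.tIter_a {r : ℕ} {G : GSet} {j i : ℕ} (h : j ≤ i) (x : ECell r G i) :
    ((edgeGSet r G).tIter h x).1.1 = G.tIter h x.1.1 :=
  ((cellHom r G).app_tIter h x).symm

theorem ECell.iter_U {r : ℕ} {G : GSet} {j : ℕ} (hj : r < j) :
    ∀ {i : ℕ} (h : j ≤ i) (x : ECell r G i),
      ((edgeGSet r G).sIter h x).1.2 hj.le = x.1.2 (hj.le.trans h) ∧
        ((edgeGSet r G).tIter h x).1.2 hj.le = x.1.2 (hj.le.trans h) := by
  intro i h
  induction i, h using Nat.le_induction with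
  | base => intro x; rw [GSet.sIter_self, GSet.tIter_self]; exact ⟨rfl, rfl⟩
  | succ n h ih =>
    intro x
    rw [GSet.sIter_succ _ h, GSet.tIter_succ _ h, (ih _).1, (ih _).2]
    exact ⟨ECell.src_U (lt_of_lt_of_le hj h) x, ECell.tgt_U (lt_of_lt_of_le hj h) x⟩

theorem ECell.iter_U_self {r : ℕ} {G : GSet} {i : ℕ} (h : r < i) (x : ECell r G i) :
    ((edgeGSet r G).sIter h.le x).1.2 le_rfl = ((x.1.2 h.le).1, (x.1.2 h.le).1) ∧
      ((edgeGSet r G).tIter h.le x).1.2 le_rfl = ((x.1.2 h.le).2, (x.1.2 h.le).2) := by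
  obtain ⟨es, et⟩ := ECell.iter_U (G := G) r.lt_succ_self (show r + 1 ≤ i from h) x
  rw [← (edgeGSet r G).sIter_comp r.le_succ (show r + 1 ≤ i from h) x,
    ← (edgeGSet r G).tIter_comp r.le_succ (show r + 1 ≤ i from h) x,
    GSet.sIter_eq_one, GSet.tIter_eq_one]
  constructor
  · show (ECell.src _).1.2 le_rfl = _
    simp only [ECell.src, if_pos trivial]
    rw [es]
  · show (ECell.tgt _).1.2 le_rfl = _
    simp only [ECell.tgt, if_pos trivial]
    rw [et]

theorem ECell.ext_low {r : ℕ} {G : GSet} {j : ℕ} (hj : j < r) {x y : ECell r G j}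
    (h : x.1.1 = y.1.1) : x = y :=
  ECell.ext' h fun h' => absurd h' (Nat.not_le.mpr hj)

theorem ECell.ext_eq {r : ℕ} {G : GSet} {x y : ECell r G r} (h : x.1.1 = y.1.1)
    (h1 : (x.1.2 le_rfl).1 = (y.1.2 le_rfl).1) : x = y :=
  ECell.ext' h fun _ => Prod.ext h1
    (((x.2 le_rfl).2.2 rfl).symm.trans (h1.trans ((y.2 le_rfl).2.2 rfl)))

/-! ### The middle cell, and recovering a cell with edges from it -/

/-- The conjugate of a cell with edges `(u, 1)`. -/
noncomputable def midE (X : C.Gpd) {r i : ℕ} (x : ECell r (C.gs X) i) : (C.gs X).cell i :=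
  C.conjE X r i (oneRight X x)

theorem midE_map {X Y : C.Gpd} (φ : X ⟶ Y) {r i : ℕ} (x : ECell r (C.gs X) i) :
    (gsMap φ.hom).app i (midE X x) = midE Y ((edgeMap r (gsMap φ.hom)).app i x) :=
  (C.conjHom_natural φ r i _).trans (congrArg (C.conjE Y r i) (oneRight_map φ x))

theorem midE_sIter_r (X : C.Gpd) {r i : ℕ} (h : r < i) (x : ECell r (C.gs X) i) :
    (C.gs X).sIter h.le (midE X x) = (C.gs X).t (x.1.2 h.le).1 ∧
      (C.gs X).tIter h.le (midE X x) = (C.gs X).tIter h.le x.1.1 := by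
  obtain ⟨e1, e2⟩ := C.sIter_conjE X h (oneRight X x)
  refine ⟨e1.trans ?_, e2.trans ?_⟩ <;> rw [oneRight_gt X h]
  exact C.t_oneC X _

theorem midE_iter (X : C.Gpd) {r j i : ℕ} (hj : r < j) (h : j ≤ i)
    (x : ECell r (C.gs X) i) :
    (C.gs X).sIter h (midE X x) = midE X ((edgeGSet r (C.gs X)).sIter h x) ∧
      (C.gs X).tIter h (midE X x) = midE X ((edgeGSet r (C.gs X)).tIter h x) := by
  constructor
  · refine ((C.conjHom X r).app_sIter h (oneRight X x)).trans (congrArg (C.conjE X r j) ?_)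
    refine ECell.ext' ?_ fun _ => ?_
    · rw [ECell.sIter_a, oneRight_a, oneRight_a, ECell.sIter_a]
    · rw [(ECell.iter_U hj h _).1, oneRight_gt X (lt_of_lt_of_le hj h), oneRight_gt X hj]
      refine Prod.ext (congrArg Prod.fst (ECell.iter_U hj h x).1).symm (congrArg (C.oneC X) ?_)
      rw [ECell.sIter_a]
      exact ((C.gs X).tIter_sIter_lt hj h x.1.1).symm
  · refine ((C.conjHom X r).app_tIter h (oneRight X x)).trans (congrArg (C.conjE X r j) ?_)
    refine ECell.ext' ?_ fun _ => ?_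
    · rw [ECell.tIter_a, oneRight_a, oneRight_a, ECell.tIter_a]
    · rw [(ECell.iter_U hj h _).2, oneRight_gt X (lt_of_lt_of_le hj h), oneRight_gt X hj]
      refine Prod.ext (congrArg Prod.fst (ECell.iter_U hj h x).2).symm (congrArg (C.oneC X) ?_)
      rw [ECell.tIter_a]
      exact ((C.gs X).tIter_comp hj.le h x.1.1).symm

theorem backE_hq (X : C.Gpd) {r i : ℕ} (h : r < i) (x : (C.gs X).cell i) :
    (C.gs X).tIter h.le x = (C.gs X).s (C.invC X (C.oneC X ((C.gs X).tIter h.le x))) :=
  ((C.s_invC X _).trans (C.t_oneC X _)).symm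

theorem backE_ok (X : C.Gpd) {r i : ℕ} (h : r < i) (u : (C.gs X).cell (r + 1))
    (x : (C.gs X).cell i) (v : (C.gs X).cell (r + 1))
    (hu : (C.gs X).t u = (C.gs X).sIter h.le x) (hv : (C.gs X).tIter h.le x = (C.gs X).s v) :
    EdgeOk (C.gs X) r i
      (C.kap X h u x (C.invC X (C.oneC X ((C.gs X).tIter h.le x))) hu (backE_hq X h x))
      (fun _ => (u, v)) := by
  intro h'
  obtain ⟨e1, e2⟩ := C.sIter_kap X h u x (C.invC X (C.oneC X ((C.gs X).tIter h.le x))) hu
    (backE_hq X h x)
  refine ⟨e1.symm, ?_, fun e => absurd e (Nat.ne_of_gt h)⟩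
  exact hv.symm.trans ((e2.trans (C.t_invC X _)).trans (C.s_oneC X _)).symm

/-- The cell with edges `u, v` recovered from a middle cell. -/
noncomputable def backE (X : C.Gpd) {r i : ℕ} (h : r < i) (u : (C.gs X).cell (r + 1))
    (x : (C.gs X).cell i) (v : (C.gs X).cell (r + 1))
    (hu : (C.gs X).t u = (C.gs X).sIter h.le x) (hv : (C.gs X).tIter h.le x = (C.gs X).s v) :
    ECell r (C.gs X) i :=
  ⟨(C.kap X h u x (C.invC X (C.oneC X ((C.gs X).tIter h.le x))) hu (backE_hq X h x),
      fun _ => (u, v)), backE_ok X h u x v hu hv⟩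

theorem backE_congr (X : C.Gpd) {r i : ℕ} (h : r < i) {u u' : (C.gs X).cell (r + 1)}
    {x x' : (C.gs X).cell i} {v v' : (C.gs X).cell (r + 1)} (eu : u = u') (ex : x = x')
    (ev : v = v') (hu hv hu' hv') : backE X h u x v hu hv = backE X h u' x' v' hu' hv' := by
  subst eu ex ev
  rfl

theorem backE_map {X Y : C.Gpd} (φ : X ⟶ Y) {r i : ℕ} (h : r < i) (u : (C.gs X).cell (r + 1))
    (x : (C.gs X).cell i) (v : (C.gs X).cell (r + 1)) (hu hv hu' hv') :
    (edgeMap r (gsMap φ.hom)).app i (backE X h u x v hu hv) =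
      backE Y h ((gsMap φ.hom).app _ u) ((gsMap φ.hom).app _ x) ((gsMap φ.hom).app _ v)
        hu' hv' := by
  refine ECell.ext' ?_ fun _ => rfl
  show (gsMap φ.hom).app i
      (C.kap X h u x (C.invC X (C.oneC X ((C.gs X).tIter h.le x))) hu (backE_hq X h x)) =
    C.kap Y h ((gsMap φ.hom).app _ u) ((gsMap φ.hom).app _ x)
      (C.invC Y (C.oneC Y ((C.gs Y).tIter h.le ((gsMap φ.hom).app _ x)))) hu' (backE_hq Y h _)
  rw [C.kap_natural φ h]
  refine C.kap_congr Y h rfl rfl ?_ _ _ _ _
  refine (C.invC_natural φ _).trans (congrArg (C.invC Y) ?_)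
  exact (C.oneC_natural φ _).trans (congrArg (C.oneC Y) ((gsMap φ.hom).app_tIter h.le x).symm)

theorem Coherator.sIter_kap_gt (X : C.Gpd) {r j : ℕ} (hj : r < j) :
    ∀ {i : ℕ} (h : j ≤ i) (p : (C.gs X).cell (r + 1)) (a : (C.gs X).cell i)
      (q : (C.gs X).cell (r + 1)) (hp hq hps hqs hpt hqt),
      (C.gs X).sIter h (C.kap X (lt_of_lt_of_le hj h) p a q hp hq)
          = C.kap X hj p ((C.gs X).sIter h a) q hps hqs ∧
        (C.gs X).tIter h (C.kap X (lt_of_lt_of_le hj h) p a q hp hq)
          = C.kap X hj p ((C.gs X).tIter h a) q hpt hqt := by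
  intro i h
  induction i, h using Nat.le_induction with
  | base =>
    intro p a q hp hq hps hqs hpt hqt
    rw [GSet.sIter_self, GSet.tIter_self]
    exact ⟨C.kap_congr X hj rfl ((C.gs X).sIter_self a).symm rfl _ _ _ _,
      C.kap_congr X hj rfl ((C.gs X).tIter_self a).symm rfl _ _ _ _⟩
  | succ n h ih =>
    intro p a q hp hq hps hqs hpt hqt
    have hn : r < n := lt_of_lt_of_le hj h
    constructor
    · rw [GSet.sIter_succ _ h, C.s_kap X hn]
      refine (ih p _ q _ _ ?_ ?_ ?_ ?_).1.trans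
        (C.kap_congr X hj rfl ((C.gs X).sIter_succ h a).symm rfl _ _ _ _)
      · exact hps.trans (congrArg _ ((C.gs X).sIter_succ h a))
      · exact (congrArg _ ((C.gs X).sIter_succ h a).symm).trans hqs
      · exact (hps.trans (congrArg _ ((C.gs X).sIter_succ h a))).trans
          (((C.gs X).sIter_comp hj.le h _).trans ((C.gs X).sIter_tIter_lt hj h _).symm)
      · exact (((C.gs X).tIter_comp hj.le h _).trans ((C.gs X).tIter_sIter_lt hj h _).symm).trans
          ((congrArg _ ((C.gs X).sIter_succ h a).symm).trans hqs)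
    · rw [GSet.tIter_succ _ h, C.t_kap X hn]
      refine (ih p _ q _ _ ?_ ?_ ?_ ?_).2.trans
        (C.kap_congr X hj rfl ((C.gs X).tIter_succ h a).symm rfl _ _ _ _)
      · exact (hpt.trans (congrArg _ ((C.gs X).tIter_succ h a))).trans
          (((C.gs X).sIter_tIter_lt hj h _).trans ((C.gs X).sIter_comp hj.le h _).symm)
      · exact (((C.gs X).tIter_sIter_lt hj h _).trans ((C.gs X).tIter_comp hj.le h _).symm).trans
          ((congrArg _ ((C.gs X).tIter_succ h a).symm).trans hqt)
      · exact hpt.trans (congrArg _ ((C.gs X).tIter_succ h a))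
      · exact (congrArg _ ((C.gs X).tIter_succ h a).symm).trans hqt

theorem backE_iter (X : C.Gpd) {r j i : ℕ} (hj : r < j) (h : j ≤ i)
    (u : (C.gs X).cell (r + 1)) (x : (C.gs X).cell i) (v : (C.gs X).cell (r + 1))
    (hu hv hus hvs hut hvt) :
    (edgeGSet r (C.gs X)).sIter h (backE X (lt_of_lt_of_le hj h) u x v hu hv) =
        backE X hj u ((C.gs X).sIter h x) v hus hvs ∧
      (edgeGSet r (C.gs X)).tIter h (backE X (lt_of_lt_of_le hj h) u x v hu hv) =
        backE X hj u ((C.gs X).tIter h x) v hut hvt := by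
  have es : (C.gs X).tIter hj.le ((C.gs X).sIter h x) = (C.gs X).tIter (hj.le.trans h) x :=
    (C.gs X).tIter_sIter_lt hj h x
  have et : (C.gs X).tIter hj.le ((C.gs X).tIter h x) = (C.gs X).tIter (hj.le.trans h) x :=
    (C.gs X).tIter_comp hj.le h x
  have q1 : (C.gs X).s (C.invC X (C.oneC X ((C.gs X).tIter (hj.le.trans h) x)))
      = (C.gs X).tIter (hj.le.trans h) x := (C.s_invC X _).trans (C.t_oneC X _)
  have k := C.sIter_kap_gt X hj h u x (C.invC X (C.oneC X ((C.gs X).tIter (hj.le.trans h) x)))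
    hu q1.symm hus (es.trans q1.symm) hut (et.trans q1.symm)
  refine ⟨ECell.ext' ?_ fun _ => (ECell.iter_U hj h _).1,
    ECell.ext' ?_ fun _ => (ECell.iter_U hj h _).2⟩
  · exact (ECell.sIter_a h _).trans (k.1.trans
      (C.kap_congr X hj rfl rfl (congrArg (fun z => C.invC X (C.oneC X z)) es.symm)
        hus (es.trans q1.symm) hus (backE_hq X hj _)))
  · exact (ECell.tIter_a h _).trans (k.2.trans
      (C.kap_congr X hj rfl rfl (congrArg (fun z => C.invC X (C.oneC X z)) et.symm)
        hut (et.trans q1.symm) hut (backE_hq X hj _)))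

theorem normBack_le (X : C.Gpd) {r i : ℕ} (h : i ≤ r) (x : ECell r (C.gs X) i) :
    ((normBack C r).hom X).app i x = x :=
  ECell.ext' (((sandBack C r).cell_le X h _).trans (oneRight_a X x)) fun _ => rfl

theorem midE_hv (X : C.Gpd) {r i : ℕ} (h : r < i) (x : ECell r (C.gs X) i) :
    (C.gs X).tIter h.le (midE X x) = (C.gs X).s (x.1.2 h.le).2 :=
  (midE_sIter_r X h x).2.trans (x.2 h.le).2.1.symm

theorem normBack_gt (X : C.Gpd) {r i : ℕ} (h : r < i) (x : ECell r (C.gs X) i) :
    ((normBack C r).hom X).app i x = backE X h (x.1.2 h.le).1 (midE X x) (x.1.2 h.le).2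
      (midE_sIter_r X h x).1.symm (midE_hv X h x) := by
  refine ECell.ext' ?_ fun _ => rfl
  show (sandBack C r).cell X i (oneRight X x) = C.kap X h (x.1.2 h.le).1 (midE X x)
    (C.invC X (C.oneC X ((C.gs X).tIter h.le (midE X x)))) (midE_sIter_r X h x).1.symm
    (backE_hq X h _)
  rw [(sandBack C r).cell_gt X h (oneRight X x)]
  refine C.kap_congr X h ?_ rfl ?_ _ _ _ _
  · show ((oneRight X x).1.2 h.le).1 = _
    rw [oneRight_gt X h]
  · show C.invC X ((oneRight X x).1.2 h.le).2 = _
    rw [oneRight_gt X h]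
    exact congrArg (fun z => C.invC X (C.oneC X z)) (midE_sIter_r X h x).2.symm

theorem normBack_face (X : C.Gpd) {r j i : ℕ} (hj : j ≤ r) (h : j ≤ i)
    (x : ECell r (C.gs X) i) :
    (C.gs X).sIter h (((normBack C r).hom X).app i x).1.1 = (C.gs X).sIter h x.1.1 ∧
      (C.gs X).tIter h (((normBack C r).hom X).app i x).1.1 = (C.gs X).tIter h x.1.1 := by
  rw [← ECell.sIter_a, ← ECell.sIter_a, ← ECell.tIter_a, ← ECell.tIter_a,
    ((normBack C r).hom X).app_sIter, ((normBack C r).hom X).app_tIter,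
    normBack_le X hj, normBack_le X hj]
  exact ⟨rfl, rfl⟩

theorem backE_low (X : C.Gpd) {r j i : ℕ} (hj : j < r) (h : r < i)
    (u : (C.gs X).cell (r + 1)) (x : (C.gs X).cell i) (v : (C.gs X).cell (r + 1)) (hu hv) :
    (C.gs X).sIter (hj.le.trans h.le) (backE X h u x v hu hv).1.1
        = (C.gs X).sIter (hj.le.trans r.le_succ) u ∧
      (C.gs X).tIter (hj.le.trans h.le) (backE X h u x v hu hv).1.1
        = (C.gs X).tIter (hj.le.trans r.le_succ) v := by
  obtain ⟨e1, e2, -⟩ := (backE X h u x v hu hv).2 h.le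
  constructor
  · rw [← (C.gs X).sIter_comp hj.le h.le, ← e1, ← (C.gs X).sIter_comp hj.le r.le_succ u,
      GSet.sIter_eq_one]
    rfl
  · rw [← (C.gs X).tIter_comp hj.le h.le, ← e2, ← (C.gs X).tIter_sIter_lt hj r.le_succ v,
      GSet.sIter_eq_one]
    rfl

theorem backE_sIter_r (X : C.Gpd) {r i : ℕ} (h : r < i)
    (u : (C.gs X).cell (r + 1)) (x : (C.gs X).cell i) (v : (C.gs X).cell (r + 1)) (hu hv) :
    ((edgeGSet r (C.gs X)).sIter h.le (backE X h u x v hu hv)).1.1 = (C.gs X).s u ∧
      (((edgeGSet r (C.gs X)).sIter h.le (backE X h u x v hu hv)).1.2 le_rfl).1 = u ∧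
      ((edgeGSet r (C.gs X)).tIter h.le (backE X h u x v hu hv)).1.1 = (C.gs X).s v ∧
      (((edgeGSet r (C.gs X)).tIter h.le (backE X h u x v hu hv)).1.2 le_rfl).1 = v :=
  ⟨(ECell.sIter_a h.le _).trans ((backE X h u x v hu hv).2 h.le).1.symm,
    congrArg Prod.fst (ECell.iter_U_self h _).1,
    (ECell.tIter_a h.le _).trans ((backE X h u x v hu hv).2 h.le).2.1.symm,
    congrArg Prod.fst (ECell.iter_U_self h _).2⟩

/-! ### Natural tuples -/

variable {R : TFun C}

/-- A natural tuple extended by a cell, in any natural globular set. -/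
abbrev snocG {F : GFun C} {S : GSum} {j i : ℕ} {hS : j < S.last} {hi : j < i}
    (P : Nat' R (F.barF S)) (B : Nat' R (F.cellF i))
    (h : ∀ X x, (F.obj X).tIter hS.le (P.app X x).last = (F.obj X).sIter hi.le (B.app X x)) :
    Nat' R (F.barF (S.snoc j i hS hi)) where
  app X x := GSet.Bar.mk' (P.app X x) (B.app X x) (h X x)
  nat φ x := GSet.Bar.ext' (((F.map φ).bar_fst _).trans (P.nat φ x))
    (((F.map φ).bar_snd _).trans (B.nat φ x))

/-- Projection of tuples to a prefix, in any natural globular set. -/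
abbrev fstG (F : GFun C) (S : GSum) (j i : ℕ) (hS : j < S.last) (hi : j < i) :
    Nat' (F.barF (S.snoc j i hS hi)) (F.barF S) where
  app _ p := p.fst
  nat φ p := ((F.map φ).bar_fst p).symm

/-- Projection of tuples to the last cell, in any natural globular set. -/
abbrev sndG (F : GFun C) (S : GSum) (j i : ℕ) (hS : j < S.last) (hi : j < i) :
    Nat' (F.barF (S.snoc j i hS hi)) (F.cellF i) where
  app _ p := p.snd
  nat φ p := ((F.map φ).bar_snd p).symm

/-- The last cell of a tuple. -/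
abbrev lastG (F : GFun C) (S : GSum) : Nat' (F.barF S) (F.cellF S.last) where
  app _ p := p.last
  nat φ p := ((F.map φ).bar_last S p).symm

/-- The cell of a one-term tuple. -/
abbrev discG (F : GFun C) (n : ℕ) : Nat' (F.barF (GSum.disc n)) (F.cellF n) where
  app _ p := p.1
  nat _ _ := rfl

/-- A cell as a one-term tuple. -/
abbrev oneG (F : GFun C) {n : ℕ} (B : Nat' R (F.cellF n)) :
    Nat' R (F.barF (GSum.disc n)) where
  app X x := (F.obj X).one n (B.app X x)
  nat φ x := congrArg ((F.obj _).one n) (B.nat φ x)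

/-- The first edge of a cell with edges. -/
abbrev leftN (C : Coherator) (r i : ℕ) (h : r ≤ i) : Fam ((edgeF C r).cellF i) (r + 1) where
  app _ x := (x.1.2 h).1
  nat _ _ := rfl

/-- The last edge of a cell with edges. -/
abbrev rightN (C : Coherator) (r i : ℕ) (h : r ≤ i) : Fam ((edgeF C r).cellF i) (r + 1) where
  app _ x := (x.1.2 h).2
  nat _ _ := rfl

/-- The middle cell, as a natural family. -/
noncomputable abbrev midN (C : Coherator) (r i : ℕ) : Fam ((edgeF C r).cellF i) i where
  app X x := midE X x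
  nat φ x := midE_map φ x

/-- The recovered cell, as a natural family. -/
noncomputable def backN {r i : ℕ} (h : r < i) (U : Fam R (r + 1)) (M : Fam R i)
    (V : Fam R (r + 1)) (hu : ∀ X x, (C.gs X).t (U.app X x) = (C.gs X).sIter h.le (M.app X x))
    (hv : ∀ X x, (C.gs X).tIter h.le (M.app X x) = (C.gs X).s (V.app X x)) :
    Nat' R ((edgeF C r).cellF i) where
  app X x := backE X h (U.app X x) (M.app X x) (V.app X x) (hu X x) (hv X x)
  nat {X Y} φ x := by
    refine (backE_map φ h _ _ _ _ _ ?_ ?_).trans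
      (backE_congr Y h (U.nat φ x) (M.nat φ x) (V.nat φ x) ?_ ?_ _ _)
    all_goals first
      | exact ((gsMap φ.hom).app_t _ _).trans
          ((congrArg _ (hu X x)).trans ((gsMap φ.hom).app_sIter h.le _).symm)
      | exact ((gsMap φ.hom).app_tIter h.le _).trans
          ((congrArg _ (hv X x)).trans ((gsMap φ.hom).app_s _ _).symm)

theorem barN_fst {r : ℕ} {S : GSum} {j i : ℕ} {hS : j < S.last} {hi : j < i} (X : C.Gpd)
    (p : ((edgeF C r).obj X).Bar (S.snoc j i hS hi)) :
    (((normBack C r).barN _).app X p).fst = ((normBack C r).barN S).app X p.fst ∧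
      (((normBack C r).barN _).app X p).snd = ((normBack C r).hom X).app i p.snd :=
  ⟨GHom.bar_fst _ p, GHom.bar_snd _ p⟩

theorem barN_last {r : ℕ} {S : GSum} (X : C.Gpd) (p : ((edgeF C r).obj X).Bar S) :
    (((normBack C r).barN S).app X p).last = ((normBack C r).hom X).app S.last p.last :=
  GHom.bar_last _ S p

/-! ### The two kinds of layouts -/

/-- A table retaining what double conjugation remembers of a tuple. -/
structure Layout (C : Coherator) (r : ℕ) (S : GSum) where
  T : GSum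
  dim_le : T.dim ≤ max S.dim (r + 1)
  rho : Nat' ((edgeF C r).barF S) (barT C T)
  sigma : Nat' (barT C T) ((edgeF C r).barF S)
  eq : ∀ X p, sigma.app X (rho.app X p) = ((normBack C r).barN S).app X p
  low : ∀ j, j < r → ∀ hj : j < S.last, ∃ hT : j < T.last, ∀ X (τ : (C.gs X).Bar T),
    (C.gs X).tIter hT.le τ.last = (C.gs X).tIter hj.le (sigma.app X τ).last.1.1

/-- A layout whose last group is still open: the last edge is appended afterwards. -/
structure OpenLayout (C : Coherator) (r : ℕ) (S : GSum) where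
  T : GSum
  hr : r < T.last
  hS : r < S.last
  dim_le : T.dim ≤ max S.dim (r + 1)
  left : Fam (barT C T) (r + 1)
  mid : Fam (barT C T) S.last
  rho : Nat' ((edgeF C r).barF S) (barT C T)
  sigma : Nat' (barT C (T.snoc r (r + 1) hr r.lt_succ_self)) ((edgeF C r).barF S)
  glue : ∀ j, r ≤ j → ∀ hj : j < S.last, ∃ hT : j < T.last, ∀ X (τ : (C.gs X).Bar T),
    (C.gs X).tIter hT.le τ.last = (C.gs X).tIter hj.le (mid.app X τ)
  left_t : ∀ X (τ : (C.gs X).Bar T),
    (C.gs X).t (left.app X τ) = (C.gs X).sIter hS.le (mid.app X τ)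
  sigma_last : ∀ X (p : (C.gs X).Bar (T.snoc r (r + 1) hr r.lt_succ_self)) hu hv,
    (sigma.app X p).last = backE X hS (left.app X p.fst) (mid.app X p.fst) p.snd hu hv
  rho_left : ∀ X p, left.app X (rho.app X p) = (p.last.1.2 hS.le).1
  rho_mid : ∀ X p, mid.app X (rho.app X p) = midE X p.last
  eq : ∀ X p hv, sigma.app X (GSet.Bar.mk' (rho.app X p) (p.last.1.2 hS.le).2 hv)
    = ((normBack C r).barN S).app X p

theorem OpenLayout.right_s {r : ℕ} {S : GSum} (L : OpenLayout C r S) (X : C.Gpd)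
    (p : (C.gs X).Bar (L.T.snoc r (r + 1) L.hr r.lt_succ_self)) :
    (C.gs X).tIter L.hS.le (L.mid.app X p.fst) = (C.gs X).s p.snd :=
  (((L.glue r le_rfl L.hS).choose_spec X p.fst).symm.trans p.glue).trans
    ((C.gs X).sIter_eq_one _)

theorem OpenLayout.rho_glue {r : ℕ} {S : GSum} (L : OpenLayout C r S) (X : C.Gpd)
    (p : ((edgeF C r).obj X).Bar S) :
    (C.gs X).tIter L.hr.le (L.rho.app X p).last
      = (C.gs X).sIter r.le_succ (p.last.1.2 L.hS.le).2 :=
  (((((L.glue r le_rfl L.hS).choose_spec X _).trans (congrArg _ (L.rho_mid X p))).trans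
    (midE_hv X L.hS p.last)).trans ((C.gs X).sIter_eq_one _).symm)

/-- Closing an open layout with the last edge. -/
theorem OpenLayout.close {r : ℕ} {S : GSum} (L : OpenLayout C r S) : Nonempty (Layout C r S) := by
  have h0 := L.rho_glue
  refine ⟨{
    T := L.T.snoc r (r + 1) L.hr r.lt_succ_self
    dim_le := max_le L.dim_le (le_max_right _ _)
    rho := Fam.snocT L.rho ((rightN C r S.last L.hS.le).pre (lastG (edgeF C r) S)) h0
    sigma := L.sigma
    eq := fun X p => L.eq X p (h0 X p)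
    low := ?_ }⟩
  intro j hj hjS
  refine ⟨hj.trans r.lt_succ_self, fun X τ => ?_⟩
  rw [L.sigma_last X τ (L.left_t X _) (L.right_s X τ)]
  exact ((backE_low X hj L.hS _ _ _ _ _).2).symm

/-! ### Cells of dimension at most `r` -/

/-- A cell below level `r` as a cell with edges. -/
def lowN (C : Coherator) {r i : ℕ} (h : i < r) :
    Nat' (cellT C i) ((edgeF C r).cellF i) where
  app _ a := ⟨(a, fun h' => absurd h' (Nat.not_le.mpr h)), fun h' => absurd h' (Nat.not_le.mpr h)⟩
  nat _ _ := ECell.ext_low h rfl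

/-- An edge as a cell with edges at level `r`. -/
def hairN (C : Coherator) (r : ℕ) : Nat' (cellT C (r + 1)) ((edgeF C r).cellF r) where
  app X u := ⟨((C.gs X).s u, fun _ => (u, u)), fun _ =>
    ⟨((C.gs X).sIter_self _).symm, ((C.gs X).tIter_self _).symm, fun _ => rfl⟩⟩
  nat φ u := ECell.ext_eq ((gsMap φ.hom).app_s r u).symm rfl

/-- A cell of dimension at most `r` is kept as one cell of the table. -/
theorem exists_small (C : Coherator) {r i : ℕ} (hi : i ≤ r) :
    ∃ (k : ℕ) (b : Nat' ((edgeF C r).cellF i) (cellT C k))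
      (B : Nat' (cellT C k) ((edgeF C r).cellF i)),
      i ≤ k ∧ k ≤ max i (r + 1) ∧ (∀ X x, B.app X (b.app X x) = x) ∧
        ∀ j, j < r → ∀ (h1 : j ≤ i) (h2 : j ≤ k) X w,
          (C.gs X).sIter h1 (B.app X w).1.1 = (C.gs X).sIter h2 w ∧
            (j < i → (C.gs X).tIter h1 (B.app X w).1.1 = (C.gs X).tIter h2 w) := by
  rcases Nat.lt_or_eq_of_le hi with h | rfl
  · exact ⟨i, ⟨fun X x => x.1.1, fun _ _ => rfl⟩, lowN C h, le_rfl, le_max_left _ _,
      fun X x => ECell.ext_low h rfl, fun j _ h1 h2 X w => ⟨rfl, fun _ => rfl⟩⟩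
  · refine ⟨i + 1, ⟨fun X x => (x.1.2 le_rfl).1, fun _ _ => rfl⟩, hairN C i, i.le_succ,
      le_max_right _ _, fun X x => ECell.ext_eq
        ((x.2 le_rfl).1.trans ((C.gs X).sIter_self _)) rfl, fun j _ h1 h2 X w => ⟨?_, fun hj => ?_⟩⟩
    · exact ((C.gs X).sIter_succ h1 w).symm
    · exact ((C.gs X).tIter_succ h1 w ▸ (C.gs X).tIter_s hj w)

theorem exists_layout_disc_small (C : Coherator) {r n : ℕ} (h : n ≤ r) :
    Nonempty (Layout C r (GSum.disc n)) := by
  obtain ⟨k, b, B, hk, hkd, hB, hface⟩ := exists_small C h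
  refine ⟨{
    T := GSum.disc k
    dim_le := hkd
    rho := oneG (C := C) (selfF C) (Nat'.comp (discG (edgeF C r) n) b)
    sigma := oneG (edgeF C r) (Nat'.comp (discG (selfF C) k) B)
    eq := fun X p => Subtype.ext ((hB X p.1).trans (normBack_le X h p.1).symm)
    low := fun j hj hjn => ⟨lt_of_lt_of_le hjn hk, fun X τ =>
      ((hface j hj hjn.le (hjn.le.trans hk) X τ.1).2 hjn).symm⟩ }⟩

theorem exists_layout_snoc_small {r : ℕ} {S : GSum} {j i : ℕ} (hS : j < S.last) (hi : j < i)
    (h : i ≤ r) (L : Layout C r S) : Nonempty (Layout C r (S.snoc j i hS hi)) := by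
  obtain ⟨k, b, B, hk, hkd, hB, hface⟩ := exists_small C h
  have hj : j < r := lt_of_lt_of_le hi h
  obtain ⟨hT, hlow⟩ := L.low j hj hS
  have hb : ∀ X p, (C.gs X).tIter hT.le (L.rho.app X (GSet.Bar.fst p)).last
      = (C.gs X).sIter (hi.le.trans hk) (b.app X (GSet.Bar.snd (hS := hS) (hi := hi) p)) := by
    intro X p
    rw [hlow, L.eq, barN_last, (normBack_face X hj.le hS.le _).2, ← ECell.tIter_a, p.glue,
      ECell.sIter_a, ← (hface j hj hi.le (hi.le.trans hk) X _).1, hB]
  refine ⟨{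
    T := L.T.snoc j k hT (lt_of_lt_of_le hi hk)
    dim_le := max_le (L.dim_le.trans (max_le_max (le_max_left _ _) le_rfl))
      (hkd.trans (max_le_max (le_max_right _ _) le_rfl))
    rho := Fam.snocT (Nat'.comp (fstG (edgeF C r) S j i hS hi) L.rho)
      (Nat'.comp (sndG (edgeF C r) S j i hS hi) b) hb
    sigma := snocG (Nat'.comp (fstT L.T j k hT (lt_of_lt_of_le hi hk)) L.sigma)
      (Nat'.comp (sndT L.T j k hT (lt_of_lt_of_le hi hk)) B)
      (fun X τ => ECell.ext_low hj (by
        rw [ECell.tIter_a, ECell.sIter_a]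
        exact ((hlow X τ.fst).symm.trans τ.glue).trans
          (hface j hj hi.le (hi.le.trans hk) X τ.snd).1.symm))
    eq := fun X p => GSet.Bar.ext' ((L.eq X p.fst).trans (barN_fst X p).1.symm)
      (((hB X p.snd).trans (normBack_le X h p.snd).symm).trans (barN_fst X p).2.symm)
    low := fun l hl hli => ⟨lt_of_lt_of_le hli hk, fun X τ =>
      ((hface l hl hli.le (hli.le.trans hk) X τ.snd).2 hli).symm⟩ }⟩

/-! ### Cells above level `r` -/

theorem exists_open_disc {r n : ℕ} (h : r < n) :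
    Nonempty (OpenLayout C r (GSum.disc n)) := by
  let T := (GSum.disc (r + 1)).snoc r n r.lt_succ_self h
  let U : Fam (barT C T) (r + 1) := (discT (r + 1)).pre (fstT _ _ _ _ _)
  let M : Fam (barT C T) n := sndT _ _ _ _ _
  have hu : ∀ X τ, (C.gs X).t (U.app X τ) = (C.gs X).sIter h.le (M.app X τ) := fun X τ =>
    ((C.gs X).tIter_eq_one _).symm.trans τ.glue
  have hv : ∀ X (p : (C.gs X).Bar (T.snoc r (r + 1) h r.lt_succ_self)),
      (C.gs X).tIter h.le (M.app X p.fst) = (C.gs X).s p.snd := fun X p =>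
    p.glue.trans ((C.gs X).sIter_eq_one _)
  refine ⟨{
    T := T
    hr := h
    hS := h
    dim_le := max_le (le_max_right _ _) (le_max_left _ _)
    left := U
    mid := M
    rho := Fam.snocT (oneG (selfF C) ((leftN C r n h.le).pre (discG (edgeF C r) n)))
      ((midN C r n).pre (discG (edgeF C r) n))
      (fun X p => ((C.gs X).tIter_eq_one _).trans (midE_sIter_r X h p.1).1.symm)
    sigma := oneG (edgeF C r) (backN h (U.pre (fstT T r (r + 1) h r.lt_succ_self))
      (M.pre (fstT T r (r + 1) h r.lt_succ_self)) (sndT T r (r + 1) h r.lt_succ_self)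
      (fun X p => hu X p.fst) hv)
    glue := fun j _ hj => ⟨hj, fun X τ => rfl⟩
    left_t := hu
    sigma_last := fun X p _ _ => rfl
    rho_left := fun X p => rfl
    rho_mid := fun X p => rfl
    eq := fun X p _ => Subtype.ext (normBack_gt X h p.1).symm }⟩

/-- A group opened after a prefix. -/
theorem exists_open_block {r : ℕ} {S : GSum} {j i : ℕ} (hS : j < S.last) (hi : j < i) (h : r < i)
    (T1 : GSum) (hT1 : r < T1.last) (hd : T1.dim ≤ max S.dim (r + 1))
    (U : Fam (barT C T1) (r + 1))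
    (hU : ∀ X (τ : (C.gs X).Bar T1), (C.gs X).tIter hT1.le τ.last = (C.gs X).t (U.app X τ))
    (P : Nat' (barT C T1) ((edgeF C r).barF S))
    (hP : ∀ X τ x v hu hv, ((edgeF C r).obj X).tIter hS.le (P.app X τ).last
      = ((edgeF C r).obj X).sIter hi.le (backE X h (U.app X τ) x v hu hv))
    (ρ : Nat' ((edgeF C r).barF (S.snoc j i hS hi)) (barT C T1))
    (hρU : ∀ X p, U.app X (ρ.app X p) = (p.snd.1.2 h.le).1)
    (hρP : ∀ X p, P.app X (ρ.app X p) = ((normBack C r).barN S).app X p.fst) :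
    Nonempty (OpenLayout C r (S.snoc j i hS hi)) := by
  let T := T1.snoc r i hT1 h
  let M : Fam (barT C T) i := sndT _ _ _ _ _
  have hu : ∀ X (τ : (C.gs X).Bar T),
      (C.gs X).t (U.app X τ.fst) = (C.gs X).sIter h.le τ.snd :=
    fun X τ => (hU X τ.fst).symm.trans τ.glue
  have hv : ∀ X (p : (C.gs X).Bar (T.snoc r (r + 1) h r.lt_succ_self)),
      (C.gs X).tIter h.le p.fst.snd = (C.gs X).s p.snd := fun X p =>
    p.glue.trans ((C.gs X).sIter_eq_one _)
  refine ⟨{
    T := T
    hr := h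
    hS := h
    dim_le := max_le (hd.trans (max_le_max (le_max_left _ _) le_rfl))
      ((le_max_right _ _).trans (le_max_left _ _))
    left := U.pre (fstT T1 r i hT1 h)
    mid := M
    rho := Fam.snocT ρ ((midN C r i).pre (sndG (edgeF C r) S j i hS hi))
      (fun X p => ((hU X _).trans (congrArg _ (hρU X p))).trans
        (midE_sIter_r X h p.snd).1.symm)
    sigma := snocG (Nat'.comp (Nat'.comp (fstT T r (r + 1) h r.lt_succ_self)
        (fstT T1 r i hT1 h)) P)
      (backN h ((U.pre (fstT T1 r i hT1 h)).pre (fstT T r (r + 1) h r.lt_succ_self))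
        (M.pre (fstT T r (r + 1) h r.lt_succ_self)) (sndT T r (r + 1) h r.lt_succ_self)
        (fun X p => hu X p.fst) hv)
      (fun X p => hP X p.fst.fst p.fst.snd p.snd (hu X p.fst) (hv X p))
    glue := fun l _ hl => ⟨hl, fun X τ => rfl⟩
    left_t := hu
    sigma_last := fun X p _ _ => rfl
    rho_left := hρU
    rho_mid := fun X p => rfl
    eq := fun X p _ => GSet.Bar.ext' ((hρP X p).trans (barN_fst X p).1.symm)
      (((backE_congr X h (hρU X p) rfl rfl _ (midE_hv X h p.snd) _ _).trans (normBack_gt X h p.snd).symm).trans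
        (barN_fst X p).2.symm) }⟩

theorem exists_open_low {r : ℕ} {S : GSum} {j i : ℕ} (hS : j < S.last) (hi : j < i) (hj : j < r)
    (h : r < i) (L : Layout C r S) : Nonempty (OpenLayout C r (S.snoc j i hS hi)) := by
  obtain ⟨hT, hlow⟩ := L.low j hj hS
  have hjr : j < r + 1 := hj.trans r.lt_succ_self
  let T1 := L.T.snoc j (r + 1) hT hjr
  refine exists_open_block hS hi h T1 r.lt_succ_self
    (max_le L.dim_le (le_max_right _ _)) (sndT L.T j (r + 1) hT hjr)
    (fun X τ => (C.gs X).tIter_eq_one _) (Nat'.comp (fstT L.T j (r + 1) hT hjr) L.sigma) ?_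
    (Fam.snocT (Nat'.comp (fstG (edgeF C r) S j i hS hi) L.rho)
      ((leftN C r i h.le).pre (sndG (edgeF C r) S j i hS hi)) ?_) (fun X p => rfl)
    (fun X p => L.eq X p.fst)
  · intro X τ x v hu hv
    refine ECell.ext_low hj ?_
    rw [ECell.tIter_a, ECell.sIter_a]
    exact ((hlow X τ.fst).symm.trans τ.glue).trans (backE_low X hj h _ _ _ hu hv).1.symm
  · intro X p
    show (C.gs X).tIter hT.le (L.rho.app X p.fst).last
      = (C.gs X).sIter hjr.le (p.snd.1.2 h.le).1
    rw [hlow, L.eq, barN_last, (normBack_face X hj.le hS.le _).2, ← ECell.tIter_a, p.glue,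
      ECell.sIter_a, ← (C.gs X).sIter_comp hj.le r.le_succ, (C.gs X).sIter_eq_one,
      (p.snd.2 h.le).1, (C.gs X).sIter_comp hj.le h.le]

theorem exists_open_eq {r : ℕ} {S : GSum} {i : ℕ} (hS : r < S.last) (h : r < i)
    (L : OpenLayout C r S) : Nonempty (OpenLayout C r (S.snoc r i hS h)) := by
  let T1 := L.T.snoc r (r + 1) L.hr r.lt_succ_self
  have hvu : ∀ (X : C.Gpd) (p : ((edgeF C r).obj X).Bar (S.snoc r i hS h)),
      (p.fst.last.1.2 hS.le).2 = (p.snd.1.2 h.le).1 := fun X p =>
    by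
      have e1 := congrArg Prod.fst (ECell.iter_U_self hS p.fst.last).2
      have e2 := congrArg Prod.fst (ECell.iter_U_self h p.snd).1
      exact (e1.symm.trans (congrArg (fun z => (z.1.2 le_rfl).1) p.glue)).trans e2
  refine exists_open_block hS h h T1 r.lt_succ_self (max_le L.dim_le (le_max_right _ _))
    (sndT L.T r (r + 1) L.hr r.lt_succ_self) (fun X τ => (C.gs X).tIter_eq_one _) L.sigma ?_
    (Fam.snocT (Nat'.comp (fstG (edgeF C r) S r i hS h) L.rho)
      ((rightN C r S.last hS.le).pre (Nat'.comp (fstG (edgeF C r) S r i hS h)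
        (lastG (edgeF C r) S))) ?_) hvu (fun X p => L.eq X p.fst (L.rho_glue X p.fst))
  · intro X τ x v hu hv
    rw [L.sigma_last X τ (L.left_t X _) (L.right_s X τ)]
    obtain ⟨-, -, a1, a2⟩ := backE_sIter_r X L.hS (L.left.app X τ.fst) (L.mid.app X τ.fst)
      τ.snd (L.left_t X _) (L.right_s X τ)
    obtain ⟨b1, b2, -, -⟩ := backE_sIter_r X h τ.snd x v hu hv
    exact ECell.ext_eq (a1.trans b1.symm) (a2.trans b2.symm)
  · intro X p
    exact L.rho_glue X p.fst

theorem exists_open_high {r : ℕ} {S : GSum} {j i : ℕ} (hS : j < S.last) (hi : j < i) (hj : r < j)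
    (L : OpenLayout C r S) : Nonempty (OpenLayout C r (S.snoc j i hS hi)) := by
  obtain ⟨hT, hg⟩ := L.glue j hj.le hS
  have h : r < i := hj.trans hi
  let T := L.T.snoc j i hT hi
  let U : Fam (barT C T) (r + 1) := L.left.pre (fstT L.T j i hT hi)
  let M : Fam (barT C T) i := sndT _ _ _ _ _
  have hu : ∀ X (τ : (C.gs X).Bar T),
      (C.gs X).t (L.left.app X τ.fst) = (C.gs X).sIter h.le τ.snd := fun X τ => by
    rw [L.left_t, ← (C.gs X).sIter_tIter_lt hj hS.le, ← hg, τ.glue, (C.gs X).sIter_comp]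
  have hv : ∀ X (p : (C.gs X).Bar (T.snoc r (r + 1) h r.lt_succ_self)),
      (C.gs X).tIter h.le p.fst.snd = (C.gs X).s p.snd := fun X p =>
    p.glue.trans ((C.gs X).sIter_eq_one _)
  have hpre : ∀ X (p : (C.gs X).Bar (T.snoc r (r + 1) h r.lt_succ_self)),
      (C.gs X).tIter L.hr.le p.fst.fst.last = (C.gs X).sIter r.le_succ p.snd := fun X p => by
    refine (Eq.trans ?_ p.glue)
    show _ = (C.gs X).tIter h.le p.fst.snd
    rw [← (C.gs X).tIter_comp hj.le hT.le, p.fst.glue, (C.gs X).tIter_sIter_lt hj]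
  have hedge : ∀ (X : C.Gpd) (p : ((edgeF C r).obj X).Bar (S.snoc j i hS hi)),
      p.fst.last.1.2 L.hS.le = p.snd.1.2 h.le := fun X p =>
    ((ECell.iter_U hj hS.le p.fst.last).2.symm.trans
      (congrArg (fun z => z.1.2 hj.le) p.glue)).trans (ECell.iter_U hj hi.le p.snd).1
  let pre : Nat' (barT C (T.snoc r (r + 1) h r.lt_succ_self))
      (barT C (L.T.snoc r (r + 1) L.hr r.lt_succ_self)) :=
    Fam.snocT (Nat'.comp (fstT T r (r + 1) h r.lt_succ_self) (fstT L.T j i hT hi))
      (sndT T r (r + 1) h r.lt_succ_self) hpre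
  refine ⟨{
    T := T
    hr := h
    hS := h
    dim_le := max_le (L.dim_le.trans (max_le_max (le_max_left _ _) le_rfl))
      ((le_max_right _ _).trans (le_max_left _ _))
    left := U
    mid := M
    rho := Fam.snocT (Nat'.comp (fstG (edgeF C r) S j i hS hi) L.rho)
      ((midN C r i).pre (sndG (edgeF C r) S j i hS hi)) (fun X p =>
        (hg X _).trans ((congrArg _ (L.rho_mid X p.fst)).trans (((midE_iter X hj hS.le _).2.trans
          (congrArg (midE X) p.glue)).trans (midE_iter X hj hi.le p.snd).1.symm)))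
    sigma := snocG (Nat'.comp pre L.sigma)
      (backN h (U.pre (fstT T r (r + 1) h r.lt_succ_self))
        (M.pre (fstT T r (r + 1) h r.lt_succ_self)) (sndT T r (r + 1) h r.lt_succ_self)
        (fun X p => hu X p.fst) hv) ?_
    glue := fun l _ hl => ⟨hl, fun X τ => rfl⟩
    left_t := hu
    sigma_last := fun X p _ _ => rfl
    rho_left := fun X p => (L.rho_left X p.fst).trans (congrArg Prod.fst (hedge X p))
    rho_mid := fun X p => rfl
    eq := ?_ }⟩
  · intro X p
    have hu' := hu X p.fst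
    have hv' := hv X p
    have e : (C.gs X).tIter hS.le (L.mid.app X p.fst.fst) = (C.gs X).sIter hi.le p.fst.snd :=
      (hg X _).symm.trans p.fst.glue
    have e1 := L.left_t X p.fst.fst
    have e2 := L.right_s X (pre.app X p)
    show ((edgeF C r).obj X).tIter hS.le (L.sigma.app X (pre.app X p)).last
      = ((edgeF C r).obj X).sIter hi.le
          (backE X h (L.left.app X p.fst.fst) p.fst.snd p.snd hu' hv')
    rw [L.sigma_last X (pre.app X p) e1 e2]
    refine ((backE_iter X hj hS.le _ _ _ _ _ ?_ ?_ ?_ ?_).2).trans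
      (Eq.trans (backE_congr X hj rfl e rfl _ _ ?_ ?_)
        (backE_iter X hj hi.le _ _ _ hu' hv' ?_ ?_ ?_ ?_).1.symm)
    all_goals first
      | exact e1.trans ((C.gs X).sIter_comp hj.le hS.le _).symm
      | exact ((C.gs X).tIter_sIter_lt hj hS.le _).trans e2
      | exact e1.trans ((C.gs X).sIter_tIter_lt hj hS.le _).symm
      | exact ((C.gs X).tIter_comp hj.le hS.le _).trans e2
      | exact hu'.trans ((C.gs X).sIter_comp hj.le hi.le _).symm
      | exact ((C.gs X).tIter_sIter_lt hj hi.le _).trans hv'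
      | exact hu'.trans ((C.gs X).sIter_tIter_lt hj hi.le _).symm
      | exact ((C.gs X).tIter_comp hj.le hi.le _).trans hv'
  · intro X p hw
    have hw' := L.rho_glue X p.fst
    refine GSet.Bar.ext' (Eq.trans ?_ (barN_fst X p).1.symm) (Eq.trans ?_ (barN_fst X p).2.symm)
    · refine Eq.trans (congrArg (L.sigma.app X)
        (a₂ := GSet.Bar.mk' (L.rho.app X p.fst) (p.fst.last.1.2 L.hS.le).2 hw')
        (GSet.Bar.ext' rfl ?_)) (L.eq X p.fst hw')
      exact (congrArg Prod.snd (hedge X p)).symm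
    · exact (backE_congr X h ((L.rho_left X p.fst).trans (congrArg Prod.fst (hedge X p)))
        rfl rfl _ (midE_hv X h p.snd) _ _).trans (normBack_gt X h p.snd).symm

theorem exists_layouts (C : Coherator) (r : ℕ) (S : GSum) :
    Nonempty (Layout C r S) ∧ (r < S.last → Nonempty (OpenLayout C r S)) := by
  induction S using GSum.rec' with
  | hd n =>
    rcases Nat.lt_or_ge r n with h | h
    · obtain ⟨L⟩ := exists_open_disc (C := C) h
      exact ⟨L.close, fun _ => ⟨L⟩⟩
    · exact ⟨exists_layout_disc_small C h, fun h' => absurd h' (Nat.not_lt.mpr h)⟩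
  | hs S j i hS hi ih =>
    obtain ⟨⟨L⟩, ho⟩ := ih
    rcases Nat.lt_or_ge r i with h | h
    · have : Nonempty (OpenLayout C r (S.snoc j i hS hi)) := by
        rcases lt_trichotomy j r with hj | rfl | hj
        · exact exists_open_low hS hi hj h L
        · exact (ho hS).elim fun L' => exists_open_eq hS hi L'
        · exact (ho (hj.trans hS)).elim fun L' => exists_open_high hS hi hj L'
      obtain ⟨L'⟩ := this
      exact ⟨L'.close, fun _ => ⟨L'⟩⟩
    · exact ⟨exists_layout_snoc_small hS hi h L, fun h' => absurd h' (Nat.not_lt.mpr h)⟩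

/-- Double conjugation of tuples factors through tuples indexed by a table of small dimension. -/
theorem exists_normBack_factor (C : Coherator) (r : ℕ) (S : GSum) :
    ∃ (T : GSum) (ρ : Nat' ((edgeF C r).barF S) (barT C T))
      (σ : Nat' (barT C T) ((edgeF C r).barF S)), T.dim ≤ max S.dim (r + 1) ∧
        ∀ X p, σ.app X (ρ.app X p) = ((normBack C r).barN S).app X p := by
  obtain ⟨⟨L⟩, -⟩ := exists_layouts C r S
  exact ⟨L.T, L.rho, L.sigma, L.dim_le, L.eq⟩

end Vale.Agent.P259
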