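import Vale.Agent.P259.CylFill

/-!
# P259: globular families of cylinders between two globular families of cells
-/

open CategoryTheory Opposite

namespace Vale.Agent.P259

variable {C : Coherator}

/-- Natural fillers in dimension zero. -/
theorem exists_cylFill_zero (C : Coherator) : ∀ (d r : ℕ) (R : TFun C),
    (r = 0 → 0 < d → HasFill R 0) → ∀ a a' : Fam R 0, (0 < r → a = a') →
      ∃ q : GFam (cyl C d r).toGFun R 0, q.e0 = a ∧ q.e1 = a'
  | 0, r, R, _, a, a', hlow => by
      refine ⟨⟨fun X x => ⟨(a.app X x, a'.app X x), fun j hj hjr => by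
          obtain rfl : j = 0 := by omega
          rw [hlow hjr]
          exact ⟨rfl, rfl⟩⟩,
        fun φ x => Subtype.ext (Prod.ext (a.nat φ x) (a'.nat φ x))⟩, rfl, rfl⟩
  | d + 1, r, R, hR, a, a', hlow => by
      rcases Nat.eq_zero_or_pos r with rfl | hr
      · obtain ⟨W, hW1, hW2⟩ := hR rfl (by omega) a a' (fun _ _ => trivial)
        have hWs : ∀ X x, (C.gs X).s (W.app X x) = a.app X x := fun X x =>
          congrFun (congrFun (congrArg Nat'.app hW1) X) x
        have hWt : ∀ X x, (C.gs X).t (W.app X x) = a'.app X x := fun X x =>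
          congrFun (congrFun (congrArg Nat'.app hW2) X) x
        let eFam : GFam (edgeF C 0) R 0 :=
          ⟨fun X x => ⟨(a.app X x, fun _ => (W.app X x, W.app X x)), fun h =>
            ⟨by rw [GSet.sIter_self]; exact hWs X x, by rw [GSet.tIter_self]; exact hWs X x,
              fun _ => rfl⟩⟩,
           fun φ x => ECell.ext' (a.nat φ x) fun _ => Prod.ext (W.nat φ x) (W.nat φ x)⟩
        refine ⟨⟨fun X x => ⟨(eFam.app X x, lowCell Nat.one_pos X (a'.app X x)),
            (C.conjE_eq X _).trans ((hWt X x).trans (e0_lowCell Nat.one_pos X _).symm)⟩,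
          fun φ x => Subtype.ext (Prod.ext (eFam.nat φ x)
            ((map_lowCell Nat.one_pos φ _).trans (congrArg _ (a'.nat φ x))))⟩, rfl, ?_⟩
        exact Fam.ext_app fun X x => e1_lowCell Nat.one_pos X _
      · refine ⟨⟨fun X x => lowCell (d := d + 1) hr X (a.app X x),
          fun φ x => (map_lowCell (d := d + 1) hr φ _).trans (congrArg _ (a.nat φ x))⟩,
          Fam.ext_app fun X x => e0_lowCell (d := d + 1) hr X _, ?_⟩
        rw [← hlow hr]
        exact Fam.ext_app fun X x => e1_lowCell (d := d + 1) hr X _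

/-- The face maps of a natural globular set. -/
abbrev GFun.sN (F : GFun C) (n : ℕ) : Nat' (F.cellF (n + 1)) (F.cellF n) where
  app X x := (F.obj X).s x
  nat φ x := ((F.map φ).app_s n x).symm

/-- The face maps of a natural globular set. -/
abbrev GFun.tN (F : GFun C) (n : ℕ) : Nat' (F.cellF (n + 1)) (F.cellF n) where
  app X x := (F.obj X).t x
  nat φ x := ((F.map φ).app_t n x).symm

/-- The natural globular set of cells. -/
abbrev selfF (C : Coherator) : GFun C where
  obj X := C.gs X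
  map φ := gsMap φ.hom

theorem hasFill_selfF (C : Coherator) (k n : ℕ) (h : k ≤ n + 1) :
    HasFill ((selfF C).cellF k) n :=
  (hasFill_barT C (GSum.disc k) n h).of_retract
    { app := fun X x => (C.gs X).one k x
      nat := fun _ _ => rfl }
    { app := fun _ p => p.1
      nat := fun _ _ => rfl }
    fun _ _ => rfl

/-- Globular natural cylinders between two globular natural families agreeing below the level. -/
theorem exists_globular_lift (C : Coherator) (d r : ℕ) (F : GFun C)
    (φ ψ : ∀ n, Fam (F.cellF n) n)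
    (hφs : ∀ n, (φ (n + 1)).s = (φ n).pre (F.sN n))
    (hφt : ∀ n, (φ (n + 1)).t = (φ n).pre (F.tN n))
    (hψs : ∀ n, (ψ (n + 1)).s = (ψ n).pre (F.sN n))
    (hψt : ∀ n, (ψ (n + 1)).t = (ψ n).pre (F.tN n))
    (hlow : ∀ n, n < r → φ n = ψ n)
    (hfill : ∀ n, r ≤ n → n < r + d → HasFill (F.cellF n) n) :
    ∃ H : ∀ n, GFam (cyl C d r).toGFun (F.cellF n) n,
      (∀ n, (H n).e0 = φ n ∧ (H n).e1 = ψ n) ∧
      ∀ n, (H (n + 1)).s = Nat'.comp (F.sN n) (H n) ∧
        (H (n + 1)).t = Nat'.comp (F.tN n) (H n) := by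
  classical
  let Good : ∀ n, GFam (cyl C d r).toGFun (F.cellF n) n → Prop := fun n q =>
    q.e0 = φ n ∧ q.e1 = ψ n ∧ GFam.Par (Nat'.comp (F.sN n) q) (Nat'.comp (F.tN n) q)
  have h0 : ∃ q, Good 0 q := by
    obtain ⟨q, hq0, hq1⟩ := exists_cylFill_zero C d r (F.cellF 0)
      (fun hr hd => hfill 0 (by omega) (by omega)) (φ 0) (ψ 0) (fun h => hlow 0 h)
    exact ⟨q, hq0, hq1, fun _ _ => trivial⟩
  have hstep : ∀ n q, Good n q → ∃ q', Good (n + 1) q' ∧
      q'.s = Nat'.comp (F.sN n) q ∧ q'.t = Nat'.comp (F.tN n) q := by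
    intro n q ⟨hq0, hq1, hpar⟩
    suffices h : ∃ q' : GFam (cyl C d r).toGFun (F.cellF (n + 1)) (n + 1),
        q'.e0 = φ (n + 1) ∧ q'.e1 = ψ (n + 1) ∧
        q'.s = Nat'.comp (F.sN n) q ∧ q'.t = Nat'.comp (F.tN n) q by
      obtain ⟨q', a, b, hs, ht⟩ := h
      refine ⟨q', ⟨a, b, fun X x => ⟨?_, ?_⟩⟩, hs, ht⟩
      · show ((cyl C d r).obj X).s (q'.app X _) = ((cyl C d r).obj X).s (q'.app X _)
        exact (congrFun (congrFun (congrArg Nat'.app hs) X) _).trans
          ((congrArg (q.app X) ((F.obj X).ss x)).trans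
            (congrFun (congrFun (congrArg Nat'.app hs) X) _).symm)
      · show ((cyl C d r).obj X).t (q'.app X _) = ((cyl C d r).obj X).t (q'.app X _)
        exact (congrFun (congrFun (congrArg Nat'.app ht) X) _).trans
          ((congrArg (q.app X) ((F.obj X).ts x)).trans
            (congrFun (congrFun (congrArg Nat'.app ht) X) _).symm)
    have eφs : (φ (n + 1)).s = GFam.e0 (Nat'.comp (F.sN n) q) := by rw [hφs, ← hq0]; rfl
    have eφt : (φ (n + 1)).t = GFam.e0 (Nat'.comp (F.tN n) q) := by rw [hφt, ← hq0]; rfl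
    have eψs : (ψ (n + 1)).s = GFam.e1 (Nat'.comp (F.sN n) q) := by rw [hψs, ← hq1]; rfl
    have eψt : (ψ (n + 1)).t = GFam.e1 (Nat'.comp (F.tN n) q) := by rw [hψt, ← hq1]; rfl
    by_cases hn : r ≤ n + 1
    · obtain ⟨q', hs, ht, ha, hb⟩ := exists_cylFill C d r n hn (F.cellF (n + 1))
        (fun h => hfill (n + 1) hn h) _ _ hpar (φ (n + 1)) (ψ (n + 1)) eφs eφt eψs eψt
      exact ⟨q', ha, hb, hs, ht⟩
    · have hlt : n + 1 < r := by omega
      refine ⟨⟨fun X x => lowCell hlt X ((φ (n + 1)).app X x),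
        fun f x => (map_lowCell hlt f _).trans (congrArg _ ((φ (n + 1)).nat f x))⟩,
        Fam.ext_app fun X x => e0_lowCell hlt X _, ?_, ?_, ?_⟩
      · rw [← hlow (n + 1) hlt]
        exact Fam.ext_app fun X x => e1_lowCell hlt X _
      · refine Nat'.ext (funext fun X => funext fun x =>
          low_ext (C := C) (d := d) (r := r) (X := X) (by omega : n < r) ?_)
        refine ((((cyl C d r).e0 X).app_s n _).symm.trans
          (congrArg (C.gs X).s (e0_lowCell hlt X _))).trans ?_
        exact congrFun (congrFun (congrArg Nat'.app eφs) X) x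
      · refine Nat'.ext (funext fun X => funext fun x =>
          low_ext (C := C) (d := d) (r := r) (X := X) (by omega : n < r) ?_)
        refine ((((cyl C d r).e0 X).app_t n _).symm.trans
          (congrArg (C.gs X).t (e0_lowCell hlt X _))).trans ?_
        exact congrFun (congrFun (congrArg Nat'.app eφt) X) x
  let H : ∀ n, {q // Good n q} := fun n =>
    Nat.rec (motive := fun n => {q // Good n q}) ⟨h0.choose, h0.choose_spec⟩
      (fun n q => ⟨(hstep n q.1 q.2).choose, (hstep n q.1 q.2).choose_spec.1⟩) n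
  exact ⟨fun n => (H n).1, fun n => ⟨(H n).2.1, (H n).2.2.1⟩,
    fun n => (hstep n (H n).1 (H n).2).choose_spec.2⟩

/-- Globular natural cylinders at level `r + 1` between two families defined above dimension `r`,
constant in dimension `r`. -/
theorem exists_lift_above (C : Coherator) (d r : ℕ) (T : ∀ n, r < n → TFun C)
    (sT tT : ∀ n (h : r < n), Nat' (T (n + 1) (Nat.lt_succ_of_lt h)) (T n h))
    (hss : ∀ n (h : r < n) X x, (sT n h).app X ((sT (n + 1) (Nat.lt_succ_of_lt h)).app X x)
      = (sT n h).app X ((tT (n + 1) (Nat.lt_succ_of_lt h)).app X x))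
    (hts : ∀ n (h : r < n) X x, (tT n h).app X ((sT (n + 1) (Nat.lt_succ_of_lt h)).app X x)
      = (tT n h).app X ((tT (n + 1) (Nat.lt_succ_of_lt h)).app X x))
    (u v : Fam (T (r + 1) r.lt_succ_self) r) (huv : u.Par v)
    (huS : ∀ X x, u.app X ((sT (r + 1) r.lt_succ_self).app X x)
      = u.app X ((tT (r + 1) r.lt_succ_self).app X x))
    (hvS : ∀ X x, v.app X ((sT (r + 1) r.lt_succ_self).app X x)
      = v.app X ((tT (r + 1) r.lt_succ_self).app X x))
    (φ ψ : ∀ n (h : r < n), Fam (T n h) n)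
    (hφ0 : (φ (r + 1) r.lt_succ_self).s = u ∧ (φ (r + 1) r.lt_succ_self).t = v)
    (hψ0 : (ψ (r + 1) r.lt_succ_self).s = u ∧ (ψ (r + 1) r.lt_succ_self).t = v)
    (hφ : ∀ n (h : r < n), (φ (n + 1) (Nat.lt_succ_of_lt h)).s = (φ n h).pre (sT n h) ∧
      (φ (n + 1) (Nat.lt_succ_of_lt h)).t = (φ n h).pre (tT n h))
    (hψ : ∀ n (h : r < n), (ψ (n + 1) (Nat.lt_succ_of_lt h)).s = (ψ n h).pre (sT n h) ∧
      (ψ (n + 1) (Nat.lt_succ_of_lt h)).t = (ψ n h).pre (tT n h))
    (hfill : ∀ n (h : r < n), n < r + 1 + d → HasFill (T n h) n) :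
    ∃ H : ∀ n (h : r < n), GFam (cyl C d (r + 1)).toGFun (T n h) n,
      (∀ n h, (H n h).e0 = φ n h ∧ (H n h).e1 = ψ n h) ∧
      (∀ X x, ((cyl C d (r + 1)).obj X).s ((H (r + 1) r.lt_succ_self).app X x)
          = lowCell r.lt_succ_self X (u.app X x) ∧
        ((cyl C d (r + 1)).obj X).t ((H (r + 1) r.lt_succ_self).app X x)
          = lowCell r.lt_succ_self X (v.app X x)) ∧
      ∀ n (h : r < n), (H (n + 1) (Nat.lt_succ_of_lt h)).s = Nat'.comp (sT n h) (H n h) ∧
        (H (n + 1) (Nat.lt_succ_of_lt h)).t = Nat'.comp (tT n h) (H n h) := by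
  classical
  let Good : ∀ n (h : r < n), GFam (cyl C d (r + 1)).toGFun (T n h) n → Prop := fun n h q =>
    q.e0 = φ n h ∧ q.e1 = ψ n h ∧ GFam.Par (Nat'.comp (sT n h) q) (Nat'.comp (tT n h) q)
  let cu : GFam (cyl C d (r + 1)).toGFun (T (r + 1) r.lt_succ_self) r :=
    ⟨fun X x => lowCell r.lt_succ_self X (u.app X x),
      fun f x => (map_lowCell r.lt_succ_self f _).trans (congrArg _ (u.nat f x))⟩
  let cv : GFam (cyl C d (r + 1)).toGFun (T (r + 1) r.lt_succ_self) r :=
    ⟨fun X x => lowCell r.lt_succ_self X (v.app X x),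
      fun f x => (map_lowCell r.lt_succ_self f _).trans (congrArg _ (v.nat f x))⟩
  have hcuv : cu.Par cv := by
    intro X x
    have key : ∀ (n : ℕ) (hn : n < r + 1) (a b : (C.gs X).cell n), (C.gs X).Par a b →
        ((cyl C d (r + 1)).obj X).Par (lowCell hn X a) (lowCell hn X b) := by
      intro n hn a b hab
      cases n with
      | zero => exact trivial
      | succ k =>
        have hk : k < r + 1 := by omega
        constructor
        · refine low_ext (C := C) (d := d) (r := r + 1) hk ?_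
          rw [← ((cyl C d (r + 1)).e0 X).app_s, ← ((cyl C d (r + 1)).e0 X).app_s, e0_lowCell,
            e0_lowCell, hab.1]
        · refine low_ext (C := C) (d := d) (r := r + 1) hk ?_
          rw [← ((cyl C d (r + 1)).e0 X).app_t, ← ((cyl C d (r + 1)).e0 X).app_t, e0_lowCell,
            e0_lowCell, hab.2]
    exact key r r.lt_succ_self _ _ (huv X x)
  have eu0 : GFam.e0 cu = u := Fam.ext_app fun X x => e0_lowCell r.lt_succ_self X _
  have eu1 : GFam.e1 cu = u := Fam.ext_app fun X x => e1_lowCell r.lt_succ_self X _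
  have ev0' : GFam.e0 cv = v := Fam.ext_app fun X x => e0_lowCell r.lt_succ_self X _
  have ev1' : GFam.e1 cv = v := Fam.ext_app fun X x => e1_lowCell r.lt_succ_self X _
  have h0 : ∃ q, Good (r + 1) r.lt_succ_self q ∧ q.s = cu ∧ q.t = cv := by
    obtain ⟨q, hs, ht, ha, hb⟩ := exists_cylFill C d (r + 1) r le_rfl (T (r + 1) r.lt_succ_self)
      (fun h => hfill (r + 1) r.lt_succ_self h) cu cv hcuv (φ (r + 1) _) (ψ (r + 1) _)
      (hφ0.1.trans eu0.symm) (hφ0.2.trans ev0'.symm) (hψ0.1.trans eu1.symm)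
      (hψ0.2.trans ev1'.symm)
    refine ⟨q, ⟨ha, hb, fun X x => ⟨?_, ?_⟩⟩, hs, ht⟩
    · show ((cyl C d (r + 1)).obj X).s (q.app X _) = ((cyl C d (r + 1)).obj X).s (q.app X _)
      exact (congrFun (congrFun (congrArg Nat'.app hs) X) _).trans
        ((congrArg (lowCell r.lt_succ_self X) (huS X x)).trans
          (congrFun (congrFun (congrArg Nat'.app hs) X) _).symm)
    · show ((cyl C d (r + 1)).obj X).t (q.app X _) = ((cyl C d (r + 1)).obj X).t (q.app X _)
      exact (congrFun (congrFun (congrArg Nat'.app ht) X) _).trans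
        ((congrArg (lowCell r.lt_succ_self X) (hvS X x)).trans
          (congrFun (congrFun (congrArg Nat'.app ht) X) _).symm)
  have hstep : ∀ n (h : r < n) q, Good n h q → ∃ q', Good (n + 1) (Nat.lt_succ_of_lt h) q' ∧
      q'.s = Nat'.comp (sT n h) q ∧ q'.t = Nat'.comp (tT n h) q := by
    intro n h q ⟨hq0, hq1, hpar⟩
    obtain ⟨q', hs, ht, ha, hb⟩ := exists_cylFill C d (r + 1) n (by omega)
      (T (n + 1) (Nat.lt_succ_of_lt h)) (fun h' => hfill (n + 1) (Nat.lt_succ_of_lt h) h')
      _ _ hpar (φ (n + 1) (Nat.lt_succ_of_lt h)) (ψ (n + 1) (Nat.lt_succ_of_lt h))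
      (by rw [(hφ n h).1, ← hq0]; rfl) (by rw [(hφ n h).2, ← hq0]; rfl)
      (by rw [(hψ n h).1, ← hq1]; rfl) (by rw [(hψ n h).2, ← hq1]; rfl)
    refine ⟨q', ⟨ha, hb, fun X x => ⟨?_, ?_⟩⟩, hs, ht⟩
    · show ((cyl C d (r + 1)).obj X).s (q'.app X _) = ((cyl C d (r + 1)).obj X).s (q'.app X _)
      exact (congrFun (congrFun (congrArg Nat'.app hs) X) _).trans
        ((congrArg (q.app X) (hss n h X x)).trans
          (congrFun (congrFun (congrArg Nat'.app hs) X) _).symm)
    · show ((cyl C d (r + 1)).obj X).t (q'.app X _) = ((cyl C d (r + 1)).obj X).t (q'.app X _)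
      exact (congrFun (congrFun (congrArg Nat'.app ht) X) _).trans
        ((congrArg (q.app X) (hts n h X x)).trans
          (congrFun (congrFun (congrArg Nat'.app ht) X) _).symm)
  let H : ∀ n (h : r < n), {q // Good n h q} := fun n h =>
    Nat.leRec (n := r + 1) (motive := fun n hn => {q // Good n hn q})
      ⟨h0.choose, h0.choose_spec.1⟩
      (fun n hn q => ⟨(hstep n hn q.1 q.2).choose, (hstep n hn q.1 q.2).choose_spec.1⟩) h
  have hbase : (H (r + 1) r.lt_succ_self).1 = h0.choose := by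
    simp only [H, Nat.leRec_self]
  have hnext : ∀ n (h : r < n), (H (n + 1) (Nat.lt_succ_of_lt h)).1
      = (hstep n h (H n h).1 (H n h).2).choose := by
    intro n h
    simp only [H]
    rw [Nat.leRec_succ _ _ (show r + 1 ≤ n from h)]
  refine ⟨fun n h => (H n h).1, fun n h => ⟨(H n h).2.1, (H n h).2.2.1⟩, fun X x => ?_,
    fun n h => ?_⟩
  · simp only [hbase]
    exact ⟨congrFun (congrFun (congrArg Nat'.app h0.choose_spec.2.1) X) x,
      congrFun (congrFun (congrArg Nat'.app h0.choose_spec.2.2) X) x⟩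
  · simp only [hnext n h]
    exact (hstep n h (H n h).1 (H n h).2).choose_spec.2

end Vale.Agent.P259
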