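import Vale.Agent.P259.CylHop3

/-!
# P259: changing the cells of a cell with edges
-/

open CategoryTheory Opposite

namespace Vale.Agent.P259

variable {C : Coherator}

/-- The edges `(u, v) ↦ (u, 1)` above level `r`; cells of dimension `≤ r` are unchanged. -/
noncomputable def oneRight (X : C.Gpd) {r i : ℕ} (x : ECell r (C.gs X) i) : ECell r (C.gs X) i :=
  if h : r < i then
    ⟨(x.1.1, fun _ => ((x.1.2 h.le).1, C.oneC X ((C.gs X).tIter h.le x.1.1))),
      fun _ => ⟨(x.2 h.le).1, C.s_oneC X _, fun e => absurd e (Nat.ne_of_gt h)⟩⟩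
  else x

theorem oneRight_gt (X : C.Gpd) {r i : ℕ} (h : r < i) (x : ECell r (C.gs X) i) :
    oneRight X x = ⟨(x.1.1, fun _ => ((x.1.2 h.le).1, C.oneC X ((C.gs X).tIter h.le x.1.1))),
      fun _ => ⟨(x.2 h.le).1, C.s_oneC X _, fun e => absurd e (Nat.ne_of_gt h)⟩⟩ := dif_pos h

theorem oneRight_le (X : C.Gpd) {r i : ℕ} (h : i ≤ r) (x : ECell r (C.gs X) i) :
    oneRight X x = x := dif_neg (by omega)

theorem oneRight_a (X : C.Gpd) {r i : ℕ} (x : ECell r (C.gs X) i) :
    (oneRight X x).1.1 = x.1.1 := by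
  unfold oneRight
  split <;> rfl

theorem oneRight_src (X : C.Gpd) {r i : ℕ} (h : r < i) (x : ECell r (C.gs X) (i + 1)) :
    (oneRight X x).src = oneRight X x.src := by
  refine ECell.ext' ?_ fun hi => ?_
  · rw [ECell.src_a, oneRight_a, oneRight_a]
    rfl
  · rw [oneRight_gt X (Nat.lt_succ_of_lt h), oneRight_gt X h, ECell.src_U h]
    exact Prod.ext (congrArg Prod.fst (ECell.src_U h x)).symm
      (congrArg (C.oneC X) (((C.gs X).tIter_succ h.le _).trans ((C.gs X).tIter_s h _).symm))

theorem oneRight_tgt (X : C.Gpd) {r i : ℕ} (h : r < i) (x : ECell r (C.gs X) (i + 1)) :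
    (oneRight X x).tgt = oneRight X x.tgt := by
  refine ECell.ext' ?_ fun hi => ?_
  · rw [ECell.tgt_a, oneRight_a, oneRight_a]
    rfl
  · rw [oneRight_gt X (Nat.lt_succ_of_lt h), oneRight_gt X h, ECell.tgt_U h]
    exact Prod.ext (congrArg Prod.fst (ECell.tgt_U h x)).symm
      (congrArg (C.oneC X) ((C.gs X).tIter_succ h.le _))

theorem oneRight_map {X Y : C.Gpd} (φ : X ⟶ Y) {r i : ℕ} (x : ECell r (C.gs X) i) :
    (edgeMap r (gsMap φ.hom)).app i (oneRight X x)
      = oneRight Y ((edgeMap r (gsMap φ.hom)).app i x) := by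
  by_cases h : r < i
  · rw [oneRight_gt X h, oneRight_gt Y h]
    refine ECell.ext' rfl fun _ => Prod.ext rfl ?_
    exact (C.oneC_natural φ _).trans (congrArg (C.oneC Y) ((gsMap φ.hom).app_tIter h.le _).symm)
  · rw [oneRight_le X (by omega), oneRight_le Y (by omega)]

/-- A map which depends only on the cell, not on its edges, in dimensions `≤ r`. -/
def IgnoresEdges {r : ℕ} {F : GFun C} (M : GNat (edgeF C r) F) : Prop :=
  ∀ (X : C.Gpd) (i : ℕ), i ≤ r → ∀ x y : ECell r (C.gs X) i, x.1.1 = y.1.1 →
    (M.hom X).app i x = (M.hom X).app i y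

/-- Precomposition with `(u, v) ↦ (u, 1)`. -/
noncomputable def afterOneRight {r : ℕ} {F : GFun C} (M : GNat (edgeF C r) F)
    (hM : IgnoresEdges M) : GNat (edgeF C r) F where
  hom X :=
    { app := fun i x => (M.hom X).app i (oneRight X x)
      app_s := fun i x => by
        refine ((M.hom X).app_s i _).trans ?_
        by_cases h : r < i
        · exact congrArg ((M.hom X).app i) (oneRight_src X h x)
        · refine hM X i (by omega) _ _ ?_
          show (oneRight X x).src.1.1 = (oneRight X x.src).1.1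
          rw [ECell.src_a, oneRight_a, oneRight_a]
          rfl
      app_t := fun i x => by
        refine ((M.hom X).app_t i _).trans ?_
        by_cases h : r < i
        · exact congrArg ((M.hom X).app i) (oneRight_tgt X h x)
        · refine hM X i (by omega) _ _ ?_
          show (oneRight X x).tgt.1.1 = (oneRight X x.tgt).1.1
          rw [ECell.tgt_a, oneRight_a, oneRight_a]
          rfl }
  nat φ i x := (M.nat φ i _).trans (congrArg ((M.hom _).app i) (oneRight_map φ x))

theorem Sandwich.ignores {r : ℕ} (W : Sandwich C r) : IgnoresEdges W.toGNat := by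
  intro X i hi x y h
  show W.cell X i x = W.cell X i y
  rw [W.cell_le X hi, W.cell_le X hi, h]

/-- Keep the edges, change the cell. -/
def reEdge {r : ℕ} (M : GNat (edgeF C r) (selfF C))
    (_hM : ∀ X, ∀ x : ECell r (C.gs X) r, (M.hom X).app r x = x.1.1)
    (hs : ∀ X i (h : r ≤ i) (x : ECell r (C.gs X) i),
      (C.gs X).sIter h ((M.hom X).app i x) = (C.gs X).sIter h x.1.1)
    (ht : ∀ X i (h : r ≤ i) (x : ECell r (C.gs X) i),
      (C.gs X).tIter h ((M.hom X).app i x) = (C.gs X).tIter h x.1.1) :
    GNat (edgeF C r) (edgeF C r) where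
  hom X :=
    { app := fun i x => ⟨((M.hom X).app i x, x.1.2), fun h =>
        ⟨(x.2 h).1.trans (hs X i h x).symm, (x.2 h).2.1.trans (ht X i h x).symm, (x.2 h).2.2⟩⟩
      app_s := fun i x => ECell.ext' ((M.hom X).app_s i x) fun h => by
        simp only [ECell.src]
      app_t := fun i x => ECell.ext' ((M.hom X).app_t i x) fun h => by
        simp only [ECell.tgt] }
  nat φ i x := ECell.ext' (M.nat φ i x) fun _ => rfl

theorem afterOneRight_low {r : ℕ} (W : Sandwich C r) (X : C.Gpd) (x : ECell r (C.gs X) r) :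
    ((afterOneRight W.toGNat W.ignores).hom X).app r x = x.1.1 :=
  (W.cell_le X le_rfl _).trans (oneRight_a X x)

theorem afterOneRight_sIter {r : ℕ} (W : Sandwich C r) (X : C.Gpd) (i : ℕ) (h : r ≤ i)
    (x : ECell r (C.gs X) i) :
    (C.gs X).sIter h (((afterOneRight W.toGNat W.ignores).hom X).app i x)
      = (C.gs X).sIter h x.1.1 := by
  refine (((afterOneRight W.toGNat W.ignores).hom X).app_sIter h x).trans ?_
  rw [afterOneRight_low]
  exact (((edgeProj C r).hom X).app_sIter h x).symm

theorem afterOneRight_tIter {r : ℕ} (W : Sandwich C r) (X : C.Gpd) (i : ℕ) (h : r ≤ i)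
    (x : ECell r (C.gs X) i) :
    (C.gs X).tIter h (((afterOneRight W.toGNat W.ignores).hom X).app i x)
      = (C.gs X).tIter h x.1.1 := by
  refine (((afterOneRight W.toGNat W.ignores).hom X).app_tIter h x).trans ?_
  rw [afterOneRight_low]
  exact (((edgeProj C r).hom X).app_tIter h x).symm

/-- A cell with edges, its cell replaced by a sandwich computed with edges `(u, 1)`. -/
noncomputable def sandEdge {r : ℕ} (W : Sandwich C r) : GNat (edgeF C r) (edgeF C r) :=
  reEdge (afterOneRight W.toGNat W.ignores) (afterOneRight_low W) (afterOneRight_sIter W)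
    (afterOneRight_tIter W)

/-- Cells with edges, with the cell doubly conjugated. -/
noncomputable abbrev normBack (C : Coherator) (r : ℕ) : GNat (edgeF C r) (edgeF C r) :=
  sandEdge (sandBack C r)

/-- The natural map induced on tuples. -/
def GNat.barN {F G : GFun C} (a : GNat F G) (S : GSum) : Nat' (F.barF S) (G.barF S) where
  app X p := (a.hom X).bar S p
  nat {X Y} φ p := by
    show (G.map φ).bar S ((a.hom X).bar S p) = (a.hom Y).bar S ((F.map φ).bar S p)
    rw [← GHom.bar_comp, ← GHom.bar_comp]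
    exact GHomLE.bar_congr _ _ (fun n _ x => a.nat φ n x) S le_rfl p

end Vale.Agent.P259
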