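import Vale.Agent.P259.CylHop3

/-!
# P259: relations between second endpoints pass to first endpoints
-/

open CategoryTheory Opposite

namespace Vale.Agent.P259

variable {C : Coherator}

/-- If the second endpoints of parallel families of cylinders are related, so are the first. -/
def TrProp (C : Coherator) (d r : ℕ) : Prop :=
  ∀ n, n < r + d → ∀ (R : TFun C) (p p' : GFam (cyl C d r).toGFun R n), p.Par p' →
    (GFam.e1 p).Rel (GFam.e1 p') → (GFam.e0 p).Rel (GFam.e0 p')

/-- A component of a natural map. -/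
abbrev GNat.at {F G : GFun C} (a : GNat F G) (n : ℕ) : Nat' (F.cellF n) (G.cellF n) where
  app X y := (a.hom X).app n y
  nat φ y := a.nat φ n y

theorem GHom.par {G H : GSet} (f : GHom G H) {n : ℕ} {a b : G.cell n} (h : G.Par a b) :
    H.Par (f.app n a) (f.app n b) := by
  cases n with
  | zero => exact trivial
  | succ n => exact ⟨by rw [f.app_s, f.app_s, h.1], by rw [f.app_t, f.app_t, h.2]⟩

theorem tr_zero (C : Coherator) (r : ℕ) : TrProp C 0 r := by
  intro n hn R p p' _ h
  have e : ∀ q : GFam (cyl C 0 r).toGFun R n, GFam.e0 q = GFam.e1 q := fun q =>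
    Fam.ext_app fun X x => (cyl_low C 0 r n (by omega) X).1 _
  rw [e p, e p']
  exact h

/-- The sandwich of related conjugates, in families. -/
theorem rel_back {R : TFun C} {r n : ℕ} (hr : r < n) (x x' : GFam (edgeF C r) R n)
    (hU : ∀ X a, (x.app X a).1.2 hr.le = (x'.app X a).1.2 hr.le)
    (h : Fam.Rel (Nat'.comp x ((conjN C r).at n)) (Nat'.comp x' ((conjN C r).at n))) :
    Fam.Rel (Nat'.comp x ((sandBack C r).toGNat.at n))
      (Nat'.comp x' ((sandBack C r).toGNat.at n)) := by
  obtain ⟨W, hW1, hW2⟩ := h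
  have ws : ∀ X a, (C.gs X).s (W.app X a) = C.conjE X r n (x.app X a) := fun X a =>
    congrFun (congrFun (congrArg Nat'.app hW1) X) a
  have wt : ∀ X a, (C.gs X).t (W.app X a) = C.conjE X r n (x'.app X a) := fun X a =>
    congrFun (congrFun (congrArg Nat'.app hW2) X) a
  have hp : ∀ X a, (C.gs X).t ((x.app X a).1.2 hr.le).1
      = (C.gs X).sIter (hr.le.trans n.le_succ) (W.app X a) := fun X a => by
    rw [GSet.sIter_succ _ hr.le, ws]
    exact (C.sIter_conjE X hr _).1.symm
  have hq : ∀ X a, (C.gs X).tIter (hr.le.trans n.le_succ) (W.app X a)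
      = (C.gs X).s (C.invC X ((x.app X a).1.2 hr.le).2) := fun X a => by
    rw [GSet.tIter_succ _ hr.le, ← (C.gs X).tIter_s hr, ws, C.s_invC]
    exact (C.sIter_conjE X hr _).2
  refine ⟨⟨fun X a => C.kap X (Nat.lt_succ_of_lt hr) ((x.app X a).1.2 hr.le).1 (W.app X a)
      (C.invC X ((x.app X a).1.2 hr.le).2) (hp X a) (hq X a), fun {X Y} φ a => ?_⟩, ?_, ?_⟩
  · refine (C.kap_natural φ _ _ _ _ _ _).trans ?_
    have e := congrArg (fun z => z.1.2 hr.le) (x.nat φ a)
    exact C.kap_congr Y _ (congrArg Prod.fst e :) (W.nat φ a)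
      ((C.invC_natural φ _).trans (congrArg (C.invC Y) (congrArg Prod.snd e :))) _ _ _ _
  · refine Fam.ext_app fun X a => ?_
    show (C.gs X).s (C.kap X (Nat.lt_succ_of_lt hr) _ (W.app X a) _ (hp X a) (hq X a))
      = (sandBack C r).cell X n (x.app X a)
    rw [C.s_kap X hr, (sandBack C r).cell_gt X hr]
    exact C.kap_congr X hr rfl (ws X a) rfl _ _ _ _
  · refine Fam.ext_app fun X a => ?_
    show (C.gs X).t (C.kap X (Nat.lt_succ_of_lt hr) _ (W.app X a) _ (hp X a) (hq X a))
      = (sandBack C r).cell X n (x'.app X a)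
    rw [C.t_kap X hr, (sandBack C r).cell_gt X hr]
    exact C.kap_congr X hr (congrArg Prod.fst (hU X a) :) (wt X a)
      (congrArg (C.invC X) (congrArg Prod.snd (hU X a) :)) _ _ _ _

theorem tr_succ (C : Coherator) (d r : ℕ) (ih : TrProp C d (r + 1)) (Hd : HopData C d r) :
    TrProp C (d + 1) r := by
  intro n hn R p p' hpar h
  rcases lt_trichotomy n r with hlt | heq | hgt
  · have e : ∀ q : GFam (cyl C (d + 1) r).toGFun R n, GFam.e0 q = GFam.e1 q := fun q =>
      Fam.ext_app fun X x => (cyl_low C (d + 1) r n hlt X).1 _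
    rw [e p, e p']
    exact h
  · subst heq
    have key : ∀ q : GFam (cyl C (d + 1) n).toGFun R n, (GFam.e0 q).Rel (GFam.e1 q) := by
      intro q
      refine ⟨⟨fun X x => ((q.app X x).1.1.1.2 le_rfl).1,
        fun φ x => congrArg (fun z => (z.1.1.1.2 le_rfl).1) (q.nat φ x)⟩, ?_, ?_⟩
      · refine Fam.ext_app fun X x => ?_
        show (C.gs X).s _ = (q.app X x).1.1.1.1
        refine ((q.app X x).1.1.2 le_rfl).1.trans ?_
        rw [GSet.sIter_self]
      · refine Fam.ext_app fun X x => ?_
        refine (C.conjE_eq X _).symm.trans ((q.app X x).2.trans ?_)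
        exact (cyl_low C d (n + 1) n n.lt_succ_self X).1 _
    exact ((key p).trans h).trans (key p').symm
  · let x : GFam (edgeF C r) R n :=
      ⟨fun X a => (p.app X a).1.1, fun φ a => congrArg (fun z => z.1.1) (p.nat φ a)⟩
    let x' : GFam (edgeF C r) R n :=
      ⟨fun X a => (p'.app X a).1.1, fun φ a => congrArg (fun z => z.1.1) (p'.nat φ a)⟩
    let q : GFam (cyl C d (r + 1)).toGFun R n :=
      ⟨fun X a => (p.app X a).1.2, fun φ a => congrArg (fun z => z.1.2) (p.nat φ a)⟩
    let q' : GFam (cyl C d (r + 1)).toGFun R n :=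
      ⟨fun X a => (p'.app X a).1.2, fun φ a => congrArg (fun z => z.1.2) (p'.nat φ a)⟩
    have hq := ih n (by omega) R q q' (fun X a => (step_par_edge (hpar X a)).2) h
    have e : GFam.e0 q = Nat'.comp x ((conjN C r).at n) :=
      Fam.ext_app fun X a => (p.app X a).2.symm
    have e' : GFam.e0 q' = Nat'.comp x' ((conjN C r).at n) :=
      Fam.ext_app fun X a => (p'.app X a).2.symm
    rw [e, e'] at hq
    have hback := rel_back hgt x x'
      (fun X a => ECell.par_edges (step_par_edge (hpar X a)).1 hgt hgt.le) hq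
    have hop : ∀ (H : GNat (edgeF C r) (cyl C d (r + 1)).toGFun)
        (A B : GNat (edgeF C r) (selfF C)), IsCylBetween H A B →
        Fam.Rel (Nat'.comp x (B.at n)) (Nat'.comp x' (B.at n)) →
        Fam.Rel (Nat'.comp x (A.at n)) (Nat'.comp x' (A.at n)) := by
      intro H A B hH hB
      have e0 : ∀ z : GFam (edgeF C r) R n,
          GFam.e0 (Nat'.comp z (H.at n) : GFam (cyl C d (r + 1)).toGFun R n)
            = Nat'.comp z (A.at n) := fun z =>
        Fam.ext_app fun X a => (hH X n _).1
      have e1 : ∀ z : GFam (edgeF C r) R n,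
          GFam.e1 (Nat'.comp z (H.at n) : GFam (cyl C d (r + 1)).toGFun R n)
            = Nat'.comp z (B.at n) := fun z =>
        Fam.ext_app fun X a => (hH X n _).2
      have := ih n (by omega) R (Nat'.comp x (H.at n)) (Nat'.comp x' (H.at n))
        (fun X a => (H.hom X).par (step_par_edge (hpar X a)).1) (by rw [e1, e1]; exact hB)
      rwa [e0, e0] at this
    exact hop _ _ _ Hd.h1 (hop _ _ _ Hd.h2 (hop _ _ _ Hd.h3 hback))

end Vale.Agent.P259
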