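import Vale.Agent.P259.CylBuild
import Vale.Agent.P259.CylFib
import Vale.Agent.P259.CylL
import Vale.Agent.P259.CylTr
import Vale.Agent.P259.CylNorm

/-!
# P259: from one layer of cylinders to the next
-/

open CategoryTheory Opposite

namespace Vale.Agent.P259

variable {C : Coherator}

/-! ### Evaluating families at the groupoid of cylinders -/

/-- Relations pass backwards along a natural homotopy. -/
theorem rel_transport {d r : ℕ} (O : GOps (cyl C d r)) (htr : TrProp C d r) {n : ℕ}
    (hn : n < r + d) {R : TFun C} (η : ∀ X, R.obj X → R.obj (O.model X))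
    (ηnat : ∀ {X Y : C.Gpd} (f : X ⟶ Y) x, R.map (O.mapHom f) (η X x) = η Y (R.map f x))
    (σ0 σ1 : Nat' R R) (h0 : ∀ X x, R.map (O.evHom0 X) (η X x) = σ0.app X x)
    (h1 : ∀ X x, R.map (O.evHom1 X) (η X x) = σ1.app X x) (A B : Fam R n) (hAB : A.Par B)
    (h : (A.pre σ1).Rel (B.pre σ1)) : (A.pre σ0).Rel (B.pre σ0) := by
  let p : Fam R n → GFam (cyl C d r).toGFun R n := fun A =>
    ⟨fun X x => (O.cOut X).app n (A.app (O.model X) (η X x)), fun {X Y} f x => by
      have e : (gsMap (O.mapHom f).hom).app n (A.app (O.model X) (η X x))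
          = A.app (O.model Y) (η Y (R.map f x)) :=
        (A.nat (O.mapHom f) (η X x)).trans (congrArg (A.app _) (ηnat f x))
      exact congrArg ((O.cOut Y).app n) e⟩
  have ep0 : ∀ A : Fam R n, GFam.e0 (p A) = A.pre σ0 := fun A => Fam.ext_app fun X x =>
    ((O.evHom0_cIn X n _).symm.trans (A.nat (O.evHom0 X) (η X x))).trans
      (congrArg (A.app X) (h0 X x))
  have ep1 : ∀ A : Fam R n, GFam.e1 (p A) = A.pre σ1 := fun A => Fam.ext_app fun X x =>
    ((O.evHom1_cIn X n _).symm.trans (A.nat (O.evHom1 X) (η X x))).trans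
      (congrArg (A.app X) (h1 X x))
  have := htr n hn R (p A) (p B) (fun X x => (O.cOut X).par (hAB _ _))
    (by rw [ep1, ep1]; exact h)
  rwa [ep0, ep0] at this

/-! ### Changing the cell of a cell with edges -/

/-- A map to cells which is the identity in dimensions `≤ r`. -/
def SameLow {r : ℕ} (M : GNat (edgeF C r) (selfF C)) : Prop :=
  ∀ X i, i ≤ r → ∀ x : ECell r (C.gs X) i, (M.hom X).app i x = x.1.1

theorem SameLow.ignores {r : ℕ} {M : GNat (edgeF C r) (selfF C)} (hM : SameLow M) :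
    IgnoresEdges M := fun X i hi x y h => by rw [hM X i hi, hM X i hi, h]

theorem SameLow.after {r : ℕ} {M : GNat (edgeF C r) (selfF C)} (hM : SameLow M) :
    SameLow (afterOneRight M hM.ignores) := fun X i hi x =>
  (hM X i hi _).trans (oneRight_a X x)

theorem Sandwich.sameLow {r : ℕ} (W : Sandwich C r) : SameLow W.toGNat :=
  fun X i hi x => W.cell_le X hi x

theorem sameLow_proj (C : Coherator) (r : ℕ) : SameLow (edgeProj C r) := fun _ _ _ _ => rfl

theorem SameLow.sIter {r : ℕ} {M : GNat (edgeF C r) (selfF C)} (hM : SameLow M) (X : C.Gpd)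
    (i : ℕ) (h : r ≤ i) (x : ECell r (C.gs X) i) :
    (C.gs X).sIter h ((M.hom X).app i x) = (C.gs X).sIter h x.1.1 := by
  refine ((M.hom X).app_sIter h x).trans ?_
  rw [hM X r le_rfl]
  exact (((edgeProj C r).hom X).app_sIter h x).symm

theorem SameLow.tIter {r : ℕ} {M : GNat (edgeF C r) (selfF C)} (hM : SameLow M) (X : C.Gpd)
    (i : ℕ) (h : r ≤ i) (x : ECell r (C.gs X) i) :
    (C.gs X).tIter h ((M.hom X).app i x) = (C.gs X).tIter h x.1.1 := by
  refine ((M.hom X).app_tIter h x).trans ?_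
  rw [hM X r le_rfl]
  exact (((edgeProj C r).hom X).app_tIter h x).symm

/-- Keep the edges; the new cell is computed with the edges `(u, 1)`. -/
noncomputable def edgeOf {r : ℕ} (M : GNat (edgeF C r) (selfF C)) (hM : SameLow M) :
    GNat (edgeF C r) (edgeF C r) :=
  reEdge (afterOneRight M hM.ignores) (fun X x => hM.after X r le_rfl x)
    (fun X i h x => hM.after.sIter X i h x) (fun X i h x => hM.after.tIter X i h x)

theorem edgeOf_proj (C : Coherator) (r : ℕ) (X : C.Gpd) (i : ℕ) (x : ECell r (C.gs X) i) :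
    ((edgeOf (edgeProj C r) (sameLow_proj C r)).hom X).app i x = x :=
  ECell.ext' (oneRight_a X x) fun _ => rfl

theorem edgeOf_back (C : Coherator) (r : ℕ) :
    edgeOf (sandBack C r).toGNat (sandBack C r).sameLow = normBack C r := rfl

/-- A natural self-homotopy of the identity. -/
theorem exists_deg (C : Coherator) (d r : ℕ) :
    ∃ δ : GNat (selfF C) (cyl C d r).toGFun, ∀ X n a,
      ((cyl C d r).e0 X).app n ((δ.hom X).app n a) = a ∧
        ((cyl C d r).e1 X).app n ((δ.hom X).app n a) = a :=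
  exists_selfLift C d r (idN C) (idN C) fun _ _ _ _ => rfl

theorem hop_rel {d r : ℕ} (O : GOps (cyl C d (r + 1))) (htr : TrProp C d (r + 1))
    (H : GNat (edgeF C r) (cyl C d (r + 1)).toGFun) (A B : GNat (edgeF C r) (selfF C))
    (hH : IsCylBetween H A B) (hA : SameLow A) (hB : SameLow B) (S : GSum) {n : ℕ}
    (hn : n < r + 1 + d) (P P' : Fam ((edgeF C r).barF S) n) (hP : P.Par P')
    (h : (P.pre ((edgeOf B hB).barN S)).Rel (P'.pre ((edgeOf B hB).barN S))) :
    (P.pre ((edgeOf A hA).barN S)).Rel (P'.pre ((edgeOf A hA).barN S)) := by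
  obtain ⟨δ, hδ⟩ := exists_deg C d (r + 1)
  have hHi : IgnoresEdges H := fun X i hi x y e => by
    refine low_ext (C := C) (d := d) (r := r + 1) (Nat.lt_succ_of_le hi) ?_
    rw [(hH X i x).1, (hH X i y).1, hA X i hi, hA X i hi, e]
  let δY : ∀ X : C.Gpd, GHom (C.gs X) (C.gs (O.model X)) := fun X => (δ.hom X).comp (O.cIn X)
  let HY : ∀ X : C.Gpd, GHom (edgeGSet r (C.gs X)) (C.gs (O.model X)) := fun X =>
    ((afterOneRight H hHi).hom X).comp (O.cIn X)
  have low : ∀ (X : C.Gpd) (x : ECell r (C.gs X) r),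
      (HY X).app r x = (δY X).app r x.1.1 := fun X x => by
    refine congrArg ((O.cIn X).app r)
      (low_ext (C := C) (d := d) (r := r + 1) r.lt_succ_self ?_)
    rw [(hδ X r _).1]
    exact ((hH X r _).1.trans (hA X r le_rfl _)).trans (oneRight_a X x)
  have hY : ∀ (X : C.Gpd) (i : ℕ) (x : ECell r (C.gs X) i) (h : r ≤ i),
      (C.gs (O.model X)).sIter h ((HY X).app i x) = (δY X).app r ((C.gs X).sIter h x.1.1) ∧
      (C.gs (O.model X)).tIter h ((HY X).app i x) = (δY X).app r ((C.gs X).tIter h x.1.1) := by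
    intro X i x h
    constructor
    · refine ((HY X).app_sIter h x).trans ((low X _).trans (congrArg ((δY X).app r) ?_))
      exact (((edgeProj C r).hom X).app_sIter h x).symm
    · refine ((HY X).app_tIter h x).trans ((low X _).trans (congrArg ((δY X).app r) ?_))
      exact (((edgeProj C r).hom X).app_tIter h x).symm
  let ηH : ∀ X : C.Gpd, GHom (edgeGSet r (C.gs X)) (edgeGSet r (C.gs (O.model X))) := fun X =>
    { app := fun i x => ⟨((HY X).app i x,
          fun h => ((δY X).app (r + 1) (x.1.2 h).1, (δY X).app (r + 1) (x.1.2 h).2)), fun h =>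
        ⟨((δY X).app_s r _).trans ((congrArg ((δY X).app r) (x.2 h).1).trans (hY X i x h).1.symm),
          ((δY X).app_s r _).trans
            ((congrArg ((δY X).app r) (x.2 h).2.1).trans (hY X i x h).2.symm),
          fun e => congrArg ((δY X).app (r + 1)) ((x.2 h).2.2 e)⟩⟩
      app_s := fun i x => ECell.ext' ((HY X).app_s i x) fun h => by
        simp only [ECell.src]
        split <;> rfl
      app_t := fun i x => ECell.ext' ((HY X).app_t i x) fun h => by
        simp only [ECell.tgt]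
        split <;> rfl }
  refine rel_transport O htr hn (R := (edgeF C r).barF S) (fun X p => (ηH X).bar S p) ?_
    ((edgeOf A hA).barN S) ((edgeOf B hB).barN S) ?_ ?_ P P' hP h
  · intro X Y f p
    show (edgeMap r (gsMap (O.mapHom f).hom)).bar S ((ηH X).bar S p)
      = (ηH Y).bar S ((edgeMap r (gsMap f.hom)).bar S p)
    rw [← GHom.bar_comp, ← GHom.bar_comp]
    refine GHomLE.bar_congr _ _ (fun i _ x => ECell.ext' ?_ fun h => Prod.ext ?_ ?_) S le_rfl p
    · exact (O.cIn_natural f i _).trans (congrArg ((O.cIn Y).app i)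
        ((afterOneRight H hHi).nat f i x))
    · exact (O.cIn_natural f _ _).trans (congrArg ((O.cIn Y).app _) (δ.nat f _ _))
    · exact (O.cIn_natural f _ _).trans (congrArg ((O.cIn Y).app _) (δ.nat f _ _))
  · intro X p
    show (edgeMap r (gsMap (O.evHom0 X).hom)).bar S ((ηH X).bar S p)
      = ((edgeOf A hA).hom X).bar S p
    rw [← GHom.bar_comp]
    refine GHomLE.bar_congr _ _ (fun i _ x => ECell.ext' ?_ fun h => Prod.ext ?_ ?_) S le_rfl p
    · exact (O.evHom0_cIn X i _).trans (hH X i _).1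
    · exact (O.evHom0_cIn X _ _).trans (hδ X _ _).1
    · exact (O.evHom0_cIn X _ _).trans (hδ X _ _).1
  · intro X p
    show (edgeMap r (gsMap (O.evHom1 X).hom)).bar S ((ηH X).bar S p)
      = ((edgeOf B hB).hom X).bar S p
    rw [← GHom.bar_comp]
    refine GHomLE.bar_congr _ _ (fun i _ x => ECell.ext' ?_ fun h => Prod.ext ?_ ?_) S le_rfl p
    · exact (O.evHom1_cIn X i _).trans (hH X i _).2
    · exact (O.evHom1_cIn X _ _).trans (hδ X _ _).2
    · exact (O.evHom1_cIn X _ _).trans (hδ X _ _).2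

/-- Fillers on tuples of cells with edges, from a layout of the tuples of doubly conjugated
cells in a single table. -/
theorem hasFill_edgeBar {d r : ℕ} (O : GOps (cyl C d (r + 1))) (htr : TrProp C d (r + 1))
    (S : GSum) (n : ℕ) (hS : S.dim ≤ n) (hrn : r ≤ n) (hn : n < r + 1 + d) {T : GSum}
    (hT : T.dim ≤ max S.dim (r + 1)) (ρ : Nat' ((edgeF C r).barF S) (barT C T))
    (σ : Nat' (barT C T) ((edgeF C r).barF S))
    (hρσ : ∀ X p, σ.app X (ρ.app X p) = ((normBack C r).barN S).app X p) :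
    HasFill ((edgeF C r).barF S) n := by
  intro P P' hP
  let Hd := HopData.mk' C d r O
  have h3 : (P.pre ((normBack C r).barN S)).Rel (P'.pre ((normBack C r).barN S)) := by
    have h := (hasFill_barT C T n (hT.trans (max_le (hS.trans n.le_succ) (Nat.succ_le_succ hrn)))
      (P.pre σ) (P'.pre σ) fun X x => hP X _).pre ρ
    have e : ∀ Q : Fam ((edgeF C r).barF S) n, (Q.pre σ).pre ρ = Q.pre ((normBack C r).barN S) :=
      fun Q => Fam.ext_app fun X p => congrArg (Q.app X) (hρσ X p)
    rwa [e, e] at h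
  have key := hop_rel O htr Hd.H1 _ _ Hd.h1 (sameLow_proj C r) (sandOne C r).sameLow S hn P P' hP
    (hop_rel O htr Hd.H2 _ _ Hd.h2 (sandOne C r).sameLow (sandLoop C r).sameLow S hn P P' hP
      (hop_rel O htr Hd.H3 _ _ Hd.h3 (sandLoop C r).sameLow (sandBack C r).sameLow S hn P P' hP
        h3))
  have e : ∀ Q : Fam ((edgeF C r).barF S) n,
      Q.pre ((edgeOf (edgeProj C r) (sameLow_proj C r)).barN S) = Q := fun Q =>
    Fam.ext_app fun X p => congrArg (Q.app X) <|
      (GHomLE.bar_congr _ ((GHom.id (edgeGSet r (C.gs X))).toLE S.dim)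
        (fun i _ x => edgeOf_proj C r X i x) S le_rfl p).trans (GHom.bar_id S p)
  rwa [e, e] at key

/-! ### From cells with edges to a layer -/

/-- The lifts of cells through the endpoints of cylinders. -/
noncomputable def GOps.liftPair {d r : ℕ} (O : GOps (cyl C d r)) (X : C.Gpd) :
    LiftPair r (O.evHom0 X) (O.evHom1 X) where
  lift n hn y f0 f1 h0 h1 := (O.cIn X).app (n + 1) ((C.fibOp d r n hn).app X
    ⟨((O.cOut X).app n y, f0, f1), h0.trans (O.evHom0_cIn X n _), h1.trans (O.evHom1_cIn X n _)⟩)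
  lift_s n hn y f0 f1 h0 h1 :=
    ((O.cIn X).app_s n _).trans (congrArg ((O.cIn X).app n) (C.fibOp_s d r n hn X _))
  lift_π0 n hn y f0 f1 h0 h1 :=
    (O.evHom0_cIn X _ _).trans (C.fibOp_e0 d r n hn X _)
  lift_π1 n hn y f0 f1 h0 h1 :=
    (O.evHom1_cIn X _ _).trans (C.fibOp_e1 d r n hn X _)

theorem GOps.evHom0_natural {G : GOver C} (O : GOps G) {X Y : C.Gpd} (f : X ⟶ Y) (n : ℕ)
    (a : (C.gs (O.model X)).cell n) :
    (gsMap f.hom).app n ((gsMap (O.evHom0 X).hom).app n a)
      = (gsMap (O.evHom0 Y).hom).app n ((gsMap (O.mapHom f).hom).app n a) := by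
  rw [← O.cIn_cOut X n a, O.evHom0_cIn, O.cIn_natural, O.evHom0_cIn]
  exact G.nat0 f n _

theorem GOps.evHom1_natural {G : GOver C} (O : GOps G) {X Y : C.Gpd} (f : X ⟶ Y) (n : ℕ)
    (a : (C.gs (O.model X)).cell n) :
    (gsMap f.hom).app n ((gsMap (O.evHom1 X).hom).app n a)
      = (gsMap (O.evHom1 Y).hom).app n ((gsMap (O.mapHom f).hom).app n a) := by
  rw [← O.cIn_cOut X n a, O.evHom1_cIn, O.cIn_natural, O.evHom1_cIn]
  exact G.nat1 f n _

theorem GOps.liftPair_commutes {d r : ℕ} (O : GOps (cyl C d r)) {X Y : C.Gpd} (f : X ⟶ Y) :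
    (O.liftPair X).Commutes (O.liftPair Y) (O.mapHom f) f where
  comm0 := O.evHom0_natural f
  comm1 := O.evHom1_natural f
  lift n hn y f0 f1 h0 h1 h0' h1' :=
    (O.cIn_natural f (n + 1) _).trans
      (congrArg ((O.cIn Y).app (n + 1)) ((C.fibOp d r n hn).nat f _))

/-- The natural map to cells with edges. -/
noncomputable def edgeOfStep (C : Coherator) (r : ℕ) (Q : GOver C) :
    GNat (step r Q).toGFun (edgeF C r) where
  hom _ := { app := fun _ x => x.1.1, app_s := fun _ _ => rfl, app_t := fun _ _ => rfl }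
  nat _ _ _ := rfl

/-- One layer inherits fillers on tuples from cells with edges. -/
theorem hasFill_stepBar {d r : ℕ} (O : GOps (cyl C d (r + 1))) (htr : TrProp C d (r + 1))
    (S : GSum) (n : ℕ) (hS : S.dim ≤ n) (hn : n < r + 1 + d)
    (hE : HasFill ((edgeF C r).barF S) n) :
    HasFill ((cyl C (d + 1) r).toGFun.barF S) n := by
  intro A B hAB
  obtain ⟨δ, hδ⟩ := exists_deg C d (r + 1)
  let Γ : GNat (edgeF C r) (cyl C (d + 1) r).toGFun :=
    { hom := fun X =>
        { app := fun i x => ⟨(x, (δ.hom X).app i (C.conjE X r i x)), (hδ X i _).1.symm⟩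
          app_s := fun i x => Subtype.ext (Prod.ext rfl
            (((δ.hom X).app_s i _).trans (congrArg _ ((C.conjHom X r).app_s i x))))
          app_t := fun i x => Subtype.ext (Prod.ext rfl
            (((δ.hom X).app_t i _).trans (congrArg _ ((C.conjHom X r).app_t i x)))) }
      nat := fun {X Y} f i x => Subtype.ext (Prod.ext rfl ((δ.nat f i _).trans
        (congrArg ((δ.hom Y).app i) (C.conjHom_natural f r i x)))) }
  let τ := edgeOfStep C r (cyl C d (r + 1))
  have h1 : (A.pre (Nat'.comp (τ.barN S) (Γ.barN S))).Rel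
      (B.pre (Nat'.comp (τ.barN S) (Γ.barN S))) :=
    (hE (A.pre (Γ.barN S)) (B.pre (Γ.barN S)) fun X x => hAB X _).pre (τ.barN S)
  let δY : ∀ X : C.Gpd, GHom (C.gs X) (C.gs (O.model X)) := fun X => (δ.hom X).comp (O.cIn X)
  let ed : ∀ (X : C.Gpd), GHom (edgeGSet r (C.gs X)) (edgeGSet r (C.gs (O.model X))) :=
    fun X => edgeMap r (δY X)
  have ed0 : ∀ (X : C.Gpd) (i : ℕ) (e : ECell r (C.gs X) i),
      (edgeMap r (gsMap (O.evHom0 X).hom)).app i ((ed X).app i e) = e := fun X i e =>
    ECell.ext' ((O.evHom0_cIn X _ _).trans (hδ X _ _).1) fun _ =>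
      Prod.ext ((O.evHom0_cIn X _ _).trans (hδ X _ _).1) ((O.evHom0_cIn X _ _).trans (hδ X _ _).1)
  have ed1 : ∀ (X : C.Gpd) (i : ℕ) (e : ECell r (C.gs X) i),
      (edgeMap r (gsMap (O.evHom1 X).hom)).app i ((ed X).app i e) = e := fun X i e =>
    ECell.ext' ((O.evHom1_cIn X _ _).trans (hδ X _ _).2) fun _ =>
      Prod.ext ((O.evHom1_cIn X _ _).trans (hδ X _ _).2) ((O.evHom1_cIn X _ _).trans (hδ X _ _).2)
  have hz0 : ∀ (X : C.Gpd) (i : ℕ) (x : ((cyl C (d + 1) r).obj X).cell i),
      ((cyl C d (r + 1)).e0 X).app i x.1.2 = (gsMap (O.evHom0 X).hom).app i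
        (C.conjE (O.model X) r i ((ed X).app i x.1.1)) := fun X i x => by
    rw [C.conjHom_natural, ed0]
    exact x.2.symm
  have hz1 : ∀ (X : C.Gpd) (i : ℕ) (x : ((cyl C (d + 1) r).obj X).cell i),
      ((cyl C d (r + 1)).e0 X).app i ((δ.hom X).app i (C.conjE X r i x.1.1))
        = (gsMap (O.evHom1 X).hom).app i
          (C.conjE (O.model X) r i ((ed X).app i x.1.1)) := fun X i x => by
    rw [C.conjHom_natural, ed1]
    exact (hδ X i _).1
  let ηH : ∀ X : C.Gpd,
      GHomLE ((cyl C (d + 1) r).obj X) ((cyl C (d + 1) r).obj (O.model X)) n := fun X =>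
    { app := fun i hi x =>
        let v := cylL C d (r + 1) (O.liftPair X) i (lt_of_le_of_lt hi hn) _ x.1.2
          ((δ.hom X).app i (C.conjE X r i x.1.1)) (hz0 X i x) (hz1 X i x)
        ⟨((ed X).app i x.1.1, v.1), v.2.1.symm⟩
      app_s := fun i hi x => Subtype.ext (Prod.ext ((ed X).app_s i x.1.1) (by
        refine (cylL_faces C d (r + 1) _ i (lt_of_le_of_lt hi hn) _ _ _ _ _).1.trans ?_
        exact cylL_congr _ _ (((C.conjHom _ r).app_s i _).trans
          (congrArg (C.conjE _ r i) ((ed X).app_s i x.1.1))) rfl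
          (((δ.hom X).app_s i _).trans
            (congrArg ((δ.hom X).app i) ((C.conjHom X r).app_s i x.1.1))) _ _ _ _))
      app_t := fun i hi x => Subtype.ext (Prod.ext ((ed X).app_t i x.1.1) (by
        refine (cylL_faces C d (r + 1) _ i (lt_of_le_of_lt hi hn) _ _ _ _ _).2.trans ?_
        exact cylL_congr _ _ (((C.conjHom _ r).app_t i _).trans
          (congrArg (C.conjE _ r i) ((ed X).app_t i x.1.1))) rfl
          (((δ.hom X).app_t i _).trans
            (congrArg ((δ.hom X).app i) ((C.conjHom X r).app_t i x.1.1))) _ _ _ _)) }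
  have h0 := rel_transport O htr hn (R := (cyl C (d + 1) r).toGFun.barF S)
    (fun X p => (ηH X).bar S hS p) ?_ (Nat'.idNat _) (Nat'.comp (τ.barN S) (Γ.barN S)) ?_ ?_
    A B hAB h1
  · exact h0
  · intro X Y f p
    show ((cyl C (d + 1) r).map (O.mapHom f)).bar S ((ηH X).bar S hS p)
      = (ηH Y).bar S hS (((cyl C (d + 1) r).map f).bar S p)
    rw [← GHom.toLE_bar ((cyl C (d + 1) r).map (O.mapHom f)) S hS,
      ← GHom.toLE_bar ((cyl C (d + 1) r).map f) S hS, ← GHomLE.bar_comp, ← GHomLE.bar_comp]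
    refine GHomLE.bar_congr _ _ (fun i hi x => ?_) S hS p
    have he : (edgeMap r (gsMap (O.mapHom f).hom)).app i ((ed X).app i x.1.1)
        = (ed Y).app i ((edgeMap r (gsMap f.hom)).app i x.1.1) := by
      refine ECell.ext' ?_ fun h => Prod.ext ?_ ?_ <;>
        exact (O.cIn_natural f _ _).trans (congrArg ((O.cIn Y).app _) (δ.nat f _ _))
    refine Subtype.ext (Prod.ext he ?_)
    refine (cylL_natural C d (r + 1) _ _ _ _ (O.liftPair_commutes f) i (lt_of_le_of_lt hi hn)
      _ _ _ (hz0 X i x) (hz1 X i x)).trans ?_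
    exact cylL_congr _ _ ((C.conjHom_natural _ r i _).trans (congrArg (C.conjE _ r i) he)) rfl
      ((δ.nat f i _).trans (congrArg ((δ.hom Y).app i) (C.conjHom_natural f r i _))) _ _ _ _
  · intro X p
    show ((cyl C (d + 1) r).map (O.evHom0 X)).bar S ((ηH X).bar S hS p) = p
    rw [← GHom.toLE_bar ((cyl C (d + 1) r).map (O.evHom0 X)) S hS, ← GHomLE.bar_comp]
    refine (GHomLE.bar_congr _ ((GHom.id _).toLE n) (fun i hi x => ?_) S hS p).trans
      ((GHom.toLE_bar _ S hS p).trans (GHom.bar_id S p))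
    exact Subtype.ext (Prod.ext (ed0 X i _)
      (cylL C d (r + 1) (O.liftPair X) i (lt_of_le_of_lt hi hn) _ _ _ (hz0 X i x) (hz1 X i x)).2.2.1)
  · intro X p
    show ((cyl C (d + 1) r).map (O.evHom1 X)).bar S ((ηH X).bar S hS p)
      = (Γ.hom X).bar S ((τ.hom X).bar S p)
    rw [← GHom.toLE_bar ((cyl C (d + 1) r).map (O.evHom1 X)) S hS, ← GHomLE.bar_comp]
    refine (GHomLE.bar_congr _ (((τ.hom X).comp (Γ.hom X)).toLE n) (fun i hi x => ?_) S hS
      p).trans ((GHom.toLE_bar _ S hS p).trans (GHom.bar_comp _ _ S p))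
    exact Subtype.ext (Prod.ext (ed1 X i _)
      (cylL C d (r + 1) (O.liftPair X) i (lt_of_le_of_lt hi hn) _ _ _ (hz0 X i x) (hz1 X i x)).2.2.2)

/-- Tuples of shapes below the level are tuples of cells. -/
theorem hasFill_lowBar (C : Coherator) (d r : ℕ) (S : GSum) (n : ℕ) (hS : S.dim ≤ n)
    (hn : n < r) : HasFill ((cyl C d r).toGFun.barF S) n := by
  let low : ∀ X : C.Gpd, GHomLE (C.gs X) ((cyl C d r).obj X) n := fun X =>
    { app := fun i hi a => lowCell (lt_of_le_of_lt hi hn) X a
      app_s := fun i hi a => low_ext (C := C) (d := d) (r := r) (by omega : i < r)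
        (by rw [← ((cyl C d r).e0 X).app_s, e0_lowCell, e0_lowCell])
      app_t := fun i hi a => low_ext (C := C) (d := d) (r := r) (by omega : i < r)
        (by rw [← ((cyl C d r).e0 X).app_t, e0_lowCell, e0_lowCell]) }
  let e : Nat' ((cyl C d r).toGFun.barF S) (barT C S) :=
    { app := fun X p => ((cyl C d r).e0 X).bar S p
      nat := fun {X Y} f p => by
        show (gsMap f.hom).bar S (((cyl C d r).e0 X).bar S p)
          = ((cyl C d r).e0 Y).bar S (((cyl C d r).map f).bar S p)
        rw [← GHom.bar_comp, ← GHom.bar_comp]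
        exact GHomLE.bar_congr _ _ (fun i _ a => (cyl C d r).nat0 f i a) S le_rfl p }
  let l : Nat' (barT C S) ((cyl C d r).toGFun.barF S) :=
    { app := fun X p => (low X).bar S hS p
      nat := fun {X Y} f p => by
        show ((cyl C d r).map f).bar S ((low X).bar S hS p)
          = (low Y).bar S hS ((gsMap f.hom).bar S p)
        rw [← GHom.toLE_bar ((cyl C d r).map f) S hS, ← GHom.toLE_bar (gsMap f.hom) S hS,
          ← GHomLE.bar_comp, ← GHomLE.bar_comp]
        exact GHomLE.bar_congr _ _ (fun i hi a => map_lowCell (lt_of_le_of_lt hi hn) f a) S hS p }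
  refine (hasFill_barT C S n (hS.trans n.le_succ)).of_retract e l fun X p => ?_
  show (low X).bar S hS (((cyl C d r).e0 X).bar S p) = p
  rw [← GHom.toLE_bar ((cyl C d r).e0 X) S hS, ← GHomLE.bar_comp]
  refine (GHomLE.bar_congr _ ((GHom.id _).toLE n) (fun i hi a => ?_) S hS p).trans
    ((GHom.toLE_bar _ S hS p).trans (GHom.bar_id S p))
  exact low_ext (C := C) (d := d) (r := r) (lt_of_le_of_lt hi hn)
    (e0_lowCell (lt_of_le_of_lt hi hn) X _)

end Vale.Agent.P259
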