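import Vale.Agent.P259.CylLayout
import Vale.Agent.P259.CylTransfer

/-!
# P259: fillers and operations for every stage of the tower of cylinders
-/

open CategoryTheory Opposite

namespace Vale.Agent.P259

variable {C : Coherator}

/-- Natural fillers on tuples of cylinders of shapes of dimension at most `n`. -/
def FillBar (C : Coherator) (d r : ℕ) : Prop :=
  ∀ (S : GSum) (n : ℕ), S.dim ≤ n → n < r + d → HasFill ((cyl C d r).toGFun.barF S) n

theorem fillProp_cyl {d r : ℕ} (h : FillBar C d r) : FillProp (cyl C d r) := by
  intro S n hS c c' hpar a a' h1 h2 h3 h4 hlow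
  by_cases hn : r ≤ n + 1
  · exact exists_cylFill C d r n hn _ (fun hlt => h S (n + 1) hS hlt) c c' hpar a a' h1 h2 h3 h4
  · have hlt : n + 1 < r := by omega
    obtain rfl := hlow fun X i hi z => (cyl_low C d r i (lt_of_le_of_lt hi hlt) X).1 z
    refine ⟨⟨fun X x => lowCell hlt X (a.app X x),
      fun f x => (map_lowCell hlt f _).trans (congrArg _ (a.nat f x))⟩, ?_, ?_,
      Fam.ext_app fun X x => e0_lowCell hlt X _, Fam.ext_app fun X x => e1_lowCell hlt X _⟩
    · refine Nat'.ext (funext fun X => funext fun x =>
        low_ext (C := C) (d := d) (r := r) (X := X) (by omega : n < r) ?_)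
      refine ((((cyl C d r).e0 X).app_s n _).symm.trans
        (congrArg (C.gs X).s (e0_lowCell hlt X _))).trans ?_
      exact congrFun (congrFun (congrArg Nat'.app h1) X) x
    · refine Nat'.ext (funext fun X => funext fun x =>
        low_ext (C := C) (d := d) (r := r) (X := X) (by omega : n < r) ?_)
      refine ((((cyl C d r).e0 X).app_t n _).symm.trans
        (congrArg (C.gs X).t (e0_lowCell hlt X _))).trans ?_
      exact congrFun (congrFun (congrArg Nat'.app h2) X) x

theorem fillBar_and_tr (C : Coherator) : ∀ d r, FillBar C d r ∧ TrProp C d r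
  | 0, r => ⟨fun S n hS hn => hasFill_lowBar C 0 r S n hS (by omega), tr_zero C r⟩
  | d + 1, r => by
      obtain ⟨hfill, htr⟩ := fillBar_and_tr C d (r + 1)
      obtain ⟨O⟩ := exists_gops (cyl C d (r + 1)) (fillProp_cyl hfill)
      refine ⟨fun S n hS hn => ?_, tr_succ C d r htr (HopData.mk' C d r O)⟩
      by_cases hrn : r ≤ n
      · obtain ⟨T, ρ, σ, hT, hρσ⟩ := exists_normBack_factor C r S
        exact hasFill_stepBar O htr S n hS (by omega)
          (hasFill_edgeBar O htr S n hS hrn (by omega) hT ρ σ hρσ)
      · exact hasFill_lowBar C (d + 1) r S n hS (by omega)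

/-- Every stage of the tower carries operations. -/
theorem exists_cylOps (C : Coherator) (d r : ℕ) : Nonempty (GOps (cyl C d r)) :=
  exists_gops _ (fillProp_cyl (fillBar_and_tr C d r).1)

end Vale.Agent.P259
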