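import Vale.Agent.P259.CylPathCells
import Vale.Agent.P259.CylInfLift

/-!
# P259: the path object of a coherator
-/

open CategoryTheory Opposite

namespace Vale.Agent.P259

variable {C : Coherator}

/-- A lifting operation on a pair of maps, in all dimensions. -/
noncomputable def PairLift.toLiftPair {W X : C.Gpd} {π0 π1 : W ⟶ X} (L : PairLift π0 π1) :
    LiftPair 0 π0 π1 where
  lift n _ y f0 f1 h0 h1 := L.lift n y f0 f1 h0 h1
  lift_s n _ y f0 f1 h0 h1 := L.lift_src n y f0 f1 h0 h1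
  lift_π0 n _ y f0 f1 h0 h1 := L.lift_π0 n y f0 f1 h0 h1
  lift_π1 n _ y f0 f1 h0 h1 := L.lift_π1 n y f0 f1 h0 h1

theorem PairLift.Commutes.toLiftPair {W X W' X' : C.Gpd} {π0 π1 : W ⟶ X} {π0' π1' : W' ⟶ X'}
    {L : PairLift π0 π1} {L' : PairLift π0' π1'} {w : W ⟶ W'} {f : X ⟶ X'}
    (h : L.Commutes L' w f) : L.toLiftPair.Commutes L'.toLiftPair w f where
  comm0 n a := congrArg (fun φ : W ⟶ X' => (gsMap φ.hom).app n a) h.1
  comm1 n a := congrArg (fun φ : W ⟶ X' => (gsMap φ.hom).app n a) h.2.1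
  lift n _ y f0 f1 h0 h1 h0' h1' := h.2.2 n y f0 f1 h0 h1 h0' h1'

/-! ### Reversal -/

/-- The lifts through the endpoints of cylinders. -/
noncomputable def pathLiftPair (C : Coherator) (X : C.Gpd) :
    LiftPair 0 (C.cylEv0.app X) (C.cylEv1.app X) :=
  (pathPairLiftData C X).toLiftPair

/-- The degenerate cylinder on the first endpoint, as a cell of the groupoid. -/
noncomputable def revBase (C : Coherator) (X : C.Gpd) :
    GHom ((cylInf C).obj X) (C.gs (C.pathFunctor.obj X)) :=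
  (((cylInf C).e0 X).comp (C.infDeg.hom X)).comp (C.pathOps.cIn X)

theorem revBase_ev0 (C : Coherator) (X : C.Gpd) (i : ℕ) (x : ((cylInf C).obj X).cell i) :
    (gsMap (C.cylEv0.app X).hom).app i ((revBase C X).app i x) = ((cylInf C).e0 X).app i x :=
  (C.pathOps.evHom0_cIn X i _).trans (C.infDeg_e0 X i _)

theorem revBase_ev1 (C : Coherator) (X : C.Gpd) (i : ℕ) (x : ((cylInf C).obj X).cell i) :
    (gsMap (C.cylEv1.app X).hom).app i ((revBase C X).app i x) = ((cylInf C).e0 X).app i x :=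
  (C.pathOps.evHom1_cIn X i _).trans (C.infDeg_e1 X i _)

/-- The square of cylinders giving the reversal. -/
noncomputable def revSquare (C : Coherator) (X : C.Gpd) (i : ℕ)
    (x : ((cylInf C).obj X).cell i) :
    {v : ((cylInf C).obj (C.pathFunctor.obj X)).cell i //
      ((cylInf C).e0 (C.pathFunctor.obj X)).app i v = (revBase C X).app i x ∧
      ((cylInf C).map (C.cylEv0.app X)).app i v = x ∧
      ((cylInf C).map (C.cylEv1.app X)).app i v
        = (C.infDeg.hom X).app i (((cylInf C).e0 X).app i x)} :=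
  infL (pathLiftPair C X) i ((revBase C X).app i x) x
    ((C.infDeg.hom X).app i (((cylInf C).e0 X).app i x)) (revBase_ev0 C X i x).symm
    ((C.infDeg_e0 X i _).trans (revBase_ev1 C X i x).symm)

theorem revSquare_s (C : Coherator) (X : C.Gpd) (i : ℕ) (x : ((cylInf C).obj X).cell (i + 1)) :
    ((cylInf C).obj (C.pathFunctor.obj X)).s (revSquare C X (i + 1) x).1
      = (revSquare C X i (((cylInf C).obj X).s x)).1 :=
  (infL_s _ i _ _ _ _ _).trans (infL_congr _ ((revBase C X).app_s i x) rfl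
    ((((cylInf C).e0 X).comp (C.infDeg.hom X)).app_s i x) _ _ _ _)

theorem revSquare_t (C : Coherator) (X : C.Gpd) (i : ℕ) (x : ((cylInf C).obj X).cell (i + 1)) :
    ((cylInf C).obj (C.pathFunctor.obj X)).t (revSquare C X (i + 1) x).1
      = (revSquare C X i (((cylInf C).obj X).t x)).1 :=
  (infL_t _ i _ _ _ _ _).trans (infL_congr _ ((revBase C X).app_t i x) rfl
    ((((cylInf C).e0 X).comp (C.infDeg.hom X)).app_t i x) _ _ _ _)

/-- Reversal of cylinders. -/
noncomputable def pathRev (C : Coherator) (X : C.Gpd) :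
    GHom ((cylInf C).obj X) ((cylInf C).obj X) :=
  ({ app := fun i x => (revSquare C X i x).1
     app_s := revSquare_s C X
     app_t := revSquare_t C X } :
    GHom ((cylInf C).obj X) ((cylInf C).obj (C.pathFunctor.obj X))).comp
    (((cylInf C).e1 (C.pathFunctor.obj X)).comp (C.pathOps.cOut X))

theorem pathRev_spec (C : Coherator) (X : C.Gpd) (i : ℕ) (x : ((cylInf C).obj X).cell i) :
    ((cylInf C).e0 X).app i ((pathRev C X).app i x) = ((cylInf C).e1 X).app i x ∧
      ((cylInf C).e1 X).app i ((pathRev C X).app i x) = ((cylInf C).e0 X).app i x := by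
  have hv1 := (revSquare C X i x).2.2.1
  have hv2 := (revSquare C X i x).2.2.2
  constructor
  · refine (C.pathOps.evHom0_cIn X i _).symm.trans ?_
    refine ((cylInf C).nat1 (C.cylEv0.app X) i _).trans ?_
    exact congrArg (((cylInf C).e1 X).app i) hv1
  · refine (C.pathOps.evHom1_cIn X i _).symm.trans ?_
    refine ((cylInf C).nat1 (C.cylEv1.app X) i _).trans ?_
    exact (congrArg (((cylInf C).e1 X).app i) hv2).trans (C.infDeg_e1 X i _)

theorem pathEv1_trivFib (C : Coherator) (X : C.Gpd) : IsTrivFib (C.cylEv1.app X) :=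
  pathEv1_trivFib_of_rev C X (pathRev C X) (pathRev_spec C X)

/-! ### Lifts of cylinders at sums -/

theorem ev0_mapAt (C : Coherator) (X : C.Gpd) (S : GSum)
    (z : (C.pathFunctor.obj X).obj.obj (op ⟨S⟩)) :
    C.barEquiv X S (C.mapAt (C.cylEv0.app X) S z) = ((cylInf C).e0 X).bar S z :=
  Equiv.apply_symm_apply _ _

theorem mapAt_barEquiv {W X : C.Gpd} (π : W ⟶ X) (S : GSum) (y : W.obj.obj (op ⟨S⟩)) :
    (gsMap π.hom).bar S (C.barEquiv W S y) = C.barEquiv X S (C.mapAt π S y) :=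
  toBar_natural π.hom S y

theorem cylLift_hyp {W X : C.Gpd} (π : W ⟶ X) (S : GSum) (y : W.obj.obj (op ⟨S⟩))
    (z : (C.pathFunctor.obj X).obj.obj (op ⟨S⟩))
    (h : C.mapAt (C.cylEv0.app X) S z = C.mapAt π S y) :
    ((cylInf C).e0 X).bar S z = (gsMap π.hom).bar S (C.barEquiv W S y) := by
  rw [mapAt_barEquiv, ← h, ev0_mapAt]

/-- The lift of cylinders at a sum. -/
noncomputable def pathCylLift {W X : C.Gpd} (π0 π1 : W ⟶ X) (L : PairLift π0 π1) (S : GSum)
    (y : W.obj.obj (op ⟨S⟩)) (z0 z1 : (C.pathFunctor.obj X).obj.obj (op ⟨S⟩))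
    (h0 : C.mapAt (C.cylEv0.app X) S z0 = C.mapAt π0 S y)
    (h1 : C.mapAt (C.cylEv0.app X) S z1 = C.mapAt π1 S y) :
    (C.pathFunctor.obj W).obj.obj (op ⟨S⟩) :=
  infBarL L.toLiftPair S (C.barEquiv W S y) z0 z1 (cylLift_hyp π0 S y z0 h0)
    (cylLift_hyp π1 S y z1 h1)

/-- The path object of a coherator. -/
noncomputable def Coherator.pathData (C : Coherator) : PathData C where
  P := C.pathFunctor
  ev0 := C.cylEv0
  ev1 := C.cylEv1
  edge := pathEdge C
  edge_natural φ p := pathEdge_natural C φ p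
  ev0_edge := ev0_pathEdge C
  ev1_edge := ev1_pathEdge C
  deg X := (C.infDeg.hom X).comp (C.pathOps.cIn X)
  deg_natural φ n a :=
    (pathMap_cIn C φ n _).trans (congrArg ((C.pathOps.cIn _).app n) (C.infDeg.nat φ n a))
  ev0_deg X n a := (C.pathOps.evHom0_cIn X n _).trans (C.infDeg_e0 X n a)
  ev1_deg X n a := (C.pathOps.evHom1_cIn X n _).trans (C.infDeg_e1 X n a)
  ev0_trivFib := pathEv0_trivFib C
  ev1_trivFib := pathEv1_trivFib C
  pairLift := pathPairLiftData C
  map_trivFib φ hφ := pathMap_trivFib C φ hφ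
  cylLift π0 π1 L S y z0 z1 h0 h1 := pathCylLift π0 π1 L S y z0 z1 h0 h1
  cylLift_ev0 {W X} π0 π1 L S y z0 z1 h0 h1 := by
    apply (C.barEquiv W S).injective
    rw [ev0_mapAt]
    exact infBarL_e0 _ S _ _ _ _ _
  cylLift_π0 π0 π1 L S y z0 z1 h0 h1 := infBarL_π0 L.toLiftPair S _ z0 z1 _ _
  cylLift_π1 π0 π1 L S y z0 z1 h0 h1 := infBarL_π1 L.toLiftPair S _ z0 z1 _ _
  cylLift_natural {W X W' X' π0 π1 π0' π1'} L L' w f hc S y z0 z1 h0 h1 h0' h1' :=
    (infBarL_natural L.toLiftPair hc.toLiftPair S _ z0 z1 _ _).trans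
      (infBarL_congr _ S (mapAt_barEquiv w S y) rfl rfl _ _ _ _)

/-- Every coherator has a path object. -/
theorem exists_pathData (C : Coherator) : Nonempty (PathData C) := ⟨C.pathData⟩

end Vale.Agent.P259
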