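import Vale.Agent.P259.CylBoundary
import Vale.Agent.P259.CylInf
import Vale.Agent.P259.CylInfDeg

/-!
# P259: cells and fibration properties of the groupoid of cylinders
-/

open CategoryTheory Opposite

namespace Vale.Agent.P259

variable {C : Coherator}

theorem pathMap_cIn (C : Coherator) {X Y : C.Gpd} (f : X ⟶ Y) (n : ℕ)
    (a : ((cylInf C).obj X).cell n) :
    C.mapCell (C.pathFunctor.map f) n ((C.pathOps.cIn X).app n a)
      = (C.pathOps.cIn Y).app n (((cylInf C).map f).app n a) :=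
  C.pathOps.cIn_natural f n a

theorem ev0_cell (C : Coherator) (X : C.Gpd) (n : ℕ) (p : C.cells (C.pathFunctor.obj X) n) :
    C.mapCell (C.cylEv0.app X) n p = ((cylInf C).e0 X).app n ((C.pathOps.cOut X).app n p) :=
  C.pathOps.evHom0_cIn X n ((C.pathOps.cOut X).app n p)

theorem ev1_cell (C : Coherator) (X : C.Gpd) (n : ℕ) (p : C.cells (C.pathFunctor.obj X) n) :
    C.mapCell (C.cylEv1.app X) n p = ((cylInf C).e1 X).app n ((C.pathOps.cOut X).app n p) :=
  C.pathOps.evHom1_cIn X n ((C.pathOps.cOut X).app n p)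

theorem path_cell_ext (C : Coherator) (X : C.Gpd) (n : ℕ)
    {p q : C.cells (C.pathFunctor.obj X) n}
    (h : (C.pathOps.cOut X).app n p = (C.pathOps.cOut X).app n q) : p = q := by
  have := congrArg ((C.pathOps.cIn X).app n) h
  exact this

/-! ### Zero-cells are edges -/

/-- A cylinder of dimension zero from a one-cell. -/
noncomputable def edgeCell (X : C.Gpd) (u : (C.gs X).cell 1) : ((cylInf C).obj X).cell 0 :=
  ⟨(⟨((C.gs X).s u, fun _ => (u, u)),
      fun _ => ⟨((C.gs X).sIter_self _).symm, ((C.gs X).tIter_self _).symm, fun _ => rfl⟩⟩,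
    lowCell (d := 0) Nat.zero_lt_one X ((C.gs X).t u)),
    (C.conjE_eq X _).trans (e0_lowCell (d := 0) Nat.zero_lt_one X _).symm⟩

theorem edgeCell_u (X : C.Gpd) (x : ((cylInf C).obj X).cell 0) :
    edgeCell X (x.1.1.1.2 le_rfl).1 = x := by
  have hs : (C.gs X).s (x.1.1.1.2 le_rfl).1 = x.1.1.1.1 :=
    (x.1.1.2 le_rfl).1.trans ((C.gs X).sIter_self _)
  refine Subtype.ext (Prod.ext (ECell.ext' hs fun h => Prod.ext rfl ((x.1.1.2 h).2.2 rfl)) ?_)
  refine low_ext (C := C) (d := 0) (r := 1) (X := X) Nat.zero_lt_one ?_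
  exact (e0_lowCell (d := 0) Nat.zero_lt_one X _).trans ((C.conjE_eq X _).symm.trans x.2)

theorem edgeCell_e1 (X : C.Gpd) (x : ((cylInf C).obj X).cell 0) :
    ((cylInf C).e1 X).app 0 x = (C.gs X).t (x.1.1.1.2 le_rfl).1 :=
  (((cyl_low C 0 1 0 Nat.zero_lt_one X).1 x.1.2).symm.trans x.2.symm).trans (C.conjE_eq X _)

/-- Zero-cells of the groupoid of cylinders are one-cells. -/
noncomputable def pathEdge (C : Coherator) (X : C.Gpd) :
    C.cells (C.pathFunctor.obj X) 0 ≃ C.cells X 1 where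
  toFun p := (((C.pathOps.cOut X).app 0 p).1.1.1.2 le_rfl).1
  invFun u := (C.pathOps.cIn X).app 0 (edgeCell X u)
  left_inv p := path_cell_ext C X 0 (edgeCell_u X _)
  right_inv _ := rfl

theorem pathEdge_natural (C : Coherator) {X Y : C.Gpd} (φ : X ⟶ Y)
    (p : C.cells (C.pathFunctor.obj X) 0) :
    pathEdge C Y (C.mapCell (C.pathFunctor.map φ) 0 p) = C.mapCell φ 1 (pathEdge C X p) := rfl

theorem ev0_pathEdge (C : Coherator) (X : C.Gpd) (p : C.cells (C.pathFunctor.obj X) 0) :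
    C.mapCell (C.cylEv0.app X) 0 p = act X.obj (C.ext.src 0) (pathEdge C X p) := by
  rw [ev0_cell]
  exact ((((C.pathOps.cOut X).app 0 p).1.1.2 le_rfl).1.trans ((C.gs X).sIter_self _)).symm

theorem ev1_pathEdge (C : Coherator) (X : C.Gpd) (p : C.cells (C.pathFunctor.obj X) 0) :
    C.mapCell (C.cylEv1.app X) 0 p = act X.obj (C.ext.tgt 0) (pathEdge C X p) := by
  rw [ev1_cell, edgeCell_e1]
  rfl

/-! ### Degenerate cylinders -/

/-- The chosen degenerate cylinders. -/
noncomputable def Coherator.infDeg (C : Coherator) : GNat (selfF C) (cylInf C).toGFun :=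
  (exists_infDeg C).choose

theorem Coherator.infDeg_e0 (C : Coherator) (X : C.Gpd) (n : ℕ) (a : (C.gs X).cell n) :
    ((cylInf C).e0 X).app n ((C.infDeg.hom X).app n a) = a :=
  ((exists_infDeg C).choose_spec X n a).1

theorem Coherator.infDeg_e1 (C : Coherator) (X : C.Gpd) (n : ℕ) (a : (C.gs X).cell n) :
    ((cylInf C).e1 X).app n ((C.infDeg.hom X).app n a) = a :=
  ((exists_infDeg C).choose_spec X n a).2

/-! ### Lifts and trivial fibrations -/

theorem path_src (C : Coherator) (X : C.Gpd) (n : ℕ) (q : ((cylInf C).obj X).cell (n + 1)) :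
    act (C.pathFunctor.obj X).obj (C.ext.src n) ((C.pathOps.cIn X).app (n + 1) q)
      = (C.pathOps.cIn X).app n (((cylInf C).obj X).s q) :=
  (C.pathOps.cIn X).app_s n q

theorem path_tgt (C : Coherator) (X : C.Gpd) (n : ℕ) (q : ((cylInf C).obj X).cell (n + 1)) :
    act (C.pathFunctor.obj X).obj (C.ext.tgt n) ((C.pathOps.cIn X).app (n + 1) q)
      = (C.pathOps.cIn X).app n (((cylInf C).obj X).t q) :=
  (C.pathOps.cIn X).app_t n q

/-- The lifts through both endpoints. -/
noncomputable def pathPairLiftData (C : Coherator) (X : C.Gpd) :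
    PairLift (C.cylEv0.app X) (C.cylEv1.app X) where
  lift n y f0 f1 h0 h1 := (C.pathOps.cIn X).app (n + 1)
    (C.infLift X n ((C.pathOps.cOut X).app n y) f0 f1 (h0.trans (ev0_cell C X n y))
      (h1.trans (ev1_cell C X n y)))
  lift_src n y f0 f1 h0 h1 :=
    (path_src C X n _).trans (congrArg ((C.pathOps.cIn X).app n) (C.infLift_s X n _
      f0 f1 (h0.trans (ev0_cell C X n y)) (h1.trans (ev1_cell C X n y))))
  lift_π0 n y f0 f1 h0 h1 := (ev0_cell C X _ _).trans (C.infLift_e0 X n _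
      f0 f1 (h0.trans (ev0_cell C X n y)) (h1.trans (ev1_cell C X n y)))
  lift_π1 n y f0 f1 h0 h1 := (ev1_cell C X _ _).trans (C.infLift_e1 X n _
      f0 f1 (h0.trans (ev0_cell C X n y)) (h1.trans (ev1_cell C X n y)))

theorem path_par (C : Coherator) (X : C.Gpd) {n : ℕ} {a b : C.cells (C.pathFunctor.obj X) n}
    (h : (C.gs (C.pathFunctor.obj X)).Par a b) :
    ((cylInf C).obj X).Par ((C.pathOps.cOut X).app n a) ((C.pathOps.cOut X).app n b) :=
  (C.pathOps.cOut X).par h

theorem pathEv0_trivFib (C : Coherator) (X : C.Gpd) : IsTrivFib (C.cylEv0.app X) := by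
  refine ⟨fun a => ⟨(C.pathOps.cIn X).app 0 ((C.infDeg.hom X).app 0 a),
    (ev0_cell C X 0 _).trans (C.infDeg_e0 X 0 a)⟩, fun n a b h hpar hs ht => ?_⟩
  obtain ⟨q, q1, q2, q3⟩ := exists_inf_forward C X n _ _ (path_par C X hpar) h
    (hs.trans (ev0_cell C X n a)) (ht.trans (ev0_cell C X n b))
  exact ⟨(C.pathOps.cIn X).app (n + 1) q, (path_src C X n q).trans (congrArg _ q1),
    (path_tgt C X n q).trans (congrArg _ q2), (ev0_cell C X _ _).trans q3⟩

theorem pathEv1_trivFib_of_rev (C : Coherator) (X : C.Gpd)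
    (rev : GHom ((cylInf C).obj X) ((cylInf C).obj X))
    (hrev : ∀ i x, ((cylInf C).e0 X).app i (rev.app i x) = ((cylInf C).e1 X).app i x ∧
      ((cylInf C).e1 X).app i (rev.app i x) = ((cylInf C).e0 X).app i x) :
    IsTrivFib (C.cylEv1.app X) := by
  refine ⟨fun a => ⟨(C.pathOps.cIn X).app 0 ((C.infDeg.hom X).app 0 a),
    (ev1_cell C X 0 _).trans (C.infDeg_e1 X 0 a)⟩, fun n a b h hpar hs ht => ?_⟩
  obtain ⟨q, q1, q2, q3⟩ := inf_backward C X rev hrev (exists_inf_forward C X) n _ _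
    (path_par C X hpar) h (hs.trans (ev1_cell C X n a)) (ht.trans (ev1_cell C X n b))
  exact ⟨(C.pathOps.cIn X).app (n + 1) q, (path_src C X n q).trans (congrArg _ q1),
    (path_tgt C X n q).trans (congrArg _ q2), (ev1_cell C X _ _).trans q3⟩

theorem pathMap_trivFib (C : Coherator) {X Y : C.Gpd} (φ : X ⟶ Y) (hφ : IsTrivFib φ) :
    IsTrivFib (C.pathFunctor.map φ) := by
  refine ⟨fun h => ?_, fun n a b h hpar hs ht => ?_⟩
  · obtain ⟨q, hq⟩ := exists_inf_over_zero C φ hφ ((C.pathOps.cOut Y).app 0 h)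
    exact ⟨(C.pathOps.cIn X).app 0 q, path_cell_ext C Y 0 hq⟩
  · obtain ⟨q, q1, q2, q3⟩ := exists_inf_over C φ hφ n _ _ (path_par C X hpar)
      ((C.pathOps.cOut Y).app (n + 1) h)
      (((C.pathOps.cOut Y).app_s n h).trans (congrArg ((C.pathOps.cOut Y).app n) hs))
      (((C.pathOps.cOut Y).app_t n h).trans (congrArg ((C.pathOps.cOut Y).app n) ht))
    exact ⟨(C.pathOps.cIn X).app (n + 1) q, (path_src C X n q).trans (congrArg _ q1),
      (path_tgt C X n q).trans (congrArg _ q2), path_cell_ext C Y _ q3⟩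

end Vale.Agent.P259
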