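import Mathlib

/-!
# P259: globular extensions, coherators, infinity-groupoids, disc functors

Definitions used in the statement of the Grothendieck homotopy hypothesis.
-/

open CategoryTheory Opposite

namespace Vale.Agent.P259

/-- Raw tables of dimensions: `snoc S j i` glues a disc of dimension `i` to the last disc of `S`
along `D_j`. -/
inductive Tbl : Type
  | disc (n : ℕ)
  | snoc (S : Tbl) (j i : ℕ)

namespace Tbl

def last : Tbl → ℕ
  | .disc n => n
  | .snoc _ _ i => i

def dim : Tbl → ℕ
  | .disc n => n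
  | .snoc S _ i => max S.dim i

def Valid : Tbl → Prop
  | .disc _ => True
  | .snoc S j i => S.Valid ∧ j < S.last ∧ j < i

end Tbl

/-- A globular sum `D_{i_1} ⨿_{D_{j_1}} ... ⨿_{D_{j_{k-1}}} D_{i_k}`, given by its table. -/
structure GSum where
  tbl : Tbl
  valid : tbl.Valid

namespace GSum

abbrev last (S : GSum) : ℕ := S.tbl.last

abbrev dim (S : GSum) : ℕ := S.tbl.dim

/-- The globular sum `D_n`. -/
def disc (n : ℕ) : GSum := ⟨.disc n, trivial⟩

/-- The globular sum `S ⨿_{D_j} D_i`. -/
def snoc (S : GSum) (j i : ℕ) (hS : j < S.last) (hi : j < i) : GSum :=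
  ⟨.snoc S.tbl j i, ⟨S.valid, hS, hi⟩⟩

end GSum

/-- The data of a category with objects the globular sums, with coglobular maps and with
cocones on the pushouts defining the globular sums. -/
structure PreExt where
  Hom : GSum → GSum → Type
  id : ∀ S, Hom S S
  comp : ∀ {R S T}, Hom R S → Hom S T → Hom R T
  src : ∀ n, Hom (GSum.disc n) (GSum.disc (n + 1))
  tgt : ∀ n, Hom (GSum.disc n) (GSum.disc (n + 1))
  inl : ∀ (S : GSum) (j i : ℕ) (hS : j < S.last) (hi : j < i), Hom S (S.snoc j i hS hi)
  inr : ∀ (S : GSum) (j i : ℕ) (hS : j < S.last) (hi : j < i),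
    Hom (GSum.disc i) (S.snoc j i hS hi)

namespace PreExt

variable (E : PreExt)

/-- Iterated source `D_j → D_i`. -/
def srcIter {j i : ℕ} (h : j ≤ i) : E.Hom (GSum.disc j) (GSum.disc i) :=
  Nat.leRecOn h (fun {k} (f : E.Hom (GSum.disc j) (GSum.disc k)) => E.comp f (E.src k))
    (E.id (GSum.disc j))

/-- Iterated target `D_j → D_i`. -/
def tgtIter {j i : ℕ} (h : j ≤ i) : E.Hom (GSum.disc j) (GSum.disc i) :=
  Nat.leRecOn h (fun {k} (f : E.Hom (GSum.disc j) (GSum.disc k)) => E.comp f (E.tgt k))
    (E.id (GSum.disc j))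

/-- The inclusion of the last disc of a globular sum. -/
def lastIncl : ∀ S : GSum, E.Hom (GSum.disc S.last) S
  | ⟨.disc n, _⟩ => E.id (GSum.disc n)
  | ⟨.snoc t j i, h⟩ => E.inr ⟨t, h.1⟩ j i h.2.1 h.2.2

/-- The map `D_j → S` along which `D_i` is glued in `S ⨿_{D_j} D_i`. -/
def glueMap (S : GSum) {j : ℕ} (hS : j < S.last) : E.Hom (GSum.disc j) S :=
  E.comp (E.tgtIter hS.le) (E.lastIncl S)

/-- Two maps `D_n → S` are parallel. -/
def Parallel : ∀ {n : ℕ} {S : GSum},
    E.Hom (GSum.disc n) S → E.Hom (GSum.disc n) S → Prop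
  | 0, _, _, _ => True
  | n + 1, _, f, g => E.comp (E.src n) f = E.comp (E.src n) g ∧
      E.comp (E.tgt n) f = E.comp (E.tgt n) g

/-- `h` is a lift of the pair `(f, g)`. -/
def IsLift {n : ℕ} {S : GSum} (f g : E.Hom (GSum.disc n) S)
    (h : E.Hom (GSum.disc (n + 1)) S) : Prop :=
  E.comp (E.src n) h = f ∧ E.comp (E.tgt n) h = g

end PreExt

/-- A globular extension: a category with a bijective-on-objects functor from globular sums
preserving globular sums. -/
structure GlobExt extends PreExt where
  id_comp : ∀ {R S} (f : Hom R S), comp (id R) f = f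
  comp_id : ∀ {R S} (f : Hom R S), comp f (id S) = f
  assoc : ∀ {Q R S T} (f : Hom Q R) (g : Hom R S) (h : Hom S T),
    comp (comp f g) h = comp f (comp g h)
  src_src : ∀ n, comp (src n) (src (n + 1)) = comp (src n) (tgt (n + 1))
  tgt_src : ∀ n, comp (tgt n) (src (n + 1)) = comp (tgt n) (tgt (n + 1))
  sum_comm : ∀ (S : GSum) (j i : ℕ) (hS : j < S.last) (hi : j < i),
    comp (toPreExt.glueMap S hS) (inl S j i hS hi)
      = comp (toPreExt.srcIter hi.le) (inr S j i hS hi)
  sum_univ : ∀ (S : GSum) (j i : ℕ) (hS : j < S.last) (hi : j < i) (T : GSum)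
    (u : Hom S T) (v : Hom (GSum.disc i) T),
    comp (toPreExt.glueMap S hS) u = comp (toPreExt.srcIter hi.le) v →
      ∃! w : Hom (S.snoc j i hS hi) T, comp (inl S j i hS hi) w = u ∧
        comp (inr S j i hS hi) w = v

/-- A morphism of globular extensions: a functor under the category of globular sums. -/
@[ext]
structure GMor (E F : GlobExt) where
  map : ∀ {R S}, E.Hom R S → F.Hom R S
  map_id : ∀ S, map (E.id S) = F.id S
  map_comp : ∀ {R S T} (f : E.Hom R S) (g : E.Hom S T),
    map (E.comp f g) = F.comp (map f) (map g)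
  map_src : ∀ n, map (E.src n) = F.src n
  map_tgt : ∀ n, map (E.tgt n) = F.tgt n
  map_inl : ∀ S j i hS hi, map (E.inl S j i hS hi) = F.inl S j i hS hi
  map_inr : ∀ S j i hS hi, map (E.inr S j i hS hi) = F.inr S j i hS hi

/-- Composition of morphisms of globular extensions. -/
def GMor.comp {E F G : GlobExt} (φ : GMor E F) (ψ : GMor F G) : GMor E G where
  map f := ψ.map (φ.map f)
  map_id S := by rw [φ.map_id, ψ.map_id]
  map_comp f g := by rw [φ.map_comp, ψ.map_comp]
  map_src n := by rw [φ.map_src, ψ.map_src]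
  map_tgt n := by rw [φ.map_tgt, ψ.map_tgt]
  map_inl S j i hS hi := by rw [φ.map_inl, ψ.map_inl]
  map_inr S j i hS hi := by rw [φ.map_inr, ψ.map_inr]

/-- The universal property of the category of globular sums: it is the initial globular
extension. -/
def GlobExt.IsInitial (E : GlobExt) : Prop :=
  ∀ F : GlobExt, ∃! _φ : GMor E F, True

/-- An admissible pair: parallel `f, g : D_n → S` with `dim S ≤ n + 1`. -/
structure AdmPair (E : GlobExt) where
  n : ℕ
  S : GSum
  f : E.Hom (GSum.disc n) S
  g : E.Hom (GSum.disc n) S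
  parallel : E.Parallel f g
  dim_le : S.dim ≤ n + 1

/-- A coherator: a cellular globular extension in which every admissible pair has a lift. -/
structure Coherator where
  ext : GlobExt
  stage : ℕ → GlobExt
  stage_zero : (stage 0).IsInitial
  step : ∀ k, GMor (stage k) (stage (k + 1))
  toExt : ∀ k, GMor (stage k) ext
  toExt_step : ∀ k, (step k).comp (toExt (k + 1)) = toExt k
  Adj : ℕ → Type
  pair : ∀ k, Adj k → AdmPair (stage k)
  adjLift : ∀ k (a : Adj k), (stage (k + 1)).Hom (GSum.disc ((pair k a).n + 1)) (pair k a).S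
  adjLift_spec : ∀ k (a : Adj k), (stage (k + 1)).IsLift ((step k).map (pair k a).f)
    ((step k).map (pair k a).g) (adjLift k a)
  adj_univ : ∀ k (E : GlobExt) (φ : GMor (stage k) E)
    (l : ∀ a : Adj k, E.Hom (GSum.disc ((pair k a).n + 1)) (pair k a).S),
    (∀ a, E.IsLift (φ.map (pair k a).f) (φ.map (pair k a).g) (l a)) →
      ∃! ψ : GMor (stage (k + 1)) E, (step k).comp ψ = φ ∧ ∀ a, ψ.map (adjLift k a) = l a
  colim_univ : ∀ (E : GlobExt) (φ : ∀ k, GMor (stage k) E),
    (∀ k, (step k).comp (φ (k + 1)) = φ k) →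
      ∃! ψ : GMor ext E, ∀ k, (toExt k).comp ψ = φ k
  contractible : ∀ p : AdmPair ext, ∃ h, ext.IsLift p.f p.g h

/-- The objects of a globular extension, as a type carrying the category structure. -/
@[ext]
structure GlobExt.Obj (E : GlobExt) where
  sum : GSum

instance (E : GlobExt) : Category.{0} E.Obj where
  Hom R S := E.Hom R.sum S.sum
  id R := E.id R.sum
  comp f g := E.comp f g
  id_comp f := E.id_comp f
  comp_id f := E.comp_id f
  assoc f g h := E.assoc f g h

/-- The object `D_n`. -/
abbrev GlobExt.D (E : GlobExt) (n : ℕ) : E.Obj := ⟨GSum.disc n⟩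

/-- A map of the globular extension as a morphism of the category. -/
abbrev GlobExt.hom (E : GlobExt) {R S : GSum} (f : E.Hom R S) :
    (⟨R⟩ : E.Obj) ⟶ (⟨S⟩ : E.Obj) := f

/-- The action of a map on a presheaf. -/
def act {E : GlobExt} (X : E.Objᵒᵖ ⥤ Type) {R S : GSum} (f : E.Hom R S)
    (x : X.obj (op ⟨S⟩)) : X.obj (op ⟨R⟩) :=
  (X.map (E.hom f).op) x

/-- The category of presheaves on a globular extension. -/
abbrev GlobExt.Psh (E : GlobExt) : Type 1 := E.Objᵒᵖ ⥤ Type

instance pshCategory (E : GlobExt) : Category.{0} E.Psh := Functor.category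

/-- A presheaf sends globular sums to iterated fibre products. -/
def IsGroupoidModel (E : GlobExt) : ObjectProperty E.Psh := fun X =>
  ∀ (S : GSum) (j i : ℕ) (hS : j < S.last) (hi : j < i)
    (a : X.obj (op ⟨S⟩)) (b : X.obj (op (E.D i))),
    act X (E.glueMap S hS) a = act X (E.srcIter hi.le) b →
      ∃! c : X.obj (op ⟨S.snoc j i hS hi⟩),
        act X (E.inl S j i hS hi) c = a ∧ act X (E.inr S j i hS hi) c = b

/-- The category of infinity-groupoids for a coherator. -/
abbrev Coherator.Gpd (C : Coherator) := (IsGroupoidModel C.ext).FullSubcategory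

instance gpdCategory (C : Coherator) : Category.{0} C.Gpd :=
  ObjectProperty.FullSubcategory.category _

/-- The `n`-cells. -/
abbrev Coherator.cells {C : Coherator} (X : C.Gpd) (n : ℕ) : Type :=
  X.obj.obj (op (C.ext.D n))

/-- The map induced on `n`-cells. -/
abbrev cellMap {C : Coherator} {X Y : C.Gpd} (φ : X ⟶ Y) (n : ℕ) (a : C.cells X n) :
    C.cells Y n :=
  φ.hom.app (op (C.ext.D n)) a

/-- A choice of lifts `D_{n+1} → D_n` of the pairs `(id, id)`, giving identity cells. -/
structure IdChoice (C : Coherator) where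
  one : ∀ n, C.ext.Hom (GSum.disc (n + 1)) (GSum.disc n)
  one_spec : ∀ n, C.ext.IsLift (C.ext.id (GSum.disc n)) (C.ext.id (GSum.disc n)) (one n)

variable {C : Coherator}

/-- The iterated identity cell `1^n_x`. -/
def idCell (c : IdChoice C) (X : C.Gpd) (x : C.cells X 0) : ∀ n, C.cells X n
  | 0 => x
  | n + 1 => act X.obj (c.one n) (idCell c X x n)

theorem idCell_map (c : IdChoice C) {X Y : C.Gpd} (φ : X ⟶ Y) (x : C.cells X 0) (n : ℕ) :
    φ.hom.app (op (C.ext.D n)) (idCell c X x n)
      = idCell c Y (φ.hom.app (op (C.ext.D 0)) x) n := by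
  induction n with
  | zero => rfl
  | succ n ih =>
    simp only [idCell, act, NatTrans.naturality_apply, ih]

/-- Two cells are related by a cell of the next dimension. -/
def CellRel (X : C.Gpd) {n : ℕ} (a b : C.cells X n) : Prop :=
  ∃ h : C.cells X (n + 1), act X.obj (C.ext.src n) h = a ∧ act X.obj (C.ext.tgt n) h = b

theorem CellRel.map {X Y : C.Gpd} (φ : X ⟶ Y) {n : ℕ} {a b : C.cells X n}
    (h : CellRel X a b) : CellRel Y (cellMap φ n a) (cellMap φ n b) := by
  obtain ⟨h, rfl, rfl⟩ := h
  exact ⟨φ.hom.app (op (C.ext.D (n + 1))) h,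
    by simp only [act, cellMap, NatTrans.naturality_apply],
    by simp only [act, cellMap, NatTrans.naturality_apply]⟩

/-- The set of connected components. -/
abbrev Pi0 (X : C.Gpd) : Type := Quot (CellRel X (n := 0))

def Pi0.map {X Y : C.Gpd} (φ : X ⟶ Y) : Pi0 X → Pi0 Y :=
  Quot.map (cellMap φ 0) fun _ _ h => h.map φ

/-- The cells `1^m_x → 1^m_x`, of dimension `m + 1`. -/
abbrev Loop (c : IdChoice C) (X : C.Gpd) (x : C.cells X 0) (m : ℕ) : Type :=
  {a : C.cells X (m + 1) //
    act X.obj (C.ext.src m) a = idCell c X x m ∧ act X.obj (C.ext.tgt m) a = idCell c X x m}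

/-- The homotopy group `π_{m+1}(X, x)` as a set. -/
abbrev PiSucc (c : IdChoice C) (X : C.Gpd) (x : C.cells X 0) (m : ℕ) : Type :=
  Quot fun a b : Loop c X x m => CellRel X a.1 b.1

theorem loop_mem_map (c : IdChoice C) {X Y : C.Gpd} (φ : X ⟶ Y) (x : C.cells X 0) (m : ℕ)
    (a : Loop c X x m) :
    act Y.obj (C.ext.src m) (cellMap φ (m + 1) a.1) = idCell c Y (cellMap φ 0 x) m ∧
      act Y.obj (C.ext.tgt m) (cellMap φ (m + 1) a.1) = idCell c Y (cellMap φ 0 x) m := by
  constructor
  · refine Eq.trans ?_ ((congrArg (φ.hom.app (op (C.ext.D m))) a.2.1).trans (idCell_map c φ x m))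
    simp only [act, cellMap, NatTrans.naturality_apply]
  · refine Eq.trans ?_ ((congrArg (φ.hom.app (op (C.ext.D m))) a.2.2).trans (idCell_map c φ x m))
    simp only [act, cellMap, NatTrans.naturality_apply]

/-- The map of loops induced by a map. -/
def Loop.map (c : IdChoice C) {X Y : C.Gpd} (φ : X ⟶ Y) (x : C.cells X 0) (m : ℕ)
    (a : Loop c X x m) : Loop c Y (cellMap φ 0 x) m :=
  ⟨cellMap φ (m + 1) a.1, loop_mem_map c φ x m a⟩

theorem loop_rel_map (c : IdChoice C) {X Y : C.Gpd} (φ : X ⟶ Y) (x : C.cells X 0) (m : ℕ) :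
    ∀ a b : Loop c X x m, CellRel X a.1 b.1 →
      CellRel Y (Loop.map c φ x m a).1 (Loop.map c φ x m b).1 :=
  fun _ _ h => h.map φ

def PiSucc.map (c : IdChoice C) {X Y : C.Gpd} (φ : X ⟶ Y) (x : C.cells X 0) (m : ℕ) :
    PiSucc c X x m → PiSucc c Y (cellMap φ 0 x) m :=
  Quot.map (Loop.map c φ x m) (loop_rel_map c φ x m)

/-- Weak equivalences of infinity-groupoids. -/
def weq (c : IdChoice C) : MorphismProperty C.Gpd := fun X _ φ =>
  Function.Bijective (Pi0.map φ) ∧
    ∀ (x : C.cells X 0) (m : ℕ), Function.Bijective (PiSucc.map c φ x m)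

/-! ## Spaces -/

section Spaces

variable {A B : Type} [TopologicalSpace A] [TopologicalSpace B]

/-- The map induced on path components. -/
def zerothMap (f : C(A, B)) : ZerothHomotopy A → ZerothHomotopy B :=
  Quotient.map f fun _ _ h => h.map f.continuous

/-- The map induced on generalized loops. -/
def genLoopMap (n : ℕ) (f : C(A, B)) (x : A) (p : GenLoop (Fin n) A x) :
    GenLoop (Fin n) B (f x) :=
  ⟨f.comp p.1, fun y hy => by
    show f (p.1 y) = f x
    rw [p.2 y hy]⟩

/-- The map induced on homotopy groups. -/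
def homotopyGroupMap (n : ℕ) (f : C(A, B)) (x : A) :
    HomotopyGroup (Fin n) A x → HomotopyGroup (Fin n) B (f x) :=
  Quotient.map (genLoopMap n f x) fun _ _ h => by
    obtain ⟨H⟩ := h
    exact ⟨H.compContinuousMap f⟩

/-- Weak homotopy equivalences. -/
def IsWeakHomotopyEquiv (f : C(A, B)) : Prop :=
  Function.Bijective (zerothMap f) ∧
    ∀ (x : A) (n : ℕ), Function.Bijective (homotopyGroupMap (n + 1) f x)

end Spaces

/-- The category of compactly generated spaces. -/
abbrev CGTop := CompactlyGenerated.{0, 0}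

/-- Weak homotopy equivalences of compactly generated spaces. -/
def whe : MorphismProperty CGTop := fun _ _ f =>
  IsWeakHomotopyEquiv f.hom.hom

/-- The closed unit disc of dimension `n`. -/
abbrev Disc (n : ℕ) : Type := Metric.closedBall (0 : EuclideanSpace ℝ (Fin n)) 1

/-- The point above `p` in the lower (`s = -1`) or upper (`s = 1`) hemisphere. -/
noncomputable def hemisphere (n : ℕ) (s : ℝ) (p : EuclideanSpace ℝ (Fin n)) :
    EuclideanSpace ℝ (Fin (n + 1)) :=
  WithLp.toLp 2 (Fin.snoc (fun i => p i) (s * Real.sqrt (1 - ‖p‖ ^ 2)))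

/-- The point of Euclidean space given by a point of a disc under a homeomorphism. -/
def discVec {A : Type} [TopologicalSpace A] {n : ℕ} (h : A ≃ₜ Disc n) (p : A) :
    EuclideanSpace ℝ (Fin n) := (h p).1

/-- A disc functor: it preserves globular sums and sends `D_n` to the closed `n`-disc, the
coglobular maps being the inclusions of the two hemispheres. -/
structure DiscFunctor (C : Coherator) where
  functor : C.ext.Obj ⥤ CGTop
  disc : ∀ n, (functor.obj (C.ext.D n)).toTop ≃ₜ Disc n
  disc_src : ∀ n (p : (functor.obj (C.ext.D n)).toTop),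
    discVec (disc (n + 1)) (ConcreteCategory.hom (functor.map (C.ext.hom (C.ext.src n))) p)
      = hemisphere n (-1) (discVec (disc n) p)
  disc_tgt : ∀ n (p : (functor.obj (C.ext.D n)).toTop),
    discVec (disc (n + 1)) (ConcreteCategory.hom (functor.map (C.ext.hom (C.ext.tgt n))) p)
      = hemisphere n 1 (discVec (disc n) p)
  preserves_sums : ∀ (S : GSum) (j i : ℕ) (hS : j < S.last) (hi : j < i),
    IsPushout (functor.map (C.ext.hom (C.ext.glueMap S hS)))
      (functor.map (C.ext.hom (C.ext.srcIter hi.le)))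
      (functor.map (C.ext.hom (C.ext.inl S j i hS hi)))
      (functor.map (C.ext.hom (C.ext.inr S j i hS hi)))

namespace DiscFunctor

variable (D : DiscFunctor C)

/-- The presheaf `Hom(D(-), Y)`. -/
def piPresheaf (Y : CGTop) : C.ext.Objᵒᵖ ⥤ Type := D.functor.op ⋙ yoneda.obj Y

theorem piPresheaf_model (Y : CGTop) : IsGroupoidModel C.ext (D.piPresheaf Y) := by
  intro S j i hS hi a b h
  exact ⟨(D.preserves_sums S j i hS hi).desc a b h,
    ⟨(D.preserves_sums S j i hS hi).inl_desc a b h,
      (D.preserves_sums S j i hS hi).inr_desc a b h⟩,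
    fun c hc => (D.preserves_sums S j i hS hi).hom_ext
      (hc.1.trans ((D.preserves_sums S j i hS hi).inl_desc a b h).symm)
      (hc.2.trans ((D.preserves_sums S j i hS hi).inr_desc a b h).symm)⟩

/-- The fundamental infinity-groupoid functor. -/
def piInfty : CGTop ⥤ C.Gpd :=
  ObjectProperty.lift _ (yoneda ⋙ (Functor.whiskeringLeft _ _ _).obj D.functor.op)
    D.piPresheaf_model

/-- The functor induced by `piInfty` between the localizations. -/
noncomputable def piHo (c : IdChoice C)
    (h : ∀ ⦃Y Z : CGTop⦄ (f : Y ⟶ Z), whe f → weq c (D.piInfty.map f)) :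
    whe.Localization ⥤ (weq c).Localization :=
  Localization.Construction.lift (D.piInfty ⋙ (weq c).Q)
    fun _ _ f hf => Localization.inverts (weq c).Q (weq c) _ (h f hf)

end DiscFunctor

/-- The Grothendieck homotopy hypothesis: for every coherator there is a disc functor such
that, for every choice of identity cells, its fundamental infinity-groupoid functor sends weak homotopy
equivalences to weak equivalences and induces an equivalence of localized categories. -/
def HomotopyHypothesis : Prop :=
  ∀ C : Coherator, ∃ D : DiscFunctor C, ∀ c : IdChoice C,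
    ∃ h : ∀ ⦃Y Z : CGTop⦄ (f : Y ⟶ Z), whe f → weq c (D.piInfty.map f),
      (D.piHo c h).IsEquivalence

end Vale.Agent.P259
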