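import Vale.Agent.P259.Defs

/-!
# P259: discs, hemispheres, projections
-/

noncomputable section

namespace Vale.Agent.P259

/-- Forget the last coordinate. -/
def dropLast (n : ℕ) : EuclideanSpace ℝ (Fin (n + 1)) →ₗ[ℝ] EuclideanSpace ℝ (Fin n) where
  toFun v := WithLp.toLp 2 fun i => v i.castSucc
  map_add' u v := by ext i; simp
  map_smul' a v := by ext i; simp

theorem norm_sq_split {n : ℕ} (v : EuclideanSpace ℝ (Fin (n + 1))) :
    ‖v‖ ^ 2 = ‖dropLast n v‖ ^ 2 + v (Fin.last n) ^ 2 := by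
  simp [EuclideanSpace.norm_sq_eq, Fin.sum_univ_castSucc, dropLast]

theorem dropLast_hemisphere (n : ℕ) (s : ℝ) (p : EuclideanSpace ℝ (Fin n)) :
    dropLast n (hemisphere n s p) = p := by
  ext i
  simp [dropLast, hemisphere]

theorem hemisphere_last (n : ℕ) (s : ℝ) (p : EuclideanSpace ℝ (Fin n)) :
    hemisphere n s p (Fin.last n) = s * Real.sqrt (1 - ‖p‖ ^ 2) := by
  simp [hemisphere]

theorem ext_split {n : ℕ} {u v : EuclideanSpace ℝ (Fin (n + 1))}
    (h : dropLast n u = dropLast n v) (h' : u (Fin.last n) = v (Fin.last n)) : u = v := by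
  ext i
  refine Fin.lastCases ?_ (fun j => ?_) i
  · exact h'
  · simpa [dropLast] using congrArg (fun w : EuclideanSpace ℝ (Fin n) => w j) h

theorem norm_le_one {n : ℕ} (p : Disc n) : ‖(p : EuclideanSpace ℝ (Fin n))‖ ≤ 1 :=
  mem_closedBall_zero_iff.1 p.2

theorem norm_sq_le_one {n : ℕ} (p : Disc n) : ‖(p : EuclideanSpace ℝ (Fin n))‖ ^ 2 ≤ 1 :=
  pow_le_one₀ (norm_nonneg _) (norm_le_one p)

theorem norm_hemisphere {n : ℕ} (p : Disc n) {s : ℝ} (hs : s ^ 2 = 1) :
    ‖hemisphere n s (p : EuclideanSpace ℝ (Fin n))‖ = 1 := by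
  have h : ‖hemisphere n s (p : EuclideanSpace ℝ (Fin n))‖ ^ 2 = 1 := by
    rw [norm_sq_split, dropLast_hemisphere, hemisphere_last, mul_pow, hs, one_mul,
      Real.sq_sqrt (by linarith [norm_sq_le_one p])]
    ring
  exact (sq_eq_one_iff.1 h).resolve_right fun h' => by linarith [norm_nonneg (hemisphere n s (p : EuclideanSpace ℝ (Fin n)))]

/-- A hemisphere as a map of discs. -/
def hemi (n : ℕ) (s : ℝ) (hs : s ^ 2 = 1) : C(Disc n, Disc (n + 1)) where
  toFun p := ⟨hemisphere n s p, mem_closedBall_zero_iff.2 (norm_hemisphere p hs).le⟩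
  continuous_toFun := by
    refine Continuous.subtype_mk ?_ _
    refine (PiLp.continuous_toLp 2 _).comp ?_
    refine Continuous.finSnoc ?_ ?_
    · exact (PiLp.continuous_ofLp 2 _).comp continuous_subtype_val
    · fun_prop

/-- The source inclusion. -/
abbrev low (n : ℕ) : C(Disc n, Disc (n + 1)) := hemi n (-1) (by norm_num)

/-- The target inclusion. -/
abbrev high (n : ℕ) : C(Disc n, Disc (n + 1)) := hemi n 1 (by norm_num)

theorem norm_dropLast_le {n : ℕ} (v : Disc (n + 1)) :
    ‖dropLast n (v : EuclideanSpace ℝ (Fin (n + 1)))‖ ≤ 1 := by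
  nlinarith [norm_sq_split (v : EuclideanSpace ℝ (Fin (n + 1))), norm_sq_le_one v,
    norm_nonneg (dropLast n (v : EuclideanSpace ℝ (Fin (n + 1)))),
    sq_nonneg ((v : EuclideanSpace ℝ (Fin (n + 1))) (Fin.last n))]

/-- The projection of discs. -/
def drop (n : ℕ) : C(Disc (n + 1), Disc n) where
  toFun v := ⟨dropLast n v, mem_closedBall_zero_iff.2 (norm_dropLast_le v)⟩
  continuous_toFun :=
    ((dropLast n).continuous_of_finiteDimensional.comp continuous_subtype_val).subtype_mk _

theorem drop_hemi (n : ℕ) (s : ℝ) (hs : s ^ 2 = 1) (p : Disc n) : drop n (hemi n s hs p) = p :=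
  Subtype.ext (dropLast_hemisphere n s p)

theorem hemi_of_norm {n : ℕ} (s s' : ℝ) (hs : s ^ 2 = 1) (hs' : s' ^ 2 = 1) (p : Disc n)
    (hp : ‖(p : EuclideanSpace ℝ (Fin n))‖ = 1) : hemi n s hs p = hemi n s' hs' p := by
  refine Subtype.ext (ext_split ?_ ?_)
  · simp [hemi, dropLast_hemisphere]
  · simp [hemi, hemisphere_last, hp]

theorem low_low (n : ℕ) : (low (n + 1)).comp (low n) = (high (n + 1)).comp (low n) :=
  ContinuousMap.ext fun p => hemi_of_norm (-1) 1 (by norm_num) (by norm_num) _ (norm_hemisphere p (by norm_num))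

theorem low_high (n : ℕ) : (low (n + 1)).comp (high n) = (high (n + 1)).comp (high n) :=
  ContinuousMap.ext fun p => hemi_of_norm (-1) 1 (by norm_num) (by norm_num) _ (norm_hemisphere p (by norm_num))

/-- The height above the lower hemisphere. -/
def height {n : ℕ} (v : Disc (n + 1)) : ℝ :=
  (v : EuclideanSpace ℝ (Fin (n + 1))) (Fin.last n) +
    Real.sqrt (1 - ‖(drop n v : EuclideanSpace ℝ (Fin n))‖ ^ 2)

theorem abs_last_le {n : ℕ} (v : Disc (n + 1)) :
    |(v : EuclideanSpace ℝ (Fin (n + 1))) (Fin.last n)| ≤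
      Real.sqrt (1 - ‖(drop n v : EuclideanSpace ℝ (Fin n))‖ ^ 2) := by
  refine Real.abs_le_sqrt ?_
  have := norm_sq_split (v : EuclideanSpace ℝ (Fin (n + 1)))
  have := norm_sq_le_one v
  change _ ≤ 1 - ‖dropLast n (v : EuclideanSpace ℝ (Fin (n + 1)))‖ ^ 2
  linarith

/-- A point of the sphere lies on a hemisphere. -/
theorem sphere_cases {n : ℕ} (v : Disc (n + 1))
    (hv : ‖(v : EuclideanSpace ℝ (Fin (n + 1)))‖ = 1) :
    (0 ≤ (v : EuclideanSpace ℝ (Fin (n + 1))) (Fin.last n) → v = high n (drop n v)) ∧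
      ((v : EuclideanSpace ℝ (Fin (n + 1))) (Fin.last n) ≤ 0 → v = low n (drop n v)) := by
  have h := norm_sq_split (v : EuclideanSpace ℝ (Fin (n + 1)))
  rw [hv] at h
  have hd : (drop n v : EuclideanSpace ℝ (Fin n)) = dropLast n (v : EuclideanSpace ℝ (Fin (n + 1))) :=
    rfl
  have hsqrt : Real.sqrt (1 - ‖(drop n v : EuclideanSpace ℝ (Fin n))‖ ^ 2) =
      |(v : EuclideanSpace ℝ (Fin (n + 1))) (Fin.last n)| := by
    rw [hd, ← Real.sqrt_sq_eq_abs]
    congr 1
    linarith
  constructor <;> intro hpos <;> refine Subtype.ext (ext_split ?_ ?_)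
  · simp only [hemi, ContinuousMap.coe_mk, dropLast_hemisphere, hd]
  · simp only [hemi, ContinuousMap.coe_mk, hemisphere_last, hsqrt, abs_of_nonneg hpos, one_mul]
  · simp only [hemi, ContinuousMap.coe_mk, dropLast_hemisphere, hd]
  · simp only [hemi, ContinuousMap.coe_mk, hemisphere_last, hsqrt, abs_of_nonpos hpos]
    ring

/-- Iterated source inclusion, by the same recursion as `PreExt.srcIter`. -/
def lowIter {j i : ℕ} (h : j ≤ i) : C(Disc j, Disc i) :=
  Nat.leRecOn h (fun {k} (f : C(Disc j, Disc k)) => (low k).comp f) (ContinuousMap.id (Disc j))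

/-- Iterated target inclusion. -/
def highIter {j i : ℕ} (h : j ≤ i) : C(Disc j, Disc i) :=
  Nat.leRecOn h (fun {k} (f : C(Disc j, Disc k)) => (high k).comp f) (ContinuousMap.id (Disc j))

/-- Iterated projection. -/
def dropIter {j i : ℕ} (h : j ≤ i) : C(Disc i, Disc j) :=
  Nat.leRecOn (C := fun k => C(Disc k, Disc j)) h (fun {k} f => f.comp (drop k))
    (ContinuousMap.id (Disc j))

theorem lowIter_succ {j i : ℕ} (h : j ≤ i) :
    lowIter (h.trans i.le_succ) = (low i).comp (lowIter h) := by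
  rw [lowIter, Nat.leRecOn_succ h]
  rfl

theorem highIter_succ {j i : ℕ} (h : j ≤ i) :
    highIter (h.trans i.le_succ) = (high i).comp (highIter h) := by
  rw [highIter, Nat.leRecOn_succ h]
  rfl

theorem dropIter_succ {j i : ℕ} (h : j ≤ i) :
    dropIter (h.trans i.le_succ) = (dropIter h).comp (drop i) := by
  rw [dropIter, Nat.leRecOn_succ (C := fun k => C(Disc k, Disc j)) h]
  rfl

theorem dropIter_self (j : ℕ) : dropIter (le_refl j) = ContinuousMap.id (Disc j) :=
  Nat.leRecOn_self (C := fun k => C(Disc k, Disc j)) _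

theorem dropIter_lowIter {j i : ℕ} (h : j ≤ i) (p : Disc j) : dropIter h (lowIter h p) = p := by
  induction i, h using Nat.le_induction with
  | base => simp [dropIter, lowIter, Nat.leRecOn_self]
  | succ k hk ih => rw [dropIter_succ hk, lowIter_succ hk]; simp [drop_hemi, ih]

theorem dropIter_highIter {j i : ℕ} (h : j ≤ i) (p : Disc j) : dropIter h (highIter h p) = p := by
  induction i, h using Nat.le_induction with
  | base => simp [dropIter, highIter, Nat.leRecOn_self]
  | succ k hk ih => rw [dropIter_succ hk, highIter_succ hk]; simp [drop_hemi, ih]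

/-- The segment between two points of a disc. -/
def seg {n : ℕ} (t : unitInterval) (p q : Disc n) : Disc n :=
  ⟨(1 - (t : ℝ)) • (p : EuclideanSpace ℝ (Fin n)) + (t : ℝ) • (q : EuclideanSpace ℝ (Fin n)),
    convex_closedBall 0 1 p.2 q.2 (by linarith [t.2.2]) t.2.1 (by ring)⟩

theorem continuous_seg {n : ℕ} :
    Continuous fun z : unitInterval × (Disc n × Disc n) => seg z.1 z.2.1 z.2.2 :=
  Continuous.subtype_mk (by fun_prop) _

theorem seg_self {n : ℕ} (t : unitInterval) (p : Disc n) : seg t p p = p := by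
  refine Subtype.ext ?_
  simp [seg, sub_smul]

theorem seg_zero {n : ℕ} (p q : Disc n) : seg 0 p q = p := by
  refine Subtype.ext ?_
  simp [seg]

theorem seg_one {n : ℕ} (p q : Disc n) : seg 1 p q = q := by
  refine Subtype.ext ?_
  simp [seg]

theorem drop_seg {n : ℕ} (t : unitInterval) (p q : Disc (n + 1)) :
    drop n (seg t p q) = seg t (drop n p) (drop n q) := by
  refine Subtype.ext ?_
  simp [drop, seg]

theorem dropIter_seg {j i : ℕ} (h : j ≤ i) (t : unitInterval) (p q : Disc i) :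
    dropIter h (seg t p q) = seg t (dropIter h p) (dropIter h q) := by
  induction i, h using Nat.le_induction with
  | base => simp [dropIter_self]
  | succ k hk ih => rw [dropIter_succ hk]; simp [drop_seg, ih]

end Vale.Agent.P259
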