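import Vale.Agent.P259.Induction

/-!
# P259: models as globular sets with operations
-/

open CategoryTheory Opposite

namespace Vale.Agent.P259

/-! ## The endomorphism extension of a globular set -/

namespace GSet

variable (G : GSet)

/-- Data of the endomorphism extension. -/
def endPre : PreExt where
  Hom R S := G.Bar S → G.Bar R
  id _ p := p
  comp f g p := f (g p)
  src n a := G.one n (G.s ((G.one (n + 1)).symm a))
  tgt n a := G.one n (G.t ((G.one (n + 1)).symm a))
  inl _ _ _ _ _ p := p.fst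
  inr _ _ i _ _ p := G.one i p.snd

theorem endPre_srcIter {j i : ℕ} (h : j ≤ i) (a : G.Bar (GSum.disc i)) :
    G.endPre.srcIter h a = G.one j (G.sIter h ((G.one i).symm a)) := by
  induction i, h using Nat.le_induction with
  | base =>
    simp only [PreExt.srcIter, Nat.leRecOn_self, GSet.sIter_self]
    rfl
  | succ n h ih =>
    simp only [PreExt.srcIter] at ih ⊢
    rw [Nat.leRecOn_succ h, GSet.sIter_succ _ h]
    exact (ih (G.endPre.src n a)).trans rfl

theorem endPre_tgtIter {j i : ℕ} (h : j ≤ i) (a : G.Bar (GSum.disc i)) :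
    G.endPre.tgtIter h a = G.one j (G.tIter h ((G.one i).symm a)) := by
  induction i, h using Nat.le_induction with
  | base =>
    simp only [PreExt.tgtIter, Nat.leRecOn_self, GSet.tIter_self]
    rfl
  | succ n h ih =>
    simp only [PreExt.tgtIter] at ih ⊢
    rw [Nat.leRecOn_succ h, GSet.tIter_succ _ h]
    exact (ih (G.endPre.tgt n a)).trans rfl

theorem endPre_lastIncl (S : GSum) (p : G.Bar S) :
    G.endPre.lastIncl S p = G.one S.last p.last := by
  induction S using GSum.rec' with
  | hd n => rfl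
  | hs S j i hS hi ih => rfl

theorem endPre_glueMap (S : GSum) {j : ℕ} (hS : j < S.last) (p : G.Bar S) :
    G.endPre.glueMap S hS p = G.one j (G.tIter hS.le p.last) := by
  show G.endPre.tgtIter hS.le (G.endPre.lastIncl S p) = _
  rw [endPre_tgtIter, endPre_lastIncl]
  rfl

/-- The endomorphism extension of a globular set. -/
def endExt : GlobExt where
  toPreExt := G.endPre
  id_comp _ := rfl
  comp_id _ := rfl
  assoc _ _ _ := rfl
  src_src n := funext fun a => congrArg (G.one n) (G.ss _)
  tgt_src n := funext fun a => congrArg (G.one n) (G.ts _)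
  sum_comm S j i hS hi := funext fun p => by
    show G.endPre.glueMap S hS p.fst = G.endPre.srcIter hi.le (G.one i p.snd)
    rw [endPre_glueMap, endPre_srcIter]
    exact congrArg (G.one j) p.glue
  sum_univ S j i hS hi T u v h := by
    have key : ∀ x, G.tIter hS.le (u x).last = G.sIter hi.le ((G.one i).symm (v x)) := fun x => by
      have := congrFun h x
      change G.endPre.glueMap S hS (u x) = G.endPre.srcIter hi.le (v x) at this
      rw [endPre_glueMap, endPre_srcIter] at this
      exact (G.one j).injective this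
    refine ⟨fun x => Bar.mk' (u x) ((G.one i).symm (v x)) (key x), ⟨rfl, rfl⟩, fun w hw => ?_⟩
    funext x
    exact Bar.ext' (congrFun hw.1 x) (congrArg ((G.one i).symm) (congrFun hw.2 x))

end GSet

/-! ## Presheaves -/

variable {E : GlobExt}

theorem act_id (X : E.Objᵒᵖ ⥤ Type) {S : GSum} (x : X.obj (op ⟨S⟩)) : act X (E.id S) x = x := by
  show X.map (𝟙 (⟨S⟩ : E.Obj)).op x = x
  simp

theorem act_comp (X : E.Objᵒᵖ ⥤ Type) {R S T : GSum} (f : E.Hom R S) (g : E.Hom S T)
    (x : X.obj (op ⟨T⟩)) : act X (E.comp f g) x = act X f (act X g x) := by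
  show X.map ((E.hom f) ≫ (E.hom g)).op x = _
  simp [act]

theorem act_natural {X Y : E.Objᵒᵖ ⥤ Type} (φ : X ⟶ Y) {R S : GSum} (f : E.Hom R S)
    (x : X.obj (op ⟨S⟩)) :
    φ.app (op ⟨R⟩) (act X f x) = act Y f (φ.app (op ⟨S⟩) x) := by
  simp only [act, NatTrans.naturality_apply]

/-- The underlying globular set of a presheaf. -/
abbrev gs (X : E.Objᵒᵖ ⥤ Type) : GSet where
  cell n := X.obj (op (E.D n))
  s a := act X (E.src _) a
  t a := act X (E.tgt _) a
  ss a := by rw [← act_comp, ← act_comp, E.src_src]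
  ts a := by rw [← act_comp, ← act_comp, E.tgt_src]

theorem gs_sIter (X : E.Objᵒᵖ ⥤ Type) {j i : ℕ} (h : j ≤ i) (a : (gs X).cell i) :
    (gs X).sIter h a = act X (E.srcIter h) a := by
  induction i, h using Nat.le_induction with
  | base =>
    simp only [PreExt.srcIter, Nat.leRecOn_self, GSet.sIter_self]
    exact (act_id X a).symm
  | succ n h ih =>
    rw [GSet.sIter_succ _ h, ih]
    simp only [PreExt.srcIter]
    rw [Nat.leRecOn_succ h]
    exact (act_comp X _ _ a).symm

theorem gs_tIter (X : E.Objᵒᵖ ⥤ Type) {j i : ℕ} (h : j ≤ i) (a : (gs X).cell i) :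
    (gs X).tIter h a = act X (E.tgtIter h) a := by
  induction i, h using Nat.le_induction with
  | base =>
    simp only [PreExt.tgtIter, Nat.leRecOn_self, GSet.tIter_self]
    exact (act_id X a).symm
  | succ n h ih =>
    rw [GSet.tIter_succ _ h, ih]
    simp only [PreExt.tgtIter]
    rw [Nat.leRecOn_succ h]
    exact (act_comp X _ _ a).symm

/-- The underlying map of globular sets. -/
def gsMap {X Y : E.Objᵒᵖ ⥤ Type} (φ : X ⟶ Y) : GHom (gs X) (gs Y) where
  app n a := φ.app (op (E.D n)) a
  app_s _ a := (act_natural φ _ a).symm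
  app_t _ a := (act_natural φ _ a).symm

/-- The components of an element. -/
def rawOf (X : E.Objᵒᵖ ⥤ Type) : ∀ (t : Tbl) (h : t.Valid),
    X.obj (op ⟨⟨t, h⟩⟩) → (gs X).Raw t
  | .disc _, _ => fun x => x
  | .snoc t j i, h => fun x =>
      (rawOf X t h.1 (act X (E.inl ⟨t, h.1⟩ j i h.2.1 h.2.2) x),
        act X (E.inr ⟨t, h.1⟩ j i h.2.1 h.2.2) x)

theorem lastRaw_rawOf (X : E.Objᵒᵖ ⥤ Type) : ∀ (t : Tbl) (h : t.Valid)
    (x : X.obj (op ⟨⟨t, h⟩⟩)),
    (gs X).lastRaw t (rawOf X t h x) = act X (E.lastIncl ⟨t, h⟩) x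
  | .disc _, _, x => (act_id X x).symm
  | .snoc _ _ _, _, _ => rfl

theorem ok_rawOf (X : E.Objᵒᵖ ⥤ Type) : ∀ (t : Tbl) (h : t.Valid)
    (x : X.obj (op ⟨⟨t, h⟩⟩)), (gs X).Ok t (rawOf X t h x)
  | .disc _, _, _ => trivial
  | .snoc t j i, h, x => by
      refine ⟨ok_rawOf X t h.1 _, fun h1 h2 => ?_⟩
      show (gs X).tIter h1 ((gs X).lastRaw t (rawOf X t h.1 _)) = (gs X).sIter h2 (act X _ x)
      refine ((congrArg ((gs X).tIter h1) (lastRaw_rawOf X t h.1 _)).trans
        (gs_tIter X h1 _)).trans (Eq.trans ?_ (gs_sIter X h2 _).symm)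
      refine (act_comp X _ _ _).symm.trans ((act_comp X _ _ x).symm.trans ?_)
      exact (congrArg (fun f => act X f x) (E.sum_comm ⟨t, h.1⟩ j i h.2.1 h.2.2)).trans
        (act_comp X _ _ x)

/-- An element determines a tuple of cells. -/
def toBar (X : E.Objᵒᵖ ⥤ Type) (S : GSum) (x : X.obj (op ⟨S⟩)) : (gs X).Bar S :=
  ⟨rawOf X S.tbl S.valid x, ok_rawOf X S.tbl S.valid x⟩

theorem toBar_last (X : E.Objᵒᵖ ⥤ Type) (S : GSum) (x : X.obj (op ⟨S⟩)) :
    (toBar X S x).last = act X (E.lastIncl S) x :=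
  lastRaw_rawOf X S.tbl S.valid x

theorem toBar_fst (X : E.Objᵒᵖ ⥤ Type) {S : GSum} {j i : ℕ} {hS : j < S.last} {hi : j < i}
    (x : X.obj (op ⟨S.snoc j i hS hi⟩)) :
    (toBar X _ x).fst = toBar X S (act X (E.inl S j i hS hi) x) := rfl

theorem toBar_snd (X : E.Objᵒᵖ ⥤ Type) {S : GSum} {j i : ℕ} {hS : j < S.last} {hi : j < i}
    (x : X.obj (op ⟨S.snoc j i hS hi⟩)) :
    (toBar X _ x).snd = act X (E.inr S j i hS hi) x := rfl

theorem toBar_bijective (X : E.Objᵒᵖ ⥤ Type) (hX : IsGroupoidModel E X) (S : GSum) :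
    Function.Bijective (toBar X S) := by
  induction S using GSum.rec' with
  | hd n => exact (GSet.one (gs X) n).bijective
  | hs S j i hS hi ih =>
    constructor
    · intro x y h
      have h1 := ih.1 ((toBar_fst X x).symm.trans ((congrArg GSet.Bar.fst h).trans (toBar_fst X y)))
      have h2 := (toBar_snd X x).symm.trans ((congrArg GSet.Bar.snd h).trans (toBar_snd X y))
      have hc : act X (E.glueMap S hS) (act X (E.inl S j i hS hi) y)
          = act X (E.srcIter hi.le) (act X (E.inr S j i hS hi) y) := by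
        rw [← act_comp, ← act_comp, E.sum_comm]
      exact (hX S j i hS hi _ _ hc).unique ⟨h1, h2⟩ ⟨rfl, rfl⟩
    · intro p
      obtain ⟨a, ha⟩ := ih.2 p.fst
      have hc : act X (E.glueMap S hS) a = act X (E.srcIter hi.le) p.snd := by
        refine Eq.trans ?_ (gs_sIter X hi.le p.snd)
        refine (act_comp X _ _ a).trans ?_
        refine (gs_tIter X hS.le _).symm.trans ?_
        refine Eq.trans ?_ p.glue
        exact congrArg ((gs X).tIter hS.le) ((toBar_last X S a).symm.trans (congrArg _ ha))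
      obtain ⟨c, hc1, hc2⟩ := (hX S j i hS hi a p.snd hc).exists
      refine ⟨c, GSet.Bar.ext' ?_ ?_⟩
      · rw [toBar_fst, hc1, ha]
      · rw [toBar_snd, hc2]

theorem toBar_natural {X Y : E.Objᵒᵖ ⥤ Type} (φ : X ⟶ Y) (S : GSum) (x : X.obj (op ⟨S⟩)) :
    (gsMap φ).bar S (toBar X S x) = toBar Y S (φ.app (op ⟨S⟩) x) := by
  induction S using GSum.rec' with
  | hd n => rfl
  | hs S j i hS hi ih =>
    refine GSet.Bar.ext' ?_ ?_
    · rw [GHom.bar_fst, toBar_fst, toBar_fst, ih, act_natural]
    · rw [GHom.bar_snd, toBar_snd, toBar_snd]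
      exact act_natural φ _ x

variable {C : Coherator}

/-- The underlying globular set of a groupoid. -/
abbrev Coherator.gs (X : C.Gpd) : GSet := Vale.Agent.P259.gs X.obj

/-- Elements of a groupoid at a sum are tuples of cells. -/
noncomputable def Coherator.barEquiv (X : C.Gpd) (S : GSum) :
    X.obj.obj (op ⟨S⟩) ≃ (C.gs X).Bar S :=
  Equiv.ofBijective (toBar X.obj S) (toBar_bijective X.obj X.property S)

/-- The operations of a groupoid on tuples. -/
noncomputable def Coherator.bact (X : C.Gpd) {R S : GSum} (f : C.ext.Hom R S)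
    (p : (C.gs X).Bar S) : (C.gs X).Bar R :=
  toBar X.obj R (act X.obj f ((C.barEquiv X S).symm p))

theorem Coherator.bact_toBar (X : C.Gpd) {R S : GSum} (f : C.ext.Hom R S)
    (x : X.obj.obj (op ⟨S⟩)) :
    C.bact X f (toBar X.obj S x) = toBar X.obj R (act X.obj f x) := by
  unfold Coherator.bact
  rw [show toBar X.obj S x = C.barEquiv X S x from rfl, Equiv.symm_apply_apply]

theorem Coherator.bact_natural {X Y : C.Gpd} (φ : X ⟶ Y) {R S : GSum} (f : C.ext.Hom R S)
    (p : (C.gs X).Bar S) :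
    (gsMap φ.hom).bar R (C.bact X f p) = C.bact Y f ((gsMap φ.hom).bar S p) := by
  obtain ⟨x, rfl⟩ := (C.barEquiv X S).surjective p
  show (gsMap φ.hom).bar R (C.bact X f (toBar X.obj S x))
    = C.bact Y f ((gsMap φ.hom).bar S (toBar X.obj S x))
  rw [C.bact_toBar, toBar_natural, toBar_natural, C.bact_toBar, act_natural]

/-- The presheaf of tuples of a globular set with operations. -/
def modelPresheaf (G : GSet) (φ : GMor E G.endExt) : E.Objᵒᵖ ⥤ Type where
  obj S := G.Bar S.unop.sum
  map f := TypeCat.ofHom (φ.map f.unop)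
  map_id S := by
    ext p
    exact congrFun (φ.map_id S.unop.sum) p
  map_comp f g := by
    ext p
    exact congrFun (φ.map_comp g.unop f.unop) p

theorem GMor.map_srcIter {F : GlobExt} (φ : GMor E F) {j i : ℕ} (h : j ≤ i) :
    φ.map (E.srcIter h) = F.srcIter h := by
  induction i, h using Nat.le_induction with
  | base => simp [PreExt.srcIter, Nat.leRecOn_self, φ.map_id]
  | succ n h ih =>
    simp only [PreExt.srcIter] at ih ⊢
    rw [Nat.leRecOn_succ h, Nat.leRecOn_succ h, φ.map_comp, ih, φ.map_src]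

theorem GMor.map_tgtIter {F : GlobExt} (φ : GMor E F) {j i : ℕ} (h : j ≤ i) :
    φ.map (E.tgtIter h) = F.tgtIter h := by
  induction i, h using Nat.le_induction with
  | base => simp [PreExt.tgtIter, Nat.leRecOn_self, φ.map_id]
  | succ n h ih =>
    simp only [PreExt.tgtIter] at ih ⊢
    rw [Nat.leRecOn_succ h, Nat.leRecOn_succ h, φ.map_comp, ih, φ.map_tgt]

theorem GMor.map_lastIncl {F : GlobExt} (φ : GMor E F) (S : GSum) :
    φ.map (E.lastIncl S) = F.lastIncl S := by
  induction S using GSum.rec' with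
  | hd n => exact φ.map_id _
  | hs S j i hS hi _ => exact φ.map_inr S j i hS hi

theorem GMor.map_glueMap {F : GlobExt} (φ : GMor E F) (S : GSum) {j : ℕ} (hS : j < S.last) :
    φ.map (E.glueMap S hS) = F.glueMap S hS := by
  show φ.map (E.comp _ _) = F.comp _ _
  rw [φ.map_comp, φ.map_tgtIter, φ.map_lastIncl]

theorem modelPresheaf_isGroupoidModel (G : GSet) (φ : GMor E G.endExt) :
    IsGroupoidModel E (modelPresheaf G φ) := by
  intro S j i hS hi a b h
  have key : G.tIter hS.le (GSet.Bar.last a) = G.sIter hi.le ((G.one i).symm b) :=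
    (G.one j).injective <| (G.endPre_glueMap S hS a).symm.trans <|
      ((congrFun (φ.map_glueMap S hS) a).symm.trans
        (h.trans (congrFun (φ.map_srcIter hi.le) b))).trans (G.endPre_srcIter hi.le b)
  refine ⟨GSet.Bar.mk' a ((G.one i).symm b) key,
    ⟨congrFun (φ.map_inl S j i hS hi) _, congrFun (φ.map_inr S j i hS hi) _⟩, ?_⟩
  intro c hc
  have h1 := (congrFun (φ.map_inl S j i hS hi) c).symm.trans hc.1
  have h2 := (congrFun (φ.map_inr S j i hS hi) c).symm.trans hc.2
  exact GSet.Bar.ext' h1 (congrArg ((G.one i).symm) h2)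

end Vale.Agent.P259
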