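import Vale.Agent.P259.DiscSpace
import Vale.Agent.P259.Model

/-!
# P259: the disc functor of a coherator
-/

noncomputable section

open CategoryTheory Opposite
open scoped unitInterval

namespace Vale.Agent.P259

/-- Globular sums with the continuous maps of their realisations. -/
def topPre : PreExt where
  Hom R S := C(R.space, S.space)
  id S := ContinuousMap.id _
  comp f g := g.comp f
  src n := low n
  tgt n := high n
  inl S j i hS hi := S.real.inX hS hi
  inr S j i hS hi := S.real.inD hS hi

theorem topPre_srcIter {j i : ℕ} (h : j ≤ i) : topPre.srcIter h = lowIter h := rfl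

theorem topPre_tgtIter {j i : ℕ} (h : j ≤ i) : topPre.tgtIter h = highIter h := rfl

theorem topPre_lastIncl (S : GSum) : topPre.lastIncl S = S.real.e := by
  obtain ⟨t, h⟩ := S
  cases t <;> rfl

theorem topPre_glueMap (S : GSum) {j : ℕ} (hS : j < S.last) :
    topPre.glueMap S hS = S.real.glue hS := by
  rw [PreExt.glueMap, topPre_lastIncl]
  rfl

/-- The globular extension of spaces. -/
def topExt : GlobExt where
  toPreExt := topPre
  id_comp _ := rfl
  comp_id _ := rfl
  assoc _ _ _ := rfl
  src_src n := low_low n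
  tgt_src n := low_high n
  sum_comm S j i hS hi := by
    rw [topPre_glueMap]
    exact ContinuousMap.ext fun a => S.real.inX_glue hS hi a
  sum_univ S j i hS hi T u v h := by
    rw [topPre_glueMap] at h
    exact S.real.glued_univ hS hi u v h

section Extension

variable {Z : Type*} [TopologicalSpace Z] {n : ℕ}

/-- The point above `x` at the relative height `2 t - 1`. -/
def column (n : ℕ) : C(I × Disc n, Disc (n + 1)) where
  toFun z := ⟨hemisphere n (2 * (z.1 : ℝ) - 1) z.2, by
    rw [mem_closedBall_zero_iff, ← abs_of_nonneg (norm_nonneg _), ← sq_le_one_iff_abs_le_one,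
      norm_sq_split, dropLast_hemisphere, hemisphere_last, mul_pow,
      Real.sq_sqrt (by linarith [norm_sq_le_one z.2])]
    have h1 : (2 * (z.1 : ℝ) - 1) ^ 2 ≤ 1 := by nlinarith [z.1.2.1, z.1.2.2]
    have h2 : 0 ≤ 1 - ‖(z.2 : EuclideanSpace ℝ (Fin n))‖ ^ 2 := by linarith [norm_sq_le_one z.2]
    nlinarith⟩
  continuous_toFun := by
    refine Continuous.subtype_mk ?_ _
    refine (PiLp.continuous_toLp 2 _).comp ?_
    refine Continuous.finSnoc ?_ ?_
    · exact (PiLp.continuous_ofLp 2 _).comp (continuous_subtype_val.comp continuous_snd)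
    · fun_prop

theorem column_zero (n : ℕ) (x : Disc n) : column n (0, x) = low n x := by
  refine Subtype.ext ?_
  simp [column, hemi]

theorem column_one (n : ℕ) (x : Disc n) : column n (1, x) = high n x := by
  refine Subtype.ext ?_
  norm_num [column, hemi]

theorem column_surjective (n : ℕ) : Function.Surjective (column n) := by
  intro v
  set w := Real.sqrt (1 - ‖(drop n v : EuclideanSpace ℝ (Fin n))‖ ^ 2) with hw
  set s := (v : EuclideanSpace ℝ (Fin (n + 1))) (Fin.last n) with hs
  have hsw : |s| ≤ w := abs_last_le v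
  rcases (Real.sqrt_nonneg _ : 0 ≤ w).eq_or_lt with h0 | h0
  · refine ⟨(0, drop n v), Subtype.ext (ext_split ?_ ?_)⟩
    · simp [column, dropLast_hemisphere]; rfl
    · have : s = 0 := abs_nonpos_iff.1 (hsw.trans_eq h0.symm)
      simp only [column, ContinuousMap.coe_mk, hemisphere_last, ← hw]
      rw [show w = 0 from h0.symm, mul_zero]
      exact this.symm
  · obtain ⟨hlo, hhi⟩ := abs_le.1 hsw
    have hm : (s + w) / (2 * w) ∈ I :=
      ⟨div_nonneg (by linarith) (by linarith), (div_le_one (by linarith)).2 (by linarith)⟩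
    refine ⟨(⟨_, hm⟩, drop n v), Subtype.ext (ext_split ?_ ?_)⟩
    · simp [column, dropLast_hemisphere]; rfl
    · simp only [column, ContinuousMap.coe_mk, hemisphere_last, ← hw]
      rw [show (v : EuclideanSpace ℝ (Fin (n + 1))) (Fin.last n) = s from rfl]
      have hw0 : w ≠ 0 := ne_of_gt h0
      field_simp
      ring

theorem column_eq_iff {p q : I × Disc n} (h : column n p = column n q) :
    p.2 = q.2 ∧ (‖(p.2 : EuclideanSpace ℝ (Fin n))‖ = 1 ∨ p.1 = q.1) := by
  have hv := congrArg Subtype.val h
  simp only [column, ContinuousMap.coe_mk] at hv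
  have hx : p.2 = q.2 := by
    refine Subtype.ext ?_
    simpa [dropLast_hemisphere] using congrArg (dropLast n) hv
  refine ⟨hx, ?_⟩
  by_cases hn : ‖(p.2 : EuclideanSpace ℝ (Fin n))‖ = 1
  · exact Or.inl hn
  right
  have hl := congrArg (fun u : EuclideanSpace ℝ (Fin (n + 1)) => u (Fin.last n)) hv
  simp only [hemisphere_last, ← hx] at hl
  have hpos : 0 < Real.sqrt (1 - ‖(p.2 : EuclideanSpace ℝ (Fin n))‖ ^ 2) := by
    refine Real.sqrt_pos.2 ?_
    have h1 : ‖(p.2 : EuclideanSpace ℝ (Fin n))‖ < 1 := lt_of_le_of_ne (norm_le_one _) hn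
    nlinarith [norm_nonneg (p.2 : EuclideanSpace ℝ (Fin n))]
  have := mul_right_cancel₀ hpos.ne' hl
  exact Subtype.ext (by linarith)

/-- A homotopy relative to the boundary gives a map of the disc one dimension up. -/
theorem exists_of_homotopy (H : C(I × Disc n, Z))
    (hH : ∀ (t : I) (x : Disc n), ‖(x : EuclideanSpace ℝ (Fin n))‖ = 1 → H (t, x) = H (0, x)) :
    ∃ h : C(Disc (n + 1), Z), (∀ x, h (low n x) = H (0, x)) ∧ ∀ x, h (high n x) = H (1, x) := by
  have hq : Topology.IsQuotientMap (column n) :=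
    ((column n).continuous.isClosedMap).isQuotientMap (column n).continuous (column_surjective n)
  have hf : Function.FactorsThrough H (column n) := by
    intro p q h
    obtain ⟨hx, h1 | h1⟩ := column_eq_iff h
    · change H (p.1, p.2) = H (q.1, q.2)
      rw [← hx, hH p.1 _ h1, hH q.1 _ h1]
    · rw [Prod.ext h1 hx]
  refine ⟨hq.lift H hf, fun x => ?_, fun x => ?_⟩
  · rw [← column_zero n x]; exact ContinuousMap.congr_fun (hq.lift_comp H hf) (0, x)
  · rw [← column_one n x]; exact ContinuousMap.congr_fun (hq.lift_comp H hf) (1, x)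

/-- The sphere is covered by the lower and the upper hemisphere, so a map on it is given by
two maps on discs. -/
theorem exists_sphere_map (a b : C(Disc n, Z))
    (hab : ∀ x : Disc n, ‖(x : EuclideanSpace ℝ (Fin n))‖ = 1 → a x = b x) :
    ∃ φ : C({v : Disc (n + 1) // ‖(v : EuclideanSpace ℝ (Fin (n + 1)))‖ = 1}, Z),
      (∀ x h, φ ⟨low n x, h⟩ = a x) ∧ ∀ x h, φ ⟨high n x, h⟩ = b x := by
  classical
  set f : {v : Disc (n + 1) // ‖(v : EuclideanSpace ℝ (Fin (n + 1)))‖ = 1} → Z := fun v =>
    if (v.1 : EuclideanSpace ℝ (Fin (n + 1))) (Fin.last n) ≤ 0 then a (drop n v.1)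
      else b (drop n v.1) with hf
  have hagree : ∀ v : {v : Disc (n + 1) // ‖(v : EuclideanSpace ℝ (Fin (n + 1)))‖ = 1},
      (v.1 : EuclideanSpace ℝ (Fin (n + 1))) (Fin.last n) = 0 → a (drop n v.1) = b (drop n v.1) := by
    intro v h0
    refine hab _ ?_
    have := norm_sq_split (v.1 : EuclideanSpace ℝ (Fin (n + 1)))
    rw [v.2, h0] at this
    change ‖dropLast n _‖ = 1
    nlinarith [norm_nonneg (dropLast n (v.1 : EuclideanSpace ℝ (Fin (n + 1))))]
  have hc : Continuous f := by
    refine continuous_if_le (by fun_prop) continuous_const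
      (a.continuous.comp ((drop n).continuous.comp continuous_subtype_val)).continuousOn
      (b.continuous.comp ((drop n).continuous.comp continuous_subtype_val)).continuousOn ?_
    exact hagree
  refine ⟨⟨f, hc⟩, fun x h => ?_, fun x h => ?_⟩
  · simp only [ContinuousMap.coe_mk, hf]
    rw [if_pos, drop_hemi]
    simp [hemi, hemisphere_last, Real.sqrt_nonneg]
  · simp only [ContinuousMap.coe_mk, hf, drop_hemi]
    split_ifs with h0
    · have h1 : ((high n x : Disc (n + 1)) : EuclideanSpace ℝ (Fin (n + 1))) (Fin.last n) = 0 := by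
        refine le_antisymm h0 ?_
        simp [hemi, hemisphere_last, Real.sqrt_nonneg]
      simpa [drop_hemi] using hagree ⟨high n x, h⟩ h1
    · rfl

/-- In a contractible space every map of the sphere extends to the disc. -/
theorem exists_cone [ContractibleSpace Z] (φ : C({v : Disc (n + 1) // ‖(v : EuclideanSpace ℝ (Fin (n + 1)))‖ = 1}, Z)) :
    ∃ h : C(Disc (n + 1), Z),
      ∀ (v : Disc (n + 1)) (hv : ‖(v : EuclideanSpace ℝ (Fin (n + 1)))‖ = 1), h v = φ ⟨v, hv⟩ := by
  obtain ⟨c, ⟨K⟩⟩ := id_nullhomotopic Z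
  have : CompactSpace {v : Disc (n + 1) // ‖(v : EuclideanSpace ℝ (Fin (n + 1)))‖ = 1} := isCompact_iff_compactSpace.1
    ((isClosed_eq (continuous_norm.comp continuous_subtype_val) continuous_const).isCompact)
  have hmem : ∀ z : I × {v : Disc (n + 1) // ‖(v : EuclideanSpace ℝ (Fin (n + 1)))‖ = 1},
      (1 - (z.1 : ℝ)) • ((z.2.1 : Disc (n + 1)) : EuclideanSpace ℝ (Fin (n + 1))) ∈
        Metric.closedBall 0 1 := by
    intro z
    rw [mem_closedBall_zero_iff, norm_smul, z.2.2, mul_one, Real.norm_eq_abs,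
      abs_of_nonneg (by linarith [z.1.2.2])]
    linarith [z.1.2.1]
  let q : C(I × {v : Disc (n + 1) // ‖(v : EuclideanSpace ℝ (Fin (n + 1)))‖ = 1}, Disc (n + 1)) := ⟨fun z => ⟨_, hmem z⟩, Continuous.subtype_mk (by fun_prop) hmem⟩
  have hqn : ∀ z : I × {v : Disc (n + 1) // ‖(v : EuclideanSpace ℝ (Fin (n + 1)))‖ = 1}, ‖(q z : EuclideanSpace ℝ (Fin (n + 1)))‖ = 1 - (z.1 : ℝ) := by
    intro z
    simp [q, norm_smul, z.2.2, abs_of_nonneg (show 0 ≤ 1 - (z.1 : ℝ) by linarith [z.1.2.2])]
  have hsurj : Function.Surjective q := by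
    intro v
    by_cases hv : (v : EuclideanSpace ℝ (Fin (n + 1))) = 0
    · refine ⟨(1, ⟨high n ⟨0, by simp⟩, norm_hemisphere _ (by norm_num)⟩), Subtype.ext ?_⟩
      simp [q, hv]
    · set r := ‖(v : EuclideanSpace ℝ (Fin (n + 1)))‖ with hr
      have hr0 : 0 < r := norm_pos_iff.2 hv
      refine ⟨(⟨1 - r, by constructor <;> linarith [norm_le_one v]⟩,
        ⟨⟨r⁻¹ • (v : EuclideanSpace ℝ (Fin (n + 1))), ?_⟩, ?_⟩), Subtype.ext ?_⟩
      · simp [norm_smul, abs_of_pos hr0, ← hr, hr0.ne']
      · simp [norm_smul, abs_of_pos hr0, ← hr, hr0.ne']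
      · simp [q, smul_smul, hr0.ne']
  set H : C(I × {v : Disc (n + 1) // ‖(v : EuclideanSpace ℝ (Fin (n + 1)))‖ = 1}, Z) := K.toContinuousMap.comp (ContinuousMap.prodMap (ContinuousMap.id I) φ)
    with hH
  have hquot : Topology.IsQuotientMap q :=
    q.continuous.isClosedMap.isQuotientMap q.continuous hsurj
  have hf : Function.FactorsThrough H q := by
    intro p r h
    have h1 : (p.1 : ℝ) = r.1 := by
      have := congrArg (fun v : Disc (n + 1) => ‖(v : EuclideanSpace ℝ (Fin (n + 1)))‖) h
      simp only [hqn] at this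
      linarith
    have h1' : p.1 = r.1 := Subtype.ext h1
    by_cases ht : (p.1 : ℝ) = 1
    · have hp : p.1 = 1 := Subtype.ext ht
      simp only [hH, ContinuousMap.comp_apply, ContinuousMap.prodMap_apply, ← h1', hp,
        ContinuousMap.id_apply, Prod.map]
      exact (K.apply_one (φ p.2)).trans (K.apply_one (φ r.2)).symm
    · have h2 : p.2 = r.2 := by
        have := congrArg Subtype.val h
        simp only [q, ContinuousMap.coe_mk, ← h1] at this
        exact Subtype.ext (Subtype.ext (smul_right_injective _ (sub_ne_zero.2 (Ne.symm ht)) this))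
      rw [Prod.ext h1' h2]
  have hq0 : ∀ (v : Disc (n + 1)) (hv : ‖(v : EuclideanSpace ℝ (Fin (n + 1)))‖ = 1),
      hquot.lift H hf v = φ ⟨v, hv⟩ := by
    intro v hv
    have e : q (0, ⟨v, hv⟩) = v := Subtype.ext (by simp [q])
    conv_lhs => rw [← e]
    refine (ContinuousMap.congr_fun (hquot.lift_comp H hf) _).trans ?_
    simp [hH]
  exact ⟨hquot.lift H hf, hq0⟩

/-- In a contractible space every pair of discs with common boundary bounds a disc. -/
theorem exists_disc_fill [ContractibleSpace Z] (a b : C(Disc n, Z))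
    (hab : ∀ x : Disc n, ‖(x : EuclideanSpace ℝ (Fin n))‖ = 1 → a x = b x) :
    ∃ h : C(Disc (n + 1), Z), h.comp (low n) = a ∧ h.comp (high n) = b := by
  obtain ⟨φ, hφa, hφb⟩ := exists_sphere_map a b hab
  obtain ⟨h, hh⟩ := exists_cone φ
  refine ⟨h, ContinuousMap.ext fun x => ?_, ContinuousMap.ext fun x => ?_⟩
  · have e : ‖((low n x : Disc (n + 1)) : EuclideanSpace ℝ (Fin (n + 1)))‖ = 1 :=
      norm_hemisphere x (by norm_num)
    exact (hh (low n x) e).trans (hφa x e)
  · have e : ‖((high n x : Disc (n + 1)) : EuclideanSpace ℝ (Fin (n + 1)))‖ = 1 :=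
      norm_hemisphere x (by norm_num)
    exact (hh (high n x) e).trans (hφb x e)

/-- Parallel pairs of discs agree on the boundary sphere. -/
theorem parallel_boundary {a b : C(Disc (n + 1), Z)} (hl : a.comp (low n) = b.comp (low n))
    (hh : a.comp (high n) = b.comp (high n)) (x : Disc (n + 1))
    (hx : ‖(x : EuclideanSpace ℝ (Fin (n + 1)))‖ = 1) : a x = b x := by
  rcases le_total 0 ((x : EuclideanSpace ℝ (Fin (n + 1))) (Fin.last n)) with h | h
  · rw [(sphere_cases x hx).1 h]; exact ContinuousMap.congr_fun hh _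
  · rw [(sphere_cases x hx).2 h]; exact ContinuousMap.congr_fun hl _

theorem disc_zero_norm (x : Disc 0) : ‖(x : EuclideanSpace ℝ (Fin 0))‖ ≠ 1 := by
  simp [Subsingleton.elim (x : EuclideanSpace ℝ (Fin 0)) 0]

end Extension

theorem topExt_lift {n : ℕ} {S : GSum} (f g : topExt.Hom (GSum.disc n) S)
    (h : topExt.Parallel f g) : ∃ l, topExt.IsLift f g l := by
  refine exists_disc_fill (Z := S.space) f g fun x hx => ?_
  match n, f, g, h, x, hx with
  | 0, _, _, _, x, hx => exact absurd hx (disc_zero_norm x)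
  | n + 1, f, g, h, x, hx => exact parallel_boundary h.1 h.2 x hx

theorem GMor.map_parallel {E F : GlobExt} (φ : GMor E F) {n : ℕ} {S : GSum}
    {f g : E.Hom (GSum.disc n) S} (h : E.Parallel f g) : F.Parallel (φ.map f) (φ.map g) := by
  cases n with
  | zero => trivial
  | succ n =>
    exact ⟨by rw [← φ.map_src, ← φ.map_comp, ← φ.map_comp, h.1],
      by rw [← φ.map_tgt, ← φ.map_comp, ← φ.map_comp, h.2]⟩

/-- A cellular extension maps to any extension in which parallel pairs have lifts. -/
theorem Coherator.exists_mor_of_lifts (C : Coherator) (E : GlobExt)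
    (hE : ∀ {n : ℕ} {S : GSum} (f g : E.Hom (GSum.disc n) S), E.Parallel f g → ∃ l, E.IsLift f g l) :
    Nonempty (GMor C.ext E) := by
  obtain ⟨φ₀, -⟩ := (C.stage_zero E).exists
  have step : ∀ k (φ : GMor (C.stage k) E), ∃ ψ : GMor (C.stage (k + 1)) E,
      (C.step k).comp ψ = φ := by
    intro k φ
    choose l hl using fun a : C.Adj k =>
      hE _ _ (φ.map_parallel (C.pair k a).parallel)
    obtain ⟨ψ, hψ, -⟩ := C.adj_univ k E φ l hl
    exact ⟨ψ, hψ.1⟩
  choose next hnext using step
  let φ : ∀ k, GMor (C.stage k) E := Nat.rec φ₀ next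
  obtain ⟨ψ, -⟩ := C.colim_univ E φ fun k => hnext k (φ k)
  exact ⟨ψ⟩

variable (C : Coherator)

/-- The chosen map from the coherator to spaces. -/
def Coherator.toTopExt : GMor C.ext topExt :=
  (C.exists_mor_of_lifts topExt topExt_lift).some

instance GSum.space_cg (S : GSum) : UCompactlyGeneratedSpace.{0} S.space := inferInstance

/-- The compactly generated space of a globular sum. -/
abbrev GSum.cgSpace (S : GSum) : CGTop := CompactlyGenerated.of S.space

/-- A map of realisations as a morphism of compactly generated spaces. -/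
abbrev cgMap (R S : GSum) (f : C(R.space, S.space)) : R.cgSpace ⟶ S.cgSpace :=
  CompactlyGenerated.ofHom.{0, 0} f

/-- The underlying functor of the disc functor. -/
def Coherator.realFunctor : C.ext.Obj ⥤ CGTop where
  obj R := R.sum.cgSpace
  map {R S} f := CompactlyGenerated.ofHom.{0, 0} (C.toTopExt.map f)
  map_id R := by
    change CompactlyGenerated.ofHom.{0, 0} (C.toTopExt.map (C.ext.id R.sum)) = _
    rw [GMor.map_id]; rfl
  map_comp f g := by
    change CompactlyGenerated.ofHom.{0, 0} (C.toTopExt.map (C.ext.comp f g)) = _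
    rw [GMor.map_comp]; rfl

theorem Coherator.realFunctor_glueMap (S : GSum) {j : ℕ} (hS : j < S.last) :
    C.realFunctor.map (C.ext.hom (C.ext.glueMap S hS))
      = cgMap (GSum.disc j) S (S.real.glue hS) :=
  congrArg (cgMap (GSum.disc j) S) ((C.toTopExt.map_glueMap S hS).trans (topPre_glueMap S hS))

/-- The disc functor. -/
def Coherator.discFunctor : DiscFunctor C where
  functor := C.realFunctor
  disc n := Homeomorph.refl _
  disc_src n p := by
    change ((show C(Disc n, Disc (n + 1)) from C.toTopExt.map (C.ext.src n)) p).1 = _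
    rw [GMor.map_src]
    rfl
  disc_tgt n p := by
    change ((show C(Disc n, Disc (n + 1)) from C.toTopExt.map (C.ext.tgt n)) p).1 = _
    rw [GMor.map_tgt]
    rfl
  preserves_sums S j i hS hi := by
    have e1 : C.realFunctor.map (C.ext.hom (C.ext.inl S j i hS hi))
        = cgMap S (S.snoc j i hS hi) (S.real.inX hS hi) :=
      congrArg (cgMap S (S.snoc j i hS hi)) (C.toTopExt.map_inl S j i hS hi)
    have e2 : C.realFunctor.map (C.ext.hom (C.ext.inr S j i hS hi))
        = cgMap (GSum.disc i) (S.snoc j i hS hi) (S.real.inD hS hi) :=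
      congrArg (cgMap (GSum.disc i) (S.snoc j i hS hi)) (C.toTopExt.map_inr S j i hS hi)
    have e3 : C.realFunctor.map (C.ext.hom (C.ext.srcIter hi.le))
        = cgMap (GSum.disc j) (GSum.disc i) (lowIter hi.le) :=
      congrArg (cgMap (GSum.disc j) (GSum.disc i)) ((C.toTopExt.map_srcIter hi.le).trans (topPre_srcIter hi.le))
    rw [C.realFunctor_glueMap S hS, e1, e2, e3]
    refine IsPushout.of_isColimit (Limits.PushoutCocone.IsColimit.mk (W := (S.snoc j i hS hi).cgSpace)
      (f := cgMap (GSum.disc j) S (S.real.glue hS))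
      (g := cgMap (GSum.disc j) (GSum.disc i) (lowIter hi.le))
      (inl := cgMap S (S.snoc j i hS hi) (S.real.inX hS hi))
      (inr := cgMap (GSum.disc i) (S.snoc j i hS hi) (S.real.inD hS hi))
      (by ext a; exact S.real.inX_glue hS hi a)
      (fun s => ConcreteCategory.ofHom ((S.real.glued_univ hS hi (s.inl.hom.hom)
        (s.inr.hom.hom) (by
          ext a; exact ConcreteCategory.congr_hom s.condition a)).choose))
      (fun s => ?_) (fun s => ?_) (fun s m hm1 hm2 => ?_))
    · ext a
      exact ContinuousMap.congr_fun ((S.real.glued_univ hS hi (s.inl.hom.hom)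
        (s.inr.hom.hom) (by
          ext a; exact ConcreteCategory.congr_hom s.condition a)).choose_spec.1.1) a
    · ext a
      exact ContinuousMap.congr_fun ((S.real.glued_univ hS hi (s.inl.hom.hom)
        (s.inr.hom.hom) (by
          ext a; exact ConcreteCategory.congr_hom s.condition a)).choose_spec.1.2) a
    · refine ConcreteCategory.hom_injective ?_
      refine ((S.real.glued_univ hS hi (s.inl.hom.hom)
        (s.inr.hom.hom) (by
          ext a; exact ConcreteCategory.congr_hom s.condition a)).choose_spec.2 _ ⟨?_, ?_⟩)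
      · ext a; exact ConcreteCategory.congr_hom hm1 a
      · ext a; exact ConcreteCategory.congr_hom hm2 a

theorem Coherator.nonempty_idChoice : Nonempty (IdChoice C) := by
  choose one h using fun n => C.contractible ⟨n, GSum.disc n, C.ext.id _, C.ext.id _, by
    cases n with
    | zero => trivial
    | succ n => exact ⟨rfl, rfl⟩, Nat.le_succ n⟩
  exact ⟨⟨one, h⟩⟩

end Vale.Agent.P259
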