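import Vale.Agent.P259.Interface
import Vale.Agent.P259.Conj

/-!
# P259 (K2): cells up to homotopy, pullbacks, fibrations and equivalences
-/

open CategoryTheory Opposite

namespace Vale.Agent.P259

variable {C : Coherator}

namespace Coherator

variable {X Y Z : C.Gpd}

/-- The source of a cell. -/
abbrev src' (X : C.Gpd) {n : ℕ} (a : C.cells X (n + 1)) : C.cells X n :=
  act X.obj (C.ext.src n) a

/-- The target of a cell. -/
abbrev tgt' (X : C.Gpd) {n : ℕ} (a : C.cells X (n + 1)) : C.cells X n :=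
  act X.obj (C.ext.tgt n) a

theorem map_src' (φ : X ⟶ Y) {n : ℕ} (a : C.cells X (n + 1)) :
    C.mapCell φ n (C.src' X a) = C.src' Y (C.mapCell φ (n + 1) a) :=
  act_natural φ.hom _ a

theorem map_tgt' (φ : X ⟶ Y) {n : ℕ} (a : C.cells X (n + 1)) :
    C.mapCell φ n (C.tgt' X a) = C.tgt' Y (C.mapCell φ (n + 1) a) :=
  act_natural φ.hom _ a

theorem mapCell_comp (φ : X ⟶ Y) (ψ : Y ⟶ Z) (n : ℕ) (a : C.cells X n) :
    C.mapCell (φ ≫ ψ) n a = C.mapCell ψ n (C.mapCell φ n a) := rfl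

theorem ss' (X : C.Gpd) {n : ℕ} (a : C.cells X (n + 2)) :
    C.src' X (C.src' X a) = C.src' X (C.tgt' X a) := (C.gs X).ss a

theorem ts' (X : C.Gpd) {n : ℕ} (a : C.cells X (n + 2)) :
    C.tgt' X (C.src' X a) = C.tgt' X (C.tgt' X a) := (C.gs X).ts a

theorem par_map (φ : X ⟶ Y) : ∀ {n : ℕ} {a b : C.cells X n}, (C.gs X).Par a b →
    (C.gs Y).Par (C.mapCell φ n a) (C.mapCell φ n b)
  | 0, _, _, _ => trivial
  | _ + 1, a, b, h =>
    ⟨(C.map_src' φ a).symm.trans ((congrArg (C.mapCell φ _) h.1).trans (C.map_src' φ b)),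
      (C.map_tgt' φ a).symm.trans ((congrArg (C.mapCell φ _) h.2).trans (C.map_tgt' φ b))⟩

theorem par_boundary (X : C.Gpd) : ∀ {n : ℕ} (h : C.cells X (n + 1)),
    (C.gs X).Par (C.src' X h) (C.tgt' X h)
  | 0, _ => trivial
  | _ + 1, h => ⟨C.ss' X h, C.ts' X h⟩

/-- The composite of two cells. -/
noncomputable def cmpC (X : C.Gpd) {n : ℕ} (a b : C.cells X (n + 1))
    (h : C.tgt' X a = C.src' X b) : C.cells X (n + 1) :=
  (Fam.compU C n).app X
    (GSet.Bar.mk' ((C.gs X).one (n + 1) a) b (by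
      show (C.gs X).tIter n.le_succ a = (C.gs X).sIter n.le_succ b
      rw [GSet.tIter_succ _ le_rfl, GSet.tIter_self, GSet.sIter_succ _ le_rfl, GSet.sIter_self]
      exact h))

theorem src_oneC (X : C.Gpd) {n : ℕ} (a : C.cells X n) : C.src' X (C.oneC X a) = a :=
  congrFun (congrFun (congrArg Nat'.app (Fam.one_s (discT (C := C) n))) X) _

theorem tgt_oneC (X : C.Gpd) {n : ℕ} (a : C.cells X n) : C.tgt' X (C.oneC X a) = a :=
  congrFun (congrFun (congrArg Nat'.app (Fam.one_t (discT (C := C) n))) X) _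

theorem src_invC (X : C.Gpd) {n : ℕ} (a : C.cells X (n + 1)) :
    C.src' X (C.invC X a) = C.tgt' X a :=
  congrFun (congrFun (congrArg Nat'.app (Fam.inv_s (discT (C := C) (n + 1)))) X) _

theorem tgt_invC (X : C.Gpd) {n : ℕ} (a : C.cells X (n + 1)) :
    C.tgt' X (C.invC X a) = C.src' X a :=
  congrFun (congrFun (congrArg Nat'.app (Fam.inv_t (discT (C := C) (n + 1)))) X) _

theorem src_cmpC (X : C.Gpd) {n : ℕ} (a b : C.cells X (n + 1)) (h : C.tgt' X a = C.src' X b) :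
    C.src' X (C.cmpC X a b h) = C.src' X a :=
  congrFun (congrFun (congrArg Nat'.app (Fam.exists_compU C n).choose_spec.1) X) _

theorem tgt_cmpC (X : C.Gpd) {n : ℕ} (a b : C.cells X (n + 1)) (h : C.tgt' X a = C.src' X b) :
    C.tgt' X (C.cmpC X a b h) = C.tgt' X b :=
  congrFun (congrFun (congrArg Nat'.app (Fam.exists_compU C n).choose_spec.2) X) _

theorem map_oneC (φ : X ⟶ Y) {n : ℕ} (a : C.cells X n) :
    C.mapCell φ (n + 1) (C.oneC X a) = C.oneC Y (C.mapCell φ n a) :=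
  (Fam.one (discT n)).nat φ _

theorem map_cmpC (φ : X ⟶ Y) {n : ℕ} (a b : C.cells X (n + 1))
    (h : C.tgt' X a = C.src' X b) :
    C.mapCell φ (n + 1) (C.cmpC X a b h) =
      C.cmpC Y (C.mapCell φ (n + 1) a) (C.mapCell φ (n + 1) b)
        ((C.map_tgt' φ a).symm.trans ((congrArg (C.mapCell φ n) h).trans (C.map_src' φ b))) := by
  refine ((Fam.compU C n).nat φ _).trans (congrArg ((Fam.compU C n).app Y) ?_)
  exact GSet.Bar.ext' ((gsMap φ.hom).bar_fst _) ((gsMap φ.hom).bar_snd _)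

/-- Related families give related cells. -/
theorem cellRel_of_rel {R : TFun C} {n : ℕ} {A B : Fam R n} (h : A.Rel B) (X : C.Gpd)
    (x : R.obj X) : CellRel X (A.app X x) (B.app X x) := by
  obtain ⟨H, hs, ht⟩ := h
  exact ⟨H.app X x, congrFun (congrFun (congrArg Nat'.app hs) X) x,
    congrFun (congrFun (congrArg Nat'.app ht) X) x⟩

theorem cellRel_refl (X : C.Gpd) {n : ℕ} (a : C.cells X n) : CellRel X a a :=
  ⟨C.oneC X a, C.src_oneC X a, C.tgt_oneC X a⟩

theorem cellRel_symm {n : ℕ} {a b : C.cells X n} (h : CellRel X a b) : CellRel X b a := by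
  obtain ⟨H, hs, ht⟩ := h
  exact ⟨C.invC X H, (C.src_invC X H).trans ht, (C.tgt_invC X H).trans hs⟩

theorem cellRel_trans {n : ℕ} {a b d : C.cells X n} (h : CellRel X a b) (h' : CellRel X b d) :
    CellRel X a d := by
  obtain ⟨H, hs, ht⟩ := h
  obtain ⟨K, ks, kt⟩ := h'
  exact ⟨C.cmpC X H K (ht.trans ks.symm), (C.src_cmpC X H K _).trans hs,
    (C.tgt_cmpC X H K _).trans kt⟩

theorem cellRel_equivalence (X : C.Gpd) (n : ℕ) : Equivalence (CellRel X (n := n)) :=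
  ⟨C.cellRel_refl X, C.cellRel_symm, C.cellRel_trans⟩

theorem cellRel_of_eq {n : ℕ} {a b : C.cells X n} (h : a = b) : CellRel X a b :=
  h ▸ C.cellRel_refl X a

theorem pi0_mk_eq (X : C.Gpd) {a b : C.cells X 0}
    (h : (Quot.mk _ a : Pi0 X) = Quot.mk _ b) : CellRel X a b :=
  ((C.cellRel_equivalence X 0).quot_mk_eq_iff a b).mp h

theorem piSucc_mk_eq (c : IdChoice C) (X : C.Gpd) (x : C.cells X 0) (m : ℕ) {a b : Loop c X x m}
    (h : (Quot.mk _ a : PiSucc c X x m) = Quot.mk _ b) : CellRel X a.1 b.1 :=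
  have e : Equivalence (fun u v : Loop c X x m => CellRel X u.1 v.1) :=
    ⟨fun u => C.cellRel_refl X u.1, C.cellRel_symm, C.cellRel_trans⟩
  (e.quot_mk_eq_iff a b).mp h

theorem cmpC_oneC (X : C.Gpd) {n : ℕ} (a : C.cells X (n + 1)) :
    CellRel X (C.cmpC X a (C.oneC X (C.tgt' X a)) (C.src_oneC X _).symm) a :=
  C.cellRel_of_rel (Fam.cmp_one (discT (C := C) (n + 1))) X ((C.gs X).one (n + 1) a)

theorem oneC_cmpC (X : C.Gpd) {n : ℕ} (a : C.cells X (n + 1)) :
    CellRel X (C.cmpC X (C.oneC X (C.src' X a)) a (C.tgt_oneC X _)) a :=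
  C.cellRel_of_rel (Fam.one_cmp (discT (C := C) (n + 1))) X ((C.gs X).one (n + 1) a)

theorem cmpC_congr_right (X : C.Gpd) {n : ℕ} (a : C.cells X (n + 1)) {b b' : C.cells X (n + 1)}
    (r : CellRel X b b') (h : C.tgt' X a = C.src' X b) (h' : C.tgt' X a = C.src' X b') :
    CellRel X (C.cmpC X a b h) (C.cmpC X a b' h') := by
  obtain ⟨H, hs, ht⟩ := r
  subst hs ht
  have hq : n < n + 2 := by omega
  let A := Fam.hd (C := C) (n + 1) n (n + 2) n.lt_succ_self hq
  let B := Fam.tl (C := C) (n + 1) n (n + 2) n.lt_succ_self hq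
  have hAB : A.t = B.s.s := by
    have e := Fam.hd_tl (C := C) (n + 1) n (n + 2) n.lt_succ_self hq
    rw [Fam.tIt_one, Fam.sIt_two] at e
    exact e
  have U := Fam.Rel.cmp_right A (B := B.s) (B' := B.t) ⟨B, rfl, rfl⟩ hAB
  exact C.cellRel_of_rel U X (GSet.Bar.mk' ((C.gs X).one (n + 1) a) H (by
    show (C.gs X).tIter n.le_succ a = (C.gs X).sIter _ H
    rw [GSet.tIter_succ _ le_rfl, GSet.tIter_self, GSet.sIter_succ _ n.le_succ,
      GSet.sIter_succ _ le_rfl, GSet.sIter_self]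
    exact h))

end Coherator

/-! ## Pullbacks -/

section Pullback

variable {X Y Z W : C.Gpd} (f : X ⟶ Z) (g : Y ⟶ Z)

/-- The presheaf of compatible pairs. -/
def pbPresheaf : C.ext.Objᵒᵖ ⥤ Type where
  obj R := {p : X.obj.obj R × Y.obj.obj R // f.hom.app R p.1 = g.hom.app R p.2}
  map {R R'} k := TypeCat.ofHom fun p => ⟨(X.obj.map k p.1.1, Y.obj.map k p.1.2), by
    rw [NatTrans.naturality_apply, NatTrans.naturality_apply, p.2]⟩
  map_id R := by
    ext p <;> simp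
  map_comp k l := by
    ext p <;> simp

theorem pbPresheaf_model : IsGroupoidModel C.ext (pbPresheaf f g) := by
  intro S j i hS hi a b h
  obtain ⟨u, ⟨hu1, hu2⟩, huu⟩ := X.property S j i hS hi a.1.1 b.1.1
    (congrArg (fun q => q.1.1) h)
  obtain ⟨v, ⟨hv1, hv2⟩, hvu⟩ := Y.property S j i hS hi a.1.2 b.1.2
    (congrArg (fun q => q.1.2) h)
  have huv : f.hom.app (op ⟨S.snoc j i hS hi⟩) u = g.hom.app (op ⟨S.snoc j i hS hi⟩) v := by
    have hc : act Z.obj (C.ext.glueMap S hS) (g.hom.app _ a.1.2) =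
        act Z.obj (C.ext.srcIter hi.le) (g.hom.app _ b.1.2) := by
      rw [← act_natural, ← act_natural]
      exact congrArg (g.hom.app _) (congrArg (fun q => q.1.2) h)
    refine (Z.property S j i hS hi _ _ hc).unique ⟨?_, ?_⟩ ⟨?_, ?_⟩
    · rw [← act_natural, hu1]; exact a.2
    · rw [← act_natural, hu2]; exact b.2
    · rw [← act_natural, hv1]
    · rw [← act_natural, hv2]
  refine ⟨⟨(u, v), huv⟩, ⟨Subtype.ext (Prod.ext hu1 hv1), Subtype.ext (Prod.ext hu2 hv2)⟩, ?_⟩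
  rintro ⟨⟨u', v'⟩, huv'⟩ ⟨h1, h2⟩
  exact Subtype.ext (Prod.ext
    (huu u' ⟨congrArg (fun q => q.1.1) h1, congrArg (fun q => q.1.1) h2⟩)
    (hvu v' ⟨congrArg (fun q => q.1.2) h1, congrArg (fun q => q.1.2) h2⟩))

/-- The pullback of two maps of groupoids. -/
def pb : C.Gpd := ⟨pbPresheaf f g, pbPresheaf_model f g⟩

/-- The first projection. -/
def pbFst : pb f g ⟶ X :=
  ObjectProperty.homMk { app := fun _ => TypeCat.ofHom fun p => p.1.1 }

/-- The second projection. -/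
def pbSnd : pb f g ⟶ Y :=
  ObjectProperty.homMk { app := fun _ => TypeCat.ofHom fun p => p.1.2 }

theorem pb_comm : pbFst f g ≫ f = pbSnd f g ≫ g :=
  ObjectProperty.hom_ext _ (by ext R p; exact p.2)

/-- The map into a pullback. -/
def pbLift (u : W ⟶ X) (v : W ⟶ Y) (h : u ≫ f = v ≫ g) : W ⟶ pb f g :=
  ObjectProperty.homMk
    { app := fun R => TypeCat.ofHom fun w =>
        (⟨(u.hom.app R w, v.hom.app R w), congrArg (fun k : W ⟶ Z => k.hom.app R w) h⟩ :
          {p : X.obj.obj R × Y.obj.obj R // f.hom.app R p.1 = g.hom.app R p.2})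
      naturality := fun R R' k => by
        ext w
        refine Subtype.ext (Prod.ext ?_ ?_)
        · show u.hom.app R' (W.obj.map k w) = X.obj.map k (u.hom.app R w)
          exact NatTrans.naturality_apply u.hom k w
        · show v.hom.app R' (W.obj.map k w) = Y.obj.map k (v.hom.app R w)
          exact NatTrans.naturality_apply v.hom k w }

theorem pbLift_fst (u : W ⟶ X) (v : W ⟶ Y) (h : u ≫ f = v ≫ g) :
    pbLift f g u v h ≫ pbFst f g = u := rfl

theorem pbLift_snd (u : W ⟶ X) (v : W ⟶ Y) (h : u ≫ f = v ≫ g) :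
    pbLift f g u v h ≫ pbSnd f g = v := rfl

/-- A pair of cells in the pullback. -/
def pbCell {n : ℕ} (a : C.cells X n) (b : C.cells Y n)
    (h : C.mapCell f n a = C.mapCell g n b) : C.cells (pb f g) n :=
  ⟨(a, b), h⟩

theorem pbCell_ext {n : ℕ} {p q : C.cells (pb f g) n}
    (h1 : C.mapCell (pbFst f g) n p = C.mapCell (pbFst f g) n q)
    (h2 : C.mapCell (pbSnd f g) n p = C.mapCell (pbSnd f g) n q) : p = q :=
  Subtype.ext (Prod.ext h1 h2)

theorem pbCell_fst {n : ℕ} (a : C.cells X n) (b : C.cells Y n) (h) :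
    C.mapCell (pbFst f g) n (pbCell f g a b h) = a := rfl

theorem pbCell_snd {n : ℕ} (a : C.cells X n) (b : C.cells Y n) (h) :
    C.mapCell (pbSnd f g) n (pbCell f g a b h) = b := rfl

theorem pb_cell_comm {n : ℕ} (p : C.cells (pb f g) n) :
    C.mapCell f n (C.mapCell (pbFst f g) n p) = C.mapCell g n (C.mapCell (pbSnd f g) n p) :=
  p.2

theorem IsFib.pbFst (hg : IsFib g) : IsFib (pbFst f g) := by
  intro n p h hh
  obtain ⟨h', hs, hm⟩ := hg n (C.mapCell (pbSnd f g) n p) (C.mapCell f (n + 1) h)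
    (((C.map_src' f h).symm.trans (congrArg (C.mapCell f n) hh)).trans (pb_cell_comm f g p))
  exact ⟨pbCell f g h h' hm.symm, Subtype.ext (Prod.ext hh hs), rfl⟩

theorem IsTrivFib.pbFst (hg : IsTrivFib g) : IsTrivFib (pbFst f g) := by
  refine ⟨fun x => ?_, fun n a b h hab hs ht => ?_⟩
  · obtain ⟨y, hy⟩ := hg.1 (C.mapCell f 0 x)
    exact ⟨pbCell f g x y hy.symm, rfl⟩
  · obtain ⟨h', hs', ht', hm⟩ := hg.2 n (C.mapCell (Vale.Agent.P259.pbSnd f g) n a)
      (C.mapCell (Vale.Agent.P259.pbSnd f g) n b) (C.mapCell f (n + 1) h)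
      (C.par_map _ hab)
      (((C.map_src' f h).symm.trans (congrArg (C.mapCell f n) hs)).trans (pb_cell_comm f g a))
      (((C.map_tgt' f h).symm.trans (congrArg (C.mapCell f n) ht)).trans (pb_cell_comm f g b))
    exact ⟨pbCell f g h h' hm.symm, Subtype.ext (Prod.ext hs hs'), Subtype.ext (Prod.ext ht ht'),
      rfl⟩

end Pullback

/-! ## Contractibility and equivalences -/

/-- Weak contractibility: nonempty, and parallel cells are related. -/
structure IsContr (X : C.Gpd) : Prop where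
  nonempty : Nonempty (C.cells X 0)
  rel : ∀ (n : ℕ) (a b : C.cells X n), (C.gs X).Par a b → CellRel X a b

/-- Equivalences: essentially surjective, and fillers downstairs lift up to homotopy. -/
structure IsEquivMap {X Y : C.Gpd} (φ : X ⟶ Y) : Prop where
  surj : ∀ y : C.cells Y 0, ∃ x, CellRel Y (C.mapCell φ 0 x) y
  lift : ∀ (n : ℕ) (a b : C.cells X n) (h : C.cells Y (n + 1)), (C.gs X).Par a b →
    C.src' Y h = C.mapCell φ n a → C.tgt' Y h = C.mapCell φ n b →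
    ∃ h' : C.cells X (n + 1), C.src' X h' = a ∧ C.tgt' X h' = b ∧
      CellRel Y (C.mapCell φ (n + 1) h') h

theorem IsEquivMap.weq {X Y : C.Gpd} {φ : X ⟶ Y} (hφ : IsEquivMap φ) (c : IdChoice C) :
    weq c φ := by
  refine ⟨⟨?_, ?_⟩, fun x m => ⟨?_, ?_⟩⟩
  · rintro ⟨a⟩ ⟨b⟩ h
    obtain ⟨H, hs, ht⟩ := C.pi0_mk_eq Y h
    obtain ⟨H', hs', ht', -⟩ := hφ.lift 0 a b H trivial hs ht
    exact Quot.sound ⟨H', hs', ht'⟩
  · rintro ⟨y⟩
    obtain ⟨x, hx⟩ := hφ.surj y
    exact ⟨Quot.mk _ x, Quot.sound hx⟩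
  · rintro ⟨a⟩ ⟨b⟩ h
    obtain ⟨H, hs, ht⟩ := C.piSucc_mk_eq c Y _ m h
    obtain ⟨H', hs', ht', -⟩ := hφ.lift (m + 1) a.1 b.1 H
      ⟨a.2.1.trans b.2.1.symm, a.2.2.trans b.2.2.symm⟩ hs ht
    exact Quot.sound ⟨H', hs', ht'⟩
  · rintro ⟨h⟩
    obtain ⟨h', hs', ht', hr⟩ := hφ.lift m (idCell c X x m) (idCell c X x m) h.1
      (by cases m with
        | zero => exact trivial
        | succ m => exact ⟨rfl, rfl⟩)
      (h.2.1.trans (idCell_map c φ x m).symm) (h.2.2.trans (idCell_map c φ x m).symm)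
    exact ⟨Quot.mk _ ⟨h', hs', ht'⟩, Quot.sound hr⟩

theorem IsTrivFib.isEquivMap {X Y : C.Gpd} {φ : X ⟶ Y} (hφ : IsTrivFib φ) : IsEquivMap φ where
  surj y := by
    obtain ⟨x, hx⟩ := hφ.1 y
    exact ⟨x, C.cellRel_of_eq hx⟩
  lift n a b h hab hs ht := by
    obtain ⟨h', hs', ht', hm⟩ := hφ.2 n a b h hab hs ht
    exact ⟨h', hs', ht', C.cellRel_of_eq hm⟩

theorem IsTrivFib.isContr {X Y : C.Gpd} {φ : X ⟶ Y} (hφ : IsTrivFib φ) (hY : IsContr Y) :
    IsContr X where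
  nonempty := by
    obtain ⟨y⟩ := hY.nonempty
    obtain ⟨x, -⟩ := hφ.1 y
    exact ⟨x⟩
  rel n a b hab := by
    obtain ⟨k, ks, kt⟩ := hY.rel n _ _ (C.par_map φ hab)
    obtain ⟨h', hs', ht', -⟩ := hφ.2 n a b k hab ks kt
    exact ⟨h', hs', ht'⟩

theorem IsFib.comp {X Y Z : C.Gpd} {φ : X ⟶ Y} {ψ : Y ⟶ Z} (hφ : IsFib φ) (hψ : IsFib ψ) :
    IsFib (φ ≫ ψ) := by
  intro n a h hh
  obtain ⟨k, ks, km⟩ := hψ n _ h hh
  obtain ⟨h', hs, hm⟩ := hφ n a k ks
  exact ⟨h', hs, by rw [C.mapCell_comp, hm, km]⟩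

/-- A fibration pulled back along a map of contractible groupoids gives an equivalence. -/
theorem IsFib.isEquivMap_pbSnd {B' E B : C.Gpd} {q : B' ⟶ B} {p : E ⟶ B} (hp : IsFib p)
    (hB : IsContr B) (hB' : IsContr B') : IsEquivMap (pbSnd q p) where
  surj e := by
    obtain ⟨b'⟩ := hB'.nonempty
    obtain ⟨k, ks, kt⟩ := hB.rel 0 (C.mapCell p 0 e) (C.mapCell q 0 b') trivial
    obtain ⟨h, hs, hm⟩ := hp 0 e k ks
    refine ⟨pbCell q p b' (C.tgt' E h) ?_, C.cellRel_symm ⟨h, hs, rfl⟩⟩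
    rw [C.map_tgt' p h, hm]
    exact kt.symm
  lift n a b h hab hs ht := by
    obtain ⟨k', ks', kt'⟩ := hB'.rel n _ _ (C.par_map (Vale.Agent.P259.pbFst q p) hab)
    have e1 : C.src' B (C.mapCell p (n + 1) h) = C.src' B (C.mapCell q (n + 1) k') := by
      rw [← C.map_src' p h, ← C.map_src' q k', hs]
      exact ((congrArg (C.mapCell q n) ks').trans (pb_cell_comm q p a)).symm
    have e2 : C.tgt' B (C.mapCell p (n + 1) h) = C.tgt' B (C.mapCell q (n + 1) k') := by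
      rw [← C.map_tgt' p h, ← C.map_tgt' q k', ht]
      exact ((congrArg (C.mapCell q n) kt').trans (pb_cell_comm q p b)).symm
    obtain ⟨G, Gs, Gt⟩ := hB.rel (n + 1) (C.mapCell p (n + 1) h) (C.mapCell q (n + 1) k') ⟨e1, e2⟩
    obtain ⟨H, Hs, Hm⟩ := hp (n + 1) h G Gs
    have hh : C.mapCell q (n + 1) k' = C.mapCell p (n + 1) (C.tgt' E H) := by
      rw [C.map_tgt' p H, Hm]
      exact Gt.symm
    refine ⟨pbCell q p k' (C.tgt' E H) hh,
      Subtype.ext (Prod.ext ks' ?_), Subtype.ext (Prod.ext kt' ?_),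
      C.cellRel_symm ⟨H, Hs, rfl⟩⟩
    · exact ((C.ss' E H).symm.trans (congrArg (C.src' E) Hs)).trans hs
    · exact ((C.ts' E H).symm.trans (congrArg (C.tgt' E) Hs)).trans ht

end Vale.Agent.P259
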