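import Vale.Agent.P259.DiscPi
import Vale.Agent.P259.Homotopy

/-!
# P259: the homotopy sets of the fundamental groupoid are the homotopy groups
-/

noncomputable section

open CategoryTheory Opposite
open scoped unitInterval

namespace Vale.Agent.P259

/-- The boundary sphere of a disc. -/
def discBoundary (n : ℕ) : Set (Disc n) := {x | ‖(x : EuclideanSpace ℝ (Fin n))‖ = 1}

/-- The point of the `0`-disc. -/
def discPt : Disc 0 := ⟨0, by simp⟩

theorem disc_zero_eq (x : Disc 0) : x = discPt :=
  Subtype.ext (Subsingleton.elim (x : EuclideanSpace ℝ (Fin 0)) _)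

section Homotopy

variable {Z : Type*} [TopologicalSpace Z] {n : ℕ}

theorem column_boundary (t : I) (x : Disc n) (hx : ‖(x : EuclideanSpace ℝ (Fin n))‖ = 1) :
    column n (t, x) = low n x := by
  refine Subtype.ext (ext_split ?_ ?_)
  · simp [column, hemi, dropLast_hemisphere]
  · simp [column, hemi, hemisphere_last, hx]

/-- Discs one dimension up are homotopies relative to the boundary. -/
theorem exists_disc_iff_homotopicRel (a b : C(Disc n, Z)) :
    (∃ h : C(Disc (n + 1), Z), h.comp (low n) = a ∧ h.comp (high n) = b) ↔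
      a.HomotopicRel b (discBoundary n) := by
  constructor
  · rintro ⟨h, rfl, rfl⟩
    exact ⟨{
      toFun := fun p => h (column n p)
      continuous_toFun := h.continuous.comp (column n).continuous
      map_zero_left := fun x => congrArg h (column_zero n x)
      map_one_left := fun x => congrArg h (column_one n x)
      prop' := fun t x hx => congrArg h (column_boundary t x hx) }⟩
  · rintro ⟨H⟩
    obtain ⟨h, h0, h1⟩ := exists_of_homotopy H.toHomotopy.toContinuousMap
      (fun t x hx => (H.prop' t x hx).trans (H.toHomotopy.apply_zero x).symm)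
    exact ⟨h, ContinuousMap.ext fun x => (h0 x).trans (H.toHomotopy.apply_zero x),
      ContinuousMap.ext fun x => (h1 x).trans (H.toHomotopy.apply_one x)⟩

theorem homotopicRel_iff_of_homeo {A B : Type*} [TopologicalSpace A] [TopologicalSpace B]
    (θ : A ≃ₜ B) {S : Set A} {T : Set B} (hST : ∀ x, x ∈ S ↔ θ x ∈ T) (p q : C(B, Z)) :
    (p.comp (θ : C(A, B))).HomotopicRel (q.comp (θ : C(A, B))) S ↔ p.HomotopicRel q T := by
  constructor
  · rintro ⟨H⟩
    exact ⟨{
      toFun := fun z => H (z.1, θ.symm z.2)
      continuous_toFun := H.continuous.comp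
        (continuous_fst.prodMk (θ.symm.continuous.comp continuous_snd))
      map_zero_left := fun y => (H.apply_zero _).trans (congrArg p (θ.apply_symm_apply y))
      map_one_left := fun y => (H.apply_one _).trans (congrArg q (θ.apply_symm_apply y))
      prop' := fun t y hy => (H.prop' t (θ.symm y)
        ((hST _).2 (by rwa [θ.apply_symm_apply]))).trans (congrArg p (θ.apply_symm_apply y)) }⟩
  · rintro ⟨H⟩
    exact ⟨{
      toFun := fun z => H (z.1, θ z.2)
      continuous_toFun := H.continuous.comp
        (continuous_fst.prodMk (θ.continuous.comp continuous_snd))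
      map_zero_left := fun x => H.apply_zero _
      map_one_left := fun x => H.apply_one _
      prop' := fun t x hx => H.prop' t (θ x) ((hST x).1 hx) }⟩

end Homotopy

/-- The cube inside Euclidean space. -/
def euclCube (n : ℕ) : Set (EuclideanSpace ℝ (Fin n)) :=
  (PiLp.homeomorph 2 fun _ : Fin n => ℝ) ⁻¹' Set.univ.pi fun _ => Set.Icc 0 1

theorem mem_euclCube {n : ℕ} {v : EuclideanSpace ℝ (Fin n)} :
    v ∈ euclCube n ↔ ∀ i, v i ∈ Set.Icc (0 : ℝ) 1 := by
  simp only [euclCube, Set.mem_preimage, Set.mem_univ_pi]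
  rfl

theorem mem_interior_euclCube {n : ℕ} {v : EuclideanSpace ℝ (Fin n)} :
    v ∈ interior (euclCube n) ↔ ∀ i, v i ∈ Set.Ioo (0 : ℝ) 1 := by
  rw [euclCube, ← Homeomorph.preimage_interior, interior_pi_set Set.finite_univ]
  simp only [Set.mem_preimage, Set.mem_univ_pi, interior_Icc]
  rfl

/-- The closed disc is the cube, boundary corresponding to boundary. -/
theorem exists_disc_cube (n : ℕ) : ∃ θ : Disc n ≃ₜ (Fin n → I),
    ∀ x, x ∈ discBoundary n ↔ θ x ∈ Cube.boundary (Fin n) := by
  have hconv : Convex ℝ (euclCube n) := by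
    intro u hu v hv a b ha hb hab
    rw [mem_euclCube] at hu hv ⊢
    intro i
    exact convex_Icc (0 : ℝ) 1 (hu i) (hv i) ha hb hab
  have hne : (interior (euclCube n)).Nonempty :=
    ⟨WithLp.toLp 2 fun _ => 1 / 2, mem_interior_euclCube.2 fun i => by norm_num⟩
  have hcl : IsClosed (euclCube n) :=
    (isClosed_set_pi fun _ _ => isClosed_Icc).preimage (Homeomorph.continuous _)
  have hbd : Bornology.IsBounded (euclCube n) :=
    ((Homeomorph.isCompact_preimage _).2 (isCompact_univ_pi fun _ => isCompact_Icc)).isBounded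
  obtain ⟨h, -, hball, hsph⟩ :=
    exists_homeomorph_image_interior_closure_frontier_eq_unitBall hconv hne hbd
  rw [hcl.closure_eq] at hball
  have hmem : ∀ v, h v ∈ Metric.closedBall (0 : EuclideanSpace ℝ (Fin n)) 1 ↔ v ∈ euclCube n :=
    fun v => by rw [← hball, h.injective.mem_set_image]
  have hmem' : ∀ v, ‖h v‖ = 1 ↔ v ∈ frontier (euclCube n) := fun v => by
    rw [← mem_sphere_zero_iff_norm, ← hsph, h.injective.mem_set_image]
  let θ : Disc n ≃ₜ (Fin n → I) :=
    { toFun := fun x i => ⟨h.symm x i,
        mem_euclCube.1 ((hmem _).1 (by rw [h.apply_symm_apply]; exact x.2)) i⟩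
      invFun := fun y => ⟨h (WithLp.toLp 2 fun i => (y i : ℝ)),
        (hmem _).2 (mem_euclCube.2 fun i => (y i).2)⟩
      left_inv := fun x => Subtype.ext (h.apply_symm_apply x)
      right_inv := fun y => funext fun i => Subtype.ext (by simp)
      continuous_toFun := continuous_pi fun i => ((PiLp.continuous_apply 2 _ i).comp
        (h.symm.continuous.comp continuous_subtype_val)).subtype_mk _
      continuous_invFun := (h.continuous.comp ((PiLp.continuous_toLp 2 _).comp
        (continuous_pi fun i => continuous_subtype_val.comp (continuous_apply i)))).subtype_mk _ }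
  refine ⟨θ, fun x => ?_⟩
  have e : ‖(x : EuclideanSpace ℝ (Fin n))‖ = 1 ↔ h.symm x ∈ frontier (euclCube n) := by
    rw [← hmem', h.apply_symm_apply]
  refine e.trans ?_
  rw [hcl.frontier_eq, Set.mem_diff, mem_euclCube, mem_interior_euclCube]
  have hI : ∀ i, h.symm x i ∈ Set.Icc (0 : ℝ) 1 :=
    mem_euclCube.1 ((hmem _).1 (by rw [h.apply_symm_apply]; exact x.2))
  show _ ↔ ∃ i, θ x i = 0 ∨ θ x i = 1
  constructor
  · rintro ⟨-, hno⟩
    push Not at hno
    obtain ⟨i, hi⟩ := hno
    refine ⟨i, ?_⟩
    rcases (hI i).1.eq_or_lt with h0 | h0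
    · exact Or.inl (Subtype.ext h0.symm)
    · rcases (hI i).2.eq_or_lt with h1 | h1
      · exact Or.inr (Subtype.ext h1)
      · exact absurd ⟨h0, h1⟩ hi
  · rintro ⟨i, hi⟩
    refine ⟨hI, fun hall => ?_⟩
    rcases hi with hi | hi
    · have := congrArg Subtype.val hi
      exact (hall i).1.ne' this
    · have := congrArg Subtype.val hi
      exact (hall i).2.ne this

/-- A chosen homeomorphism of the disc with the cube. -/
def discCube (n : ℕ) : Disc n ≃ₜ (Fin n → I) := (exists_disc_cube n).choose

theorem discCube_boundary (n : ℕ) (x : Disc n) :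
    x ∈ discBoundary n ↔ discCube n x ∈ Cube.boundary (Fin n) :=
  (exists_disc_cube n).choose_spec x

variable (C : Coherator) {Z W : Type} [TopologicalSpace Z] [TopologicalSpace W]

theorem Coherator.cellRel_iff {n : ℕ} (a b : C.cells (C.piTop Z) n) :
    CellRel (C.piTop Z) a b ↔
      (C.asMap Z a).HomotopicRel (C.asMap Z b) (discBoundary n) := by
  refine Iff.trans ?_ (exists_disc_iff_homotopicRel (C.asMap Z a) (C.asMap Z b))
  constructor
  · rintro ⟨h, ha, hb⟩
    exact ⟨C.asMap Z h, (C.piTop_src Z n h).symm.trans ha, (C.piTop_tgt Z n h).symm.trans hb⟩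
  · rintro ⟨h, ha, hb⟩
    exact ⟨h, (C.piTop_src Z n h).trans ha, (C.piTop_tgt Z n h).trans hb⟩

variable (Z)

/-- The components of the fundamental groupoid are the path components. -/
def Coherator.pi0Equiv : Pi0 (C.piTop Z) ≃ ZerothHomotopy Z :=
  Quot.congr
    { toFun := fun a => C.asMap Z a discPt
      invFun := fun z => ContinuousMap.const (Disc 0) z
      left_inv := fun a => ContinuousMap.ext fun x => by rw [disc_zero_eq x]; rfl
      right_inv := fun _ => rfl }
    (fun a b => by
      refine (C.cellRel_iff a b).trans ⟨fun h => ?_, fun h => ?_⟩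
      · obtain ⟨H⟩ := h
        exact ⟨{
          toFun := fun t => H (t, discPt)
          continuous_toFun := H.continuous.comp (continuous_id.prodMk continuous_const)
          source' := H.apply_zero _
          target' := H.apply_one _ }⟩
      · obtain ⟨γ⟩ := (h : Joined (C.asMap Z a discPt) (C.asMap Z b discPt))
        exact ⟨{
          toFun := fun p => γ p.1
          continuous_toFun := γ.continuous.comp continuous_fst
          map_zero_left := fun x => γ.source.trans (by rw [disc_zero_eq x]; rfl)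
          map_one_left := fun x => γ.target.trans (by rw [disc_zero_eq x]; rfl)
          prop' := fun t x hx => absurd hx (disc_zero_norm x) }⟩)

variable {Z}

theorem Coherator.pi0Equiv_natural (f : C(Z, W)) (q : Pi0 (C.piTop Z)) :
    C.pi0Equiv W (Pi0.map (C.piTopMap f) q) = zerothMap f (C.pi0Equiv Z q) := by
  induction q using Quot.ind with
  | mk a => rfl

theorem Coherator.idCell_piTop (c : IdChoice C) (x : C.cells (C.piTop Z) 0) (n : ℕ) :
    C.asMap Z (idCell c (C.piTop Z) x n) = ContinuousMap.const _ (C.asMap Z x discPt) := by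
  induction n with
  | zero => exact ContinuousMap.ext fun p => by rw [disc_zero_eq p]; rfl
  | succ n ih =>
    show (C.asMap Z (idCell c (C.piTop Z) x n)).comp (C.realMap (c.one n)) = _
    rw [ih]
    rfl

theorem Coherator.loop_iff (c : IdChoice C) (x : C.cells (C.piTop Z) 0) (m : ℕ)
    (a : C.cells (C.piTop Z) (m + 1)) :
    (act (C.piTop Z).obj (C.ext.src m) a = idCell c (C.piTop Z) x m ∧
      act (C.piTop Z).obj (C.ext.tgt m) a = idCell c (C.piTop Z) x m) ↔
      ∀ p ∈ discBoundary (m + 1), C.asMap Z a p = C.asMap Z x discPt := by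
  constructor
  · rintro ⟨hs, ht⟩ p hp
    have hs' := ((C.piTop_src Z m a).symm.trans hs).trans (C.idCell_piTop c x m)
    have ht' := ((C.piTop_tgt Z m a).symm.trans ht).trans (C.idCell_piTop c x m)
    rcases le_total 0 ((p : EuclideanSpace ℝ (Fin (m + 1))) (Fin.last m)) with h | h
    · rw [(sphere_cases p hp).1 h]; exact ContinuousMap.congr_fun ht' _
    · rw [(sphere_cases p hp).2 h]; exact ContinuousMap.congr_fun hs' _
  · intro h
    refine ⟨(C.piTop_src Z m a).trans ((ContinuousMap.ext fun q => ?_).trans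
      (C.idCell_piTop c x m).symm), (C.piTop_tgt Z m a).trans ((ContinuousMap.ext fun q => ?_).trans
      (C.idCell_piTop c x m).symm)⟩
    · exact h _ (norm_hemisphere q (by norm_num))
    · exact h _ (norm_hemisphere q (by norm_num))

/-- The homotopy sets of the fundamental groupoid are the homotopy groups. -/
def Coherator.piSuccEquiv (c : IdChoice C) (x : C.cells (C.piTop Z) 0) (m : ℕ) :
    PiSucc c (C.piTop Z) x m ≃ HomotopyGroup (Fin (m + 1)) Z (C.asMap Z x discPt) :=
  Quot.congr
    { toFun := fun a => ⟨(C.asMap Z a.1).comp ((discCube (m + 1)).symm : C(Fin (m + 1) → I, Disc (m + 1))),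
        fun y hy => (C.loop_iff c x m a.1).1 a.2 _ ((discCube_boundary (m + 1) _).2 (by
          rwa [ContinuousMap.coe_coe, Homeomorph.apply_symm_apply]))⟩
      invFun := fun p => ⟨p.1.comp (discCube (m + 1) : C(Disc (m + 1), Fin (m + 1) → I)),
        (C.loop_iff c x m _).2 fun q hq => p.2 _ ((discCube_boundary (m + 1) q).1 hq)⟩
      left_inv := fun a => Subtype.ext (ContinuousMap.ext fun q =>
        congrArg (C.asMap Z a.1) ((discCube (m + 1)).symm_apply_apply q))
      right_inv := fun p => Subtype.ext (ContinuousMap.ext fun q =>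
        congrArg p.1 ((discCube (m + 1)).apply_symm_apply q)) }
    (fun a b => by
      refine (C.cellRel_iff a.1 b.1).trans ?_
      refine (homotopicRel_iff_of_homeo (discCube (m + 1)).symm (fun y => ?_) _ _).symm
      rw [discCube_boundary, Homeomorph.apply_symm_apply])

theorem Coherator.piSuccEquiv_natural (c : IdChoice C) (f : C(Z, W)) (x : C.cells (C.piTop Z) 0)
    (m : ℕ) (q : PiSucc c (C.piTop Z) x m) :
    C.piSuccEquiv c ((C.piTopMap f).hom.app (op (C.ext.D 0)) x) m
        (PiSucc.map c (C.piTopMap f) x m q)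
      = homotopyGroupMap (m + 1) f (C.asMap Z x discPt) (C.piSuccEquiv c x m q) := by
  induction q using Quot.ind with
  | mk a => rfl

/-- The fundamental groupoid detects exactly the weak homotopy equivalences. -/
theorem Coherator.weq_piTopMap_iff (c : IdChoice C) (f : C(Z, W)) :
    weq c (C.piTopMap f) ↔ IsWeakHomotopyEquiv f := by
  have e0 : Function.Bijective (Pi0.map (C.piTopMap f)) ↔ Function.Bijective (zerothMap f) := by
    have h : zerothMap f ∘ C.pi0Equiv Z = C.pi0Equiv W ∘ Pi0.map (C.piTopMap f) :=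
      funext fun q => (C.pi0Equiv_natural f q).symm
    rw [← Function.Bijective.of_comp_iff' (C.pi0Equiv W).bijective, ← h,
      Function.Bijective.of_comp_iff _ (C.pi0Equiv Z).bijective]
  have e1 : ∀ (x : C.cells (C.piTop Z) 0) (m : ℕ),
      Function.Bijective (PiSucc.map c (C.piTopMap f) x m) ↔
        Function.Bijective (homotopyGroupMap (m + 1) f (C.asMap Z x discPt)) := by
    intro x m
    have h : homotopyGroupMap (m + 1) f (C.asMap Z x discPt) ∘ C.piSuccEquiv c x m =
        C.piSuccEquiv c ((C.piTopMap f).hom.app (op (C.ext.D 0)) x) m ∘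
          PiSucc.map c (C.piTopMap f) x m :=
      funext fun q => (C.piSuccEquiv_natural c f x m q).symm
    rw [← Function.Bijective.of_comp_iff' (C.piSuccEquiv c _ m).bijective, ← h]
    exact Function.Bijective.of_comp_iff _ (C.piSuccEquiv c x m).bijective
  constructor
  · rintro ⟨h0, h1⟩
    exact ⟨e0.1 h0, fun z n => (e1 (ContinuousMap.const (Disc 0) z) n).1 (h1 _ n)⟩
  · rintro ⟨h0, h1⟩
    exact ⟨e0.2 h0, fun x m => (e1 x m).2 (h1 _ m)⟩

/-- An isomorphism is a trivial fibration. -/
theorem isTrivFib_of_iso {C : Coherator} {X Y : C.Gpd} (e : X ≅ Y) : IsTrivFib e.hom := by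
  have h1 : ∀ (n : ℕ) (b : C.cells Y n), C.mapCell e.hom n (C.mapCell e.inv n b) = b := fun n b =>
    congrArg (fun φ : Y ⟶ Y => C.mapCell φ n b) e.inv_hom_id
  have h2 : ∀ (n : ℕ) (a : C.cells X n), C.mapCell e.inv n (C.mapCell e.hom n a) = a := fun n a =>
    congrArg (fun φ : X ⟶ X => C.mapCell φ n a) e.hom_inv_id
  refine ⟨fun y => ⟨_, h1 0 y⟩, fun n a b h _ hs ht => ⟨C.mapCell e.inv (n + 1) h, ?_, ?_, h1 _ h⟩⟩
  · exact (C.map_src' e.inv h).symm.trans ((congrArg (C.mapCell e.inv n) hs).trans (h2 n a))
  · exact (C.map_tgt' e.inv h).symm.trans ((congrArg (C.mapCell e.inv n) ht).trans (h2 n b))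

/-- Composites of weak equivalences. -/
theorem weq_comp {C : Coherator} (c : IdChoice C) {X Y Z : C.Gpd} {φ : X ⟶ Y} {ψ : Y ⟶ Z}
    (h : weq c φ) (h' : weq c ψ) : weq c (φ ≫ ψ) := by
  have e0 : Pi0.map (φ ≫ ψ) = Pi0.map ψ ∘ Pi0.map φ := funext fun q => by
    induction q using Quot.ind with
    | mk a => rfl
  refine ⟨e0 ▸ h'.1.comp h.1, fun x m => ?_⟩
  have e : (PiSucc.map c (φ ≫ ψ) x m : PiSucc c X x m → _) =
      PiSucc.map c ψ (φ.hom.app (op (C.ext.D 0)) x) m ∘ PiSucc.map c φ x m := funext fun q => by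
    induction q using Quot.ind with
    | mk a => rfl
  rw [e]
  exact (h'.2 _ m).comp (h.2 x m)

/-- The fundamental groupoid functor of the disc functor inverts weak homotopy equivalences. -/
theorem Coherator.weq_piInfty_of_whe (c : IdChoice C) {Y Y' : CGTop} (f : Y ⟶ Y') (h : whe f) :
    weq c (C.discFunctor.piInfty.map f) := by
  have e : C.discFunctor.piInfty.map f =
      C.piInftyIso.hom.app Y ≫ C.piTopMap f.hom.hom ≫ C.piInftyIso.inv.app Y' :=
    (NatIso.naturality_2 C.piInftyIso f).symm
  rw [e]
  exact weq_comp c ((isTrivFib_of_iso (C.piInftyIso.app Y)).isEquivMap.weq c)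
    (weq_comp c ((C.weq_piTopMap_iff c _).2 h)
      ((isTrivFib_of_iso (C.piInftyIso.app Y').symm).isEquivMap.weq c))

end Vale.Agent.P259
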