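import Vale.Agent.P259.DiscBasic

/-!
# P259: realisations of globular sums
-/

noncomputable section

namespace Vale.Agent.P259

open scoped unitInterval

/-- A compact contractible metric space with a retraction onto a marked `n`-disc. -/
structure MarkedSpace (n : ℕ) where
  carrier : Type
  met : MetricSpace carrier
  cpt : CompactSpace carrier
  contr : ContractibleSpace carrier
  e : C(Disc n, carrier)
  r : C(carrier, Disc n)
  re : ∀ p, r (e p) = p

attribute [instance] MarkedSpace.met MarkedSpace.cpt MarkedSpace.contr

instance (n : ℕ) : CompactSpace (Disc n) :=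
  isCompact_iff_compactSpace.1 (isCompact_closedBall _ _)

instance (n : ℕ) : ContractibleSpace (Disc n) :=
  (convex_closedBall 0 1).contractibleSpace (Metric.nonempty_closedBall.2 zero_le_one)

namespace MarkedSpace

/-- The marked disc itself. -/
def disc (n : ℕ) : MarkedSpace n where
  carrier := Disc n
  met := inferInstance
  cpt := inferInstance
  contr := inferInstance
  e := ContinuousMap.id _
  r := ContinuousMap.id _
  re _ := rfl

variable {n : ℕ} (X : MarkedSpace n) {j i : ℕ} (hj : j < n) (hi : j < i)

/-- The gluing map `D_j → X`. -/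
def glue : C(Disc j, X.carrier) := X.e.comp (highIter hj.le)

/-- The retraction `X → D_j`. -/
def back : C(X.carrier, Disc j) := (dropIter hj.le).comp X.r

theorem back_glue (a : Disc j) : X.back hj (X.glue hj a) = a := by
  simp [back, glue, X.re, dropIter_highIter]

/-- `X ⨿_{D_j} D_i`, inside `X × D_i`. -/
def gluedSet : Set (X.carrier × Disc i) :=
  {z | X.back hj z.1 = dropIter hi.le z.2 ∧
    (z.1 ∈ Set.range (X.glue hj) ∨ z.2 ∈ Set.range (lowIter hi.le))}

theorem isClosed_gluedSet : IsClosed (X.gluedSet hj hi) :=
  (isClosed_eq ((X.back hj).continuous.comp continuous_fst)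
    ((dropIter hi.le).continuous.comp continuous_snd)).inter
    (((isCompact_range (X.glue hj).continuous).isClosed.preimage continuous_fst).union
      ((isCompact_range (lowIter hi.le).continuous).isClosed.preimage continuous_snd))

instance : CompactSpace (X.gluedSet hj hi) :=
  isCompact_iff_compactSpace.1 (X.isClosed_gluedSet hj hi).isCompact

/-- The inclusion of `X`. -/
def inX : C(X.carrier, X.gluedSet hj hi) where
  toFun x := ⟨(x, lowIter hi.le (X.back hj x)), (dropIter_lowIter hi.le _).symm, Or.inr ⟨_, rfl⟩⟩
  continuous_toFun :=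
    (continuous_id.prodMk ((lowIter hi.le).continuous.comp (X.back hj).continuous)).subtype_mk _

/-- The inclusion of `D_i`. -/
def inD : C(Disc i, X.gluedSet hj hi) where
  toFun y := ⟨(X.glue hj (dropIter hi.le y), y), X.back_glue hj _, Or.inl ⟨_, rfl⟩⟩
  continuous_toFun :=
    (((X.glue hj).continuous.comp (dropIter hi.le).continuous).prodMk continuous_id).subtype_mk _

theorem inX_glue (a : Disc j) : X.inX hj hi (X.glue hj a) = X.inD hj hi (lowIter hi.le a) :=
  Subtype.ext (Prod.ext (by simp [inX, inD, dropIter_lowIter])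
    (by simp [inX, inD, back_glue]))

theorem mem_low {z : X.gluedSet hj hi} (h : z.1.2 ∈ Set.range (lowIter hi.le)) :
    z = X.inX hj hi z.1.1 := by
  obtain ⟨b, hb⟩ := h
  refine Subtype.ext (Prod.ext rfl ?_)
  simp only [inX, ContinuousMap.coe_mk, z.2.1]
  rw [← hb, dropIter_lowIter]

theorem mem_glue {z : X.gluedSet hj hi} (h : z.1.1 ∈ Set.range (X.glue hj)) :
    z = X.inD hj hi z.1.2 := by
  obtain ⟨b, hb⟩ := h
  refine Subtype.ext (Prod.ext ?_ rfl)
  simp only [inD, ContinuousMap.coe_mk, ← z.2.1]
  rw [← hb, back_glue]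

variable {Z : Type*} [TopologicalSpace Z]

theorem glued_hom_ext {f g : C(X.gluedSet hj hi, Z)}
    (h1 : f.comp (X.inX hj hi) = g.comp (X.inX hj hi))
    (h2 : f.comp (X.inD hj hi) = g.comp (X.inD hj hi)) : f = g := by
  ext z
  rcases z.2.2 with h | h
  · rw [X.mem_glue hj hi h]; exact ContinuousMap.congr_fun h2 _
  · rw [X.mem_low hj hi h]; exact ContinuousMap.congr_fun h1 _

open scoped Classical in
/-- The map out of the glued space. -/
def descFun (u : C(X.carrier, Z)) (v : C(Disc i, Z)) (z : X.gluedSet hj hi) : Z :=
  if z.1.2 ∈ Set.range (lowIter hi.le) then u z.1.1 else v z.1.2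

theorem descFun_eq_right (u : C(X.carrier, Z)) (v : C(Disc i, Z))
    (h : u.comp (X.glue hj) = v.comp (lowIter hi.le)) {z : X.gluedSet hj hi}
    (hz : z.1.1 ∈ Set.range (X.glue hj)) : X.descFun hj hi u v z = v z.1.2 := by
  unfold descFun
  split_ifs with hl
  · obtain ⟨a, ha⟩ := hz
    obtain ⟨b, hb⟩ := hl
    have hab : a = b := by
      have h1 := z.2.1
      rw [← ha, ← hb, back_glue, dropIter_lowIter] at h1
      exact h1
    subst hab
    rw [← ha, ← hb]
    exact ContinuousMap.congr_fun h a
  · rfl

theorem continuous_descFun (u : C(X.carrier, Z)) (v : C(Disc i, Z))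
    (h : u.comp (X.glue hj) = v.comp (lowIter hi.le)) :
    Continuous (X.descFun hj hi u v) := by
  set A := {z : X.gluedSet hj hi | z.1.2 ∈ Set.range (lowIter hi.le)}
  set B := {z : X.gluedSet hj hi | z.1.1 ∈ Set.range (X.glue hj)}
  have hAB : A ∪ B = Set.univ := Set.eq_univ_of_forall fun z => z.2.2.symm
  rw [← continuousOn_univ, ← hAB]
  refine ContinuousOn.union_of_isClosed ?_ ?_ ?_ ?_
  · exact ((u.continuous.comp (continuous_fst.comp continuous_subtype_val)).continuousOn).congr
      fun z hz => if_pos hz
  · exact ((v.continuous.comp (continuous_snd.comp continuous_subtype_val)).continuousOn).congr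
      fun z hz => X.descFun_eq_right hj hi u v h hz
  · exact (isCompact_range (lowIter hi.le).continuous).isClosed.preimage
      (continuous_snd.comp continuous_subtype_val)
  · exact (isCompact_range (X.glue hj).continuous).isClosed.preimage
      (continuous_fst.comp continuous_subtype_val)

/-- The universal property of the glued space, for every target space. -/
theorem glued_univ (u : C(X.carrier, Z)) (v : C(Disc i, Z))
    (h : u.comp (X.glue hj) = v.comp (lowIter hi.le)) :
    ∃! w : C(X.gluedSet hj hi, Z), w.comp (X.inX hj hi) = u ∧ w.comp (X.inD hj hi) = v := by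
  refine ⟨⟨_, X.continuous_descFun hj hi u v h⟩, ⟨?_, ?_⟩, fun w hw => ?_⟩
  · ext x
    exact if_pos ⟨_, rfl⟩
  · ext y
    exact X.descFun_eq_right hj hi u v h (z := X.inD hj hi y) ⟨dropIter hi.le y, rfl⟩
  · refine X.glued_hom_ext hj hi (hw.1.trans ?_) (hw.2.trans ?_)
    · ext x
      exact (if_pos ⟨_, rfl⟩).symm
    · ext y
      exact (X.descFun_eq_right hj hi u v h (z := X.inD hj hi y) ⟨dropIter hi.le y, rfl⟩).symm

/-- The projection to `X`. -/
def toX : C(X.gluedSet hj hi, X.carrier) :=
  ⟨fun z => z.1.1, continuous_fst.comp continuous_subtype_val⟩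

theorem seg_mem (t : I) (z : X.gluedSet hj hi) :
    (z.1.1, seg t (lowIter hi.le (X.back hj z.1.1)) z.1.2) ∈ X.gluedSet hj hi := by
  refine ⟨?_, ?_⟩
  · rw [dropIter_seg, dropIter_lowIter, ← z.2.1, seg_self]
  · rcases z.2.2 with h | h
    · exact Or.inl h
    · right
      obtain ⟨b, hb⟩ := h
      refine ⟨b, ?_⟩
      have h1 := z.2.1
      rw [← hb, dropIter_lowIter] at h1
      simp only [h1, ← hb, seg_self]

/-- The glued space deforms onto `X`. -/
def gluedEquiv : ContinuousMap.HomotopyEquiv (X.gluedSet hj hi) X.carrier where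
  toFun := X.toX hj hi
  invFun := X.inX hj hi
  left_inv := ⟨{
    toFun := fun p => ⟨_, X.seg_mem hj hi p.1 p.2⟩
    continuous_toFun := by
      refine Continuous.subtype_mk ?_ _
      refine Continuous.prodMk (by fun_prop) ?_
      exact continuous_seg.comp (continuous_fst.prodMk
        ((((lowIter hi.le).continuous.comp (X.back hj).continuous).comp
          (continuous_fst.comp (continuous_subtype_val.comp continuous_snd))).prodMk
          (continuous_snd.comp (continuous_subtype_val.comp continuous_snd))))
    map_zero_left := fun z => Subtype.ext (Prod.ext rfl (seg_zero _ _))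
    map_one_left := fun z => Subtype.ext (Prod.ext rfl (seg_one _ _)) }⟩
  right_inv := ContinuousMap.Homotopic.refl _

/-- Gluing an `i`-disc along `D_j`. -/
def snoc : MarkedSpace i where
  carrier := X.gluedSet hj hi
  met := inferInstance
  cpt := inferInstance
  contr := (X.gluedEquiv hj hi).contractibleSpace
  e := X.inD hj hi
  r := ⟨fun z => z.1.2, continuous_snd.comp continuous_subtype_val⟩
  re _ := rfl

end MarkedSpace

/-- The realisation of a table. -/
def realTbl : ∀ t : Tbl, t.Valid → MarkedSpace t.last
  | .disc n, _ => MarkedSpace.disc n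
  | .snoc t _ _, h => (realTbl t h.1).snoc h.2.1 h.2.2

/-- The realisation of a globular sum. -/
def GSum.real (S : GSum) : MarkedSpace S.last := realTbl S.tbl S.valid

/-- The space of a globular sum. -/
abbrev GSum.space (S : GSum) : Type := S.real.carrier

end Vale.Agent.P259
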