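import Vale.Agent.P259.Defs

/-!
# P259: free globular extensions

The globular extension freely generated by a family of maps `Γ`, subject to the requirement that
the generators satisfy a condition `Ok`. It consists of the terms that are defined in every
model, two terms being identified when they agree in every model.
-/

namespace Vale.Agent.P259

/-- Terms built from generators `Γ`, coglobular maps, cocones and pairings. -/
inductive Tm (Γ : GSum → GSum → Type) : GSum → GSum → Type
  | gen {R S : GSum} (x : Γ R S) : Tm Γ R S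
  | id (S : GSum) : Tm Γ S S
  | comp {R S T : GSum} (f : Tm Γ R S) (g : Tm Γ S T) : Tm Γ R T
  | src (n : ℕ) : Tm Γ (GSum.disc n) (GSum.disc (n + 1))
  | tgt (n : ℕ) : Tm Γ (GSum.disc n) (GSum.disc (n + 1))
  | inl (S : GSum) (j i : ℕ) (hS : j < S.last) (hi : j < i) : Tm Γ S (S.snoc j i hS hi)
  | inr (S : GSum) (j i : ℕ) (hS : j < S.last) (hi : j < i) :
      Tm Γ (GSum.disc i) (S.snoc j i hS hi)
  | pair (S : GSum) (j i : ℕ) (hS : j < S.last) (hi : j < i) {T : GSum} (u : Tm Γ S T)
      (v : Tm Γ (GSum.disc i) T) : Tm Γ (S.snoc j i hS hi) T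

variable {Γ : GSum → GSum → Type}

namespace GlobExt

variable (F : GlobExt)

/-- The map out of a globular sum determined by a compatible cocone. -/
noncomputable def desc (S : GSum) (j i : ℕ) (hS : j < S.last) (hi : j < i) {T : GSum}
    (u : F.Hom S T) (v : F.Hom (GSum.disc i) T)
    (h : F.comp (F.glueMap S hS) u = F.comp (F.srcIter hi.le) v) :
    F.Hom (S.snoc j i hS hi) T :=
  (F.sum_univ S j i hS hi T u v h).choose

theorem inl_desc (S : GSum) (j i : ℕ) (hS : j < S.last) (hi : j < i) {T : GSum}
    (u : F.Hom S T) (v : F.Hom (GSum.disc i) T)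
    (h : F.comp (F.glueMap S hS) u = F.comp (F.srcIter hi.le) v) :
    F.comp (F.inl S j i hS hi) (F.desc S j i hS hi u v h) = u :=
  (F.sum_univ S j i hS hi T u v h).choose_spec.1.1

theorem inr_desc (S : GSum) (j i : ℕ) (hS : j < S.last) (hi : j < i) {T : GSum}
    (u : F.Hom S T) (v : F.Hom (GSum.disc i) T)
    (h : F.comp (F.glueMap S hS) u = F.comp (F.srcIter hi.le) v) :
    F.comp (F.inr S j i hS hi) (F.desc S j i hS hi u v h) = v :=
  (F.sum_univ S j i hS hi T u v h).choose_spec.1.2

theorem desc_uniq (S : GSum) (j i : ℕ) (hS : j < S.last) (hi : j < i) {T : GSum}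
    (u : F.Hom S T) (v : F.Hom (GSum.disc i) T)
    (h : F.comp (F.glueMap S hS) u = F.comp (F.srcIter hi.le) v)
    (w : F.Hom (S.snoc j i hS hi) T) (hl : F.comp (F.inl S j i hS hi) w = u)
    (hr : F.comp (F.inr S j i hS hi) w = v) : w = F.desc S j i hS hi u v h :=
  (F.sum_univ S j i hS hi T u v h).choose_spec.2 w ⟨hl, hr⟩

end GlobExt

namespace Tm

variable {F : GlobExt}

open Classical in
/-- The value of a term in a globular extension, if it is defined. -/
noncomputable def eval (F : GlobExt) (g : ∀ R S, Γ R S → F.Hom R S) :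
    ∀ {R S : GSum}, Tm Γ R S → Option (F.Hom R S)
  | _, _, .gen x => some (g _ _ x)
  | _, _, .id S => some (F.id S)
  | _, _, .comp f h =>
    match eval F g f, eval F g h with
    | some a, some b => some (F.comp a b)
    | _, _ => none
  | _, _, .src n => some (F.src n)
  | _, _, .tgt n => some (F.tgt n)
  | _, _, .inl S j i hS hi => some (F.inl S j i hS hi)
  | _, _, .inr S j i hS hi => some (F.inr S j i hS hi)
  | _, _, .pair S j i hS hi u v =>
    match eval F g u, eval F g v with
    | some a, some b =>
      if h : F.comp (F.glueMap S hS) a = F.comp (F.srcIter hi.le) b then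
        some (F.desc S j i hS hi a b h) else none
    | _, _ => none

theorem eval_comp (g : ∀ R S, Γ R S → F.Hom R S) {R S T : GSum} {f : Tm Γ R S} {h : Tm Γ S T}
    {a : F.Hom R S} {b : F.Hom S T} (ha : f.eval F g = some a) (hb : h.eval F g = some b) :
    (Tm.comp f h).eval F g = some (F.comp a b) := by
  simp [eval, ha, hb]

theorem eval_comp_some (g : ∀ R S, Γ R S → F.Hom R S) {R S T : GSum} {f : Tm Γ R S}
    {h : Tm Γ S T} {c : F.Hom R T} (hc : (Tm.comp f h).eval F g = some c) :
    ∃ a b, f.eval F g = some a ∧ h.eval F g = some b ∧ c = F.comp a b := by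
  cases hf : f.eval F g <;> cases hh : h.eval F g <;> simp [eval, hf, hh] at hc ⊢
  exact hc.symm

theorem eval_pair (g : ∀ R S, Γ R S → F.Hom R S) {S : GSum} {j i : ℕ} {hS : j < S.last}
    {hi : j < i} {T : GSum} {u : Tm Γ S T} {v : Tm Γ (GSum.disc i) T} {a : F.Hom S T}
    {b : F.Hom (GSum.disc i) T} (ha : u.eval F g = some a) (hb : v.eval F g = some b)
    (h : F.comp (F.glueMap S hS) a = F.comp (F.srcIter hi.le) b) :
    (Tm.pair S j i hS hi u v).eval F g = some (F.desc S j i hS hi a b h) := by
  simp [eval, ha, hb, h]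

theorem eval_pair_some (g : ∀ R S, Γ R S → F.Hom R S) {S : GSum} {j i : ℕ} {hS : j < S.last}
    {hi : j < i} {T : GSum} {u : Tm Γ S T} {v : Tm Γ (GSum.disc i) T}
    {c : F.Hom (S.snoc j i hS hi) T} (hc : (Tm.pair S j i hS hi u v).eval F g = some c) :
    ∃ a b, ∃ h : F.comp (F.glueMap S hS) a = F.comp (F.srcIter hi.le) b,
      u.eval F g = some a ∧ v.eval F g = some b ∧ c = F.desc S j i hS hi a b h := by
  cases hu : u.eval F g with
  | none => simp [eval, hu] at hc
  | some a =>
    cases hv : v.eval F g with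
    | none => simp [eval, hu, hv] at hc
    | some b =>
      by_cases h : F.comp (F.glueMap S hS) a = F.comp (F.srcIter hi.le) b
      · simp [eval, hu, hv, h] at hc
        exact ⟨a, b, h, rfl, rfl, hc.symm⟩
      · simp [eval, hu, hv, h] at hc

end Tm

/-- A specification of a class of models of `Γ`. -/
structure Spec where
  Γ : GSum → GSum → Type
  Ok : ∀ F : GlobExt, (∀ R S, Γ R S → F.Hom R S) → Prop

/-- A model of a specification. -/
structure Spec.Model (P : Spec) where
  F : GlobExt
  g : ∀ R S, P.Γ R S → F.Hom R S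
  ok : P.Ok F g

namespace Spec

variable (P : Spec)

/-- The terms which are defined in every model. -/
abbrev Wf (R S : GSum) : Type := {t : Tm P.Γ R S // ∀ M : P.Model, ∃ a, t.eval M.F M.g = some a}

variable {P}

/-- The value of a well formed term. -/
noncomputable def Wf.val {R S : GSum} (t : P.Wf R S) (M : P.Model) : M.F.Hom R S := (t.2 M).choose

theorem Wf.val_spec {R S : GSum} (t : P.Wf R S) (M : P.Model) :
    t.1.eval M.F M.g = some (t.val M) := (t.2 M).choose_spec

theorem Wf.val_eq {R S : GSum} (t : P.Wf R S) (M : P.Model) {a : M.F.Hom R S}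
    (h : t.1.eval M.F M.g = some a) : t.val M = a :=
  Option.some.inj ((t.val_spec M).symm.trans h)

variable (P)

/-- Well formed terms agreeing in every model. -/
def wfSetoid (R S : GSum) : Setoid (P.Wf R S) where
  r t t' := ∀ M, t.val M = t'.val M
  iseqv := ⟨fun _ _ => rfl, fun h M => (h M).symm, fun h h' M => (h M).trans (h' M)⟩

/-- The maps of the free globular extension. -/
abbrev FHom (R S : GSum) : Type := Quotient (P.wfSetoid R S)

variable {P}

/-- The value of a map of the free globular extension in a model. -/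
noncomputable def FHom.val {R S : GSum} (f : P.FHom R S) (M : P.Model) : M.F.Hom R S :=
  Quotient.lift (fun t : P.Wf R S => t.val M)
    (fun a b h => (show ∀ N, a.val N = b.val N from h) M) f

theorem FHom.ext {R S : GSum} {f f' : P.FHom R S} (h : ∀ M, f.val M = f'.val M) : f = f' := by
  induction f using Quotient.ind
  induction f' using Quotient.ind
  exact Quotient.sound h

/-- The class of a term defined in every model. -/
def FHom.mk {R S : GSum} (t : Tm P.Γ R S)
    (h : ∀ M : P.Model, ∃ a, t.eval M.F M.g = some a) : P.FHom R S :=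
  Quotient.mk _ ⟨t, h⟩

theorem FHom.mk_val {R S : GSum} (t : Tm P.Γ R S)
    (h : ∀ M : P.Model, ∃ a, t.eval M.F M.g = some a) (M : P.Model) {a : M.F.Hom R S}
    (ha : t.eval M.F M.g = some a) : (FHom.mk t h).val M = a :=
  Wf.val_eq ⟨t, h⟩ M ha

variable (P)

/-- The data of the free globular extension. -/
noncomputable def freePre : PreExt where
  Hom := P.FHom
  id S := FHom.mk (.id S) fun _ => ⟨_, rfl⟩
  comp := Quotient.lift₂
    (fun f g => FHom.mk (.comp f.1 g.1) fun M =>
      ⟨_, Tm.eval_comp M.g (f.val_spec M) (g.val_spec M)⟩)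
    (fun f g f' g' hf hg => FHom.ext fun M => by
      rw [FHom.mk_val _ _ M (Tm.eval_comp M.g (f.val_spec M) (g.val_spec M)),
        FHom.mk_val _ _ M (Tm.eval_comp M.g (f'.val_spec M) (g'.val_spec M))]
      exact congrArg₂ M.F.comp (hf M) (hg M))
  src n := FHom.mk (.src n) fun _ => ⟨_, rfl⟩
  tgt n := FHom.mk (.tgt n) fun _ => ⟨_, rfl⟩
  inl S j i hS hi := FHom.mk (.inl S j i hS hi) fun _ => ⟨_, rfl⟩
  inr S j i hS hi := FHom.mk (.inr S j i hS hi) fun _ => ⟨_, rfl⟩

variable {P}

/-- The value of a map of the free extension, with the bundled type of maps. -/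
noncomputable def pval {R S : GSum} (f : P.freePre.Hom R S) (M : P.Model) : M.F.Hom R S :=
  FHom.val f M

theorem pext {R S : GSum} {f f' : P.freePre.Hom R S} (h : ∀ M, pval f M = pval f' M) : f = f' :=
  FHom.ext h

/-- The class of a term defined in every model, with the bundled type of maps. -/
def pmk {R S : GSum} (t : Tm P.Γ R S) (h : ∀ M : P.Model, ∃ a, t.eval M.F M.g = some a) :
    P.freePre.Hom R S :=
  FHom.mk t h

theorem pval_mk {R S : GSum} (t : Tm P.Γ R S)
    (h : ∀ M : P.Model, ∃ a, t.eval M.F M.g = some a) (M : P.Model) {a : M.F.Hom R S}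
    (ha : t.eval M.F M.g = some a) : pval (pmk t h) M = a :=
  FHom.mk_val t h M ha

theorem val_id (S : GSum) (M : P.Model) : pval (P.freePre.id S) M = M.F.id S :=
  pval_mk _ _ M rfl

theorem val_comp {R S T : GSum} (f : P.freePre.Hom R S) (g : P.freePre.Hom S T) (M : P.Model) :
    pval (P.freePre.comp f g) M = M.F.comp (pval f M) (pval g M) := by
  induction f using Quotient.ind with | _ f => ?_
  induction g using Quotient.ind with | _ g => ?_
  exact FHom.mk_val _ _ M (Tm.eval_comp M.g (f.val_spec M) (g.val_spec M))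

theorem val_src (n : ℕ) (M : P.Model) : pval (P.freePre.src n) M = M.F.src n :=
  pval_mk _ _ M rfl

theorem val_tgt (n : ℕ) (M : P.Model) : pval (P.freePre.tgt n) M = M.F.tgt n :=
  pval_mk _ _ M rfl

theorem val_inl (S : GSum) (j i : ℕ) (hS : j < S.last) (hi : j < i) (M : P.Model) :
    pval (P.freePre.inl S j i hS hi) M = M.F.inl S j i hS hi :=
  pval_mk _ _ M rfl

theorem val_inr (S : GSum) (j i : ℕ) (hS : j < S.last) (hi : j < i) (M : P.Model) :
    pval (P.freePre.inr S j i hS hi) M = M.F.inr S j i hS hi :=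
  pval_mk _ _ M rfl

theorem val_srcIter {j i : ℕ} (h : j ≤ i) (M : P.Model) :
    pval (P.freePre.srcIter h) M = M.F.srcIter h := by
  induction h with
  | refl => simp only [PreExt.srcIter, Nat.leRecOn_self]; exact val_id _ M
  | @step k h ih =>
    simp only [PreExt.srcIter, Nat.leRecOn_succ h] at ih ⊢
    exact (val_comp _ _ M).trans (congrArg₂ M.F.comp ih (val_src k M))

theorem val_tgtIter {j i : ℕ} (h : j ≤ i) (M : P.Model) :
    pval (P.freePre.tgtIter h) M = M.F.tgtIter h := by
  induction h with
  | refl => simp only [PreExt.tgtIter, Nat.leRecOn_self]; exact val_id _ M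
  | @step k h ih =>
    simp only [PreExt.tgtIter, Nat.leRecOn_succ h] at ih ⊢
    exact (val_comp _ _ M).trans (congrArg₂ M.F.comp ih (val_tgt k M))

theorem val_glueMap (S : GSum) {j : ℕ} (hS : j < S.last) (M : P.Model) :
    pval (P.freePre.glueMap S hS) M = M.F.glueMap S hS := by
  rcases S with ⟨_ | ⟨t, j', i'⟩, hv⟩
  · exact (val_comp _ _ M).trans (congrArg₂ M.F.comp (val_tgtIter _ M) (val_id _ M))
  · exact (val_comp _ _ M).trans (congrArg₂ M.F.comp (val_tgtIter _ M) (val_inr _ _ _ _ _ M))

variable (P)

/-- The free globular extension of a specification. -/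
@[reducible] noncomputable def free : GlobExt where
  toPreExt := P.freePre
  id_comp f := pext fun M => by rw [val_comp, val_id, M.F.id_comp]
  comp_id f := pext fun M => by rw [val_comp, val_id, M.F.comp_id]
  assoc f g h := pext fun M => by simp only [val_comp, M.F.assoc]
  src_src n := pext fun M => by simp only [val_comp, val_src, val_tgt, M.F.src_src]
  tgt_src n := pext fun M => by simp only [val_comp, val_src, val_tgt, M.F.tgt_src]
  sum_comm S j i hS hi := pext fun M => by
    simp only [val_comp, val_glueMap, val_srcIter, val_inl, val_inr, M.F.sum_comm]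
  sum_univ S j i hS hi T u v h := by
    induction u using Quotient.ind with | _ u => ?_
    induction v using Quotient.ind with | _ v => ?_
    have hM : ∀ M : P.Model,
        M.F.comp (M.F.glueMap S hS) (u.val M) = M.F.comp (M.F.srcIter hi.le) (v.val M) := by
      intro M
      have h1 : pval (P.freePre.comp (P.freePre.glueMap S hS) (Quotient.mk _ u)) M =
          pval (P.freePre.comp (P.freePre.srcIter hi.le) (Quotient.mk _ v)) M :=
        congrArg (fun w : P.freePre.Hom _ _ => pval w M) h
      exact (congrArg₂ M.F.comp (val_glueMap S hS M) rfl).symm.trans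
        ((val_comp _ _ M).symm.trans (h1.trans ((val_comp _ _ M).trans
          (congrArg₂ M.F.comp (val_srcIter _ M) rfl))))
    have he := fun M : P.Model =>
      Tm.eval_pair M.g (hS := hS) (hi := hi) (u.val_spec M) (v.val_spec M) (hM M)
    refine ⟨pmk (.pair S j i hS hi u.1 v.1) fun M => ⟨_, he M⟩,
      ⟨pext fun M => ?_, pext fun M => ?_⟩, ?_⟩
    · rw [val_comp, val_inl, pval_mk _ _ M (he M), M.F.inl_desc]; rfl
    · rw [val_comp, val_inr, pval_mk _ _ M (he M), M.F.inr_desc]; rfl
    · rintro w ⟨hl, hr⟩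
      refine pext fun M => ?_
      rw [pval_mk _ _ M (he M)]
      refine M.F.desc_uniq S j i hS hi _ _ (hM M) _ ?_ ?_
      · have := congrArg (fun w => pval w M) hl
        simp only [val_comp, val_inl] at this
        exact this
      · have := congrArg (fun w => pval w M) hr
        simp only [val_comp, val_inr] at this
        exact this

/-- The image of a generator. -/
noncomputable def ι (R S : GSum) (x : P.Γ R S) : P.free.Hom R S :=
  pmk (.gen x) fun _ => ⟨_, rfl⟩

variable {P}

theorem val_ι {R S : GSum} (x : P.Γ R S) (M : P.Model) :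
    pval (P.ι R S x) M = M.g R S x :=
  pval_mk _ _ M rfl

/-- The morphism determined by a model. -/
noncomputable def toModel (M : P.Model) : GMor P.free M.F where
  map f := pval f M
  map_id S := val_id S M
  map_comp f g := val_comp f g M
  map_src n := val_src n M
  map_tgt n := val_tgt n M
  map_inl S j i hS hi := val_inl S j i hS hi M
  map_inr S j i hS hi := val_inr S j i hS hi M

theorem toModel_ι (M : P.Model) {R S : GSum} (x : P.Γ R S) :
    (toModel M).map (P.ι R S x) = M.g R S x :=
  val_ι x M

end Spec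

theorem GMor.mapF_srcIter {E F : GlobExt} (φ : GMor E F) {j i : ℕ} (h : j ≤ i) :
    φ.map (E.srcIter h) = F.srcIter h := by
  induction h with
  | refl => simp only [PreExt.srcIter, Nat.leRecOn_self]; exact φ.map_id _
  | @step k h ih =>
    simp only [PreExt.srcIter, Nat.leRecOn_succ h] at ih ⊢
    rw [φ.map_comp, φ.map_src, ih]

theorem GMor.mapF_tgtIter {E F : GlobExt} (φ : GMor E F) {j i : ℕ} (h : j ≤ i) :
    φ.map (E.tgtIter h) = F.tgtIter h := by
  induction h with
  | refl => simp only [PreExt.tgtIter, Nat.leRecOn_self]; exact φ.map_id _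
  | @step k h ih =>
    simp only [PreExt.tgtIter, Nat.leRecOn_succ h] at ih ⊢
    rw [φ.map_comp, φ.map_tgt, ih]

theorem GMor.mapF_glueMap {E F : GlobExt} (φ : GMor E F) (S : GSum) {j : ℕ} (hS : j < S.last) :
    φ.map (E.glueMap S hS) = F.glueMap S hS := by
  rcases S with ⟨_ | ⟨t, j', i'⟩, hv⟩
  · exact (φ.map_comp _ _).trans (congrArg₂ F.comp (φ.mapF_tgtIter _) (φ.map_id _))
  · exact (φ.map_comp _ _).trans (congrArg₂ F.comp (φ.mapF_tgtIter _) (φ.map_inr _ _ _ _ _))

/-- A morphism out of a free extension is determined by its values on the generators. -/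
theorem Spec.hom_ext {P : Spec} {F : GlobExt} {φ ψ : GMor P.free F}
    (h : ∀ R S (x : P.Γ R S), φ.map (P.ι R S x) = ψ.map (P.ι R S x)) : φ = ψ := by
  have key : ∀ {R S : GSum} (t : Tm P.Γ R S)
      (ht : ∀ M : P.Model, ∃ a, t.eval M.F M.g = some a),
      φ.map (Spec.pmk t ht) = ψ.map (Spec.pmk t ht) := by
    intro R S t
    induction t with
    | gen x => intro ht; exact h _ _ x
    | id S => intro ht; exact (φ.map_id S).trans (ψ.map_id S).symm
    | src n => intro ht; exact (φ.map_src n).trans (ψ.map_src n).symm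
    | tgt n => intro ht; exact (φ.map_tgt n).trans (ψ.map_tgt n).symm
    | inl S j i hS hi =>
      intro ht; exact (φ.map_inl S j i hS hi).trans (ψ.map_inl S j i hS hi).symm
    | inr S j i hS hi =>
      intro ht; exact (φ.map_inr S j i hS hi).trans (ψ.map_inr S j i hS hi).symm
    | comp f g ihf ihg =>
      intro ht
      have hf : ∀ M : P.Model, ∃ a, f.eval M.F M.g = some a := fun M => by
        obtain ⟨c, hc⟩ := ht M
        obtain ⟨a, b, ha, -, -⟩ := Tm.eval_comp_some M.g hc
        exact ⟨a, ha⟩
      have hg : ∀ M : P.Model, ∃ a, g.eval M.F M.g = some a := fun M => by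
        obtain ⟨c, hc⟩ := ht M
        obtain ⟨a, b, -, hb, -⟩ := Tm.eval_comp_some M.g hc
        exact ⟨b, hb⟩
      have e : Spec.pmk (.comp f g) ht =
          P.free.comp (Spec.pmk f hf) (Spec.pmk g hg) := rfl
      rw [e, φ.map_comp, ψ.map_comp, ihf hf, ihg hg]
    | @pair S j i hS hi T u v ihu ihv =>
      intro ht
      have hu : ∀ M : P.Model, ∃ a, u.eval M.F M.g = some a := fun M => by
        obtain ⟨c, hc⟩ := ht M
        obtain ⟨a, b, -, ha, -, -⟩ := Tm.eval_pair_some M.g hc
        exact ⟨a, ha⟩
      have hv : ∀ M : P.Model, ∃ a, v.eval M.F M.g = some a := fun M => by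
        obtain ⟨c, hc⟩ := ht M
        obtain ⟨a, b, -, -, hb, -⟩ := Tm.eval_pair_some M.g hc
        exact ⟨b, hb⟩
      have hl : P.free.comp (P.free.inl S j i hS hi) (Spec.pmk (.pair S j i hS hi u v) ht) =
          Spec.pmk u hu := Spec.pext fun M => by
        obtain ⟨c, hc⟩ := ht M
        obtain ⟨a, b, hab, ha, hb, rfl⟩ := Tm.eval_pair_some M.g hc
        refine (Spec.val_comp _ _ M).trans ?_
        rw [Spec.pval_mk _ _ M hc, Spec.pval_mk _ _ M ha]
        exact (congrArg (fun w => M.F.comp w _) (Spec.val_inl S j i hS hi M)).trans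
          (M.F.inl_desc S j i hS hi a b hab)
      have hr : P.free.comp (P.free.inr S j i hS hi) (Spec.pmk (.pair S j i hS hi u v) ht) =
          Spec.pmk v hv := Spec.pext fun M => by
        obtain ⟨c, hc⟩ := ht M
        obtain ⟨a, b, hab, ha, hb, rfl⟩ := Tm.eval_pair_some M.g hc
        refine (Spec.val_comp _ _ M).trans ?_
        rw [Spec.pval_mk _ _ M hc, Spec.pval_mk _ _ M hb]
        exact (congrArg (fun w => M.F.comp w _) (Spec.val_inr S j i hS hi M)).trans
          (M.F.inr_desc S j i hS hi a b hab)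
      have hcomp : F.comp (F.glueMap S hS) (φ.map (Spec.pmk u hu)) =
          F.comp (F.srcIter hi.le) (φ.map (Spec.pmk v hv)) := by
        rw [← φ.mapF_glueMap, ← φ.mapF_srcIter, ← φ.map_comp, ← φ.map_comp]
        congr 1
        rw [← hl, ← hr, ← P.free.assoc, ← P.free.assoc, P.free.sum_comm]
      refine (F.sum_univ S j i hS hi T _ _ hcomp).unique ⟨?_, ?_⟩ ⟨?_, ?_⟩
      · rw [← φ.map_inl, ← φ.map_comp, hl]
      · rw [← φ.map_inr, ← φ.map_comp, hr]
      · rw [← ψ.map_inl, ← ψ.map_comp, hl, ihu hu]
      · rw [← ψ.map_inr, ← ψ.map_comp, hr, ihv hv]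
  ext R S f
  induction f using Quotient.ind with | _ t => ?_
  exact key t.1 t.2

end Vale.Agent.P259
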