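import Vale.Agent.P259.Defs

/-!
# P259: globular sets and their values on globular sums
-/

open CategoryTheory Opposite

namespace Vale.Agent.P259

@[elab_as_elim]
theorem GSum.rec' {P : GSum → Prop} (hd : ∀ n, P (GSum.disc n))
    (hs : ∀ (S : GSum) (j i : ℕ) (hS : j < S.last) (hi : j < i), P S → P (S.snoc j i hS hi))
    (S : GSum) : P S := by
  obtain ⟨t, h⟩ := S
  induction t with
  | disc n => exact hd n
  | snoc t j i ih => exact hs ⟨t, h.1⟩ j i h.2.1 h.2.2 (ih h.1)

theorem Tbl.last_le_dim : ∀ t : Tbl, t.last ≤ t.dim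
  | .disc _ => le_rfl
  | .snoc _ _ _ => le_max_right _ _

/-- A globular set. -/
structure GSet where
  cell : ℕ → Type
  s : ∀ {n}, cell (n + 1) → cell n
  t : ∀ {n}, cell (n + 1) → cell n
  ss : ∀ {n} (a : cell (n + 2)), s (s a) = s (t a)
  ts : ∀ {n} (a : cell (n + 2)), t (s a) = t (t a)

namespace GSet

variable (G : GSet)

def sIter {j n : ℕ} (h : j ≤ n) : G.cell n → G.cell j :=
  Nat.leRecOn h (fun {k} (f : G.cell k → G.cell j) => fun a => f (G.s a)) id

def tIter {j n : ℕ} (h : j ≤ n) : G.cell n → G.cell j :=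
  Nat.leRecOn h (fun {k} (f : G.cell k → G.cell j) => fun a => f (G.t a)) id

@[simp] theorem sIter_self {n : ℕ} (a : G.cell n) : G.sIter le_rfl a = a := by
  simp [sIter, Nat.leRecOn_self]

@[simp] theorem tIter_self {n : ℕ} (a : G.cell n) : G.tIter le_rfl a = a := by
  simp [tIter, Nat.leRecOn_self]

theorem sIter_succ {j n : ℕ} (h : j ≤ n) (a : G.cell (n + 1)) :
    G.sIter (h.trans n.le_succ) a = G.sIter h (G.s a) := by
  simp only [sIter]
  rw [Nat.leRecOn_succ h]

theorem tIter_succ {j n : ℕ} (h : j ≤ n) (a : G.cell (n + 1)) :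
    G.tIter (h.trans n.le_succ) a = G.tIter h (G.t a) := by
  simp only [tIter]
  rw [Nat.leRecOn_succ h]

theorem sIter_t {j n : ℕ} (h : j < n) (a : G.cell (n + 1)) :
    G.sIter h.le (G.t a) = G.sIter h.le (G.s a) := by
  obtain ⟨n, rfl⟩ : ∃ m, n = m + 1 := ⟨n - 1, by omega⟩
  rw [sIter_succ G (Nat.lt_succ_iff.mp h), sIter_succ G (Nat.lt_succ_iff.mp h), G.ss]

theorem tIter_s {j n : ℕ} (h : j < n) (a : G.cell (n + 1)) :
    G.tIter h.le (G.s a) = G.tIter h.le (G.t a) := by
  obtain ⟨n, rfl⟩ : ∃ m, n = m + 1 := ⟨n - 1, by omega⟩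
  rw [tIter_succ G (Nat.lt_succ_iff.mp h), tIter_succ G (Nat.lt_succ_iff.mp h), G.ts]

/-- Unchecked tuples indexed by a table. -/
def Raw : Tbl → Type
  | .disc n => G.cell n
  | .snoc t _ i => Raw t × G.cell i

def lastRaw : ∀ t : Tbl, G.Raw t → G.cell t.last
  | .disc _ => id
  | .snoc _ _ _ => Prod.snd

/-- The gluing conditions. -/
def Ok : ∀ t : Tbl, G.Raw t → Prop
  | .disc _ => fun _ => True
  | .snoc t j i => fun p => Ok t p.1 ∧ ∀ (h1 : j ≤ t.last) (h2 : j ≤ i),
      G.tIter h1 (G.lastRaw t p.1) = G.sIter h2 p.2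

/-- The fibre product of cells indexed by a globular sum. -/
def Bar (S : GSum) : Type := {r : G.Raw S.tbl // G.Ok S.tbl r}

/-- Cells are tuples indexed by a disc. -/
def one (n : ℕ) : G.cell n ≃ G.Bar (GSum.disc n) where
  toFun a := ⟨a, trivial⟩
  invFun a := a.1
  left_inv _ := rfl
  right_inv _ := rfl

def Bar.last {G : GSet} {S : GSum} (p : G.Bar S) : G.cell S.last := G.lastRaw S.tbl p.1

variable {G}
variable {S : GSum} {j i : ℕ} {hS : j < S.last} {hi : j < i}

def Bar.fst (p : G.Bar (S.snoc j i hS hi)) : G.Bar S := ⟨p.1.1, p.2.1⟩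

def Bar.snd (p : G.Bar (S.snoc j i hS hi)) : G.cell i := p.1.2

theorem Bar.glue (p : G.Bar (S.snoc j i hS hi)) :
    G.tIter hS.le p.fst.last = G.sIter hi.le p.snd := p.2.2 hS.le hi.le

def Bar.mk' (a : G.Bar S) (b : G.cell i) (h : G.tIter hS.le a.last = G.sIter hi.le b) :
    G.Bar (S.snoc j i hS hi) := ⟨(a.1, b), a.2, fun _ _ => h⟩

@[simp] theorem Bar.fst_mk' (a : G.Bar S) (b : G.cell i)
    (h : G.tIter hS.le a.last = G.sIter hi.le b) : (Bar.mk' (hS := hS) (hi := hi) a b h).fst = a := rfl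

@[simp] theorem Bar.snd_mk' (a : G.Bar S) (b : G.cell i)
    (h : G.tIter hS.le a.last = G.sIter hi.le b) : (Bar.mk' (hS := hS) (hi := hi) a b h).snd = b := rfl

theorem Bar.ext' {p q : G.Bar (S.snoc j i hS hi)} (h1 : p.fst = q.fst) (h2 : p.snd = q.snd) :
    p = q :=
  Subtype.ext (Prod.ext (congrArg Subtype.val h1) h2)

end GSet

/-- A map of globular sets defined in dimensions `≤ N`. -/
structure GHomLE (G H : GSet) (N : ℕ) where
  app : ∀ n, n ≤ N → G.cell n → H.cell n
  app_s : ∀ n (h : n + 1 ≤ N) a, H.s (app (n + 1) h a) = app n (n.le_succ.trans h) (G.s a)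
  app_t : ∀ n (h : n + 1 ≤ N) a, H.t (app (n + 1) h a) = app n (n.le_succ.trans h) (G.t a)

/-- A map of globular sets. -/
@[ext]
structure GHom (G H : GSet) where
  app : ∀ n, G.cell n → H.cell n
  app_s : ∀ n a, H.s (app (n + 1) a) = app n (G.s a)
  app_t : ∀ n a, H.t (app (n + 1) a) = app n (G.t a)

namespace GHom

variable {G H K : GSet}

def id (G : GSet) : GHom G G where
  app _ a := a
  app_s _ _ := rfl
  app_t _ _ := rfl

def comp (f : GHom G H) (g : GHom H K) : GHom G K where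
  app n a := g.app n (f.app n a)
  app_s n a := by rw [g.app_s, f.app_s]
  app_t n a := by rw [g.app_t, f.app_t]

theorem app_sIter (f : GHom G H) {j n : ℕ} (h : j ≤ n) (a : G.cell n) :
    H.sIter h (f.app n a) = f.app j (G.sIter h a) := by
  induction n, h using Nat.le_induction with
  | base => simp
  | succ n h ih => rw [GSet.sIter_succ _ h, GSet.sIter_succ _ h, f.app_s, ih]

theorem app_tIter (f : GHom G H) {j n : ℕ} (h : j ≤ n) (a : G.cell n) :
    H.tIter h (f.app n a) = f.app j (G.tIter h a) := by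
  induction n, h using Nat.le_induction with
  | base => simp
  | succ n h ih => rw [GSet.tIter_succ _ h, GSet.tIter_succ _ h, f.app_t, ih]

def toLE (f : GHom G H) (N : ℕ) : GHomLE G H N where
  app n _ := f.app n
  app_s n _ := f.app_s n
  app_t n _ := f.app_t n

end GHom

namespace GHomLE

variable {G H K : GSet} {N : ℕ}

def comp (f : GHomLE G H N) (g : GHomLE H K N) : GHomLE G K N where
  app n h a := g.app n h (f.app n h a)
  app_s n h a := by rw [g.app_s, f.app_s]
  app_t n h a := by rw [g.app_t, f.app_t]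

theorem app_sIter (f : GHomLE G H N) {j n : ℕ} (h : j ≤ n) (hn : n ≤ N) (a : G.cell n) :
    H.sIter h (f.app n hn a) = f.app j (h.trans hn) (G.sIter h a) := by
  induction n, h using Nat.le_induction with
  | base => simp
  | succ n h ih =>
    rw [GSet.sIter_succ _ h, GSet.sIter_succ _ h, f.app_s, ih (n.le_succ.trans hn)]

theorem app_tIter (f : GHomLE G H N) {j n : ℕ} (h : j ≤ n) (hn : n ≤ N) (a : G.cell n) :
    H.tIter h (f.app n hn a) = f.app j (h.trans hn) (G.tIter h a) := by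
  induction n, h using Nat.le_induction with
  | base => simp
  | succ n h ih =>
    rw [GSet.tIter_succ _ h, GSet.tIter_succ _ h, f.app_t, ih (n.le_succ.trans hn)]

def rawMap (f : GHomLE G H N) : ∀ t : Tbl, t.dim ≤ N → G.Raw t → H.Raw t
  | .disc n, h => f.app n h
  | .snoc t _ i, h => fun p =>
      (rawMap f t (le_trans (le_max_left _ _) h) p.1, f.app i (le_trans (le_max_right _ _) h) p.2)

theorem lastRaw_rawMap (f : GHomLE G H N) : ∀ (t : Tbl) (h : t.dim ≤ N) (p : G.Raw t),
    H.lastRaw t (f.rawMap t h p) = f.app t.last (t.last_le_dim.trans h) (G.lastRaw t p)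
  | .disc _, _, _ => rfl
  | .snoc _ _ _, _, _ => rfl

theorem ok_rawMap (f : GHomLE G H N) : ∀ (t : Tbl) (h : t.dim ≤ N) (p : G.Raw t),
    G.Ok t p → H.Ok t (f.rawMap t h p)
  | .disc _, _, _, _ => trivial
  | .snoc t j i, h, p, hp => by
      refine ⟨ok_rawMap f t _ p.1 hp.1, fun h1 h2 => ?_⟩
      show H.tIter h1 (H.lastRaw t (f.rawMap t _ p.1)) = H.sIter h2 (f.app i _ p.2)
      rw [lastRaw_rawMap, f.app_tIter, f.app_sIter, hp.2 h1 h2]

/-- The induced map on tuples. -/
def bar (f : GHomLE G H N) (S : GSum) (h : S.dim ≤ N) (p : G.Bar S) : H.Bar S :=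
  ⟨f.rawMap S.tbl h p.1, f.ok_rawMap S.tbl h p.1 p.2⟩

theorem bar_last (f : GHomLE G H N) (S : GSum) (h : S.dim ≤ N) (p : G.Bar S) :
    (f.bar S h p).last = f.app S.last (S.tbl.last_le_dim.trans h) p.last :=
  f.lastRaw_rawMap S.tbl h p.1

theorem bar_fst (f : GHomLE G H N) {S : GSum} {j i : ℕ} {hS : j < S.last} {hi : j < i}
    (h : (S.snoc j i hS hi).dim ≤ N) (p : G.Bar (S.snoc j i hS hi)) :
    (f.bar _ h p).fst = f.bar S (le_trans (le_max_left _ _) h) p.fst := rfl

theorem bar_snd (f : GHomLE G H N) {S : GSum} {j i : ℕ} {hS : j < S.last} {hi : j < i}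
    (h : (S.snoc j i hS hi).dim ≤ N) (p : G.Bar (S.snoc j i hS hi)) :
    (f.bar _ h p).snd = f.app i (le_trans (le_max_right _ _) h) p.snd := rfl

theorem bar_comp (f : GHomLE G H N) (g : GHomLE H K N) (S : GSum) (h : S.dim ≤ N)
    (p : G.Bar S) : (f.comp g).bar S h p = g.bar S h (f.bar S h p) := by
  induction S using GSum.rec' with
  | hd n => rfl
  | hs S j i hS hi ih => exact GSet.Bar.ext' (ih _ p.fst) rfl

theorem bar_congr (f g : GHomLE G H N) (e : ∀ n h a, f.app n h a = g.app n h a)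
    (S : GSum) (h : S.dim ≤ N) (p : G.Bar S) : f.bar S h p = g.bar S h p := by
  induction S using GSum.rec' with
  | hd n => exact Subtype.ext (e n _ p.1)
  | hs S j i hS hi ih => exact GSet.Bar.ext' (ih _ p.fst) (e i _ p.snd)

end GHomLE

/-- The induced map on tuples. -/
def GHom.bar {G H : GSet} (f : GHom G H) (S : GSum) (p : G.Bar S) : H.Bar S :=
  (f.toLE S.dim).bar S le_rfl p

theorem GHom.toLE_bar {G H : GSet} (f : GHom G H) {N : ℕ} (S : GSum) (h : S.dim ≤ N)
    (p : G.Bar S) : (f.toLE N).bar S h p = f.bar S p := by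
  suffices H' : ∀ M (hM : S.dim ≤ M), (f.toLE N).bar S h p = (f.toLE M).bar S hM p from H' _ _
  intro M hM'
  induction S using GSum.rec' with
  | hd n => rfl
  | hs S j i hS hi ih =>
    exact GSet.Bar.ext' (ih _ p.fst (le_trans (le_max_left _ _) hM')) rfl

@[simp] theorem GHom.bar_last {G H : GSet} (f : GHom G H) (S : GSum) (p : G.Bar S) :
    (f.bar S p).last = f.app S.last p.last :=
  (f.toLE S.dim).bar_last S le_rfl p

@[simp] theorem GHom.bar_snd {G H : GSet} (f : GHom G H) {S : GSum} {j i : ℕ} {hS : j < S.last}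
    {hi : j < i} (p : G.Bar (S.snoc j i hS hi)) : (f.bar _ p).snd = f.app i p.snd := rfl

@[simp] theorem GHom.bar_fst {G H : GSet} (f : GHom G H) {S : GSum} {j i : ℕ} {hS : j < S.last}
    {hi : j < i} (p : G.Bar (S.snoc j i hS hi)) : (f.bar _ p).fst = f.bar S p.fst :=
  f.toLE_bar S _ p.fst

@[simp] theorem GHom.bar_one {G H : GSet} (f : GHom G H) (n : ℕ) (a : G.cell n) :
    f.bar (GSum.disc n) (G.one n a) = H.one n (f.app n a) := rfl

theorem GHom.bar_comp {G H K : GSet} (f : GHom G H) (g : GHom H K) (S : GSum) (p : G.Bar S) :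
    (f.comp g).bar S p = g.bar S (f.bar S p) := by
  induction S using GSum.rec' with
  | hd n => rfl
  | hs S j i hS hi ih =>
    refine GSet.Bar.ext' ?_ (by simp [GHom.comp])
    simpa using ih p.fst

theorem GHom.bar_id {G : GSet} (S : GSum) (p : G.Bar S) : (GHom.id G).bar S p = p := by
  induction S using GSum.rec' with
  | hd n => rfl
  | hs S j i hS hi ih =>
    refine GSet.Bar.ext' ?_ (by simp [GHom.id])
    simpa using ih p.fst

end Vale.Agent.P259
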