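import Vale.Agent.P259.Model

/-!
# P259: the initial globular extension is the category of globular sums

For an initial globular extension `E`, a globular sum `S` gives the globular set
`n ↦ Hom(D_n, S)`. This globular set corepresents the fibre product of cells indexed by `S`
(so it is the iterated pushout of representables), and the resulting functor to globular sets
is fully faithful. Thus `E` is the full subcategory of globular sums of presheaves on the globe
category.
-/

namespace Vale.Agent.P259

variable (E : GlobExt)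

/-- The globular set of maps out of the discs into `S`. -/
def GlobExt.cellsOf (S : GSum) : GSet where
  cell n := E.Hom (GSum.disc n) S
  s a := E.comp (E.src _) a
  t a := E.comp (E.tgt _) a
  ss a := by rw [← E.assoc, ← E.assoc, E.src_src]
  ts a := by rw [← E.assoc, ← E.assoc, E.tgt_src]

/-- Postcomposition. -/
def GlobExt.cellsMap {R S : GSum} (f : E.Hom R S) : GHom (E.cellsOf R) (E.cellsOf S) where
  app _ a := E.comp a f
  app_s n a := (E.assoc (E.src n) a f).symm
  app_t n a := (E.assoc (E.tgt n) a f).symm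

theorem GlobExt.cellsOf_sIter (S : GSum) {j i : ℕ} (h : j ≤ i) (a : E.Hom (GSum.disc i) S) :
    (E.cellsOf S).sIter h a = E.comp (E.srcIter h) a := by
  induction i, h using Nat.le_induction with
  | base =>
    simp only [PreExt.srcIter, Nat.leRecOn_self]
    exact ((E.cellsOf S).sIter_self a).trans (E.id_comp a).symm
  | succ n h ih =>
    refine ((E.cellsOf S).sIter_succ h a).trans ((ih _).trans ?_)
    simp only [PreExt.srcIter]
    rw [Nat.leRecOn_succ h]
    exact (E.assoc _ _ _).symm

theorem GlobExt.cellsOf_tIter (S : GSum) {j i : ℕ} (h : j ≤ i) (a : E.Hom (GSum.disc i) S) :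
    (E.cellsOf S).tIter h a = E.comp (E.tgtIter h) a := by
  induction i, h using Nat.le_induction with
  | base =>
    simp only [PreExt.tgtIter, Nat.leRecOn_self]
    exact ((E.cellsOf S).tIter_self a).trans (E.id_comp a).symm
  | succ n h ih =>
    refine ((E.cellsOf S).tIter_succ h a).trans ((ih _).trans ?_)
    simp only [PreExt.tgtIter]
    rw [Nat.leRecOn_succ h]
    exact (E.assoc _ _ _).symm

/-- The components of a map out of a globular sum, without the gluing conditions. -/
def GlobExt.rawTuple : ∀ (t : Tbl) (h : t.Valid) (T : GSum),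
    E.Hom ⟨t, h⟩ T → (E.cellsOf T).Raw t
  | .disc _, _, _, f => f
  | .snoc t j i, h, T, f =>
      (GlobExt.rawTuple t h.1 T (E.comp (E.inl ⟨t, h.1⟩ j i h.2.1 h.2.2) f),
        E.comp (E.inr ⟨t, h.1⟩ j i h.2.1 h.2.2) f)

theorem GlobExt.lastRaw_rawTuple : ∀ (t : Tbl) (h : t.Valid) (T : GSum) (f : E.Hom ⟨t, h⟩ T),
    (E.cellsOf T).lastRaw t (E.rawTuple t h T f) = E.comp (E.lastIncl ⟨t, h⟩) f
  | .disc _, _, _, f => (E.id_comp f).symm
  | .snoc _ _ _, _, _, _ => rfl

theorem GlobExt.ok_rawTuple : ∀ (t : Tbl) (h : t.Valid) (T : GSum) (f : E.Hom ⟨t, h⟩ T),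
    (E.cellsOf T).Ok t (E.rawTuple t h T f)
  | .disc _, _, _, _ => trivial
  | .snoc t j i, h, T, f => by
      refine ⟨GlobExt.ok_rawTuple t h.1 T _, fun h1 h2 => ?_⟩
      show (E.cellsOf T).tIter h1 ((E.cellsOf T).lastRaw t (E.rawTuple t h.1 T _)) =
        (E.cellsOf T).sIter h2 (E.comp (E.inr ⟨t, h.1⟩ j i h.2.1 h.2.2) f)
      rw [GlobExt.lastRaw_rawTuple]
      refine (E.cellsOf_tIter T h1 _).trans (Eq.trans ?_ (E.cellsOf_sIter T h2 _).symm)
      exact (E.assoc _ _ _).symm.trans ((E.assoc _ _ _).symm.trans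
        ((congrArg (fun w => E.comp w f) (E.sum_comm ⟨t, h.1⟩ j i h.2.1 h.2.2)).trans
          (E.assoc _ _ _)))

/-- The components of a map out of a globular sum. -/
def GlobExt.tuple {R T : GSum} (f : E.Hom R T) : (E.cellsOf T).Bar R :=
  ⟨E.rawTuple R.tbl R.valid T f, E.ok_rawTuple R.tbl R.valid T f⟩

theorem GlobExt.tuple_fst {S : GSum} {j i : ℕ} {hS : j < S.last} {hi : j < i} {T : GSum}
    (f : E.Hom (S.snoc j i hS hi) T) :
    (E.tuple f).fst = E.tuple (E.comp (E.inl S j i hS hi) f) :=
  rfl

theorem GlobExt.tuple_snd {S : GSum} {j i : ℕ} {hS : j < S.last} {hi : j < i} {T : GSum}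
    (f : E.Hom (S.snoc j i hS hi) T) :
    (E.tuple f).snd = E.comp (E.inr S j i hS hi) f :=
  rfl

theorem GlobExt.tuple_last {R T : GSum} (f : E.Hom R T) :
    (E.tuple f).last = E.comp (E.lastIncl R) f :=
  E.lastRaw_rawTuple R.tbl R.valid T f

theorem GlobExt.tuple_bijective (R T : GSum) :
    Function.Bijective (E.tuple : E.Hom R T → (E.cellsOf T).Bar R) := by
  induction R using GSum.rec' with
  | hd n => exact ⟨fun f g e => congrArg Subtype.val e, fun p => ⟨p.1, Subtype.ext rfl⟩⟩
  | hs S j i hS hi ih =>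
    refine ⟨fun f g e => ?_, fun p => ?_⟩
    · have h1 : E.comp (E.inl S j i hS hi) f = E.comp (E.inl S j i hS hi) g :=
        ih.1 (congrArg GSet.Bar.fst e)
      have h2 : E.comp (E.inr S j i hS hi) f = E.comp (E.inr S j i hS hi) g :=
        congrArg GSet.Bar.snd e
      exact (E.sum_univ S j i hS hi T (E.comp (E.inl S j i hS hi) g)
        (E.comp (E.inr S j i hS hi) g)
        (by rw [← E.assoc, ← E.assoc, E.sum_comm])).unique ⟨h1, h2⟩ ⟨rfl, rfl⟩
    · obtain ⟨u, hu⟩ := ih.2 p.fst
      have hg : E.comp (E.glueMap S hS) u = E.comp (E.srcIter hi.le) p.snd := by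
        refine (E.assoc _ _ _).trans ?_
        refine (congrArg (E.comp (E.tgtIter hS.le)) (E.tuple_last u).symm).trans ?_
        rw [hu]
        exact (E.cellsOf_tIter T hS.le _).symm.trans (p.glue.trans (E.cellsOf_sIter T hi.le _))
      obtain ⟨w, ⟨hl, hr⟩, -⟩ := E.sum_univ S j i hS hi T u p.snd hg
      exact ⟨w, GSet.Bar.ext' (by rw [E.tuple_fst, hl, hu]) (by rw [E.tuple_snd, hr])⟩

theorem GlobExt.bar_tuple {R S T : GSum} (f : E.Hom R S) (g : E.Hom S T) :
    (E.cellsMap g).bar R (E.tuple f) = E.tuple (E.comp f g) := by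
  induction R using GSum.rec' with
  | hd n => rfl
  | hs R' j i hS hi ih =>
    refine GSet.Bar.ext' ?_ ?_
    · rw [GHom.bar_fst, E.tuple_fst, E.tuple_fst, ih, E.assoc]
    · rw [GHom.bar_snd, E.tuple_snd, E.tuple_snd]
      exact E.assoc _ _ _

variable {E}

/-- Evaluation of a map of the initial extension on the cells of a globular set. -/
theorem GlobExt.IsInitial.eval_eq (hE : E.IsInitial) {G : GSet} (φ : GMor E G.endExt)
    {R S : GSum} (f : E.Hom R S) :
    ∀ g : GHom (E.cellsOf S) G,
      φ.map f (g.bar S (E.tuple (E.id S))) = g.bar R (E.tuple f) := by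
  refine hE.induction (fun {R S} f => ∀ g : GHom (E.cellsOf S) G,
    φ.map f (g.bar S (E.tuple (E.id S))) = g.bar R (E.tuple f)) ?_ f
  refine ⟨?_, ?_, ?_, ?_, ?_, ?_, ?_⟩
  · intro S g
    rw [φ.map_id]
    rfl
  · intro R S T a b ha hb g
    rw [φ.map_comp]
    show φ.map a (φ.map b (g.bar T (E.tuple (E.id T)))) = _
    rw [hb g, ← E.bar_tuple a b, ← GHom.bar_comp, ← ha ((E.cellsMap b).comp g), GHom.bar_comp,
      E.bar_tuple, E.id_comp]
  · intro n g
    rw [φ.map_src]
    refine Subtype.ext ?_
    show G.s (g.app (n + 1) (E.id _)) = g.app n (E.src n)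
    exact (g.app_s n _).trans (congrArg (g.app n) (E.comp_id (E.src n)))
  · intro n g
    rw [φ.map_tgt]
    refine Subtype.ext ?_
    show G.t (g.app (n + 1) (E.id _)) = g.app n (E.tgt n)
    exact (g.app_t n _).trans (congrArg (g.app n) (E.comp_id (E.tgt n)))
  · intro S j i hS hi g
    rw [φ.map_inl]
    show (g.bar _ (E.tuple (E.id (S.snoc j i hS hi)))).fst = _
    rw [GHom.bar_fst, E.tuple_fst, E.comp_id]
  · intro S j i hS hi g
    rw [φ.map_inr]
    show G.one i (g.bar _ (E.tuple (E.id (S.snoc j i hS hi)))).snd = _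
    rw [GHom.bar_snd, E.tuple_snd, E.comp_id]
    exact Subtype.ext rfl
  · intro S j i hS hi T w hl hr g
    refine GSet.Bar.ext' ?_ ?_
    · have := hl g
      rw [φ.map_comp, φ.map_inl] at this
      rw [GHom.bar_fst, E.tuple_fst]
      exact this
    · have := hr g
      rw [φ.map_comp, φ.map_inr] at this
      rw [GHom.bar_snd, E.tuple_snd]
      exact congrArg (G.one i).symm this

/-- The globular set of `S` corepresents the fibre product of cells indexed by `S`. -/
theorem GlobExt.IsInitial.corepresents (hE : E.IsInitial) (G : GSet) (S : GSum) :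
    Function.Bijective (fun g : GHom (E.cellsOf S) G => g.bar S (E.tuple (E.id S))) := by
  obtain ⟨φ, -, -⟩ := hE G.endExt
  have hval : ∀ (g : GHom (E.cellsOf S) G) (n : ℕ) (a : E.Hom (GSum.disc n) S),
      g.app n a = (G.one n).symm (φ.map a (g.bar S (E.tuple (E.id S)))) := fun g n a => by
    rw [hE.eval_eq φ a g]
    rfl
  refine ⟨fun g g' e => ?_, fun p => ?_⟩
  · refine GHom.ext ?_
    funext n a
    rw [hval g n a, hval g' n a]
    exact congrArg (fun q => (G.one n).symm (φ.map a q)) e
  · let g : GHom (E.cellsOf S) G :=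
      { app := fun n a => (G.one n).symm (φ.map a p)
        app_s := fun n a => by
          have key : ∀ a' : E.Hom (GSum.disc (n + 1)) S,
              φ.map (E.comp (E.src n) a') = G.endExt.comp (G.endExt.src n) (φ.map a') :=
            fun a' => by rw [φ.map_comp, φ.map_src]
          exact (congrArg (fun w => (G.one n).symm (w p)) (key a)).symm
        app_t := fun n a => by
          have key : ∀ a' : E.Hom (GSum.disc (n + 1)) S,
              φ.map (E.comp (E.tgt n) a') = G.endExt.comp (G.endExt.tgt n) (φ.map a') :=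
            fun a' => by rw [φ.map_comp, φ.map_tgt]
          exact (congrArg (fun w => (G.one n).symm (w p)) (key a)).symm }
    refine ⟨g, ?_⟩
    have key : ∀ (R : GSum) (f : E.Hom R S), g.bar R (E.tuple f) = φ.map f p := by
      intro R
      induction R using GSum.rec' with
      | hd n => exact fun f => Subtype.ext rfl
      | hs R' j i hS hi ih =>
        intro f
        refine GSet.Bar.ext' ?_ ?_
        · rw [GHom.bar_fst, E.tuple_fst, ih, φ.map_comp, φ.map_inl]
          rfl
        · rw [GHom.bar_snd, E.tuple_snd]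
          show (G.one i).symm (φ.map (E.comp (E.inr R' j i hS hi) f) p) = _
          rw [φ.map_comp, φ.map_inr]
          rfl
    show g.bar S (E.tuple (E.id S)) = p
    rw [key, φ.map_id]
    rfl

/-- The functor to globular sets is fully faithful. -/
theorem GlobExt.IsInitial.cellsMap_bijective (hE : E.IsInitial) (R S : GSum) :
    Function.Bijective (E.cellsMap : E.Hom R S → GHom (E.cellsOf R) (E.cellsOf S)) := by
  have h : ∀ f : E.Hom R S, (E.cellsMap f).bar R (E.tuple (E.id R)) = E.tuple f := fun f => by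
    rw [E.bar_tuple, E.id_comp]
  refine ⟨fun f f' e => (E.tuple_bijective R S).1 ?_, fun g => ?_⟩
  · rw [← h f, ← h f', e]
  · obtain ⟨f, hf⟩ := (E.tuple_bijective R S).2 (g.bar R (E.tuple (E.id R)))
    exact ⟨f, (hE.corepresents (E.cellsOf S) R).1 ((h f).trans hf)⟩

end Vale.Agent.P259
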