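import Mathlib

/-!
# P259: grid cells of the unit cube

Cells of the regular grid with `N` steps on `I^d`, ordered by inclusion.
-/

open Set Topology
open scoped unitInterval

noncomputable section

namespace Vale.Agent.P259

/-- A cell of the grid with `N` steps on the `d`-cube: in each direction a grid point or an
elementary interval. -/
@[ext]
structure GridCell (d N : ℕ) where
  lo : Fin d → ℕ
  hi : Fin d → ℕ
  lo_le : ∀ i, lo i ≤ hi i
  hi_le : ∀ i, hi i ≤ lo i + 1
  hi_le_N : ∀ i, hi i ≤ N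

namespace GridCell

variable {d N : ℕ}

instance : PartialOrder (GridCell d N) where
  le e f := ∀ i, f.lo i ≤ e.lo i ∧ e.hi i ≤ f.hi i
  le_refl e i := ⟨le_rfl, le_rfl⟩
  le_trans e f g h h' i := ⟨(h' i).1.trans (h i).1, (h i).2.trans (h' i).2⟩
  le_antisymm e f h h' :=
    GridCell.ext (funext fun i => le_antisymm (h' i).1 (h i).1)
      (funext fun i => le_antisymm (h i).2 (h' i).2)

theorem le_def {e f : GridCell d N} : e ≤ f ↔ ∀ i, f.lo i ≤ e.lo i ∧ e.hi i ≤ f.hi i := Iff.rfl

instance : Finite (GridCell d N) :=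
  Finite.of_injective
    (fun e : GridCell d N => fun i => ((⟨e.lo i, Nat.lt_succ_of_le ((e.lo_le i).trans (e.hi_le_N i))⟩,
      ⟨e.hi i, Nat.lt_succ_of_le (e.hi_le_N i)⟩) : Fin (N + 1) × Fin (N + 1)))
    fun _ _ h => GridCell.ext
      (funext fun i => congrArg (fun g : Fin d → Fin (N + 1) × Fin (N + 1) => (g i).1.val) h)
      (funext fun i => congrArg (fun g : Fin d → Fin (N + 1) × Fin (N + 1) => (g i).2.val) h)

instance : Fintype (GridCell d N) := Fintype.ofFinite _

/-- The directions in which the cell is an interval. -/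
def free (e : GridCell d N) : Finset (Fin d) := Finset.univ.filter fun i => e.lo i < e.hi i

/-- The dimension of a cell. -/
def dim (e : GridCell d N) : ℕ := e.free.card

theorem hi_eq_of_free {e : GridCell d N} {i : Fin d} (h : e.lo i < e.hi i) :
    e.hi i = e.lo i + 1 := by
  have := e.hi_le i; omega

theorem hi_eq_of_notFree {e : GridCell d N} {i : Fin d} (h : ¬ e.lo i < e.hi i) :
    e.hi i = e.lo i := by
  have := e.lo_le i; omega

/-- The points of a cell. -/
def set (e : GridCell d N) : Set (Fin d → I) :=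
  {x | ∀ i, (e.lo i : ℝ) / N ≤ x i ∧ (x i : ℝ) ≤ (e.hi i : ℝ) / N}

theorem isClosed_set (e : GridCell d N) : IsClosed e.set := by
  simp only [set, Set.ofPred_forall]
  refine isClosed_iInter fun i => ?_
  have hc : Continuous fun x : Fin d → I => (x i : ℝ) :=
    continuous_subtype_val.comp (continuous_apply i)
  exact (isClosed_le continuous_const hc).inter (isClosed_le hc continuous_const)

instance (e : GridCell d N) : CompactSpace e.set :=
  isCompact_iff_compactSpace.mp e.isClosed_set.isCompact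

theorem set_mono {e f : GridCell d N} (h : e ≤ f) : e.set ⊆ f.set := fun x hx i =>
  ⟨le_trans (div_le_div_of_nonneg_right (Nat.cast_le.mpr (h i).1) (Nat.cast_nonneg _)) (hx i).1,
    le_trans (hx i).2 (div_le_div_of_nonneg_right (Nat.cast_le.mpr (h i).2) (Nat.cast_nonneg _))⟩

/-- The inclusion of a face. -/
def incl {e f : GridCell d N} (h : e ≤ f) : C(e.set, f.set) :=
  ⟨Set.inclusion (set_mono h), continuous_inclusion (set_mono h)⟩

@[simp] theorem incl_val {e f : GridCell d N} (h : e ≤ f) (x : e.set) :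
    (incl h x).1 = x.1 := rfl

theorem exists_inf {e f : GridCell d N} (hN : 0 < N) {x : Fin d → I} (he : x ∈ e.set)
    (hf : x ∈ f.set) : ∃ g : GridCell d N, g ≤ e ∧ g ≤ f ∧ x ∈ g.set := by
  have hN' : (0 : ℝ) < N := Nat.cast_pos.mpr hN
  have key : ∀ {a b : ℕ}, (a : ℝ) / N ≤ (b : ℝ) / N → a ≤ b := fun h =>
    Nat.cast_le.mp ((div_le_div_iff_of_pos_right hN').mp h)
  refine ⟨⟨fun i => max (e.lo i) (f.lo i), fun i => min (e.hi i) (f.hi i), fun i => ?_, fun i => ?_,
    fun i => ?_⟩, fun i => ⟨le_max_left _ _, min_le_left _ _⟩,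
    fun i => ⟨le_max_right _ _, min_le_right _ _⟩, fun i => ?_⟩
  · exact max_le (le_min (e.lo_le i) (key ((he i).1.trans (hf i).2)))
      (le_min (key ((hf i).1.trans (he i).2)) (f.lo_le i))
  · have := e.hi_le i; omega
  · exact le_trans (min_le_left _ _) (e.hi_le_N i)
  · constructor
    · rcases max_choice (e.lo i) (f.lo i) with h | h
      · show ((max (e.lo i) (f.lo i) : ℕ) : ℝ) / N ≤ _
        rw [h]; exact (he i).1
      · show ((max (e.lo i) (f.lo i) : ℕ) : ℝ) / N ≤ _
        rw [h]; exact (hf i).1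
    · rcases min_choice (e.hi i) (f.hi i) with h | h
      · show (x i : ℝ) ≤ ((min (e.hi i) (f.hi i) : ℕ) : ℝ) / N
        rw [h]; exact (he i).2
      · show (x i : ℝ) ≤ ((min (e.hi i) (f.hi i) : ℕ) : ℝ) / N
        rw [h]; exact (hf i).2

theorem exists_mem_set (hN : 0 < N) (x : Fin d → I) : ∃ e : GridCell d N, x ∈ e.set := by
  have hN' : (0 : ℝ) < N := Nat.cast_pos.mpr hN
  let k : Fin d → ℕ := fun i => min ⌊(x i : ℝ) * N⌋₊ (N - 1)
  refine ⟨⟨k, fun i => k i + 1, fun i => Nat.le_succ _, fun i => le_rfl, fun i => ?_⟩, fun i => ?_⟩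
  · have : k i ≤ N - 1 := min_le_right _ _
    show k i + 1 ≤ N
    omega
  · have h0 : (0 : ℝ) ≤ (x i : ℝ) * N := mul_nonneg (x i).2.1 hN'.le
    constructor
    · rw [div_le_iff₀ hN']
      exact le_trans (Nat.cast_le.mpr (min_le_left _ _)) (Nat.floor_le h0)
    · show (x i : ℝ) ≤ ((k i + 1 : ℕ) : ℝ) / N
      rw [le_div_iff₀ hN']
      rcases min_choice ⌊(x i : ℝ) * N⌋₊ (N - 1) with h | h
      · show _ ≤ ((min ⌊(x i : ℝ) * N⌋₊ (N - 1) + 1 : ℕ) : ℝ)
        rw [h, Nat.cast_add, Nat.cast_one]; exact (Nat.lt_floor_add_one _).le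
      · show _ ≤ ((min ⌊(x i : ℝ) * N⌋₊ (N - 1) + 1 : ℕ) : ℝ)
        rw [h, Nat.sub_add_cancel hN]
        exact mul_le_of_le_one_left hN'.le (x i).2.2

theorem iUnion_set (hN : 0 < N) : ⋃ e : GridCell d N, e.set = Set.univ :=
  Set.eq_univ_of_forall fun x => Set.mem_iUnion.mpr (exists_mem_set hN x)

/-- The grid vertices of a cell. -/
def IsVertex (e : GridCell d N) : Prop := e.lo = e.hi

/-- The vertex at a grid point. -/
def vertex (v : Fin d → Fin (N + 1)) : GridCell d N :=
  ⟨fun i => v i, fun i => v i, fun _ => le_rfl, fun _ => Nat.le_succ _,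
    fun i => Nat.le_of_lt_succ (v i).2⟩

theorem exists_vertex_le (e : GridCell d N) : ∃ v, vertex v ≤ e :=
  ⟨fun i => ⟨e.lo i, Nat.lt_succ_of_le ((e.lo_le i).trans (e.hi_le_N i))⟩,
    fun i => ⟨le_rfl, e.lo_le i⟩⟩

/-! ### Boundaries and charts -/

/-- A point of a cell on its boundary lies in a proper face. -/
theorem exists_face_of_boundary {e : GridCell d N} {x : Fin d → I} (hx : x ∈ e.set)
    {i : Fin d} (hi : e.lo i < e.hi i)
    (hb : (x i : ℝ) = (e.lo i : ℝ) / N ∨ (x i : ℝ) = (e.hi i : ℝ) / N) :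
    ∃ f : GridCell d N, f < e ∧ x ∈ f.set := by
  classical
  obtain ⟨c, hc, hlo, hhi⟩ : ∃ c : ℕ, (x i : ℝ) = (c : ℝ) / N ∧ e.lo i ≤ c ∧ c ≤ e.hi i := by
    rcases hb with h | h
    exacts [⟨_, h, le_rfl, e.lo_le i⟩, ⟨_, h, e.lo_le i, le_rfl⟩]
  refine ⟨⟨Function.update e.lo i c, Function.update e.hi i c, fun j => ?_, fun j => ?_,
    fun j => ?_⟩, lt_of_le_of_ne (fun j => ?_) (fun h => ?_), fun j => ?_⟩
  · by_cases hj : j = i
    · subst hj; simp
    · simp [Function.update_of_ne hj, e.lo_le j]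
  · by_cases hj : j = i
    · subst hj; simp
    · simp [Function.update_of_ne hj, e.hi_le j]
  · by_cases hj : j = i
    · subst hj; simpa using le_trans hhi (e.hi_le_N j)
    · simp [Function.update_of_ne hj, e.hi_le_N j]
  · by_cases hj : j = i
    · subst hj; simpa using ⟨hlo, hhi⟩
    · simp [Function.update_of_ne hj]
  · have h1 := congrFun (congrArg GridCell.lo h) i
    have h2 := congrFun (congrArg GridCell.hi h) i
    simp only [Function.update_self] at h1 h2
    omega
  · by_cases hj : j = i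
    · subst hj; simp [hc]
    · simpa [Function.update_of_ne hj] using hx j

/-- The affine chart of a cell by the cube on its free directions. -/
def chart (e : GridCell d N) : C(↥e.free → I, e.set) where
  toFun u := ⟨fun i => ⟨if h : i ∈ e.free then ((e.lo i : ℝ) + u ⟨i, h⟩) / N else (e.lo i : ℝ) / N,
    by
      have hle : (e.hi i : ℝ) ≤ N := Nat.cast_le.mpr (e.hi_le_N i)
      have hlo : (e.lo i : ℝ) ≤ N := Nat.cast_le.mpr ((e.lo_le i).trans (e.hi_le_N i))
      split_ifs with h
      · have hhi : (e.hi i : ℝ) = (e.lo i : ℝ) + 1 := by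
          exact_mod_cast hi_eq_of_free (Finset.mem_filter.mp h).2
        have := (u ⟨i, h⟩).2
        exact ⟨div_nonneg (add_nonneg (Nat.cast_nonneg _) this.1) (Nat.cast_nonneg _),
          div_le_one_of_le₀ (by linarith [this.2]) (Nat.cast_nonneg _)⟩
      · exact ⟨div_nonneg (Nat.cast_nonneg _) (Nat.cast_nonneg _),
          div_le_one_of_le₀ hlo (Nat.cast_nonneg _)⟩⟩,
    fun i => by
      show _ ≤ (if h : i ∈ e.free then _ else _) ∧ (if h : i ∈ e.free then _ else _) ≤ _
      split_ifs with h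
      · have hhi : (e.hi i : ℝ) = (e.lo i : ℝ) + 1 := by
          exact_mod_cast hi_eq_of_free (Finset.mem_filter.mp h).2
        have := (u ⟨i, h⟩).2
        exact ⟨div_le_div_of_nonneg_right (by linarith [this.1]) (Nat.cast_nonneg _),
          div_le_div_of_nonneg_right (by linarith [this.2]) (Nat.cast_nonneg _)⟩
      · exact ⟨le_rfl, div_le_div_of_nonneg_right (Nat.cast_le.mpr (e.lo_le i))
          (Nat.cast_nonneg _)⟩⟩
  continuous_toFun := by
    refine Continuous.subtype_mk (continuous_pi fun i => Continuous.subtype_mk ?_ _) _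
    by_cases h : i ∈ e.free
    · simp only [dif_pos h]
      exact (continuous_const.add
        (continuous_subtype_val.comp (continuous_apply (⟨i, h⟩ : ↥e.free)))).div_const _
    · simp only [dif_neg h]
      exact continuous_const

theorem chart_apply_free (e : GridCell d N) (u : ↥e.free → I) (i : ↥e.free) :
    (((e.chart u).1 i.1 : I) : ℝ) = ((e.lo i.1 : ℝ) + u i) / N :=
  dif_pos i.2

/-- The coordinates of a point of a cell in its chart. -/
def unchart (hN : 0 < N) (e : GridCell d N) : C(e.set, ↥e.free → I) where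
  toFun x i := ⟨(x.1 i.1 : ℝ) * N - e.lo i.1, by
    have hN' : (0 : ℝ) < N := Nat.cast_pos.mpr hN
    have h1 := (div_le_iff₀ hN').mp (x.2 i.1).1
    have h2 := (le_div_iff₀ hN').mp (x.2 i.1).2
    have hhi : (e.hi i.1 : ℝ) = (e.lo i.1 : ℝ) + 1 := by
      exact_mod_cast hi_eq_of_free (Finset.mem_filter.mp i.2).2
    constructor <;> linarith⟩
  continuous_toFun := continuous_pi fun i => Continuous.subtype_mk
    (((continuous_subtype_val.comp ((continuous_apply i.1).comp continuous_subtype_val)).mul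
      continuous_const).sub continuous_const) _

theorem chart_unchart (hN : 0 < N) (e : GridCell d N) (x : e.set) :
    e.chart (e.unchart hN x) = x := by
  have hN' : (N : ℝ) ≠ 0 := Nat.cast_ne_zero.mpr hN.ne'
  refine Subtype.ext (funext fun i => Subtype.ext ?_)
  by_cases h : i ∈ e.free
  · rw [chart_apply_free e _ ⟨i, h⟩]
    show ((e.lo i : ℝ) + ((x.1 i : ℝ) * N - e.lo i)) / N = _
    field_simp
    ring
  · have hh : e.hi i = e.lo i := hi_eq_of_notFree fun h' => h (Finset.mem_filter.mpr ⟨Finset.mem_univ _, h'⟩)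
    have h1 := (x.2 i).1
    have h2 := (x.2 i).2
    rw [hh] at h2
    exact (dif_neg h).trans (le_antisymm h1 h2)

theorem unchart_chart (hN : 0 < N) (e : GridCell d N) (u : ↥e.free → I) :
    e.unchart hN (e.chart u) = u := by
  have hN' : (N : ℝ) ≠ 0 := Nat.cast_ne_zero.mpr hN.ne'
  refine funext fun i => Subtype.ext ?_
  show (((e.chart u).1 i.1 : I) : ℝ) * N - e.lo i.1 = _
  rw [chart_apply_free]
  field_simp
  ring

end GridCell

end Vale.Agent.P259
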