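import Vale.Agent.P259.Homotopy

/-!
# P259 (K2): globular sums are contractible

The representable groupoid of every globular sum is weakly contractible.  For the disc `D_0` this
is the lifting property of the coherator.  For a sum `S` with root vertex `v`, the groupoid of
paths ending at `v` is contractible and fibred over `rep S`, so the universal element of `S` lifts
to it, and `rep S` is a retract of a contractible groupoid.
-/

open CategoryTheory Opposite

namespace Vale.Agent.P259

variable {C : Coherator}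

theorem Coherator.hat_id (X : C.Gpd) {S : GSum} (x : X.obj.obj (op ⟨S⟩)) :
    (C.hat X x).hom.app (op ⟨S⟩) (C.ext.id S) = x :=
  act_id X.obj x

/-- The representable groupoid of the point is contractible. -/
theorem isContr_rep_point (C : Coherator) : IsContr (C.rep (GSum.disc 0)) where
  nonempty := ⟨C.ext.id _⟩
  rel n a b hab := by
    obtain ⟨h, h1, h2⟩ := C.contractible
      ⟨n, GSum.disc 0, a, b, (by cases n with
        | zero => exact trivial
        | succ n => exact hab), Nat.zero_le _⟩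
    exact ⟨h, h1, h2⟩

/-- Maps between contractible groupoids are equivalences. -/
theorem IsEquivMap.of_isContr {X Y : C.Gpd} (φ : X ⟶ Y) (hX : IsContr X) (hY : IsContr Y) :
    IsEquivMap φ where
  surj y := by
    obtain ⟨x⟩ := hX.nonempty
    exact ⟨x, hY.rel 0 _ _ trivial⟩
  lift n a b h hab hs ht := by
    obtain ⟨h', hs', ht'⟩ := hX.rel n a b hab
    exact ⟨h', hs', ht', hY.rel (n + 1) _ _
      ⟨((C.map_src' φ h').symm.trans (congrArg (C.mapCell φ n) hs')).trans hs.symm,
        ((C.map_tgt' φ h').symm.trans (congrArg (C.mapCell φ n) ht')).trans ht.symm⟩⟩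

/-- Fibrations lift cells with a prescribed iterated source. -/
theorem IsFib.exists_lift_srcIter {W Y : C.Gpd} {π : W ⟶ Y} (hπ : IsFib π) {j i : ℕ}
    (hji : j ≤ i) (w : C.cells W j) (b : C.cells Y i)
    (h : C.mapCell π j w = act Y.obj (C.ext.srcIter hji) b) :
    ∃ q : C.cells W i, act W.obj (C.ext.srcIter hji) q = w ∧ C.mapCell π i q = b := by
  induction i, hji using Nat.le_induction with
  | base =>
    refine ⟨w, ?_, h.trans ?_⟩
    · rw [← gs_sIter]; exact GSet.sIter_self (gs W.obj) w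
    · rw [← gs_sIter]; exact GSet.sIter_self (gs Y.obj) b
  | succ n hjn ih =>
    have h' : C.mapCell π j w = act Y.obj (C.ext.srcIter hjn) (C.src' Y b) := by
      rw [← gs_sIter] at h ⊢
      exact h.trans (GSet.sIter_succ (gs Y.obj) hjn b)
    obtain ⟨q, hq1, hq2⟩ := ih (C.src' Y b) h'
    obtain ⟨q', hq1', hq2'⟩ := hπ n q b hq2.symm
    refine ⟨q', ?_, hq2'⟩
    rw [← gs_sIter] at hq1 ⊢
    exact ((GSet.sIter_succ (gs W.obj) hjn q').trans (congrArg _ hq1')).trans hq1

/-- Fibrations lift elements at a globular sum, starting from a lift of a root vertex. -/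
theorem exists_root {Y : C.Gpd} (S : GSum) (x : Y.obj.obj (op ⟨S⟩)) :
    ∃ r : C.cells Y 0, ∀ (W : C.Gpd) (π : W ⟶ Y), IsFib π → ∀ w0 : C.cells W 0,
      C.mapCell π 0 w0 = r → ∃ w : W.obj.obj (op ⟨S⟩), C.mapAt π S w = x := by
  induction S using GSum.rec' with
  | hd n =>
    refine ⟨act Y.obj (C.ext.srcIter n.zero_le) x, fun W π hπ w0 h0 => ?_⟩
    obtain ⟨q, -, hq⟩ := hπ.exists_lift_srcIter n.zero_le w0 x h0
    exact ⟨q, hq⟩
  | hs S j i hS hi ih =>
    obtain ⟨r, hr⟩ := ih (act Y.obj (C.ext.inl S j i hS hi) x)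
    refine ⟨r, fun W π hπ w0 h0 => ?_⟩
    obtain ⟨a, ha⟩ := hr W π hπ w0 h0
    have hglue : C.mapCell π j (act W.obj (C.ext.glueMap S hS) a) =
        act Y.obj (C.ext.srcIter hi.le) (act Y.obj (C.ext.inr S j i hS hi) x) := by
      rw [← act_comp, ← C.ext.sum_comm, act_comp]
      exact (act_natural π.hom _ a).trans (congrArg (act Y.obj (C.ext.glueMap S hS)) ha)
    obtain ⟨b, hb1, hb2⟩ := hπ.exists_lift_srcIter hi.le _ _ hglue
    obtain ⟨c, ⟨hc1, hc2⟩, -⟩ := W.property S j i hS hi a b hb1.symm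
    refine ⟨c, ?_⟩
    have hY : act Y.obj (C.ext.glueMap S hS) (act Y.obj (C.ext.inl S j i hS hi) x) =
        act Y.obj (C.ext.srcIter hi.le) (act Y.obj (C.ext.inr S j i hS hi) x) := by
      rw [← act_comp, ← act_comp, C.ext.sum_comm]
    exact (Y.property S j i hS hi _ _ hY).unique
      ⟨((act_natural π.hom _ c).symm.trans (congrArg (C.mapAt π S) hc1)).trans ha,
        ((act_natural π.hom _ c).symm.trans (congrArg (C.mapCell π i) hc2)).trans hb2⟩
      ⟨rfl, rfl⟩

namespace PathData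

variable (Pd : PathData C) (X : C.Gpd)

/-- The groupoid of paths in `X` ending at `v`. -/
def pathsTo (v : C.cells X 0) : C.Gpd :=
  pb (C.hat X v) (Pd.ev1.app X : Pd.P.obj X ⟶ X)

/-- The starting point of a path. -/
def pathsToStart (v : C.cells X 0) : Pd.pathsTo X v ⟶ X :=
  pbSnd (C.hat X v) (Pd.ev1.app X : Pd.P.obj X ⟶ X) ≫ Pd.ev0.app X

theorem isContr_pathsTo (v : C.cells X 0) : IsContr (Pd.pathsTo X v) :=
  (IsTrivFib.pbFst _ _ (Pd.ev1_trivFib X)).isContr (isContr_rep_point C)

theorem pathsToStart_isFib (v : C.cells X 0) : IsFib (Pd.pathsToStart X v) := by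
  intro n e h hh
  let w : C.cells (C.rep (GSum.disc 0)) n := C.mapCell (pbFst (C.hat X v) (Pd.ev1.app X)) n e
  let q : C.cells (Pd.P.obj X) n := C.mapCell (pbSnd (C.hat X v) (Pd.ev1.app X)) n e
  let f1 : C.cells X (n + 1) := C.mapCell (C.hat X v) (n + 1) (C.oneC (C.rep (GSum.disc 0)) w)
  have h1 : C.src' X f1 = C.mapCell (Pd.ev1.app X) n q :=
    ((C.map_src' _ _).symm.trans (congrArg (C.mapCell (C.hat X v) n) (C.src_oneC _ w))).trans
      (pb_cell_comm (C.hat X v) (Pd.ev1.app X) e)
  exact ⟨pbCell (C.hat X v) (Pd.ev1.app X) (C.oneC (C.rep (GSum.disc 0)) w) ((Pd.pairLift X).lift n q h f1 hh h1)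
      ((Pd.pairLift X).lift_π1 n q h f1 hh h1).symm,
    Subtype.ext (Prod.ext (C.src_oneC _ w) ((Pd.pairLift X).lift_src n q h f1 hh h1)),
    (Pd.pairLift X).lift_π0 n q h f1 hh h1⟩

/-- The representable groupoids of globular sums are contractible. -/
theorem isContr_rep (Pd : PathData C) (S : GSum) : IsContr (C.rep S) := by
  obtain ⟨r, hr⟩ := exists_root (Y := C.rep S) S (C.ext.id S)
  obtain ⟨H, hH⟩ := hr (Pd.pathsTo (C.rep S) r) (Pd.pathsToStart (C.rep S) r)
    (Pd.pathsToStart_isFib _ r)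
    (pbCell _ _ (C.ext.id (GSum.disc 0)) ((Pd.deg (C.rep S)).app 0 r)
      ((C.hat_id _ r).trans (Pd.ev1_deg _ 0 r).symm))
    (Pd.ev0_deg _ 0 r)
  refine ⟨⟨r⟩, fun n a b hab => ?_⟩
  have e : ∀ f : C.cells (C.rep S) n, C.mapCell (Pd.pathsToStart (C.rep S) r) n
      (C.mapCell (C.hat _ H) n f) = f := fun f => by
    refine (act_natural (Pd.pathsToStart (C.rep S) r).hom f H).trans ?_
    rw [show (Pd.pathsToStart (C.rep S) r).hom.app (op ⟨S⟩) H = C.ext.id S from hH]
    exact C.ext.comp_id f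
  have k := CellRel.map (Pd.pathsToStart (C.rep S) r)
    ((Pd.isContr_pathsTo (C.rep S) r).rel n _ _ (C.par_map (C.hat _ H) hab))
  exact e a ▸ e b ▸ k

/-- A fibration over a globular sum, pulled back along a map of globular sums. -/
theorem isEquivMap_pbSnd_rep (Pd : PathData C) {T S : GSum} {E : C.Gpd}
    (q : C.rep T ⟶ C.rep S) (p : E ⟶ C.rep S) (hp : IsFib p) : IsEquivMap (pbSnd q p) :=
  hp.isEquivMap_pbSnd (Pd.isContr_rep S) (Pd.isContr_rep T)

end PathData

end Vale.Agent.P259
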