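import Vale.Agent.P259.GSet

/-!
# P259: consequences of cellularity
-/

open CategoryTheory Opposite

namespace Vale.Agent.P259

/-- A predicate on maps closed under the operations of a globular extension. -/
structure GlobExt.Closed (E : GlobExt) (P : ∀ {R S}, E.Hom R S → Prop) : Prop where
  id : ∀ S, P (E.id S)
  comp : ∀ {R S T} (f : E.Hom R S) (g : E.Hom S T), P f → P g → P (E.comp f g)
  src : ∀ n, P (E.src n)
  tgt : ∀ n, P (E.tgt n)
  inl : ∀ S j i hS hi, P (E.inl S j i hS hi)
  inr : ∀ S j i hS hi, P (E.inr S j i hS hi)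
  pair : ∀ (S : GSum) (j i : ℕ) (hS : j < S.last) (hi : j < i) (T : GSum)
    (w : E.Hom (S.snoc j i hS hi) T),
    P (E.comp (E.inl S j i hS hi) w) → P (E.comp (E.inr S j i hS hi) w) → P w

section SubExt

variable (E : GlobExt) (P : ∀ {R S}, E.Hom R S → Prop) (hP : E.Closed @P)

/-- The data of the sub-extension cut out by a closed predicate. -/
def GlobExt.subPre : PreExt where
  Hom R S := {f : E.Hom R S // P f}
  id S := ⟨E.id S, hP.id S⟩
  comp f g := ⟨E.comp f.1 g.1, hP.comp _ _ f.2 g.2⟩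
  src n := ⟨E.src n, hP.src n⟩
  tgt n := ⟨E.tgt n, hP.tgt n⟩
  inl S j i hS hi := ⟨E.inl S j i hS hi, hP.inl S j i hS hi⟩
  inr S j i hS hi := ⟨E.inr S j i hS hi, hP.inr S j i hS hi⟩

theorem GlobExt.subPre_srcIter {j i : ℕ} (h : j ≤ i) :
    ((E.subPre @P hP).srcIter h).1 = E.srcIter h := by
  induction i, h using Nat.le_induction with
  | base => simp [PreExt.srcIter, Nat.leRecOn_self, GlobExt.subPre]
  | succ n h ih =>
    simp only [PreExt.srcIter] at ih ⊢
    rw [Nat.leRecOn_succ h, Nat.leRecOn_succ h]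
    exact congrArg (fun f => E.comp f (E.src n)) ih

theorem GlobExt.subPre_tgtIter {j i : ℕ} (h : j ≤ i) :
    ((E.subPre @P hP).tgtIter h).1 = E.tgtIter h := by
  induction i, h using Nat.le_induction with
  | base => simp [PreExt.tgtIter, Nat.leRecOn_self, GlobExt.subPre]
  | succ n h ih =>
    simp only [PreExt.tgtIter] at ih ⊢
    rw [Nat.leRecOn_succ h, Nat.leRecOn_succ h]
    exact congrArg (fun f => E.comp f (E.tgt n)) ih

theorem GlobExt.subPre_glueMap (S : GSum) {j : ℕ} (hS : j < S.last) :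
    ((E.subPre @P hP).glueMap S hS).1 = E.glueMap S hS := by
  have h : ((E.subPre @P hP).lastIncl S).1 = E.lastIncl S := by
    induction S using GSum.rec' with
    | hd n => rfl
    | hs S j i hS' hi ih => rfl
  show E.comp _ _ = E.comp _ _
  rw [GlobExt.subPre_tgtIter, h]

/-- The sub-extension cut out by a closed predicate. -/
def GlobExt.sub : GlobExt where
  toPreExt := E.subPre @P hP
  id_comp f := Subtype.ext (E.id_comp f.1)
  comp_id f := Subtype.ext (E.comp_id f.1)
  assoc f g h := Subtype.ext (E.assoc f.1 g.1 h.1)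
  src_src n := Subtype.ext (E.src_src n)
  tgt_src n := Subtype.ext (E.tgt_src n)
  sum_comm S j i hS hi := Subtype.ext (by
    show E.comp _ _ = E.comp _ _
    rw [GlobExt.subPre_glueMap, GlobExt.subPre_srcIter]
    exact E.sum_comm S j i hS hi)
  sum_univ S j i hS hi T u v h := by
    have h' : E.comp (E.glueMap S hS) u.1 = E.comp (E.srcIter hi.le) v.1 := by
      rw [← GlobExt.subPre_glueMap E @P hP, ← GlobExt.subPre_srcIter E @P hP]
      exact congrArg Subtype.val h
    obtain ⟨w, hw, huniq⟩ := E.sum_univ S j i hS hi T u.1 v.1 h'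
    exact ⟨⟨w, hP.pair S j i hS hi T w (hw.1 ▸ u.2) (hw.2 ▸ v.2)⟩,
      ⟨Subtype.ext hw.1, Subtype.ext hw.2⟩,
      fun w' hw' => Subtype.ext (huniq w'.1
        ⟨congrArg Subtype.val hw'.1, congrArg Subtype.val hw'.2⟩)⟩

/-- The inclusion of a sub-extension. -/
def GlobExt.subIncl : GMor (E.sub @P hP) E where
  map f := f.1
  map_id _ := rfl
  map_comp _ _ := rfl
  map_src _ := rfl
  map_tgt _ := rfl
  map_inl _ _ _ _ _ := rfl
  map_inr _ _ _ _ _ := rfl

/-- Corestriction to a sub-extension. -/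
def GMor.corestrict {F : GlobExt} (φ : GMor F E) (h : ∀ {R S} (f : F.Hom R S), P (φ.map f)) :
    GMor F (E.sub @P hP) where
  map f := ⟨φ.map f, h f⟩
  map_id S := Subtype.ext (φ.map_id S)
  map_comp f g := Subtype.ext (φ.map_comp f g)
  map_src n := Subtype.ext (φ.map_src n)
  map_tgt n := Subtype.ext (φ.map_tgt n)
  map_inl S j i hS hi := Subtype.ext (φ.map_inl S j i hS hi)
  map_inr S j i hS hi := Subtype.ext (φ.map_inr S j i hS hi)

end SubExt

/-- The identity morphism. -/
def GMor.idMor (E : GlobExt) : GMor E E where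
  map f := f
  map_id _ := rfl
  map_comp _ _ := rfl
  map_src _ := rfl
  map_tgt _ := rfl
  map_inl _ _ _ _ _ := rfl
  map_inr _ _ _ _ _ := rfl

theorem GMor.comp_assoc {E F G H : GlobExt} (a : GMor E F) (b : GMor F G) (c : GMor G H) :
    (a.comp b).comp c = a.comp (b.comp c) := rfl

/-- Induction on maps of the initial globular extension. -/
theorem GlobExt.IsInitial.induction {E : GlobExt} (h : E.IsInitial)
    (P : ∀ {R S}, E.Hom R S → Prop) (hP : E.Closed @P) {R S : GSum} (f : E.Hom R S) : P f := by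
  obtain ⟨φ, -, -⟩ := h (E.sub @P hP)
  have e : φ.comp (E.subIncl @P hP) = GMor.idMor E := (h E).unique trivial trivial
  have := congrArg (fun ψ : GMor E E => ψ.map f) e
  exact (show (φ.map f).1 = f from this) ▸ (φ.map f).2

namespace Coherator

variable (C : Coherator)

/-- Induction on maps of the stages of a coherator. -/
theorem stage_induction (k : ℕ) (P : ∀ {R S}, (C.stage (k + 1)).Hom R S → Prop)
    (hP : (C.stage (k + 1)).Closed @P)
    (hstep : ∀ {R S} (f : (C.stage k).Hom R S), P ((C.step k).map f))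
    (hgen : ∀ a, P (C.adjLift k a)) {R S : GSum} (f : (C.stage (k + 1)).Hom R S) : P f := by
  let E := (C.stage (k + 1)).sub @P hP
  have hlift : ∀ a, E.IsLift
      ((GMor.corestrict _ @P hP (C.step k) hstep).map (C.pair k a).f)
      ((GMor.corestrict _ @P hP (C.step k) hstep).map (C.pair k a).g)
      (⟨C.adjLift k a, hgen a⟩ : E.Hom _ _) := fun a =>
    ⟨Subtype.ext (C.adjLift_spec k a).1, Subtype.ext (C.adjLift_spec k a).2⟩
  obtain ⟨ψ, ⟨hψ1, hψ2⟩, -⟩ := C.adj_univ k E _ _ hlift
  have e : ψ.comp ((C.stage (k + 1)).subIncl @P hP) = GMor.idMor _ :=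
    (C.adj_univ k (C.stage (k + 1)) (C.step k) (C.adjLift k) (C.adjLift_spec k)).unique
      ⟨by rw [← GMor.comp_assoc, hψ1]; rfl, fun a => congrArg Subtype.val (hψ2 a)⟩
      ⟨rfl, fun a => rfl⟩
  have := congrArg (fun χ : GMor _ (C.stage (k + 1)) => χ.map f) e
  exact (show (ψ.map f).1 = f from this) ▸ (ψ.map f).2

theorem toExt_map_step {R S : GSum} (k : ℕ) (f : (C.stage k).Hom R S) :
    (C.toExt (k + 1)).map ((C.step k).map f) = (C.toExt k).map f := by
  conv_rhs => rw [← C.toExt_step k]
  rfl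

/-- Induction on maps of a coherator. -/
theorem ext_induction (P : ∀ {R S}, C.ext.Hom R S → Prop) (hP : C.ext.Closed @P)
    (h : ∀ k {R S} (f : (C.stage k).Hom R S), P ((C.toExt k).map f)) {R S : GSum}
    (f : C.ext.Hom R S) : P f := by
  let φ : ∀ k, GMor (C.stage k) (C.ext.sub @P hP) := fun k =>
    GMor.corestrict _ @P hP (C.toExt k) (h k)
  obtain ⟨ψ, hψ, -⟩ := C.colim_univ _ φ
    (fun k => GMor.ext (funext₂ fun R S => funext fun f => Subtype.ext (C.toExt_map_step k f)))
  have e : ψ.comp (C.ext.subIncl @P hP) = GMor.idMor _ :=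
    (C.colim_univ C.ext C.toExt C.toExt_step).unique
      (fun k => by rw [← GMor.comp_assoc, hψ k]; rfl) (fun k => rfl)
  have := congrArg (fun χ : GMor _ C.ext => χ.map f) e
  exact (show (ψ.map f).1 = f from this) ▸ (ψ.map f).2

/-- Construction of a compatible family of morphisms out of a coherator, stage by stage. -/
theorem exists_mor {ι : Type*} (E : ι → GlobExt)
    (Good : ∀ k, (∀ i, GMor (C.stage k) (E i)) → Prop)
    (zero : ∀ φ, Good 0 φ)
    (succ : ∀ k φ, Good k φ →
      ∃ φ', (∀ i, (C.step k).comp (φ' i) = φ i) ∧ Good (k + 1) φ') :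
    ∃ φ : ∀ i, GMor C.ext (E i), ∀ k, Good k (fun i => (C.toExt k).comp (φ i)) := by
  classical
  let φ0 : ∀ i, GMor (C.stage 0) (E i) := fun i => Classical.choose (C.stage_zero (E i)).exists
  let F : ∀ k, {φ : ∀ i, GMor (C.stage k) (E i) // Good k φ} := fun k =>
    Nat.rec (motive := fun k => {φ : ∀ i, GMor (C.stage k) (E i) // Good k φ})
      ⟨φ0, zero φ0⟩
      (fun k p => ⟨Classical.choose (succ k p.1 p.2),
        (Classical.choose_spec (succ k p.1 p.2)).2⟩) k
  have hF : ∀ k i, (C.step k).comp ((F (k + 1)).1 i) = (F k).1 i := fun k i =>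
    (Classical.choose_spec (succ k (F k).1 (F k).2)).1 i
  refine ⟨fun i => Classical.choose (C.colim_univ (E i) (fun k => (F k).1 i)
    (fun k => hF k i)).exists, fun k => ?_⟩
  have : (fun i => (C.toExt k).comp (Classical.choose (C.colim_univ (E i) (fun k => (F k).1 i)
      (fun k => hF k i)).exists)) = (F k).1 := funext fun i =>
    Classical.choose_spec (C.colim_univ (E i) (fun k => (F k).1 i) (fun k => hF k i)).exists k
  rw [this]
  exact (F k).2

end Coherator

end Vale.Agent.P259
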