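import Vale.Agent.P259.Conj

/-!
# P259: one layer of cylinders
-/

open CategoryTheory Opposite

namespace Vale.Agent.P259

variable {C : Coherator}

/-- A natural globular set. -/
structure GFun (C : Coherator) where
  obj : C.Gpd → GSet
  map : ∀ {X Y : C.Gpd}, (X ⟶ Y) → GHom (obj X) (obj Y)

/-- The `n`-cells of a natural globular set. -/
abbrev GFun.cellF (F : GFun C) (n : ℕ) : TFun C where
  obj X := (F.obj X).cell n
  map φ a := (F.map φ).app n a

/-- Tuples in a natural globular set. -/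
abbrev GFun.barF (F : GFun C) (S : GSum) : TFun C where
  obj X := (F.obj X).Bar S
  map φ p := (F.map φ).bar S p

/-- A natural globular set over pairs. -/
structure GOver (C : Coherator) extends GFun C where
  e0 : ∀ X, GHom (obj X) (C.gs X)
  e1 : ∀ X, GHom (obj X) (C.gs X)
  nat0 : ∀ {X Y : C.Gpd} (φ : X ⟶ Y) n a,
    (gsMap φ.hom).app n ((e0 X).app n a) = (e0 Y).app n ((map φ).app n a)
  nat1 : ∀ {X Y : C.Gpd} (φ : X ⟶ Y) n a,
    (gsMap φ.hom).app n ((e1 X).app n a) = (e1 Y).app n ((map φ).app n a)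

/-- The condition on the edge data of a cell. -/
def EdgeOk (G : GSet) (r i : ℕ) (a : G.cell i)
    (U : r ≤ i → G.cell (r + 1) × G.cell (r + 1)) : Prop :=
  ∀ h : r ≤ i, G.s (U h).1 = G.sIter h a ∧ G.s (U h).2 = G.tIter h a ∧
    (i = r → (U h).1 = (U h).2)

/-- A cell with edges at its faces of dimension `r` (none below level `r`). -/
abbrev ECell (r : ℕ) (G : GSet) (i : ℕ) : Type :=
  {x : G.cell i × (r ≤ i → G.cell (r + 1) × G.cell (r + 1)) // EdgeOk G r i x.1 x.2}

theorem ECell.ext' {r : ℕ} {G : GSet} {i : ℕ} {x y : ECell r G i} (ha : x.1.1 = y.1.1)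
    (hU : ∀ h, x.1.2 h = y.1.2 h) : x = y :=
  Subtype.ext (Prod.ext ha (funext hU))

section Faces

variable {r : ℕ} {G : GSet} {i : ℕ}

/-- The source of a cell with edges. -/
def ECell.src (x : ECell r G (i + 1)) : ECell r G i :=
  ⟨(G.s x.1.1, fun h => if i = r then ((x.1.2 (h.trans i.le_succ)).1,
      (x.1.2 (h.trans i.le_succ)).1) else x.1.2 (h.trans i.le_succ)), by
    intro h
    have e := x.2 (h.trans i.le_succ)
    dsimp only
    by_cases hi : i = r
    · subst hi
      rw [if_pos rfl]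
      have e1 : G.s (x.1.2 (h.trans i.le_succ)).1 = G.sIter h (G.s x.1.1) :=
        e.1.trans (G.sIter_succ h _)
      refine ⟨e1, ?_, fun _ => rfl⟩
      rw [GSet.tIter_self]
      rw [GSet.sIter_self] at e1
      exact e1
    · rw [if_neg hi]
      have hlt : r < i := lt_of_le_of_ne h (Ne.symm hi)
      exact ⟨e.1.trans (G.sIter_succ h _),
        e.2.1.trans ((G.tIter_succ h _).trans (G.tIter_s hlt _).symm), fun he => absurd he hi⟩⟩

/-- The target of a cell with edges. -/
def ECell.tgt (x : ECell r G (i + 1)) : ECell r G i :=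
  ⟨(G.t x.1.1, fun h => if i = r then ((x.1.2 (h.trans i.le_succ)).2,
      (x.1.2 (h.trans i.le_succ)).2) else x.1.2 (h.trans i.le_succ)), by
    intro h
    have e := x.2 (h.trans i.le_succ)
    dsimp only
    by_cases hi : i = r
    · subst hi
      rw [if_pos rfl]
      have e1 : G.s (x.1.2 (h.trans i.le_succ)).2 = G.tIter h (G.t x.1.1) :=
        e.2.1.trans (G.tIter_succ h _)
      refine ⟨?_, e1, fun _ => rfl⟩
      rw [GSet.sIter_self]
      rw [GSet.tIter_self] at e1
      exact e1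
    · rw [if_neg hi]
      have hlt : r < i := lt_of_le_of_ne h (Ne.symm hi)
      exact ⟨(e.1.trans (G.sIter_succ h _)).trans (G.sIter_t hlt _).symm,
        e.2.1.trans (G.tIter_succ h _), fun he => absurd he hi⟩⟩

end Faces

/-- Cells with edges form a globular set. -/
abbrev edgeGSet (r : ℕ) (G : GSet) : GSet where
  cell i := ECell r G i
  s x := x.src
  t x := x.tgt
  ss {n} x := ECell.ext' (G.ss _) fun h => by
    have hne : n + 1 ≠ r := by omega
    simp only [ECell.src, ECell.tgt, if_neg hne]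
  ts {n} x := ECell.ext' (G.ts _) fun h => by
    have hne : n + 1 ≠ r := by omega
    simp only [ECell.src, ECell.tgt, if_neg hne]

/-- Functoriality of cells with edges. -/
def edgeMap (r : ℕ) {G H : GSet} (f : GHom G H) : GHom (edgeGSet r G) (edgeGSet r H) where
  app i x := ⟨(f.app i x.1.1, fun h => ((f.app _ (x.1.2 h).1), (f.app _ (x.1.2 h).2))), by
    intro h
    have e := x.2 h
    exact ⟨by rw [f.app_s, f.app_sIter, e.1], by rw [f.app_s, f.app_tIter, e.2.1],
      fun he => congrArg _ (e.2.2 he)⟩⟩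
  app_s n x := ECell.ext' (f.app_s _ _) fun h => by
    simp only [ECell.src]
    split <;> rfl
  app_t n x := ECell.ext' (f.app_t _ _) fun h => by
    simp only [ECell.tgt]
    split <;> rfl

/-- The cell obtained by conjugation along the edges. -/
noncomputable def Coherator.conjE (X : C.Gpd) (r i : ℕ) (x : ECell r (C.gs X) i) :
    (C.gs X).cell i :=
  if h : r < i then
    C.kap X h (C.invC X (x.1.2 h.le).1) x.1.1 (x.1.2 h.le).2
      ((C.t_invC X _).trans (x.2 h.le).1) (x.2 h.le).2.1.symm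
  else if h' : r = i then h' ▸ (C.gs X).t (x.1.2 (le_of_eq h')).1 else x.1.1

theorem Coherator.conjE_gt (X : C.Gpd) {r i : ℕ} (h : r < i) (x : ECell r (C.gs X) i) :
    C.conjE X r i x = C.kap X h (C.invC X (x.1.2 h.le).1) x.1.1 (x.1.2 h.le).2
      ((C.t_invC X _).trans (x.2 h.le).1) (x.2 h.le).2.1.symm := dif_pos h

theorem Coherator.conjE_eq (X : C.Gpd) {r : ℕ} (x : ECell r (C.gs X) r) :
    C.conjE X r r x = (C.gs X).t (x.1.2 le_rfl).1 := by
  rw [Coherator.conjE, dif_neg (lt_irrefl r), dif_pos rfl]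

theorem Coherator.conjE_lt (X : C.Gpd) {r i : ℕ} (h : i < r) (x : ECell r (C.gs X) i) :
    C.conjE X r i x = x.1.1 := by
  rw [Coherator.conjE, dif_neg (by omega), dif_neg (by omega)]

/-- Conjugation as a map of globular sets. -/
noncomputable def Coherator.conjHom (X : C.Gpd) (r : ℕ) :
    GHom (edgeGSet r (C.gs X)) (C.gs X) where
  app i x := C.conjE X r i x
  app_s i x := by
    show (C.gs X).s (C.conjE X r (i + 1) x) = C.conjE X r i x.src
    rcases lt_trichotomy r i with h | h | h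
    · rw [C.conjE_gt X (Nat.lt_succ_of_lt h) x, C.conjE_gt X h x.src, C.s_kap X h]
      have hne : i ≠ r := by omega
      refine C.kap_congr X h ?_ rfl ?_ _ _ _ _ <;> simp [ECell.src, if_neg hne]
    · subst h
      rw [C.conjE_gt X r.lt_succ_self x, C.conjE_eq X x.src, C.s_kap_base X, C.s_invC]
      simp [ECell.src]
    · rw [C.conjE_lt X h x.src]
      rcases Nat.lt_or_eq_of_le (Nat.succ_le_of_lt h) with h2 | h2
      · rw [C.conjE_lt X h2 x]
        rfl
      · subst h2
        rw [C.conjE_eq X x, ← (C.gs X).ss]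
        exact congrArg (C.gs X).s (((x.2 le_rfl).1).trans ((C.gs X).sIter_self _))
  app_t i x := by
    show (C.gs X).t (C.conjE X r (i + 1) x) = C.conjE X r i x.tgt
    rcases lt_trichotomy r i with h | h | h
    · rw [C.conjE_gt X (Nat.lt_succ_of_lt h) x, C.conjE_gt X h x.tgt, C.t_kap X h]
      have hne : i ≠ r := by omega
      refine C.kap_congr X h ?_ rfl ?_ _ _ _ _ <;> simp [ECell.tgt, if_neg hne]
    · subst h
      rw [C.conjE_gt X r.lt_succ_self x, C.conjE_eq X x.tgt, C.t_kap_base X]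
      simp [ECell.tgt]
    · rw [C.conjE_lt X h x.tgt]
      rcases Nat.lt_or_eq_of_le (Nat.succ_le_of_lt h) with h2 | h2
      · rw [C.conjE_lt X h2 x]
        rfl
      · subst h2
        rw [C.conjE_eq X x, ← (C.gs X).ts]
        exact congrArg (C.gs X).t (((x.2 le_rfl).1).trans ((C.gs X).sIter_self _))

theorem Coherator.conjHom_natural {X Y : C.Gpd} (φ : X ⟶ Y) (r i : ℕ)
    (x : ECell r (C.gs X) i) :
    (gsMap φ.hom).app i (C.conjE X r i x)
      = C.conjE Y r i ((edgeMap r (gsMap φ.hom)).app i x) := by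
  rcases lt_trichotomy r i with h | h | h
  · rw [C.conjE_gt X h, C.conjE_gt Y h, C.kap_natural]
    exact C.kap_congr Y h (C.invC_natural φ _) rfl rfl _ _ _ _
  · subst h
    rw [C.conjE_eq X, C.conjE_eq Y]
    exact ((gsMap φ.hom).app_t _ _).symm
  · rw [C.conjE_lt X h, C.conjE_lt Y h]
    rfl

/-- The natural globular set of cells with edges. -/
abbrev edgeF (C : Coherator) (r : ℕ) : GFun C where
  obj X := edgeGSet r (C.gs X)
  map φ := edgeMap r (gsMap φ.hom)

/-- Cells of one layer: a cell with edges and an inner cylinder starting at its conjugate. -/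
abbrev stepCell (r : ℕ) (Q : GOver C) (X : C.Gpd) (i : ℕ) : Type :=
  {x : ECell r (C.gs X) i × (Q.obj X).cell i // C.conjE X r i x.1 = (Q.e0 X).app i x.2}

/-- One layer of cylinders. -/
noncomputable abbrev stepGSet (r : ℕ) (Q : GOver C) (X : C.Gpd) : GSet where
  cell i := stepCell r Q X i
  s {n} x := ⟨(x.1.1.src, (Q.obj X).s x.1.2),
    ((C.conjHom X r).app_s n x.1.1).symm.trans
      ((congrArg (C.gs X).s x.2).trans ((Q.e0 X).app_s n x.1.2))⟩
  t {n} x := ⟨(x.1.1.tgt, (Q.obj X).t x.1.2),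
    ((C.conjHom X r).app_t n x.1.1).symm.trans
      ((congrArg (C.gs X).t x.2).trans ((Q.e0 X).app_t n x.1.2))⟩
  ss x := Subtype.ext (Prod.ext ((edgeGSet r (C.gs X)).ss x.1.1) ((Q.obj X).ss x.1.2))
  ts x := Subtype.ext (Prod.ext ((edgeGSet r (C.gs X)).ts x.1.1) ((Q.obj X).ts x.1.2))

/-- The layer at level `r` over `Q`. -/
noncomputable abbrev step (r : ℕ) (Q : GOver C) : GOver C where
  obj X := stepGSet r Q X
  map {X Y} φ :=
    { app := fun i x => ⟨((edgeMap r (gsMap φ.hom)).app i x.1.1, (Q.map φ).app i x.1.2),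
        (C.conjHom_natural φ r i x.1.1).symm.trans
          ((congrArg _ x.2).trans (Q.nat0 φ i x.1.2))⟩
      app_s := fun n x => Subtype.ext (Prod.ext ((edgeMap r (gsMap φ.hom)).app_s n x.1.1)
        ((Q.map φ).app_s n x.1.2))
      app_t := fun n x => Subtype.ext (Prod.ext ((edgeMap r (gsMap φ.hom)).app_t n x.1.1)
        ((Q.map φ).app_t n x.1.2)) }
  e0 X :=
    { app := fun _ x => x.1.1.1.1
      app_s := fun _ _ => rfl
      app_t := fun _ _ => rfl }
  e1 X :=
    { app := fun i x => (Q.e1 X).app i x.1.2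
      app_s := fun n x => (Q.e1 X).app_s n x.1.2
      app_t := fun n x => (Q.e1 X).app_t n x.1.2 }
  nat0 _ _ _ := rfl
  nat1 φ n x := Q.nat1 φ n x.1.2

/-- Two cells with the same faces below dimension `M`. -/
def SameBelow (G : GSet) (M i : ℕ) (a b : G.cell i) : Prop :=
  ∀ j (h : j ≤ i), j < M → G.sIter h a = G.sIter h b ∧ G.tIter h a = G.tIter h b

theorem SameBelow.s {G : GSet} {M i : ℕ} {a b : G.cell (i + 1)}
    (h : SameBelow G M (i + 1) a b) : SameBelow G M i (G.s a) (G.s b) := by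
  intro j hj hM
  obtain ⟨h1, h2⟩ := h j (hj.trans i.le_succ) hM
  rw [G.sIter_succ hj, G.sIter_succ hj] at h1
  rw [G.tIter_succ hj, G.tIter_succ hj] at h2
  refine ⟨h1, ?_⟩
  rcases Nat.lt_or_eq_of_le hj with hlt | rfl
  · rw [G.tIter_s hlt, G.tIter_s hlt, h2]
  · rw [G.tIter_self, G.tIter_self]
    rw [G.sIter_self, G.sIter_self] at h1
    exact h1

theorem SameBelow.t {G : GSet} {M i : ℕ} {a b : G.cell (i + 1)}
    (h : SameBelow G M (i + 1) a b) : SameBelow G M i (G.t a) (G.t b) := by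
  intro j hj hM
  obtain ⟨h1, h2⟩ := h j (hj.trans i.le_succ) hM
  rw [G.sIter_succ hj, G.sIter_succ hj] at h1
  rw [G.tIter_succ hj, G.tIter_succ hj] at h2
  refine ⟨?_, h2⟩
  rcases Nat.lt_or_eq_of_le hj with hlt | rfl
  · rw [G.sIter_t hlt, G.sIter_t hlt, h1]
  · rw [G.sIter_self, G.sIter_self]
    rw [G.tIter_self, G.tIter_self] at h2
    exact h2

theorem SameBelow.map {G H : GSet} {M i : ℕ} {a b : G.cell i} (f : GHom G H)
    (h : SameBelow G M i a b) : SameBelow H M i (f.app i a) (f.app i b) := by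
  intro j hj hM
  rw [f.app_sIter, f.app_sIter, f.app_tIter, f.app_tIter, (h j hj hM).1, (h j hj hM).2]
  exact ⟨rfl, rfl⟩

/-- The base: pairs with the same faces below `M`. -/
abbrev baseF (C : Coherator) (M : ℕ) : GOver C where
  obj X :=
    { cell := fun i => {x : (C.gs X).cell i × (C.gs X).cell i // SameBelow (C.gs X) M i x.1 x.2}
      s := fun x => ⟨((C.gs X).s x.1.1, (C.gs X).s x.1.2), x.2.s⟩
      t := fun x => ⟨((C.gs X).t x.1.1, (C.gs X).t x.1.2), x.2.t⟩
      ss := fun _ => Subtype.ext (Prod.ext ((C.gs X).ss _) ((C.gs X).ss _))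
      ts := fun _ => Subtype.ext (Prod.ext ((C.gs X).ts _) ((C.gs X).ts _)) }
  map {X Y} φ :=
    { app := fun i x => ⟨((gsMap φ.hom).app i x.1.1, (gsMap φ.hom).app i x.1.2),
        x.2.map (gsMap φ.hom)⟩
      app_s := fun n x => Subtype.ext (Prod.ext ((gsMap φ.hom).app_s n x.1.1)
        ((gsMap φ.hom).app_s n x.1.2))
      app_t := fun n x => Subtype.ext (Prod.ext ((gsMap φ.hom).app_t n x.1.1)
        ((gsMap φ.hom).app_t n x.1.2)) }
  e0 X :=
    { app := fun _ x => x.1.1
      app_s := fun _ _ => rfl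
      app_t := fun _ _ => rfl }
  e1 X :=
    { app := fun _ x => x.1.2
      app_s := fun _ _ => rfl
      app_t := fun _ _ => rfl }
  nat0 _ _ _ := rfl
  nat1 _ _ _ := rfl

/-- The tower of cylinders: level `r`, real in dimensions `< r + d`. -/
noncomputable def cyl (C : Coherator) : ℕ → ℕ → GOver C
  | 0, r => baseF C r
  | d + 1, r => step r (cyl C d (r + 1))

end Vale.Agent.P259
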