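import Vale.Agent.P259.MainFinal
import Vale.Agent.P259.AssemblyMain

/-!
# P259 (F): the homotopy hypothesis from the path object
-/

noncomputable section

namespace Vale.Agent.P259

/-- The homotopy hypothesis holds once every coherator has a path object. -/
theorem homotopyHypothesis_of_pathData (hP : ∀ C : Coherator, Nonempty (PathData C)) :
    HomotopyHypothesis :=
  homotopyHypothesis_of_resolution (fun C => ⟨C.resolution⟩)
    (fun C X => by obtain ⟨Pd⟩ := hP C; exact psi0_bijective Pd X)
    (fun C c X x m => by obtain ⟨Pd⟩ := hP C; exact psi_bijective_of_pathData c Pd X x m)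

end Vale.Agent.P259
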