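import Vale.Agent.P259.ApproxCube
import Vale.Agent.P259.ApproxLiftDefs

/-!
# P259 (F): maps on cubes moving along a prescribed motion of the boundary

`Moves M g f` says that `f` is obtained from `g` by a homotopy that moves the boundary by `M`.
Existence and uniqueness of such `f` are both cases of the extension of maps from the bottom and
the sides of a prism.
-/

open Set Topology
open scoped unitInterval

noncomputable section

namespace Vale.Agent.P259

namespace CubeMove

variable {X Y Y' : Type} [TopologicalSpace X] [TopologicalSpace Y] [TopologicalSpace Y']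

/-- A function continuous on two closed sets covering the space is continuous. -/
theorem continuous_of_two {f : X → Y} {A B : Set X} (hA : IsClosed A) (hB : IsClosed B)
    (hcov : ∀ x, x ∈ A ∨ x ∈ B) (hfA : Continuous fun x : A => f x.1)
    (hfB : Continuous fun x : B => f x.1) : Continuous f := by
  rw [← continuousOn_univ, ← Set.eq_univ_of_forall (s := A ∪ B) hcov]
  refine ContinuousOn.union_of_isClosed ?_ ?_ hA hB
  · rw [continuousOn_iff_continuous_domRestrict]; exact hfA
  · rw [continuousOn_iff_continuous_domRestrict]; exact hfB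

variable {ι : Type} [Fintype ι]

/-- A map on the bottom and the sides of a prism extends to the prism. -/
theorem exists_boxExt (g : C(ι → I, Y)) (M : C(Cube.boundary ι × I, Y))
    (h : ∀ u, M (u, 0) = g u.1) :
    ∃ G : C((ι → I) × I, Y), (∀ u, G (u, 0) = g u) ∧
      ∀ (u : Cube.boundary ι) t, G (u.1, t) = M (u, t) := by
  classical
  let f : CubeLemma.openBox ι → Y := fun q =>
    if hq : q.1.1 ∈ Cube.boundary ι then M (⟨q.1.1, hq⟩, q.1.2) else g q.1.1
  have hf0 : ∀ q : CubeLemma.openBox ι, q.1.2 = 0 → f q = g q.1.1 := by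
    intro q hq
    by_cases hu : q.1.1 ∈ Cube.boundary ι
    · simp only [f, dif_pos hu, hq, h]
    · simp only [f, dif_neg hu]
  have hf1 : ∀ (q : CubeLemma.openBox ι) (hq : q.1.1 ∈ Cube.boundary ι),
      f q = M (⟨q.1.1, hq⟩, q.1.2) := fun q hq => dif_pos hq
  have hf : Continuous f := by
    refine continuous_of_two
      (isClosed_eq (continuous_snd.comp continuous_subtype_val) continuous_const)
      (CubeLemma.isClosed_boundary.preimage (continuous_fst.comp continuous_subtype_val))
      (fun q => q.2) ?_ ?_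
    · have e : (fun x : {q : CubeLemma.openBox ι | q.1.2 = 0} => f x.1) = fun x => g x.1.1.1 :=
        funext fun x => hf0 _ x.2
      exact e ▸ g.continuous.comp
        (continuous_fst.comp (continuous_subtype_val.comp continuous_subtype_val))
    · have e : (fun x : {q : CubeLemma.openBox ι | q.1.1 ∈ Cube.boundary ι} => f x.1) =
          fun x => M (⟨x.1.1.1, x.2⟩, x.1.1.2) := funext fun x => hf1 _ x.2
      exact e ▸ M.continuous.comp
        (((continuous_fst.comp (continuous_subtype_val.comp continuous_subtype_val)).subtype_mk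
          fun x => x.2).prodMk
          (continuous_snd.comp (continuous_subtype_val.comp continuous_subtype_val)))
  refine ⟨(⟨f, hf⟩ : C(CubeLemma.openBox ι, Y)).comp (CubeLemma.retract ι), fun u => ?_,
    fun u t => ?_⟩
  · show f (CubeLemma.retract ι (u, 0)) = g u
    rw [show CubeLemma.retract ι (u, 0) = _ from CubeLemma.retract_eq ⟨(u, 0), Or.inl rfl⟩]
    exact hf0 _ rfl
  · show f (CubeLemma.retract ι (u.1, t)) = M (u, t)
    rw [show CubeLemma.retract ι (u.1, t) = _ from CubeLemma.retract_eq ⟨(u.1, t), Or.inr u.2⟩]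
    exact hf1 ⟨(u.1, t), Or.inr u.2⟩ u.2

/-- The coordinates of a point of the prism, on the cube with one more coordinate. -/
def optE (ι : Type) : C((ι → I) × I, Option ι → I) :=
  ⟨fun q o => o.elim q.2 q.1, continuous_pi fun o => by
    cases o with
    | none => exact continuous_snd
    | some i => exact (continuous_apply i).comp continuous_fst⟩

omit [Fintype ι] in
@[simp] theorem optE_none (q : (ι → I) × I) : optE ι q none = q.2 := rfl

omit [Fintype ι] in
@[simp] theorem optE_some (q : (ι → I) × I) (i : ι) : optE ι q (some i) = q.1 i := rfl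

omit [Fintype ι] in
theorem optE_mem_boundary_of_fst {q : (ι → I) × I} (h : q.1 ∈ Cube.boundary ι) :
    optE ι q ∈ Cube.boundary (Option ι) := by
  obtain ⟨i, hi⟩ := h
  exact ⟨some i, hi⟩

omit [Fintype ι] in
theorem optE_mem_boundary_of_snd {q : (ι → I) × I} (h : q.2 = 0 ∨ q.2 = 1) :
    optE ι q ∈ Cube.boundary (Option ι) :=
  ⟨none, h⟩

/-- Two maps and a motion of the boundary give a map on the boundary of the prism, with a
parameter. -/
theorem exists_glueOption {P : Type} [TopologicalSpace P] (A B : C((ι → I) × P, Y))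
    (M : C((Cube.boundary ι × I) × P, Y)) (hA : ∀ u p, M ((u, 0), p) = A (u.1, p))
    (hB : ∀ u p, M ((u, 1), p) = B (u.1, p)) :
    ∃ c : C(Cube.boundary (Option ι) × P, Y),
      (∀ (u : ι → I) (p : P) h, c (⟨optE ι (u, 0), h⟩, p) = A (u, p)) ∧
      (∀ (u : ι → I) (p : P) h, c (⟨optE ι (u, 1), h⟩, p) = B (u, p)) ∧
      ∀ (u : Cube.boundary ι) (t : I) (p : P) h, c (⟨optE ι (u.1, t), h⟩, p) = M ((u, t), p) := by
  classical
  let f : Cube.boundary (Option ι) × P → Y := fun z =>
    if hz : (fun i => z.1.1 (some i)) ∈ Cube.boundary ι then M ((⟨_, hz⟩, z.1.1 none), z.2)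
    else if z.1.1 none = 0 then A (fun i => z.1.1 (some i), z.2)
    else B (fun i => z.1.1 (some i), z.2)
  have h0 : ∀ z, z.1.1 none = 0 → f z = A (fun i => z.1.1 (some i), z.2) := by
    intro z hz
    by_cases hu : (fun i => z.1.1 (some i)) ∈ Cube.boundary ι
    · simp only [f, dif_pos hu, hz, hA]
    · simp only [f, dif_neg hu, if_pos hz]
  have h1 : ∀ z, z.1.1 none = 1 → f z = B (fun i => z.1.1 (some i), z.2) := by
    intro z hz
    by_cases hu : (fun i => z.1.1 (some i)) ∈ Cube.boundary ι
    · simp only [f, dif_pos hu, hz, hB]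
    · have hne : ¬ z.1.1 none = 0 := fun h => one_ne_zero (hz.symm.trans h)
      simp only [f, dif_neg hu, if_neg hne]
  have hM : ∀ z (hz : (fun i => z.1.1 (some i)) ∈ Cube.boundary ι),
      f z = M ((⟨_, hz⟩, z.1.1 none), z.2) := fun z hz => dif_pos hz
  have hnone : Continuous fun z : Cube.boundary (Option ι) × P => z.1.1 none :=
    (continuous_apply none).comp (continuous_subtype_val.comp continuous_fst)
  have hsome : Continuous fun z : Cube.boundary (Option ι) × P => fun i => z.1.1 (some i) :=
    continuous_pi fun i =>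
      (continuous_apply (some i)).comp (continuous_subtype_val.comp continuous_fst)
  let SA := {z : Cube.boundary (Option ι) × P | z.1.1 none = 0}
  let SB := {z : Cube.boundary (Option ι) × P | z.1.1 none = 1}
  let SM := {z : Cube.boundary (Option ι) × P | (fun i => z.1.1 (some i)) ∈ Cube.boundary ι}
  have hSA : IsClosed SA := isClosed_eq hnone continuous_const
  have hSB : IsClosed SB := isClosed_eq hnone continuous_const
  have hSM : IsClosed SM := CubeLemma.isClosed_boundary.preimage hsome
  have hcov : ∀ z, z ∈ SA ∪ SB ∨ z ∈ SM := by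
    rintro ⟨⟨y, o, ho⟩, p⟩
    cases o with
    | none => exact Or.inl ho
    | some i => exact Or.inr ⟨i, ho⟩
  have cA : ContinuousOn f SA := by
    refine ContinuousOn.congr ?_ fun z hz => h0 z hz
    exact (A.continuous.comp (hsome.prodMk continuous_snd)).continuousOn
  have cB : ContinuousOn f SB := by
    refine ContinuousOn.congr ?_ fun z hz => h1 z hz
    exact (B.continuous.comp (hsome.prodMk continuous_snd)).continuousOn
  have cM : ContinuousOn f SM := by
    rw [continuousOn_iff_continuous_domRestrict]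
    have e : SM.domRestrict f = fun z : SM => M ((⟨_, z.2⟩, z.1.1.1 none), z.1.2) :=
      funext fun z => hM _ z.2
    rw [e]
    exact M.continuous.comp ((((hsome.comp continuous_subtype_val).subtype_mk fun z => z.2).prodMk
      (hnone.comp continuous_subtype_val)).prodMk (continuous_snd.comp continuous_subtype_val))
  have hf : Continuous f := by
    rw [← continuousOn_univ, ← Set.eq_univ_of_forall (s := (SA ∪ SB) ∪ SM) hcov]
    exact (cA.union_of_isClosed cB hSA hSB).union_of_isClosed cM (hSA.union hSB) hSM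
  exact ⟨⟨f, hf⟩, fun u p h => h0 _ rfl, fun u p h => h1 _ rfl,
    fun u t p h => hM (⟨optE ι (u.1, t), h⟩, p) u.2⟩

/-- Two maps and a motion of the boundary fill to a prism, when boundary maps extend. -/
theorem exists_fill (hY : CellSpaces.CubeExt Y) (A B : C(ι → I, Y))
    (M : C(Cube.boundary ι × I, Y)) (hA : ∀ u, M (u, 0) = A u.1) (hB : ∀ u, M (u, 1) = B u.1) :
    ∃ G : C((ι → I) × I, Y), (∀ u, G (u, 0) = A u) ∧ (∀ u, G (u, 1) = B u) ∧
      ∀ (u : Cube.boundary ι) t, G (u.1, t) = M (u, t) := by
  obtain ⟨c, c0, c1, cM⟩ := exists_glueOption (P := Unit) (A.comp ⟨Prod.fst, continuous_fst⟩)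
    (B.comp ⟨Prod.fst, continuous_fst⟩) (M.comp ⟨Prod.fst, continuous_fst⟩)
    (fun u _ => hA u) (fun u _ => hB u)
  obtain ⟨b, hb⟩ := hY (Option ι) (c.comp ⟨fun y => (y, ()), continuous_id.prodMk continuous_const⟩)
  refine ⟨b.comp (optE ι), fun u => ?_, fun u => ?_, fun u t => ?_⟩
  · exact (hb ⟨_, optE_mem_boundary_of_snd (Or.inl rfl)⟩).trans (c0 u () _)
  · exact (hb ⟨_, optE_mem_boundary_of_snd (Or.inr rfl)⟩).trans (c1 u () _)
  · exact (hb ⟨_, optE_mem_boundary_of_fst u.2⟩).trans (cM u t () _)

/-- The square lemma: bottom, two ends and sides of a double prism give its top. -/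
theorem exists_square (G0 A B : C((ι → I) × I, Y)) (M : C((Cube.boundary ι × I) × I, Y))
    (hA0 : ∀ u, A (u, 0) = G0 (u, 0)) (hB0 : ∀ u, B (u, 0) = G0 (u, 1))
    (hA : ∀ u t, M ((u, 0), t) = A (u.1, t)) (hB : ∀ u t, M ((u, 1), t) = B (u.1, t))
    (h0 : ∀ u s, M ((u, s), 0) = G0 (u.1, s)) :
    ∃ T : C((ι → I) × I, Y), (∀ u, T (u, 0) = A (u, 1)) ∧ (∀ u, T (u, 1) = B (u, 1)) ∧
      ∀ (u : Cube.boundary ι) s, T (u.1, s) = M ((u, s), 1) := by
  obtain ⟨c, c0, c1, cM⟩ := exists_glueOption A B M hA hB
  obtain ⟨G, g0, gc⟩ := exists_boxExt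
    (G0.comp ⟨fun y => (fun i => y (some i), y none),
      (continuous_pi fun i => continuous_apply (some i)).prodMk (continuous_apply none)⟩) c
    (by
      rintro ⟨y, o, ho⟩
      have hy : optE ι (fun i => y (some i), y none) = y := by
        funext o; cases o <;> rfl
      show c (⟨y, _⟩, 0) = G0 (fun i => y (some i), y none)
      cases o with
      | none =>
        rcases ho with h | h
        · have e : (⟨y, none, Or.inl h⟩ : Cube.boundary (Option ι)) =
              ⟨optE ι (fun i => y (some i), 0), optE_mem_boundary_of_snd (Or.inl rfl)⟩ :=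
            Subtype.ext (hy.symm.trans (by rw [h]))
          rw [e, c0, h, hA0]
        · have e : (⟨y, none, Or.inr h⟩ : Cube.boundary (Option ι)) =
              ⟨optE ι (fun i => y (some i), 1), optE_mem_boundary_of_snd (Or.inr rfl)⟩ :=
            Subtype.ext (hy.symm.trans (by rw [h]))
          rw [e, c1, h, hB0]
      | some i =>
        have hu : (fun i => y (some i)) ∈ Cube.boundary ι := ⟨i, ho⟩
        have e : (⟨y, some i, ho⟩ : Cube.boundary (Option ι)) =
            ⟨optE ι ((⟨_, hu⟩ : Cube.boundary ι).1, y none), optE_mem_boundary_of_fst hu⟩ :=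
          Subtype.ext hy.symm
        rw [e, cM, h0])
  refine ⟨G.comp ⟨fun q => (optE ι q, 1), (optE ι).continuous.prodMk continuous_const⟩,
    fun u => ?_, fun u => ?_, fun u s => ?_⟩
  · exact (gc ⟨_, optE_mem_boundary_of_snd (Or.inl rfl)⟩ 1).trans (c0 u 1 _)
  · exact (gc ⟨_, optE_mem_boundary_of_snd (Or.inr rfl)⟩ 1).trans (c1 u 1 _)
  · exact (gc ⟨_, optE_mem_boundary_of_fst u.2⟩ 1).trans (cM u s 1 _)

/-! ### Moving along a motion of the boundary -/

/-- `f` is obtained from `g` by a homotopy moving the boundary by `M`. -/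
def Moves (M : C(Cube.boundary ι × I, Y)) (g f : C(ι → I, Y)) : Prop :=
  ∃ G : C((ι → I) × I, Y), (∀ u, G (u, 0) = g u) ∧ (∀ u, G (u, 1) = f u) ∧
    ∀ (u : Cube.boundary ι) t, G (u.1, t) = M (u, t)

variable {M M' : C(Cube.boundary ι × I, Y)} {g g' f f' : C(ι → I, Y)}

theorem Moves.exists (h : ∀ u, M (u, 0) = g u.1) : ∃ f, Moves M g f := by
  obtain ⟨G, h0, hM⟩ := exists_boxExt g M h
  exact ⟨G.comp ⟨fun u => (u, 1), continuous_id.prodMk continuous_const⟩, G, h0, fun u => rfl, hM⟩

omit [Fintype ι] in
theorem Moves.congr (h : Moves M g f) (hM : ∀ p, M p = M' p) : Moves M' g f := by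
  obtain ⟨G, h0, h1, hG⟩ := h
  exact ⟨G, h0, h1, fun u t => (hG u t).trans (hM _)⟩

omit [Fintype ι] in
theorem Moves.start (h : Moves M g f) (u : Cube.boundary ι) : M (u, 0) = g u.1 := by
  obtain ⟨G, h0, -, hG⟩ := h
  rw [← hG, h0]

omit [Fintype ι] in
theorem Moves.end' (h : Moves M g f) (u : Cube.boundary ι) : f u.1 = M (u, 1) := by
  obtain ⟨G, -, h1, hG⟩ := h
  rw [← hG, h1]

omit [Fintype ι] in
theorem Moves.map (φ : C(Y, Y')) (h : Moves M g f) :
    Moves (φ.comp M) (φ.comp g) (φ.comp f) := by
  obtain ⟨G, h0, h1, hG⟩ := h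
  exact ⟨φ.comp G, fun u => congrArg φ (h0 u), fun u => congrArg φ (h1 u),
    fun u t => congrArg φ (hG u t)⟩

omit [Fintype ι] in
/-- A homotopy on the product with the interval as a homotopy relative to the boundary. -/
theorem homotopicRel_of_top (T : C((ι → I) × I, Y)) (h0 : ∀ u, T (u, 0) = f u)
    (h1 : ∀ u, T (u, 1) = f' u) (hb : ∀ (u : Cube.boundary ι) s, T (u.1, s) = f u.1) :
    f.HomotopicRel f' (Cube.boundary ι) :=
  ⟨{ toFun := fun q => T (q.2, q.1)
     continuous_toFun := T.continuous.comp (continuous_snd.prodMk continuous_fst)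
     map_zero_left := h0
     map_one_left := h1
     prop' := fun s u hu => hb ⟨u, hu⟩ s }⟩

/-- Moving homotopic maps along the same motion gives homotopic maps. -/
theorem Moves.homotopicRel_of_homotopicRel (h : Moves M g f) (h' : Moves M g' f')
    (hg : g.HomotopicRel g' (Cube.boundary ι)) : f.HomotopicRel f' (Cube.boundary ι) := by
  obtain ⟨G, a0, a1, aM⟩ := id h
  obtain ⟨G', b0, b1, bM⟩ := h'
  obtain ⟨F⟩ := hg
  obtain ⟨T, t0, t1, tb⟩ := exists_square
    ⟨fun q => F (q.2, q.1), F.continuous.comp (continuous_snd.prodMk continuous_fst)⟩ G G'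
    (M.comp ⟨fun z => (z.1.1, z.2),
      (continuous_fst.comp continuous_fst).prodMk continuous_snd⟩)
    (fun u => (a0 u).trans (F.apply_zero u).symm) (fun u => (b0 u).trans (F.apply_one u).symm)
    (fun u t => (aM u t).symm) (fun u t => (bM u t).symm)
    (fun u s => (h.start u).trans (F.eq_fst s u.2).symm)
  exact homotopicRel_of_top T (fun u => (t0 u).trans (a1 u)) (fun u => (t1 u).trans (b1 u))
    fun u s => (tb u s).trans (h.end' u).symm

theorem Moves.homotopicRel (h : Moves M g f) (h' : Moves M g f') :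
    f.HomotopicRel f' (Cube.boundary ι) :=
  h.homotopicRel_of_homotopicRel h' (ContinuousMap.HomotopicRel.refl g)

/-- Following a move by a homotopy, with a family of motions. -/
theorem Moves.change (h : Moves M g f) (H : C((ι → I) × I, Y)) (hH : ∀ u, H (u, 0) = f u)
    (F : C((Cube.boundary ι × I) × I, Y)) (hF0 : ∀ u t, F ((u, t), 0) = M (u, t))
    (hFg : ∀ u s, F ((u, 0), s) = g u.1) (hFH : ∀ u s, F ((u, 1), s) = H (u.1, s))
    (hf : ∀ u, H (u, 1) = f' u) (hM : ∀ u t, F ((u, t), 1) = M' (u, t)) : Moves M' g f' := by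
  obtain ⟨G, h0, h1, hG⟩ := h
  obtain ⟨T, t0, t1, tb⟩ := exists_square G
    (g.comp ⟨Prod.fst, continuous_fst⟩) H F (fun u => (h0 u).symm)
    (fun u => (hH u).trans (h1 u).symm) hFg hFH (fun u t => (hF0 u t).trans (hG u t).symm)
  exact ⟨T, t0, fun u => (t1 u).trans (hf u), fun u t => (tb u t).trans (hM u t)⟩

/-- Replacing the end by a homotopic map relative to the boundary. -/
theorem Moves.trans_homotopicRel (h : Moves M g f) (hf : f.HomotopicRel f' (Cube.boundary ι)) :
    Moves M g f' := by
  obtain ⟨F⟩ := hf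
  refine h.change ⟨fun q => F (q.2, q.1), F.continuous.comp (continuous_snd.prodMk continuous_fst)⟩
    (fun u => F.apply_zero u)
    (M.comp ⟨fun z => z.1, continuous_fst⟩) (fun _ _ => rfl) (fun u s => h.start u)
    (fun u s => (h.end' u).symm.trans (F.eq_fst s u.2).symm) (fun u => F.apply_one u)
    fun _ _ => rfl

/-! ### The boundary of a cube as box and free face -/

variable {m : ℕ}

theorem isClosed_boxSet : IsClosed (boxSet m) :=
  (isClosed_eq (continuous_apply _) continuous_const).union
    (CubeLemma.isClosed_boundary.preimage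
      (continuous_pi fun i => continuous_apply i.castSucc))

theorem boxSet_subset_boundary : boxSet m ⊆ Cube.boundary (Fin (m + 1)) := by
  rintro x (h | ⟨i, hi⟩)
  · exact ⟨Fin.last m, Or.inl h⟩
  · exact ⟨i.castSucc, hi⟩

theorem snoc_one_mem_boundary (u : Fin m → I) :
    (Fin.snoc u 1 : Fin (m + 1) → I) ∈ Cube.boundary (Fin (m + 1)) :=
  ⟨Fin.last m, Or.inr (Fin.snoc_last ..)⟩

theorem boundary_cases {x : Fin (m + 1) → I} (hx : x ∈ Cube.boundary (Fin (m + 1))) :
    x ∈ boxSet m ∨ x (Fin.last m) = 1 := by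
  obtain ⟨i, hi⟩ := hx
  induction i using Fin.lastCases with
  | last => exact hi.imp Or.inl id
  | cast i => exact Or.inl (Or.inr ⟨i, hi⟩)

/-- A map on the boundary of a cube from its values on the box and on the free face. -/
theorem exists_boxFace {P : Type} [TopologicalSpace P] (a : C(boxSet m × P, Y))
    (b : C((Fin m → I) × P, Y))
    (h : ∀ (u : Cube.boundary (Fin m)) p,
      a (⟨Fin.snoc u.1 1, snoc_one_mem_boxSet u⟩, p) = b (u.1, p)) :
    ∃ c : C(Cube.boundary (Fin (m + 1)) × P, Y),
      (∀ (x : boxSet m) p hx, c (⟨x.1, hx⟩, p) = a (x, p)) ∧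
      ∀ (u : Fin m → I) p hu, c (⟨Fin.snoc u 1, hu⟩, p) = b (u, p) := by
  classical
  let f : Cube.boundary (Fin (m + 1)) × P → Y := fun z =>
    if hz : z.1.1 ∈ boxSet m then a (⟨z.1.1, hz⟩, z.2) else b (Fin.init z.1.1, z.2)
  have hbox : ∀ z (hz : z.1.1 ∈ boxSet m), f z = a (⟨z.1.1, hz⟩, z.2) := fun z hz => dif_pos hz
  have hface : ∀ z, z.1.1 (Fin.last m) = 1 → f z = b (Fin.init z.1.1, z.2) := by
    intro z hz
    by_cases hu : z.1.1 ∈ boxSet m
    · have hi : Fin.init z.1.1 ∈ Cube.boundary (Fin m) :=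
        hu.resolve_left fun h0 => one_ne_zero (hz.symm.trans h0)
      rw [hbox z hu, ← h ⟨_, hi⟩]
      congr 2
      exact Subtype.ext ((Fin.snoc_init_self z.1.1).symm.trans (by rw [hz]))
    · exact dif_neg hu
  have hz : Continuous fun z : Cube.boundary (Fin (m + 1)) × P => z.1.1 :=
    continuous_subtype_val.comp continuous_fst
  have hf : Continuous f := by
    refine continuous_of_two (isClosed_boxSet.preimage hz)
      (isClosed_eq ((continuous_apply (Fin.last m)).comp hz) continuous_const)
      (fun z => boundary_cases z.1.2) ?_ ?_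
    · exact (a.continuous.comp (((hz.comp continuous_subtype_val).subtype_mk fun x => x.2).prodMk
        (continuous_snd.comp continuous_subtype_val))).congr fun x => (hbox _ x.2).symm
    · have hinit : Continuous fun x : Fin (m + 1) → I => Fin.init x :=
        continuous_pi fun i => continuous_apply i.castSucc
      exact (b.continuous.comp ((hinit.comp (hz.comp continuous_subtype_val)).prodMk
        (continuous_snd.comp continuous_subtype_val))).congr fun x => (hface _ x.2).symm
  refine ⟨⟨f, hf⟩, fun x p hx => hbox (⟨x.1, hx⟩, p) x.2, fun u p hu => ?_⟩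
  refine (hface (⟨Fin.snoc u 1, hu⟩, p) (Fin.snoc_last (α := fun _ => I) ..)).trans ?_
  exact congrArg (fun v => b (v, p)) (Fin.init_snoc ..)

end CubeMove

end Vale.Agent.P259
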