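import Vale.Agent.P259.MainInduction
import Vale.Agent.P259.ApproxLift
import Vale.Agent.P259.ApproxLiftSub
import Vale.Agent.P259.CompareResolution
import Vale.Agent.P259.ApproxRelLift

/-!
# P259 (F): the homotopy groups of classifying spaces
-/

noncomputable section

namespace Vale.Agent.P259

variable {C : Coherator} (c : IdChoice C) (Pd : PathData C)

include Pd in
/-- The classifying space has the homotopy groups of the groupoid. -/
theorem psi_bijective_of_pathData (X : C.Gpd) (x : C.cells X 0) (m : ℕ) :
    Function.Bijective (psi c X x m) :=
  psi_bijective_all c Pd relLiftOfPi cubeExtOfPi liftBox liftSub C.eps_resolve Pd.eps_evals X x m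

end Vale.Agent.P259
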