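import Vale.Agent.P259.MainInj
import Vale.Agent.P259.MainSphere

/-!
# P259 (F): the main induction

For every groupoid, the map `psi` from its homotopy groups to those of its classifying space is
bijective.  The inputs from modules D and E are hypotheses here.
-/

noncomputable section

namespace Vale.Agent.P259

variable {C : Coherator} (c : IdChoice C) (Pd : PathData C)

include Pd in
/-- Surjectivity and injectivity in all degrees. -/
theorem surjAt_injAt (hpi : RelLiftOfPi) (hext : CubeExtOfPi) (hbox : LiftBox) (hsub : LiftSub)
    (he5 : EpsResolve C) (he2 : EpsEvals Pd) (m : ℕ) : SurjAt c m ∧ InjAt c m := by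
  induction m using Nat.strong_induction_on with
  | _ m ih =>
    have hs : SurjAt c m := fun X x f hf =>
      exists_loop_rep c (Pd.pathsFromEnd X x) (Pd.constPath X x) (Pd.constPath_end X x) Pd hpi
        hbox (Pd.pathsFromEnd_isFib X x) (Pd.isContr_pathsFrom X x) (fun j hj => (ih j hj).1)
        (fun j hj => (ih j (by omega)).2)
        (sphereExt_pathsFrom c Pd hsub hext he5 he2 (n := m + 1)
          (fun j hj => (ih j (by omega)).1) X x)
        f hf
    refine ⟨hs, fun X x a b f f' ha hb h =>
      cellRel_of_rep c (Pd.pathsFromEnd X x) (Pd.constPath X x) (Pd.constPath_end X x) Pd hpi hbox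
        (Pd.pathsFromEnd_isFib X x) (Pd.isContr_pathsFrom X x) (fun j hj => ?_)
        (fun j hj => (ih j hj).2) ha hb h⟩
    rcases Nat.lt_or_eq_of_le hj with hlt | rfl
    exacts [(ih j hlt).1, hs]

include Pd in
/-- The classifying space has the homotopy groups of the groupoid. -/
theorem psi_bijective_all (hpi : RelLiftOfPi) (hext : CubeExtOfPi) (hbox : LiftBox)
    (hsub : LiftSub) (he5 : EpsResolve C) (he2 : EpsEvals Pd) (X : C.Gpd) (x : C.cells X 0)
    (m : ℕ) : Function.Bijective (psi c X x m) :=
  psi_bijective (surjAt_injAt c Pd hpi hext hbox hsub he5 he2 m).1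
    (surjAt_injAt c Pd hpi hext hbox hsub he5 he2 m).2 X x

end Vale.Agent.P259
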