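import Vale.Agent.P259.MainSurj

/-!
# P259 (F): loops of cells with homotopic representatives are related

A homotopy between the representatives is lifted through a fibration with contractible total
groupoid; the free face is a homotopy between representatives of the boundaries of the loops.
-/

open CategoryTheory Opposite Set Topology
open scoped unitInterval

noncomputable section

namespace Vale.Agent.P259

namespace CubeMove

variable {n : ℕ} {Y : Type} [TopologicalSpace Y]

theorem continuous_cons (n : ℕ) :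
    Continuous fun z : I × (Fin n → I) => (Fin.cons z.1 z.2 : Fin (n + 1) → I) :=
  continuous_pi fun i => by
    refine Fin.cases ?_ (fun j => ?_) i
    · simpa using! continuous_fst
    · simpa using! (continuous_apply j).comp continuous_snd

theorem continuous_tail (n : ℕ) : Continuous fun x : Fin (n + 1) → I => Fin.tail x :=
  continuous_pi fun i => continuous_apply i.succ

/-- Two maps at the ends of the first coordinate and a constant on the sides. -/
theorem exists_consGlue {S : Set (Fin n → I)} (hS : IsClosed S) {T : Set (Fin (n + 1) → I)}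
    (hT : ∀ x ∈ T, x 0 = 0 ∨ x 0 = 1 ∨ Fin.tail x ∈ S) (A B : C(Fin n → I, Y)) (y0 : Y)
    (hA : ∀ u ∈ S, A u = y0) (hB : ∀ u ∈ S, B u = y0) :
    ∃ c : C(T, Y), (∀ x : T, x.1 0 = 0 → c x = A (Fin.tail x.1)) ∧
      (∀ x : T, x.1 0 = 1 → c x = B (Fin.tail x.1)) ∧
      ∀ x : T, Fin.tail x.1 ∈ S → c x = y0 := by
  classical
  let f : T → Y := fun x => if x.1 0 = 0 then A (Fin.tail x.1)
    else if x.1 0 = 1 then B (Fin.tail x.1) else y0
  have h0 : ∀ x : T, x.1 0 = 0 → f x = A (Fin.tail x.1) := fun x hx => if_pos hx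
  have h1 : ∀ x : T, x.1 0 = 1 → f x = B (Fin.tail x.1) := fun x hx =>
    (if_neg fun h => one_ne_zero (hx.symm.trans h)).trans (if_pos hx)
  have h2 : ∀ x : T, Fin.tail x.1 ∈ S → f x = y0 := by
    intro x hx
    by_cases e0 : x.1 0 = 0
    · exact (h0 x e0).trans (hA _ hx)
    · by_cases e1 : x.1 0 = 1
      · exact (h1 x e1).trans (hB _ hx)
      · exact (if_neg e0).trans (if_neg e1)
  have ht : Continuous fun x : T => Fin.tail x.1 :=
    (continuous_tail n).comp continuous_subtype_val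
  have hz : Continuous fun x : T => x.1 0 := (continuous_apply 0).comp continuous_subtype_val
  let S0 := {x : T | x.1 0 = 0}
  let S1 := {x : T | x.1 0 = 1}
  let S2 := {x : T | Fin.tail x.1 ∈ S}
  have hcov : ∀ x : T, x ∈ (S0 ∪ S1) ∪ S2 := fun x => by
    rcases hT x.1 x.2 with h | h | h
    exacts [Or.inl (Or.inl h), Or.inl (Or.inr h), Or.inr h]
  have c0 : ContinuousOn f S0 :=
    (A.continuous.comp ht).continuousOn.congr fun x hx => h0 x hx
  have c1 : ContinuousOn f S1 :=
    (B.continuous.comp ht).continuousOn.congr fun x hx => h1 x hx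
  have c2 : ContinuousOn f S2 := continuousOn_const.congr fun x hx => h2 x hx
  have hS0 : IsClosed S0 := isClosed_eq hz continuous_const
  have hS1 : IsClosed S1 := isClosed_eq hz continuous_const
  have hf : Continuous f := by
    rw [← continuousOn_univ, ← Set.eq_univ_of_forall hcov]
    exact (c0.union_of_isClosed c1 hS0 hS1).union_of_isClosed c2 (hS0.union hS1) (hS.preimage ht)
  exact ⟨⟨f, hf⟩, h0, h1, h2⟩

theorem init_cons {m : ℕ} (t : I) (u : Fin (m + 1) → I) :
    Fin.init (Fin.cons t u : Fin (m + 2) → I) = Fin.cons t (Fin.init u) := by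
  funext i
  refine Fin.cases ?_ (fun j => ?_) i
  · simp [Fin.init]
  · show (Fin.cons t u : Fin (m + 2) → I) j.succ.castSucc = _
    rw [← Fin.succ_castSucc, Fin.cons_succ, Fin.cons_succ]
    rfl

theorem tail_snoc {m : ℕ} (v : Fin (m + 1) → I) (s : I) :
    Fin.tail (Fin.snoc v s : Fin (m + 2) → I) = Fin.snoc (Fin.tail v) s := by
  funext i
  refine Fin.lastCases ?_ (fun j => ?_) i
  · show (Fin.snoc v s : Fin (m + 2) → I) (Fin.last m).succ = _
    rw [Fin.succ_last, Fin.snoc_last, Fin.snoc_last]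
  · show (Fin.snoc v s : Fin (m + 2) → I) j.castSucc.succ = _
    rw [Fin.succ_castSucc, Fin.snoc_castSucc, Fin.snoc_castSucc]
    rfl

theorem snoc_zero {m : ℕ} (v : Fin (m + 1) → I) (s : I) :
    (Fin.snoc v s : Fin (m + 2) → I) 0 = v 0 := by
  rw [show (0 : Fin (m + 2)) = Fin.castSucc 0 from rfl, Fin.snoc_castSucc]

theorem cons_mem_boundary {m : ℕ} {t : I} {u : Fin m → I} (h : u ∈ Cube.boundary (Fin m)) :
    (Fin.cons t u : Fin (m + 1) → I) ∈ Cube.boundary (Fin (m + 1)) := by
  obtain ⟨i, hi⟩ := h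
  exact ⟨i.succ, by rwa [Fin.cons_succ]⟩

theorem cons_end_mem_boundary {m : ℕ} {t : I} (u : Fin m → I) (h : t = 0 ∨ t = 1) :
    (Fin.cons t u : Fin (m + 1) → I) ∈ Cube.boundary (Fin (m + 1)) :=
  ⟨0, by rwa [Fin.cons_zero]⟩

theorem boundary_cons_cases {m : ℕ} {x : Fin (m + 1) → I}
    (hx : x ∈ Cube.boundary (Fin (m + 1))) :
    x 0 = 0 ∨ x 0 = 1 ∨ Fin.tail x ∈ Cube.boundary (Fin m) := by
  obtain ⟨i, hi⟩ := hx
  induction i using Fin.cases with
  | zero => exact hi.imp id Or.inl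
  | succ j => exact Or.inr (Or.inr ⟨j, hi⟩)

theorem boxSet_cons_cases {m : ℕ} {x : Fin (m + 2) → I} (hx : x ∈ boxSet (m + 1)) :
    x 0 = 0 ∨ x 0 = 1 ∨ Fin.tail x ∈ boxSet m := by
  have hxe : x = Fin.cons (x 0) (Fin.tail x) := (Fin.cons_self_tail x).symm
  rcases hx with h | h
  · refine Or.inr (Or.inr (Or.inl ?_))
    rw [← h]
    show x (Fin.last m).succ = _
    rw [Fin.succ_last]
  · rw [hxe, init_cons] at h
    rcases boundary_cons_cases h with h' | h' | h'
    · exact Or.inl (by simpa using h')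
    · exact Or.inr (Or.inl (by simpa using h'))
    · exact Or.inr (Or.inr (Or.inr (by simpa using h')))

end CubeMove

theorem homotopy_trans_map {K K' Y W : Type} [TopologicalSpace K] [TopologicalSpace K']
    [TopologicalSpace Y] [TopologicalSpace W] {f0 f1 f2 : C(K, Y)} {g0 g1 g2 : C(K', W)}
    (F : f0.Homotopy f1) (G : f1.Homotopy f2) (F' : g0.Homotopy g1) (G' : g1.Homotopy g2)
    (φ : W → Y) (k : K) (k' : K') (hF : ∀ t, F (t, k) = φ (F' (t, k')))
    (hG : ∀ t, G (t, k) = φ (G' (t, k'))) (t : I) :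
    F.trans G (t, k) = φ (F'.trans G' (t, k')) := by
  rw [ContinuousMap.Homotopy.trans_apply, ContinuousMap.Homotopy.trans_apply]
  split_ifs
  exacts [hF _, hG _]

theorem homotopy_trans_const {K Y : Type} [TopologicalSpace K] [TopologicalSpace Y]
    {f0 f1 f2 : C(K, Y)} (F : f0.Homotopy f1) (G : f1.Homotopy f2) {k : K} {y : Y}
    (hF : ∀ t, F (t, k) = y) (hG : ∀ t, G (t, k) = y) (t : I) : F.trans G (t, k) = y := by
  rw [ContinuousMap.Homotopy.trans_apply]
  split_ifs
  exacts [hF _, hG _]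

variable {C : Coherator} (c : IdChoice C) {E X : C.Gpd} (π : E ⟶ X) {x : C.cells X 0}
  (e0 : C.cells E 0) (hx : C.mapCell π 0 e0 = x)

theorem FaceRep.boundary {m : ℕ} {y : C.cells (fiber π x) m}
    {g₁ : C(Fin m → I, C.BX (fiber π x))} {J : C((Fin m → I) × I, C.BX (fiber π x))}
    (hJ : FaceRep c π e0 hx y g₁ J) (u : Cube.boundary (Fin m)) :
    g₁ u.1 = pt _ (fiberPt π e0 hx) := by
  rw [← hJ.2.1, hJ.2.2, kCube_one_time]
  rfl

theorem exists_faceRep_of_bdry {m : ℕ} {a : Loop c X x m} {y : C.cells (fiber π x) m}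
    (hab : Bdry c π e0 a y) : ∃ g₁ J, FaceRep c π e0 hx y g₁ J := by
  cases m with
  | zero =>
    exact ⟨ContinuousMap.const _ (pt _ y), ContinuousMap.const _ (pt _ y),
      fun u => by rw [gCube_zero]; rfl, fun u => rfl, fun u => u.2.elim fun i _ => i.elim0⟩
  | succ k =>
    have hp := Bdry.par c hx hab
    let a1 : Loop c (fiber π x) (fiberPt π e0 hx) k :=
      ⟨y, hp.1.trans (C.src_idCell c _ _ k), hp.2.trans (C.tgt_idCell c _ _ k)⟩
    obtain ⟨G, G0, G1, GM⟩ := rep_repLoop c a1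
    exact ⟨(repLoop c a1).1, G, G0, G1, fun u t =>
      (GM u t).trans (congrArg (C.jMap _ _) (kCube_boundary c k u t).symm)⟩

/-- The lift of a loop is joined to its representative inside the box and the free face. -/
theorem exists_normal {m : ℕ} {a : Loop c X x m} {y : C.cells (fiber π x) m}
    (hab : Bdry c π e0 a y) {g₁ : C(Fin m → I, C.BX (fiber π x))}
    {J : C((Fin m → I) × I, C.BX (fiber π x))} (hJ : FaceRep c π e0 hx y g₁ J)
    {f : C(Fin (m + 1) → I, C.BX X)} (hf : Rep c a f) :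
    ∃ (g' : C(Fin (m + 1) → I, C.BX E))
      (H₁ : ((C.bMap (fiberFst π x)).comp g₁).HomotopyRel (ContinuousMap.const _ (base0 C))
        (Cube.boundary (Fin m)))
      (T : ((C.bMap π).comp g').Homotopy f),
      (∀ z ∈ boxSet m, g' z = pt E e0) ∧
      (∀ u, g' (Fin.snoc u 1) = C.bMap (fiberIncl π x) (g₁ u)) ∧
      (∀ t, ∀ z ∈ boxSet m, T (t, z) = pt X x) ∧
      ∀ t v, T (t, Fin.snoc v 1) = C.bMap (C.hat X x) (H₁ (t, v)) := by
  obtain ⟨M', g', g'box, g'face, Mbox, Mface, hM⟩ := exists_lift_of_bdry c π e0 hx hab hJ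
  have hb1 : ∀ u : Cube.boundary (Fin m), C.bMap (fiberFst π x) (g₁ u.1) = base0 C := fun u =>
    (congrArg (C.bMap (fiberFst π x)) (FaceRep.boundary c π e0 hx hJ u)).trans
      (bMap_fiberFst_pt π e0 hx)
  obtain ⟨L, L0, L1, LM⟩ := CubeMove.exists_fill (cubeExt_WS C (GSum.disc 0))
    ((C.bMap (fiberFst π x)).comp g₁) (ContinuousMap.const _ (base0 C))
    (ContinuousMap.const _ (base0 C)) (fun u => (hb1 u).symm) (fun _ => rfl)
  let H₁ : ((C.bMap (fiberFst π x)).comp g₁).HomotopyRel (ContinuousMap.const _ (base0 C))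
      (Cube.boundary (Fin m)) :=
    { toFun := fun q => L (q.2, q.1)
      continuous_toFun := L.continuous.comp (continuous_snd.prodMk continuous_fst)
      map_zero_left := L0
      map_one_left := L1
      prop' := fun t u hu => (LM ⟨u, hu⟩ t).trans (hb1 ⟨u, hu⟩).symm }
  obtain ⟨F, F0, Ft0, Fbox, Fface, F1⟩ :=
    exists_sides c π e0 hx (a := a) hab.1 hJ H₁ M' Mbox Mface
  obtain ⟨Gp, p0, p1, pM⟩ := hM
  obtain ⟨Gf, q0, q1, qM⟩ := hf
  obtain ⟨T, T0, T1, Tb⟩ := CubeMove.exists_square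
    (((C.jMap X a.1).comp (gCube C (m + 1))).comp ⟨Prod.fst, continuous_fst⟩) Gp Gf
    (F.comp ⟨fun z => ((z.1.1, z.2), z.1.2),
      ((continuous_fst.comp continuous_fst).prodMk continuous_snd).prodMk
        (continuous_snd.comp continuous_fst)⟩)
    p0 q0 (fun u t => (F0 u t).trans (pM u t).symm) (fun u t => (F1 u t).trans (qM u t).symm)
    (fun u s => Ft0 u s)
  refine ⟨g', H₁,
    { toFun := fun q => T (q.2, q.1)
      continuous_toFun := T.continuous.comp (continuous_snd.prodMk continuous_fst)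
      map_zero_left := fun u => (T0 u).trans (p1 u)
      map_one_left := fun u => (T1 u).trans (q1 u) }, g'box, g'face, fun t z hz => ?_,
    fun t v => ?_⟩
  · exact (Tb ⟨z, CubeMove.boxSet_subset_boundary hz⟩ t).trans (Fbox ⟨z, hz⟩ _ t)
  · exact (Tb ⟨_, CubeMove.snoc_one_mem_boundary v⟩ t).trans (Fface v _ t)

variable (Pd : PathData C)

include Pd hx in
/-- Injectivity in degree `m + 1` from surjectivity up to it and injectivity below. -/
theorem cellRel_of_rep (hpi : RelLiftOfPi) (hbox : LiftBox) (hπ : IsFib π) (hE : IsContr E)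
    {m : ℕ} (hs : ∀ j, j ≤ m → SurjAt c j) (hi : ∀ j, j < m → InjAt c j)
    {a b : Loop c X x m} {f f' : C(Fin (m + 1) → I, C.BX X)} (ha : Rep c a f) (hb : Rep c b f')
    (hff : f.HomotopicRel f' (Cube.boundary (Fin (m + 1)))) : CellRel X a.1 b.1 := by
  obtain ⟨ya, hya⟩ := exists_bdry c hπ hx a
  obtain ⟨yb, hyb⟩ := exists_bdry c hπ hx b
  refine Bdry.cellRel_loop c hE hya hyb ?_
  obtain ⟨ga, Ja, hJa⟩ := exists_faceRep_of_bdry c π e0 hx hya
  obtain ⟨gb, Jb, hJb⟩ := exists_faceRep_of_bdry c π e0 hx hyb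
  obtain ⟨la, Ha, Ta, laBox, laFace, TaBox, TaFace⟩ := exists_normal c π e0 hx hya hJa ha
  obtain ⟨lb, Hb, Tb, lbBox, lbFace, TbBox, TbFace⟩ := exists_normal c π e0 hx hyb hJb hb
  obtain ⟨F0⟩ := hff
  let W := (Ta.trans F0.toHomotopy).trans Tb.symm
  let Z := (Ha.toHomotopy.trans (ContinuousMap.Homotopy.refl _)).trans Hb.toHomotopy.symm
  have hfb : ∀ u ∈ Cube.boundary (Fin (m + 1)), f u = pt X x := Rep.boundary c ha
  have Wbox : ∀ t, ∀ z ∈ boxSet m, W (t, z) = pt X x := fun t z hz =>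
    homotopy_trans_const _ _
      (homotopy_trans_const _ _ (fun t => TaBox t z hz) fun t =>
        (F0.eq_fst t (CubeMove.boxSet_subset_boundary hz)).trans
          (hfb z (CubeMove.boxSet_subset_boundary hz)))
      (fun t => by rw [ContinuousMap.Homotopy.symm_apply]; exact TbBox _ z hz) t
  have Wface : ∀ t v, W (t, Fin.snoc v 1) = C.bMap (C.hat X x) (Z (t, v)) := fun t v =>
    homotopy_trans_map _ _ _ _ _ _ v
      (homotopy_trans_map _ _ _ _ _ _ v (fun t => TaFace t v) fun t =>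
        (F0.eq_fst t (CubeMove.snoc_one_mem_boundary v)).trans
          (hfb _ (CubeMove.snoc_one_mem_boundary v)))
      (fun t => by
        rw [ContinuousMap.Homotopy.symm_apply, ContinuousMap.Homotopy.symm_apply]
        exact TbFace _ v) t
  have Zb : ∀ t, ∀ v ∈ Cube.boundary (Fin m), Z (t, v) = base0 C := fun t v hv =>
    homotopy_trans_const _ _
      (homotopy_trans_const _ _ (fun t => Ha.eq_snd t hv) fun _ => rfl)
      (fun t => by rw [ContinuousMap.Homotopy.symm_apply]; exact Hb.eq_snd _ hv) t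
  let F : C(Fin (m + 2) → I, C.BX X) := ⟨fun z => W (z 0, Fin.tail z),
    W.continuous.comp ((continuous_apply 0).prodMk (CubeMove.continuous_tail _))⟩
  let F₁ : C(Fin (m + 1) → I, C.WS (GSum.disc 0)) := ⟨fun v => Z (v 0, Fin.tail v),
    Z.continuous.comp ((continuous_apply 0).prodMk (CubeMove.continuous_tail _))⟩
  obtain ⟨g₀, g₀0, g₀1, g₀s⟩ := CubeMove.exists_consGlue (T := boxSet (m + 1))
    CubeMove.isClosed_boxSet (fun z hz => CubeMove.boxSet_cons_cases hz) la lb (pt E e0)
    laBox lbBox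
  obtain ⟨gbd, gbd0, gbd1, gbds⟩ := CubeMove.exists_consGlue (T := Cube.boundary (Fin (m + 1)))
    CubeLemma.isClosed_boundary (fun z hz => CubeMove.boundary_cons_cases hz) ga gb
    (pt _ (fiberPt π e0 hx)) (fun u hu => FaceRep.boundary c π e0 hx hJa ⟨u, hu⟩)
    (fun u hu => FaceRep.boundary c π e0 hx hJb ⟨u, hu⟩)
  obtain ⟨g, g₁, -, -, g00, -⟩ := hbox (El X) (El E) (El (C.rep (GSum.disc 0))) (El (fiber π x))
    (El.map π) (El.map (C.hat X x)) (El.map (fiberFst π x)) (El.map (fiberIncl π x))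
    (fibre_square π x) (fibre_commaCan_inverse π x) (m + 1)
    (fun h k hk => relLift_comma c Pd π hpi hπ h (fun j hj => hs j (by omega))
      (fun j hj => hi j (by omega)))
    F g₀
    (fun z => by
      show C.bMap π (g₀ z) = W (z.1 0, Fin.tail z.1)
      rcases CubeMove.boxSet_cons_cases z.2 with h | h | h
      · rw [g₀0 z h, h, W.apply_zero]
        rfl
      · rw [g₀1 z h, h, W.apply_one]
        rfl
      · rw [g₀s z h, Wbox _ _ h, bMap_pt]
        exact congrArg (pt X) hx)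
    F₁
    (fun v => by
      show W ((Fin.snoc v 1 : Fin (m + 2) → I) 0, Fin.tail (Fin.snoc v 1 : Fin (m + 2) → I)) =
        C.bMap (C.hat X x) (Z (v 0, Fin.tail v))
      rw [CubeMove.snoc_zero, CubeMove.tail_snoc]
      exact Wface _ _)
    gbd
    (fun v => by
      show C.bMap (fiberFst π x) (gbd v) = Z (v.1 0, Fin.tail v.1)
      rcases CubeMove.boundary_cons_cases v.2 with h | h | h
      · rw [gbd0 v h, h, Z.apply_zero]
        rfl
      · rw [gbd1 v h, h, Z.apply_one]
        rfl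
      · rw [gbds v h, Zb _ _ h]
        exact bMap_fiberFst_pt π e0 hx)
    (fun v => by
      show C.bMap (fiberIncl π x) (gbd v) = g₀ ⟨Fin.snoc v.1 1, snoc_one_mem_boxSet v⟩
      rcases CubeMove.boundary_cons_cases v.2 with h | h | h
      · rw [gbd0 v h, g₀0 ⟨_, snoc_one_mem_boxSet v⟩ ((CubeMove.snoc_zero v.1 1).trans h), CubeMove.tail_snoc, laFace]
      · rw [gbd1 v h, g₀1 ⟨_, snoc_one_mem_boxSet v⟩ ((CubeMove.snoc_zero v.1 1).trans h), CubeMove.tail_snoc, lbFace]
      · have hm : Fin.tail (Fin.snoc v.1 1 : Fin (m + 2) → I) ∈ boxSet m := by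
          rw [CubeMove.tail_snoc]
          exact snoc_one_mem_boxSet ⟨_, h⟩
        rw [gbds v h, g₀s _ hm]
        exact bMap_fiberIncl_pt π e0 hx)
  have e0' : ∀ u, g₁ (Fin.cons 0 u) = ga u := fun u => by
    refine (g00 ⟨_, CubeMove.cons_end_mem_boundary u (Or.inl rfl)⟩).trans ?_
    rw [gbd0 _ (by simp), Fin.tail_cons]
  have e1' : ∀ u, g₁ (Fin.cons 1 u) = gb u := fun u => by
    refine (g00 ⟨_, CubeMove.cons_end_mem_boundary u (Or.inr rfl)⟩).trans ?_
    rw [gbd1 _ (by simp), Fin.tail_cons]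
  have eb : ∀ s, ∀ u ∈ Cube.boundary (Fin m), g₁ (Fin.cons s u) = ga u := fun s u hu => by
    refine (g00 ⟨_, CubeMove.cons_mem_boundary hu⟩).trans ?_
    rw [gbds _ (by rw [Fin.tail_cons]; exact hu), FaceRep.boundary c π e0 hx hJa ⟨u, hu⟩]
  cases m with
  | zero =>
    refine cellRel_of_joined Pd ?_
    let u0 : Fin 0 → I := fun i => i.elim0
    have ja : Joined (pt (fiber π x) ya) (ga u0) :=
      ⟨⟨⟨fun t => Ja (u0, t), Ja.continuous.comp (continuous_const.prodMk continuous_id)⟩,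
        hJa.1 u0, hJa.2.1 u0⟩⟩
    have jb : Joined (pt (fiber π x) yb) (gb u0) :=
      ⟨⟨⟨fun t => Jb (u0, t), Jb.continuous.comp (continuous_const.prodMk continuous_id)⟩,
        hJb.1 u0, hJb.2.1 u0⟩⟩
    refine (ja.trans ?_).trans jb.symm
    exact ⟨⟨⟨fun s => g₁ (Fin.cons s u0),
      g₁.continuous.comp ((CubeMove.continuous_cons 0).comp
        (continuous_id.prodMk continuous_const))⟩, e0' u0, e1' u0⟩⟩
  | succ k =>
    have hpa := Bdry.par c hx hya
    have hpb := Bdry.par c hx hyb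
    refine hi k k.lt_succ_self (fiber π x) (fiberPt π e0 hx)
      ⟨ya, hpa.1.trans (C.src_idCell c _ _ k), hpa.2.trans (C.tgt_idCell c _ _ k)⟩
      ⟨yb, hpb.1.trans (C.src_idCell c _ _ k), hpb.2.trans (C.tgt_idCell c _ _ k)⟩ ga gb ?_ ?_ ?_
    · exact ⟨Ja, hJa.1, hJa.2.1, fun u t =>
        (hJa.2.2 u t).trans (congrArg (C.jMap _ _) (kCube_boundary c k u t))⟩
    · exact ⟨Jb, hJb.1, hJb.2.1, fun u t =>
        (hJb.2.2 u t).trans (congrArg (C.jMap _ _) (kCube_boundary c k u t))⟩
    · exact ⟨{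
        toFun := fun q => g₁ (Fin.cons q.1 q.2)
        continuous_toFun := g₁.continuous.comp (CubeMove.continuous_cons _)
        map_zero_left := e0'
        map_one_left := e1'
        prop' := fun s u hu => eb s u hu }⟩

end Vale.Agent.P259
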