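import Vale.Agent.P259.MainRel

/-!
# P259 (F): loops of the classifying space come from cells

A loop in the classifying space of `X` is lifted through a fibration with contractible total
groupoid, with one free face; the free face is a loop in the fibre, of dimension one less.
-/

open CategoryTheory Opposite Set Topology
open scoped unitInterval

noncomputable section

namespace Vale.Agent.P259

variable {C : Coherator}

theorem snoc_init_of_last {m : ℕ} {x : Fin (m + 1) → I} (h : x (Fin.last m) = 1) :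
    Fin.snoc (Fin.init x) 1 = x := by
  rw [← h]
  exact Fin.snoc_init_self x

/-- The composite with `bMap π` of a map on the boundary of a `k`-cube extends to the cube. -/
def SphereExt {E X : C.Gpd} (π : E ⟶ X) (k : ℕ) : Prop :=
  ∀ (ι : Type) [Fintype ι], Fintype.card ι = k → ∀ sg : C(Cube.boundary ι, C.BX E),
    ∃ b : C(ι → I, C.BX X), ∀ u : Cube.boundary ι, b u.1 = C.bMap π (sg u)

theorem SphereExt.homotopicRel {E X : C.Gpd} {π : E ⟶ X} {k : ℕ} (h : SphereExt π k) {ι : Type}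
    [Fintype ι] (hk : Fintype.card ι + 1 = k) (g g' : C(ι → I, C.BX E))
    (hg : ∀ u : Cube.boundary ι, g' u.1 = g u.1) :
    ((C.bMap π).comp g).HomotopicRel ((C.bMap π).comp g') (Cube.boundary ι) := by
  obtain ⟨sg, s0, s1, sM⟩ := CubeMove.exists_glueOption (P := Unit)
    (g.comp ⟨Prod.fst, continuous_fst⟩) (g'.comp ⟨Prod.fst, continuous_fst⟩)
    (g.comp ⟨fun z : (Cube.boundary ι × I) × Unit => z.1.1.1,
      continuous_subtype_val.comp (continuous_fst.comp continuous_fst)⟩)
    (fun _ _ => rfl) (fun u _ => (hg u).symm)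
  obtain ⟨b, hb⟩ := h (Option ι) (by rw [Fintype.card_option, hk])
    (sg.comp ⟨fun y => (y, ()), continuous_id.prodMk continuous_const⟩)
  refine CubeMove.homotopicRel_of_top (b.comp (CubeMove.optE ι)) (fun u => ?_) (fun u => ?_)
    fun u s => ?_
  · exact (hb ⟨_, CubeMove.optE_mem_boundary_of_snd (Or.inl rfl)⟩).trans
      (congrArg (C.bMap π) (s0 u () _))
  · exact (hb ⟨_, CubeMove.optE_mem_boundary_of_snd (Or.inr rfl)⟩).trans
      (congrArg (C.bMap π) (s1 u () _))
  · exact (hb ⟨_, CubeMove.optE_mem_boundary_of_fst u.2⟩).trans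
      (congrArg (C.bMap π) (sM u s () _))

theorem jMap_rep (S : GSum) {R : GSum} (f : C.ext.Hom R S) (w : C.WS R) :
    C.jMap (C.rep S) f w = C.wMap f w := rfl

theorem pt_rep_id (C : Coherator) :
    pt (C.rep (GSum.disc 0)) (C.ext.id (GSum.disc 0)) = base0 C :=
  ContinuousMap.congr_fun (C.wMap_id (GSum.disc 0)) (base0 C)

variable (c : IdChoice C) {E X : C.Gpd} (π : E ⟶ X) {x : C.cells X 0} (e0 : C.cells E 0)
  (hx : C.mapCell π 0 e0 = x)

theorem bMap_fibre (w : C.BX (fiber π x)) :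
    C.bMap (C.hat X x) (C.bMap (fiberFst π x) w) = C.bMap π (C.bMap (fiberIncl π x) w) := by
  rw [C.bMap_bMap, C.bMap_bMap]
  exact congrArg (fun φ => C.bMap φ w) (pb_comm (C.hat X x) π)

theorem bMap_fiberFst_pt :
    C.bMap (fiberFst π x) (pt (fiber π x) (fiberPt π e0 hx)) = base0 C :=
  (bMap_pt _ _).trans (pt_rep_id C)

theorem bMap_fiberIncl_pt :
    C.bMap (fiberIncl π x) (pt (fiber π x) (fiberPt π e0 hx)) = pt E e0 :=
  bMap_pt _ _

/-- A boundary cell `y`, with a homotopy from its cube model to `g₁`. -/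
def FaceRep {m : ℕ} (y : C.cells (fiber π x) m) (g₁ : C(Fin m → I, C.BX (fiber π x)))
    (J : C((Fin m → I) × I, C.BX (fiber π x))) : Prop :=
  (∀ u, J (u, 0) = C.jMap _ y (gCube C m u)) ∧ (∀ u, J (u, 1) = g₁ u) ∧
    ∀ (u : Cube.boundary (Fin m)) t,
      J (u.1, t) = C.jMap _ (fiberPt π e0 hx) (kCube c m (u.1, t))

theorem exists_faceRep (hπ : IsFib π) (hE : IsContr E) {m : ℕ}
    (hs : ∀ j, j < m → SurjAt c j) (g₁ : C(Fin m → I, C.BX (fiber π x)))
    (hg : ∀ u : Cube.boundary (Fin m), g₁ u.1 = pt _ (fiberPt π e0 hx)) :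
    ∃ (a : Loop c X x m) (y : C.cells (fiber π x) m) (J : _),
      Bdry c π e0 a y ∧ FaceRep c π e0 hx y g₁ J := by
  cases m with
  | zero =>
    obtain ⟨y, hy⟩ := exists_joined_pt (g₁ fun i => i.elim0)
    obtain ⟨y', a, r, hb⟩ := exists_loop_of_par c hπ hE hx y (m := 0) trivial
    obtain ⟨γ⟩ := (joined_of_cellRel r).symm.trans hy.symm
    refine ⟨a, y', γ.toContinuousMap.comp ⟨Prod.snd, continuous_snd⟩, hb, fun u => ?_, fun u => ?_,
      fun u => (u.2.elim fun i _ => i.elim0)⟩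
    · rw [gCube_zero]
      exact γ.source
    · rw [show u = fun i => i.elim0 from funext fun i => i.elim0]
      exact γ.target
  | succ k =>
    obtain ⟨a0, ha0⟩ := hs k k.lt_succ_self _ (fiberPt π e0 hx) g₁ fun u hu => hg ⟨u, hu⟩
    have hpar : (C.gs (fiber π x)).Par a0.1 (idCell c _ (fiberPt π e0 hx) (k + 1)) :=
      ⟨a0.2.1.trans (C.src_idCell c _ _ k).symm, a0.2.2.trans (C.tgt_idCell c _ _ k).symm⟩
    obtain ⟨y', a, r, hb⟩ := exists_loop_of_par c hπ hE hx a0.1 hpar
    have hp := Bdry.par c hx hb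
    let a1 : Loop c (fiber π x) (fiberPt π e0 hx) k :=
      ⟨y', hp.1.trans (C.src_idCell c _ _ k), hp.2.trans (C.tgt_idCell c _ _ k)⟩
    obtain ⟨G, G0, G1, GM⟩ := Rep.of_homotopicRel c (rep_repLoop c a1)
      (Rep.homotopicRel c ha0 (rep_repLoop c a1) r).symm
    exact ⟨a, y', G, hb, G0, G1, fun u t =>
      (GM u t).trans (congrArg (C.jMap _ _) (kCube_boundary c k u t).symm)⟩

/-- A filling over the free face inside the space of the point. -/
theorem exists_face_fill {m : ℕ} (Z0 : C((Fin m → I) × I, C.WS (GSum.disc 0)))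
    (h0 : ∀ u, Z0 (u, 0) = C.wMap (ptId c m) (gCube C m u))
    (hb : ∀ (u : Cube.boundary (Fin m)) t, Z0 (u.1, t) = kCube c m (u.1, t))
    (f₀ : C(Fin m → I, C.WS (GSum.disc 0))) (h1 : ∀ u, Z0 (u, 1) = f₀ u)
    (H₁ : f₀.HomotopyRel (ContinuousMap.const _ (base0 C)) (Cube.boundary (Fin m))) :
    ∃ Z : C(((Fin m → I) × I) × I, C.WS (GSum.disc 0)),
      (∀ u t, Z ((u, t), 0) = Z0 (u, t)) ∧ (∀ u t, Z ((u, t), 1) = kCube c m (u, t)) ∧
      (∀ u s, Z ((u, 0), s) = C.wMap (ptId c m) (gCube C m u)) ∧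
      (∀ u s, Z ((u, 1), s) = H₁ (s, u)) ∧
      ∀ (u : Cube.boundary (Fin m)) t s, Z ((u.1, t), s) = kCube c m (u.1, t) := by
  let Hs : C((Fin m → I) × I, C.WS (GSum.disc 0)) :=
    ⟨fun z => H₁ (z.2, z.1), H₁.continuous.comp (continuous_snd.prodMk continuous_fst)⟩
  obtain ⟨M, M0, M1, MM⟩ := CubeMove.exists_glueOption (P := I)
    ((C.wMap (ptId c m)).comp ((gCube C m).comp ⟨Prod.fst, continuous_fst⟩)) Hs
    ((kCube c m).comp ⟨fun z : (Cube.boundary (Fin m) × I) × I => (z.1.1.1, z.1.2),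
      (continuous_subtype_val.comp (continuous_fst.comp continuous_fst)).prodMk
        (continuous_snd.comp continuous_fst)⟩)
    (fun u s => kCube_zero_time c m u.1) (fun u s => by
      show kCube c m (u.1, 1) = H₁ (s, u.1)
      rw [H₁.eq_snd s u.2, kCube_one_time]
      rfl)
  let e : C(Option (Fin m) → I, (Fin m → I) × I) :=
    ⟨fun y => (fun i => y (some i), y none),
      (continuous_pi fun i => continuous_apply (some i)).prodMk (continuous_apply none)⟩
  have he : ∀ y, CubeMove.optE (Fin m) (e y) = y := fun y => by funext o; cases o <;> rfl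
  have hM : ∀ (y : Cube.boundary (Option (Fin m))) (s : I) (u : Fin m → I) (t : I)
      (_ : CubeMove.optE (Fin m) (u, t) = y.1),
      (t = 0 → M (y, s) = C.wMap (ptId c m) (gCube C m u)) ∧
      (t = 1 → M (y, s) = H₁ (s, u)) ∧
      (∀ hu : u ∈ Cube.boundary (Fin m), M (y, s) = kCube c m (u, t)) := by
    intro y s u t hy
    refine ⟨fun ht => ?_, fun ht => ?_, fun hu => ?_⟩
    · subst ht
      rw [show y = ⟨_, hy ▸ y.2⟩ from Subtype.ext hy.symm]
      exact M0 u s _
    · subst ht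
      rw [show y = ⟨_, hy ▸ y.2⟩ from Subtype.ext hy.symm]
      exact M1 u s _
    · rw [show y = ⟨_, hy ▸ y.2⟩ from Subtype.ext hy.symm]
      exact MM ⟨u, hu⟩ t s _
  have hcases : ∀ y : Cube.boundary (Option (Fin m)),
      (e y.1).2 = 0 ∨ (e y.1).2 = 1 ∨ (e y.1).1 ∈ Cube.boundary (Fin m) := by
    rintro ⟨y, o, ho⟩
    cases o with
    | none => exact ho.elim Or.inl fun h => Or.inr (Or.inl h)
    | some i => exact Or.inr (Or.inr ⟨i, ho⟩)
  have hsides : ∀ y : Cube.boundary (Option (Fin m)),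
      M (y, 0) = Z0 (e y.1) ∧ M (y, 1) = kCube c m (e y.1) := by
    intro y
    have key0 := hM y 0 (e y.1).1 (e y.1).2 (he y.1)
    have key1 := hM y 1 (e y.1).1 (e y.1).2 (he y.1)
    have hpair : e y.1 = ((e y.1).1, (e y.1).2) := rfl
    rcases hcases y with ht | ht | hu
    · rw [hpair, ht, h0, kCube_zero_time]
      exact ⟨key0.1 ht, key1.1 ht⟩
    · rw [hpair, ht, h1, kCube_one_time]
      exact ⟨(key0.2.1 ht).trans (H₁.apply_zero _), (key1.2.1 ht).trans (H₁.apply_one _)⟩
    · rw [hpair]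
      exact ⟨(key0.2.2 hu).trans (hb ⟨_, hu⟩ _).symm, key1.2.2 hu⟩
  obtain ⟨G, G0, G1, GM⟩ := CubeMove.exists_fill (cubeExt_WS C (GSum.disc 0))
    (Z0.comp e) ((kCube c m).comp e) M (fun y => (hsides y).1) (fun y => (hsides y).2)
  refine ⟨G.comp ((CubeMove.optE (Fin m)).prodMap (ContinuousMap.id I)), fun u t => ?_,
    fun u t => ?_, fun u s => ?_, fun u s => ?_, fun u t s => ?_⟩
  · exact G0 _
  · exact G1 _
  · exact (GM ⟨_, CubeMove.optE_mem_boundary_of_snd (Or.inl rfl)⟩ s).trans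
      ((hM _ s u 0 rfl).1 rfl)
  · exact (GM ⟨_, CubeMove.optE_mem_boundary_of_snd (Or.inr rfl)⟩ s).trans
      ((hM _ s u 1 rfl).2.1 rfl)
  · exact (GM ⟨_, CubeMove.optE_mem_boundary_of_fst u.2⟩ s).trans
      ((hM _ s u.1 t rfl).2.2 u.2)

/-- The initial coordinates, as a map from the box. -/
def boxInit (m : ℕ) : C(boxSet m, Fin m → I) :=
  ⟨fun z => Fin.init z.1,
    continuous_pi fun i => (continuous_apply i.castSucc).comp continuous_subtype_val⟩

/-- The lift of a loop `a` with boundary `y`, moved to a map with free face `g₁`. -/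
theorem exists_lift_of_bdry {m : ℕ} {a : Loop c X x m} {y : C.cells (fiber π x) m}
    (hab : Bdry c π e0 a y) {g₁ : C(Fin m → I, C.BX (fiber π x))}
    {J : C((Fin m → I) × I, C.BX (fiber π x))} (hJ : FaceRep c π e0 hx y g₁ J) :
    ∃ (M' : C(Cube.boundary (Fin (m + 1)) × I, C.BX X)) (g' : C(Fin (m + 1) → I, C.BX E)),
      (∀ z ∈ boxSet m, g' z = pt E e0) ∧
      (∀ u, g' (Fin.snoc u 1) = C.bMap (fiberIncl π x) (g₁ u)) ∧
      (∀ (z : boxSet m) t h, M' (⟨z.1, h⟩, t) = C.jMap X x (kCube c m (Fin.init z.1, t))) ∧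
      (∀ u t h, M' (⟨Fin.snoc u 1, h⟩, t) =
        C.bMap (C.hat X x) (C.bMap (fiberFst π x) (J (u, t)))) ∧
      CubeMove.Moves M' ((C.jMap X a.1).comp (gCube C (m + 1))) ((C.bMap π).comp g') := by
  obtain ⟨hfst, b, hsb, htb, hπb⟩ := hab
  obtain ⟨J0, J1, JM⟩ := hJ
  obtain ⟨N, Nbox, Nface⟩ := CubeMove.exists_boxFace
    ((C.jMap E e0).comp ((kCube c m).comp ((boxInit m).prodMap (ContinuousMap.id I))))
    ((C.bMap (fiberIncl π x)).comp J) fun u t => by
      show C.jMap E e0 (kCube c m (Fin.init (Fin.snoc u.1 1 : Fin (m + 1) → I), t)) =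
        C.bMap (fiberIncl π x) (J (u.1, t))
      rw [Fin.init_snoc, JM]
      exact (ContinuousMap.congr_fun (C.jMap_natural (fiberIncl π x) (fiberPt π e0 hx)) _).symm
  have hstart : ∀ u : Cube.boundary (Fin (m + 1)),
      N (u, 0) = C.jMap E b (gCube C (m + 1) u.1) := by
    intro u
    rcases CubeMove.boundary_cases u.2 with h | h
    · refine (Nbox ⟨u.1, h⟩ 0 u.2).trans ?_
      rw [gCube_box C m h, jMap_src, hsb]
      exact jMap_kCube_zero c E e0 m _
    · have e : u = ⟨Fin.snoc (Fin.init u.1) 1, CubeMove.snoc_one_mem_boundary _⟩ :=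
        Subtype.ext ((snoc_init_of_last h).symm)
      rw [e, gCube_face, jMap_tgt, htb]
      refine (Nface _ 0 _).trans ?_
      show C.bMap (fiberIncl π x) (J (_, 0)) = _
      rw [J0]
      exact ContinuousMap.congr_fun (C.jMap_natural (fiberIncl π x) y) _
  obtain ⟨g', hg'⟩ := CubeMove.Moves.exists (M := N)
    (g := (C.jMap E b).comp (gCube C (m + 1))) hstart
  refine ⟨(C.bMap π).comp N, g', fun z hz => ?_, fun u => ?_, fun z t h => ?_, fun u t h => ?_, ?_⟩
  · refine (hg'.end' ⟨z, CubeMove.boxSet_subset_boundary hz⟩).trans ?_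
    refine (Nbox ⟨z, hz⟩ 1 _).trans ?_
    exact congrArg (C.jMap E e0) (kCube_one_time c m _)
  · refine (hg'.end' ⟨_, CubeMove.snoc_one_mem_boundary u⟩).trans ?_
    exact (Nface u 1 _).trans (congrArg (C.bMap (fiberIncl π x)) (J1 u))
  · refine (congrArg (C.bMap π) (Nbox z t h)).trans ?_
    show C.bMap π (C.jMap E e0 _) = _
    rw [show C.bMap π (C.jMap E e0 _) = _ from
      ContinuousMap.congr_fun (C.jMap_natural π e0) _]
    exact congrArg (fun e => C.jMap X e (kCube c m (Fin.init z.1, t))) hx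
  · exact (congrArg (C.bMap π) (Nface u t h)).trans (bMap_fibre π _).symm
  · have h := CubeMove.Moves.map (C.bMap π) hg'
    have e : (C.bMap π).comp ((C.jMap E b).comp (gCube C (m + 1))) =
        (C.jMap X a.1).comp (gCube C (m + 1)) := by
      rw [← ContinuousMap.comp_assoc, C.jMap_natural]
      exact congrArg (fun k => (C.jMap X k).comp (gCube C (m + 1))) hπb
    exact e ▸ h

/-- The family of motions over the free face and the box, joining the motion of a lift to the
motion of the cube model. -/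
theorem exists_sides {m : ℕ} {a : Loop c X x m} {y : C.cells (fiber π x) m}
    (hfst : C.mapCell (fiberFst π x) m y = ptId c m) {g₁ : C(Fin m → I, C.BX (fiber π x))}
    {J : C((Fin m → I) × I, C.BX (fiber π x))} (hJ : FaceRep c π e0 hx y g₁ J)
    (H₁ : ((C.bMap (fiberFst π x)).comp g₁).HomotopyRel (ContinuousMap.const _ (base0 C))
      (Cube.boundary (Fin m)))
    (M' : C(Cube.boundary (Fin (m + 1)) × I, C.BX X))
    (Mbox : ∀ (z : boxSet m) t h, M' (⟨z.1, h⟩, t) = C.jMap X x (kCube c m (Fin.init z.1, t)))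
    (Mface : ∀ u t h, M' (⟨Fin.snoc u 1, h⟩, t) =
      C.bMap (C.hat X x) (C.bMap (fiberFst π x) (J (u, t)))) :
    ∃ F : C((Cube.boundary (Fin (m + 1)) × I) × I, C.BX X),
      (∀ u t, F ((u, t), 0) = M' (u, t)) ∧
      (∀ u s, F ((u, 0), s) = C.jMap X a.1 (gCube C (m + 1) u.1)) ∧
      (∀ (z : boxSet m) h s, F ((⟨z.1, h⟩, 1), s) = pt X x) ∧
      (∀ v h s, F ((⟨Fin.snoc v 1, h⟩, 1), s) = C.bMap (C.hat X x) (H₁ (s, v))) ∧
      ∀ u t, F ((u, t), 1) = motion c X x m (u, t) := by
  obtain ⟨J0, J1, JM⟩ := hJ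
  obtain ⟨Z, Zs0, Zs1, Zt0, Zt1, Zb⟩ := exists_face_fill c ((C.bMap (fiberFst π x)).comp J)
    (fun u => by
      show C.bMap (fiberFst π x) (J (u, 0)) = _
      rw [J0]
      refine (ContinuousMap.congr_fun (C.jMap_natural (fiberFst π x) y) _).trans ?_
      exact congrArg (fun k => C.jMap (C.rep (GSum.disc 0)) k (gCube C m u)) hfst)
    (fun u t => by
      show C.bMap (fiberFst π x) (J (u.1, t)) = _
      rw [JM]
      refine (ContinuousMap.congr_fun
        (C.jMap_natural (fiberFst π x) (fiberPt π e0 hx)) _).trans ?_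
      exact ContinuousMap.congr_fun (C.wMap_id (GSum.disc 0)) _)
    ((C.bMap (fiberFst π x)).comp g₁) (fun u => congrArg (C.bMap (fiberFst π x)) (J1 u)) H₁
  obtain ⟨F, Fbox, Fface⟩ := CubeMove.exists_boxFace (P := I × I)
    ((C.jMap X x).comp ((kCube c m).comp
      ⟨fun z : boxSet m × (I × I) => (boxInit m z.1, z.2.1),
        ((boxInit m).continuous.comp continuous_fst).prodMk
          (continuous_fst.comp continuous_snd)⟩))
    ((C.bMap (C.hat X x)).comp (Z.comp
      ⟨fun z : (Fin m → I) × (I × I) => ((z.1, z.2.1), z.2.2),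
        (continuous_fst.prodMk (continuous_fst.comp continuous_snd)).prodMk
          (continuous_snd.comp continuous_snd)⟩))
    (fun u p => by
      show C.jMap X x (kCube c m (Fin.init (Fin.snoc u.1 1 : Fin (m + 1) → I), p.1)) =
        C.bMap (C.hat X x) (Z ((u.1, p.1), p.2))
      rw [Fin.init_snoc, Zb])
  have hface : ∀ u : Cube.boundary (Fin (m + 1)), u.1 (Fin.last m) = 1 →
      u = ⟨Fin.snoc (Fin.init u.1) 1, CubeMove.snoc_one_mem_boundary _⟩ :=
    fun u h => Subtype.ext (snoc_init_of_last h).symm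
  refine ⟨F.comp ⟨fun z => (z.1.1, (z.1.2, z.2)), (continuous_fst.comp continuous_fst).prodMk
      ((continuous_snd.comp continuous_fst).prodMk continuous_snd)⟩, ?_, ?_, ?_, ?_, ?_⟩
  · intro u t
    rcases CubeMove.boundary_cases u.2 with h | h
    · exact (Fbox ⟨u.1, h⟩ (t, 0) u.2).trans (Mbox ⟨u.1, h⟩ t u.2).symm
    · rw [hface u h]
      refine (Fface _ (t, 0) _).trans (Eq.trans ?_ (Mface _ t _).symm)
      exact congrArg (C.bMap (C.hat X x)) (Zs0 _ t)
  · intro u s
    refine Eq.trans ?_ (jMap_loop_boundary c a u).symm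
    rw [← jMap_kCube_zero c X x m]
    rcases CubeMove.boundary_cases u.2 with h | h
    · exact Fbox ⟨u.1, h⟩ (0, s) u.2
    · conv_lhs => rw [hface u h]
      refine (Fface _ (0, s) _).trans ?_
      show C.bMap (C.hat X x) (Z ((_, 0), s)) = _
      rw [Zt0, kCube_zero_time]
  · intro z h s
    exact (Fbox z (1, s) h).trans (congrArg (C.jMap X x) (kCube_one_time c m _))
  · intro v h s
    exact (Fface v (1, s) h).trans (congrArg (C.bMap (C.hat X x)) (Zt1 v s))
  · intro u t
    rcases CubeMove.boundary_cases u.2 with h | h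
    · exact Fbox ⟨u.1, h⟩ (t, 1) u.2
    · conv_lhs => rw [hface u h]
      refine (Fface _ (t, 1) _).trans ?_
      show C.bMap (C.hat X x) (Z ((_, t), 1)) = _
      rw [Zs1]
      rfl

variable (Pd : PathData C)

include Pd hx in
/-- Surjectivity in degree `m + 1` from the degrees below. -/
theorem exists_loop_rep (hpi : RelLiftOfPi) (hbox : LiftBox) (hπ : IsFib π) (hE : IsContr E)
    {m : ℕ} (hs : ∀ j, j < m → SurjAt c j) (hi : ∀ j, j + 1 < m → InjAt c j)
    (hsph : SphereExt π (m + 2)) (f : C(Fin (m + 1) → I, C.BX X))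
    (hf : ∀ u ∈ Cube.boundary (Fin (m + 1)), f u = pt X x) : ∃ a : Loop c X x m, Rep c a f := by
  obtain ⟨g, g₁, gbox, gface, g00, H₁, H, Hbox, Hface⟩ := hbox (El X) (El E)
    (El (C.rep (GSum.disc 0))) (El (fiber π x)) (El.map π) (El.map (C.hat X x))
    (El.map (fiberFst π x)) (El.map (fiberIncl π x)) (fibre_square π x)
    (fibre_commaCan_inverse π x) m
    (fun h k hk => relLift_comma c Pd π hpi hπ h (fun j hj => hs j (by omega))
      (fun j hj => hi j (by omega)))
    f (ContinuousMap.const _ (pt E e0))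
    (fun z => (bMap_pt π e0).trans ((congrArg (pt X) hx).trans
      (hf z.1 (CubeMove.boxSet_subset_boundary z.2)).symm))
    (ContinuousMap.const _ (base0 C))
    (fun u => hf _ (CubeMove.snoc_one_mem_boundary u))
    (ContinuousMap.const _ (pt _ (fiberPt π e0 hx)))
    (fun _ => bMap_fiberFst_pt π e0 hx) (fun _ => bMap_fiberIncl_pt π e0 hx)
  obtain ⟨a, y, J, hab, hJ⟩ := exists_faceRep c π e0 hx hπ hE hs g₁ g00
  obtain ⟨M', g', g'box, g'face, Mbox, Mface, hM⟩ := exists_lift_of_bdry c π e0 hx hab hJ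
  have hgg : ∀ u : Cube.boundary (Fin (m + 1)), g u.1 = g' u.1 := by
    intro u
    rcases CubeMove.boundary_cases u.2 with h | h
    · exact (gbox ⟨u.1, h⟩).trans (g'box u.1 h).symm
    · rw [show u.1 = Fin.snoc (Fin.init u.1) 1 from (snoc_init_of_last h).symm]
      exact (gface _).trans (g'face _).symm
  have hP := hM.trans_homotopicRel
    (hsph.homotopicRel (by rw [Fintype.card_fin]) g' g hgg)
  obtain ⟨F, F0, Ft0, Fbox, Fface, F1⟩ := exists_sides c π e0 hx (a := a) hab.1 hJ H₁ M' Mbox Mface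
  refine ⟨a, hP.change ⟨fun q => H (q.2, q.1), H.continuous.comp
    (continuous_snd.prodMk continuous_fst)⟩ (fun u => H.apply_zero u) F F0 Ft0 ?_
    (fun u => H.apply_one u) F1⟩
  intro u s
  rcases CubeMove.boundary_cases u.2 with h | h
  · exact (Fbox ⟨u.1, h⟩ u.2 s).trans ((hf u.1 u.2).symm.trans (Hbox s u.1 h).symm)
  · have e : u = ⟨Fin.snoc (Fin.init u.1) 1, CubeMove.snoc_one_mem_boundary _⟩ :=
      Subtype.ext (snoc_init_of_last h).symm
    rw [e]
    exact (Fface _ _ s).trans (Hface s _).symm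

end Vale.Agent.P259
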