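import Vale.Agent.P259.MainZero

/-!
# P259 (F): comma categories of elements and pullbacks

The category of elements of a pullback over a globular sum is the comma category of the functor of
elements.  With the hypotheses of the induction, this makes the transition maps lift cubes.
-/

open CategoryTheory Opposite Set Topology
open scoped unitInterval

noncomputable section

namespace Vale.Agent.P259

variable {C : Coherator}

/-- Homotopy classes of loops in degree `m + 1` come from cells. -/
def SurjAt (c : IdChoice C) (m : ℕ) : Prop :=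
  ∀ (X : C.Gpd) (x : C.cells X 0) (f : C(Fin (m + 1) → I, C.BX X)),
    (∀ u ∈ Cube.boundary (Fin (m + 1)), f u = pt X x) → ∃ a : Loop c X x m, Rep c a f

/-- Loops of cells with homotopic representatives are related. -/
def InjAt (c : IdChoice C) (m : ℕ) : Prop :=
  ∀ (X : C.Gpd) (x : C.cells X 0) (a b : Loop c X x m) (f f' : C(Fin (m + 1) → I, C.BX X)),
    Rep c a f → Rep c b f' → f.HomotopicRel f' (Cube.boundary (Fin (m + 1))) → CellRel X a.1 b.1

theorem psi_bijective {c : IdChoice C} {m : ℕ} (hs : SurjAt c m) (hi : InjAt c m) (X : C.Gpd)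
    (x : C.cells X 0) : Function.Bijective (psi c X x m) := by
  refine ⟨?_, ?_⟩
  · rintro ⟨a⟩ ⟨b⟩ h
    exact Quot.sound (hi X x a b _ _ (rep_repLoop c a) (rep_repLoop c b) (Quotient.exact h))
  · rintro ⟨p⟩
    obtain ⟨a, ha⟩ := hs X x p.1 p.2
    exact ⟨Quot.mk _ a, (psi_mk c a p).2 ha⟩

/-! ### Comma categories -/

section Comma

variable {E X : C.Gpd} (p : E ⟶ X)

/-- From the comma category to the elements of the pullback. -/
def toPb (a : El X) : CostructuredArrow (El.map p) a ⥤ El (pb (C.hat X a.elt) p) where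
  obj w := ⟨w.left.sum, ⟨(w.hom.hom, w.left.elt), w.hom.act_eq⟩⟩
  map {w w'} f := ⟨f.left.hom, Subtype.ext (Prod.ext
    (congrArg ElHom.hom (CostructuredArrow.w f) :) f.left.act_eq)⟩

/-- From the elements of the pullback to the comma category. -/
def ofPb (a : El X) : El (pb (C.hat X a.elt) p) ⥤ CostructuredArrow (El.map p) a where
  obj w := CostructuredArrow.mk (Y := (⟨w.sum, w.elt.1.2⟩ : El E)) (ElHom.mk w.elt.1.1 w.elt.2)
  map {w w'} f := CostructuredArrow.homMk (ElHom.mk f.hom (congrArg (fun z => z.1.2) f.act_eq))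
    (El.hom_ext (congrArg (fun z => z.1.1) f.act_eq :))

theorem toPb_ofPb (a : El X) : toPb p a ⋙ ofPb p a = 𝟭 _ := rfl

theorem ofPb_toPb (a : El X) : ofPb p a ⋙ toPb p a = 𝟭 _ := rfl

theorem hat_of_hom {a a' : El X} (h : a ⟶ a') :
    C.hat X a.elt = C.hat (C.rep a'.sum) h.hom ≫ C.hat X a'.elt := by
  rw [← C.hat_act, h.act_eq]

theorem map_eq_conj {a a' : El X} (h : a ⟶ a') :
    CostructuredArrow.map (S := El.map p) h =
      toPb p a ⋙ El.map (pbTrans (C.hat (C.rep a'.sum) h.hom) p (hat_of_hom h)) ⋙ ofPb p a' :=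
  rfl

end Comma

/-- Conjugation of a lifting property by mutually inverse maps. -/
theorem RelLift.conj {A A' B B' : Type} [TopologicalSpace A] [TopologicalSpace A']
    [TopologicalSpace B] [TopologicalSpace B'] {k : ℕ} {φ : C(A', B')} (h : RelLift k φ)
    (s : C(A, A')) (s' : C(A', A)) (t : C(B', B)) (t' : C(B, B'))
    (hs : ∀ z, s' (s z) = z) (hs' : ∀ z, s (s' z) = z) (ht : ∀ z, t (t' z) = z)
    (ht' : ∀ z, t' (t z) = z) :
    RelLift k (t.comp (φ.comp s)) := by
  intro ι _ hk a b hab
  obtain ⟨a', ha', ⟨H⟩⟩ := h ι hk (s.comp a) (t'.comp b) fun u => by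
    show t' (b u.1) = φ (s (a u))
    rw [hab]
    exact ht' _
  refine ⟨s'.comp a', fun u => (congrArg s' (ha' u)).trans (hs _), ?_⟩
  have e1 : (t.comp (φ.comp s)).comp (s'.comp a') = t.comp (φ.comp a') :=
    ContinuousMap.ext fun u => by
      show t (φ (s (s' (a' u)))) = t (φ (a' u))
      rw [hs']
  have e2 : t.comp (t'.comp b) = b := ContinuousMap.ext fun u => ht _
  rw [e1]
  conv => arg 2; rw [← e2]
  exact ⟨H.compContinuousMap t⟩

theorem CubeExtLE.conj {A B : Type} [TopologicalSpace A] [TopologicalSpace B] {n : ℕ}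
    (h : CubeExtLE n A) (e : C(A, B)) (e' : C(B, A)) (he : ∀ z, e (e' z) = z) : CubeExtLE n B := by
  intro ι _ hk a
  obtain ⟨b, hb⟩ := h ι hk (e'.comp a)
  exact ⟨e.comp b, fun u => (congrArg e (hb u)).trans (he _)⟩

theorem bsp_map_map_of_comp_eq_id {A B : Type} [SmallCategory A] [SmallCategory B] {F : A ⥤ B}
    {G : B ⥤ A} (h : F ⋙ G = 𝟭 A) (z : BSp A) : BSp.map G (BSp.map F z) = z := by
  have := ContinuousMap.congr_fun (BSp.map_comp F G) z
  rw [h, BSp.map_id] at this
  exact this.symm

/-- Transition maps lift cubes when the maps of classifying spaces of pullbacks do. -/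
theorem relLift_transition {E X : C.Gpd} (p : E ⟶ X) {a a' : El X} (h : a ⟶ a') {k : ℕ}
    (hk : RelLift k (C.bMap (pbTrans (C.hat (C.rep a'.sum) h.hom) p (hat_of_hom h)))) :
    RelLift k (BSp.map (CostructuredArrow.map (S := El.map p) h)) := by
  rw [map_eq_conj p h, BSp.map_comp, BSp.map_comp]
  exact hk.conj (BSp.map (toPb p a)) (BSp.map (ofPb p a)) (BSp.map (ofPb p a'))
    (BSp.map (toPb p a')) (bsp_map_map_of_comp_eq_id (toPb_ofPb p a))
    (bsp_map_map_of_comp_eq_id (ofPb_toPb p a)) (bsp_map_map_of_comp_eq_id (toPb_ofPb p a'))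
    (bsp_map_map_of_comp_eq_id (ofPb_toPb p a'))

/-- Comma categories are as connected as the pullbacks. -/
theorem cubeExtLE_comma {E X : C.Gpd} (p : E ⟶ X) (a : El X) {n : ℕ}
    (h : CubeExtLE n (C.BX (pb (C.hat X a.elt) p))) :
    CubeExtLE n (BSp (CostructuredArrow (El.map p) a)) :=
  h.conj (BSp.map (ofPb p a)) (BSp.map (toPb p a)) (bsp_map_map_of_comp_eq_id (toPb_ofPb p a))

/-! ### The square of a fibre -/

theorem hom_eqToHom_comp {X : C.Gpd} {p q r : El X} (h : p = q) (g : q ⟶ r)
    (g' : C.ext.Hom p.sum r.sum) (hg : HEq g.hom g') : ElHom.hom (eqToHom h ≫ g) = g' := by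
  subst h
  rw [eqToHom_refl, Category.id_comp]
  exact eq_of_heq hg

instance (X : C.Gpd) : (El.forget X).Faithful where map_injective h := El.hom_ext h

theorem costructured_ext {E X : C.Gpd} {φ : E ⟶ X} {a : El X}
    (w w' : CostructuredArrow (El.map φ) a) (h : w.left = w'.left)
    (hh : HEq w.hom.hom w'.hom.hom) : w = w' := by
  obtain ⟨l, ⟨⟨⟩⟩, u⟩ := w
  obtain ⟨l', ⟨⟨⟩⟩, u'⟩ := w'
  obtain rfl : l = l' := h
  obtain rfl : u = u' := El.hom_ext (eq_of_heq hh)
  rfl

section Fibre

variable {E X : C.Gpd} (π : E ⟶ X) (x : C.cells X 0)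

theorem fibre_square :
    El.map (fiberIncl π x) ⋙ El.map π = El.map (fiberFst π x) ⋙ El.map (C.hat X x) := by
  rw [← El.map_comp, ← El.map_comp]
  exact congrArg El.map (pb_comm (C.hat X x) π).symm

/-- The inverse of the comparison of comma categories of the square of a fibre. -/
def fibreCanInv (a : El (C.rep (GSum.disc 0))) :
    CostructuredArrow (El.map π) ((El.map (C.hat X x)).obj a) ⥤
      CostructuredArrow (El.map (fiberFst π x)) a where
  obj w := CostructuredArrow.mk
    (Y := (⟨w.left.sum, ⟨(C.ext.comp w.hom.hom a.elt, w.left.elt),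
      (act_comp X.obj w.hom.hom a.elt x).trans w.hom.act_eq⟩⟩ : El (fiber π x)))
    (ElHom.mk w.hom.hom rfl)
  map {w w'} f := CostructuredArrow.homMk
    (ElHom.mk f.left.hom (Subtype.ext (Prod.ext
      ((C.ext.assoc f.left.hom w'.hom.hom a.elt).symm.trans
        (congrArg (fun g => C.ext.comp g a.elt)
          (congrArg ElHom.hom (CostructuredArrow.w f) : _)))
      f.left.act_eq)))
    (El.hom_ext (congrArg ElHom.hom (CostructuredArrow.w f) :))

theorem fibre_commaCan_inverse (a : El (C.rep (GSum.disc 0))) :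
    ∃ η, commaCan (fibre_square π x) a ⋙ η = 𝟭 _ ∧ η ⋙ commaCan (fibre_square π x) a = 𝟭 _ := by
  refine ⟨fibreCanInv π x a, ?_, ?_⟩
  · have key : ∀ w : CostructuredArrow (El.map (fiberFst π x)) a,
        (commaCan (fibre_square π x) a ⋙ fibreCanInv π x a).obj w = w := by
      intro w
      obtain ⟨⟨R, ⟨⟨w1, e⟩, hw⟩⟩, ⟨⟨⟩⟩, r⟩ := w
      refine costructured_ext _ _ (congrArg (El.mk R) (Subtype.ext ?_)) (heq_of_eq ?_)
      · have hr : C.ext.comp r.hom a.elt = w1 := r.act_eq
        refine Prod.ext ?_ rfl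
        exact (congrArg (fun g => C.ext.comp g a.elt)
          (hom_eqToHom_comp _ ((El.map (C.hat X x)).map r) r.hom HEq.rfl)).trans hr
      · exact hom_eqToHom_comp (p := (El.map π).obj ((El.map (fiberIncl π x)).obj
            ⟨R, ⟨(w1, e), hw⟩⟩)) (Functor.congr_obj (fibre_square π x) _)
          ((El.map (C.hat X x)).map r) r.hom HEq.rfl
    refine CategoryTheory.Functor.ext key fun w w' f => ?_
    apply CostructuredArrow.hom_ext
    apply (El.forget _).map_injective
    simp [CostructuredArrow.eqToHom_left, eqToHom_map]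
    exact ((Category.id_comp _).trans (Category.comp_id _)).symm
  · have key : ∀ w : CostructuredArrow (El.map π) ((El.map (C.hat X x)).obj a),
        (fibreCanInv π x a ⋙ commaCan (fibre_square π x) a).obj w = w := by
      intro w
      obtain ⟨⟨R, e⟩, ⟨⟨⟩⟩, r⟩ := w
      refine costructured_ext _ _ rfl (heq_of_eq ?_)
      exact hom_eqToHom_comp _ ((El.map (C.hat X x)).map
        (CostructuredArrow.hom ((fibreCanInv π x a).obj ⟨⟨R, e⟩, ⟨⟨⟩⟩, r⟩))) r.hom HEq.rfl
    refine CategoryTheory.Functor.ext key fun w w' f => ?_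
    apply CostructuredArrow.hom_ext
    apply (El.forget _).map_injective
    simp [CostructuredArrow.eqToHom_left, eqToHom_map]
    exact ((Category.id_comp _).trans (Category.comp_id _)).symm

end Fibre

end Vale.Agent.P259
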