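import Vale.Agent.P259.Fam

/-!
# P259: composition, identities and inverses of natural families, up to higher cells
-/

open CategoryTheory Opposite

namespace Vale.Agent.P259

variable {C : Coherator}

/-- Projection of tuples to a prefix. -/
abbrev fstT (S : GSum) (j i : ℕ) (hS : j < S.last) (hi : j < i) :
    Nat' (barT C (S.snoc j i hS hi)) (barT C S) where
  app _ p := p.fst
  nat φ p := ((gsMap φ.hom).bar_fst p).symm

/-- Projection of tuples to the last cell. -/
abbrev sndT (S : GSum) (j i : ℕ) (hS : j < S.last) (hi : j < i) :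
    Fam (barT C (S.snoc j i hS hi)) i where
  app _ p := p.snd
  nat φ p := ((gsMap φ.hom).bar_snd p).symm

/-- The unique cell of a one-term tuple. -/
abbrev discT (n : ℕ) : Fam (barT C (GSum.disc n)) n where
  app _ p := p.1
  nat _ _ := rfl

variable {R R' : TFun C}

namespace Fam

/-- A family as a family of one-term tuples. -/
abbrev toDisc {n : ℕ} (A : Fam R n) : Nat' R (barT C (GSum.disc n)) where
  app X x := (C.gs X).one n (A.app X x)
  nat φ x := congrArg ((C.gs _).one n) (A.nat φ x)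

theorem pre_discT {n : ℕ} (A : Fam R n) : (discT (C := C) n).pre A.toDisc = A := rfl

/-- Extension of a family of tuples by a cell. -/
abbrev snocT {S : GSum} {j i : ℕ} {hS : j < S.last} {hi : j < i} (P : Nat' R (barT C S))
    (B : Fam R i)
    (h : ∀ X x, (C.gs X).tIter hS.le (P.app X x).last = (C.gs X).sIter hi.le (B.app X x)) :
    Nat' R (barT C (S.snoc j i hS hi)) where
  app X x := GSet.Bar.mk' (P.app X x) (B.app X x) (h X x)
  nat φ x := GSet.Bar.ext' (((gsMap φ.hom).bar_fst _).trans (P.nat φ x))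
    (((gsMap φ.hom).bar_snd _).trans (B.nat φ x))

/-- The sum of two cells glued along their boundary of dimension `j`. -/
abbrev two (p j q : ℕ) (hp : j < p) (hq : j < q) : GSum := (GSum.disc p).snoc j q hp hq

/-- A pair of composable cells. -/
abbrev pair {p j q : ℕ} (A : Fam R p) (B : Fam R q) (hp : j < p) (hq : j < q)
    (h : A.tIt hp.le = B.sIt hq.le) : Nat' R (barT C (two p j q hp hq)) :=
  snocT A.toDisc B fun X x => congrFun (congrFun (congrArg Nat'.app h) X) x

theorem par_refl {n : ℕ} (A : Fam R n) : A.Par A := fun X x => by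
  cases n with
  | zero => exact trivial
  | succ n => exact ⟨rfl, rfl⟩

theorem Rel.pre {n : ℕ} {A B : Fam R n} (h : A.Rel B) (e : Nat' R' R) :
    (A.pre e).Rel (B.pre e) := by
  obtain ⟨H, rfl, rfl⟩ := h
  exact ⟨H.pre e, rfl, rfl⟩

/-- The first cell of a pair. -/
abbrev hd (p j q : ℕ) (hp : j < p) (hq : j < q) : Fam (barT C (two p j q hp hq)) p :=
  (discT p).pre (fstT (GSum.disc p) j q hp hq)

/-- The second cell of a pair. -/
abbrev tl (p j q : ℕ) (hp : j < p) (hq : j < q) : Fam (barT C (two p j q hp hq)) q :=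
  sndT (GSum.disc p) j q hp hq

theorem hd_tl (p j q : ℕ) (hp : j < p) (hq : j < q) :
    (hd (C := C) p j q hp hq).tIt hp.le = (tl p j q hp hq).sIt hq.le :=
  Nat'.ext (funext fun _ => funext fun x => x.glue)

theorem pre_hd {p j q : ℕ} (A : Fam R p) (B : Fam R q) (hp : j < p) (hq : j < q)
    (h : A.tIt hp.le = B.sIt hq.le) : (hd p j q hp hq).pre (pair A B hp hq h) = A := rfl

theorem pre_tl {p j q : ℕ} (A : Fam R p) (B : Fam R q) (hp : j < p) (hq : j < q)
    (h : A.tIt hp.le = B.sIt hq.le) : (tl p j q hp hq).pre (pair A B hp hq h) = B := rfl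

theorem tIt_one {n : ℕ} (A : Fam R (n + 1)) : A.tIt n.le_succ = A.t := by
  refine Nat'.ext (funext fun X => funext fun x => ?_)
  show (C.gs X).tIter _ (A.app X x) = (C.gs X).t (A.app X x)
  rw [GSet.tIter_succ _ le_rfl, GSet.tIter_self]

theorem sIt_one {n : ℕ} (A : Fam R (n + 1)) : A.sIt n.le_succ = A.s := by
  refine Nat'.ext (funext fun X => funext fun x => ?_)
  show (C.gs X).sIter _ (A.app X x) = (C.gs X).s (A.app X x)
  rw [GSet.sIter_succ _ le_rfl, GSet.sIter_self]

/-! ### Composition -/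

theorem exists_compU (C : Coherator) (n : ℕ) :
    ∃ H : Fam (barT C (two (n + 1) n (n + 1) n.lt_succ_self n.lt_succ_self)) (n + 1),
      IsFill (hd (n + 1) n (n + 1) n.lt_succ_self n.lt_succ_self).s
        (tl (n + 1) n (n + 1) n.lt_succ_self n.lt_succ_self).t H := by
  refine hasFill_barT C _ n (max_le le_rfl le_rfl) _ _ ?_
  cases n with
  | zero => exact fun X x => trivial
  | succ m =>
    have h := hd_tl (C := C) (m + 2) (m + 1) (m + 2) (m + 1).lt_succ_self (m + 1).lt_succ_self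
    rw [tIt_one, sIt_one] at h
    refine par_of_eq ?_ ?_
    · rw [ss, h, ss]
    · rw [ts, h, ts]

/-- The universal composite. -/
noncomputable def compU (C : Coherator) (n : ℕ) :
    Fam (barT C (two (n + 1) n (n + 1) n.lt_succ_self n.lt_succ_self)) (n + 1) :=
  (exists_compU C n).choose

/-- The composite of two families of cells. -/
noncomputable def cmp {n : ℕ} (A B : Fam R (n + 1)) (h : A.t = B.s) : Fam R (n + 1) :=
  (compU C n).pre (pair A B n.lt_succ_self n.lt_succ_self (by rw [tIt_one, sIt_one, h]))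

@[simp] theorem cmp_s {n : ℕ} (A B : Fam R (n + 1)) (h : A.t = B.s) :
    (cmp A B h).s = A.s := by
  rw [cmp, compU, pre_s, (exists_compU C n).choose_spec.1]
  rfl

@[simp] theorem cmp_t {n : ℕ} (A B : Fam R (n + 1)) (h : A.t = B.s) :
    (cmp A B h).t = B.t := by
  rw [cmp, compU, pre_t, (exists_compU C n).choose_spec.2]
  rfl

theorem pre_cmp {n : ℕ} (e : Nat' R' R) (A B : Fam R (n + 1)) (h : A.t = B.s) :
    (cmp A B h).pre e = cmp (A.pre e) (B.pre e) (congrArg (Fam.pre e) h) := rfl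

/-! ### Identities and inverses -/

theorem exists_oneU (C : Coherator) (n : ℕ) :
    ∃ H : Fam (barT C (GSum.disc n)) (n + 1), IsFill (discT n) (discT n) H :=
  hasFill_barT C (GSum.disc n) n (Nat.le_succ n) _ _ (par_refl _)

/-- The identity family. -/
noncomputable def one {n : ℕ} (A : Fam R n) : Fam R (n + 1) :=
  (exists_oneU C n).choose.pre A.toDisc

@[simp] theorem one_s {n : ℕ} (A : Fam R n) : (one A).s = A := by
  rw [one, pre_s, (exists_oneU C n).choose_spec.1]
  rfl

@[simp] theorem one_t {n : ℕ} (A : Fam R n) : (one A).t = A := by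
  rw [one, pre_t, (exists_oneU C n).choose_spec.2]
  rfl

theorem pre_one {n : ℕ} (e : Nat' R' R) (A : Fam R n) : (one A).pre e = one (A.pre e) := rfl

theorem exists_invU (C : Coherator) (n : ℕ) :
    ∃ H : Fam (barT C (GSum.disc (n + 1))) (n + 1),
      IsFill (discT (n + 1)).t (discT (n + 1)).s H := by
  refine hasFill_barT C (GSum.disc (n + 1)) n le_rfl _ _ ?_
  cases n with
  | zero => exact fun X x => trivial
  | succ m => exact par_of_eq (ss _).symm (ts _).symm

/-- The inverse family. -/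
noncomputable def inv {n : ℕ} (A : Fam R (n + 1)) : Fam R (n + 1) :=
  (exists_invU C n).choose.pre A.toDisc

@[simp] theorem inv_s {n : ℕ} (A : Fam R (n + 1)) : (inv A).s = A.t := by
  rw [inv, pre_s, (exists_invU C n).choose_spec.1]
  rfl

@[simp] theorem inv_t {n : ℕ} (A : Fam R (n + 1)) : (inv A).t = A.s := by
  rw [inv, pre_t, (exists_invU C n).choose_spec.2]
  rfl

theorem pre_inv {n : ℕ} (e : Nat' R' R) (A : Fam R (n + 1)) :
    (inv A).pre e = inv (A.pre e) := rfl

/-! ### The groupoid laws -/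

theorem Rel.refl {n : ℕ} (A : Fam R n) : A.Rel A := ⟨one A, one_s A, one_t A⟩

theorem Rel.symm {n : ℕ} {A B : Fam R n} (h : A.Rel B) : B.Rel A := by
  obtain ⟨H, hs, ht⟩ := h
  exact ⟨inv H, by rw [inv_s, ht], by rw [inv_t, hs]⟩

theorem Rel.trans {n : ℕ} {A B D : Fam R n} (h : A.Rel B) (h' : B.Rel D) : A.Rel D := by
  obtain ⟨H, hs, ht⟩ := h
  obtain ⟨K, ks, kt⟩ := h'
  exact ⟨cmp H K (by rw [ht, ks]), by rw [cmp_s, hs], by rw [cmp_t, kt]⟩

theorem Rel.of_eq {n : ℕ} {A B : Fam R n} (h : A = B) : A.Rel B := h ▸ Rel.refl A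

theorem one_cmp {n : ℕ} (A : Fam R (n + 1)) :
    (cmp (one A.s) A (one_t _)).Rel A := by
  have U : (cmp (one (discT (C := C) (n + 1)).s) (discT (n + 1)) (one_t _)).Rel
      (discT (n + 1)) :=
    hasFill_barT C (GSum.disc (n + 1)) (n + 1) (Nat.le_succ _) _ _
      (par_of_eq (by rw [cmp_s, one_s]) (by rw [cmp_t]))
  exact U.pre A.toDisc

theorem cmp_one {n : ℕ} (A : Fam R (n + 1)) :
    (cmp A (one A.t) (one_s _).symm).Rel A := by
  have U : (cmp (discT (C := C) (n + 1)) (one (discT (n + 1)).t) (one_s _).symm).Rel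
      (discT (n + 1)) :=
    hasFill_barT C (GSum.disc (n + 1)) (n + 1) (Nat.le_succ _) _ _
      (par_of_eq (by rw [cmp_s]) (by rw [cmp_t, one_t]))
  exact U.pre A.toDisc

theorem inv_cmp {n : ℕ} (A : Fam R (n + 1)) :
    (cmp (inv A) A (inv_t A)).Rel (one A.t) := by
  have U : (cmp (inv (discT (C := C) (n + 1))) (discT (n + 1)) (inv_t _)).Rel
      (one (discT (n + 1)).t) :=
    hasFill_barT C (GSum.disc (n + 1)) (n + 1) (Nat.le_succ _) _ _
      (par_of_eq (by rw [cmp_s, inv_s, one_s]) (by rw [cmp_t, one_t]))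
  exact U.pre A.toDisc

theorem cmp_inv {n : ℕ} (A : Fam R (n + 1)) :
    (cmp A (inv A) (inv_s A).symm).Rel (one A.s) := by
  have U : (cmp (discT (C := C) (n + 1)) (inv (discT (n + 1))) (inv_s _).symm).Rel
      (one (discT (n + 1)).s) :=
    hasFill_barT C (GSum.disc (n + 1)) (n + 1) (Nat.le_succ _) _ _
      (par_of_eq (by rw [cmp_s, one_s]) (by rw [cmp_t, inv_t, one_t]))
  exact U.pre A.toDisc

theorem assoc' {n : ℕ} (A B D : Fam R (n + 1)) (h : A.t = B.s) (h' : B.t = D.s) :
    (cmp (cmp A B h) D (by rw [cmp_t, h'])).Rel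
      (cmp A (cmp B D h') (by rw [cmp_s, h])) := by
  let S := two (n + 1) n (n + 1) n.lt_succ_self n.lt_succ_self
  let S' := S.snoc n (n + 1) n.lt_succ_self n.lt_succ_self
  let a : Fam (barT C S') (n + 1) :=
    (hd (n + 1) n (n + 1) n.lt_succ_self n.lt_succ_self).pre (fstT S n (n + 1) _ _)
  let b : Fam (barT C S') (n + 1) :=
    (tl (n + 1) n (n + 1) n.lt_succ_self n.lt_succ_self).pre (fstT S n (n + 1) _ _)
  let d : Fam (barT C S') (n + 1) := sndT S n (n + 1) n.lt_succ_self n.lt_succ_self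
  have hab : a.t = b.s := by
    have e := congrArg (Fam.pre (fstT (C := C) S n (n + 1) n.lt_succ_self n.lt_succ_self))
      (hd_tl (C := C) (n + 1) n (n + 1) n.lt_succ_self n.lt_succ_self)
    rw [tIt_one, sIt_one] at e
    exact e
  have hbd : b.t = d.s := by
    have e : b.tIt n.le_succ = d.sIt n.le_succ :=
      Nat'.ext (funext fun _ => funext fun x => x.glue)
    rw [tIt_one, sIt_one] at e
    exact e
  have U : (cmp (cmp a b hab) d (by rw [cmp_t, hbd])).Rel
      (cmp a (cmp b d hbd) (by rw [cmp_s, hab])) :=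
    hasFill_barT C _ (n + 1) (max_le (max_le (Nat.le_succ _) (Nat.le_succ _)) (Nat.le_succ _)) _ _
      (par_of_eq (by rw [cmp_s, cmp_s, cmp_s]) (by rw [cmp_t, cmp_t, cmp_t]))
  exact U.pre (snocT (pair A B n.lt_succ_self n.lt_succ_self (by rw [tIt_one, sIt_one, h])) D
    (fun X x => by
      have e : B.tIt n.le_succ = D.sIt n.le_succ := by rw [tIt_one, sIt_one, h']
      exact congrFun (congrFun (congrArg Nat'.app e) X) x))

theorem Rel.st {n : ℕ} {A A' : Fam R (n + 1)} (r : A.Rel A') : A.s = A'.s ∧ A.t = A'.t := by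
  obtain ⟨H, rfl, rfl⟩ := r
  exact ⟨ss H, ts H⟩

theorem tIt_two {n : ℕ} (A : Fam R (n + 2)) : A.tIt (n.le_succ.trans (n + 1).le_succ) = A.t.t := by
  refine Nat'.ext (funext fun X => funext fun x => ?_)
  show (C.gs X).tIter _ (A.app X x) = (C.gs X).t ((C.gs X).t (A.app X x))
  rw [GSet.tIter_succ _ n.le_succ, GSet.tIter_succ _ le_rfl, GSet.tIter_self]

theorem sIt_two {n : ℕ} (A : Fam R (n + 2)) : A.sIt (n.le_succ.trans (n + 1).le_succ) = A.s.s := by
  refine Nat'.ext (funext fun X => funext fun x => ?_)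
  show (C.gs X).sIter _ (A.app X x) = (C.gs X).s ((C.gs X).s (A.app X x))
  rw [GSet.sIter_succ _ n.le_succ, GSet.sIter_succ _ le_rfl, GSet.sIter_self]

theorem Rel.cmp_left {n : ℕ} {A A' : Fam R (n + 1)} (r : A.Rel A') (B : Fam R (n + 1))
    (h : A.t = B.s) : (cmp A B h).Rel (cmp A' B (r.st.2 ▸ h)) := by
  obtain ⟨H, rfl, rfl⟩ := r
  have hp : n < n + 2 := by omega
  let a := hd (C := C) (n + 2) n (n + 1) hp n.lt_succ_self
  let b := tl (C := C) (n + 2) n (n + 1) hp n.lt_succ_self
  have hab : a.t.t = b.s := by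
    have e := hd_tl (C := C) (n + 2) n (n + 1) hp n.lt_succ_self
    rw [tIt_two, sIt_one] at e
    exact e
  have U : (cmp a.s b (by rw [ts, hab])).Rel (cmp a.t b hab) :=
    hasFill_barT C _ (n + 1) (max_le le_rfl (Nat.le_succ _)) _ _
      (par_of_eq (by rw [cmp_s, cmp_s, ss]) (by rw [cmp_t, cmp_t]))
  exact U.pre (pair H B hp n.lt_succ_self (by rw [tIt_two, sIt_one, ← ts, h]))

theorem Rel.cmp_right {n : ℕ} (A : Fam R (n + 1)) {B B' : Fam R (n + 1)} (r : B.Rel B')
    (h : A.t = B.s) : (cmp A B h).Rel (cmp A B' (r.st.1 ▸ h)) := by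
  obtain ⟨H, rfl, rfl⟩ := r
  have hq : n < n + 2 := by omega
  let a := hd (C := C) (n + 1) n (n + 2) n.lt_succ_self hq
  let b := tl (C := C) (n + 1) n (n + 2) n.lt_succ_self hq
  have hab : a.t = b.s.s := by
    have e := hd_tl (C := C) (n + 1) n (n + 2) n.lt_succ_self hq
    rw [tIt_one, sIt_two] at e
    exact e
  have U : (cmp a b.s hab).Rel (cmp a b.t (by rw [← ss, hab])) :=
    hasFill_barT C _ (n + 1) (max_le (Nat.le_succ _) le_rfl) _ _
      (par_of_eq (by rw [cmp_s, cmp_s]) (by rw [cmp_t, cmp_t, ts]))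
  exact U.pre (pair A H n.lt_succ_self hq (by rw [tIt_one, sIt_two, h]))

/-- `A⁻¹ (A B) ~ B`. -/
theorem inv_cmp_cancel {n : ℕ} (A B : Fam R (n + 1)) (h : A.t = B.s) :
    (cmp (inv A) (cmp A B h) (by rw [inv_t, cmp_s])).Rel B := by
  refine (assoc' (inv A) A B (inv_t A) h).symm.trans ?_
  refine ((inv_cmp A).cmp_left B (by rw [cmp_t, h])).trans ?_
  have key : ∀ (Z : Fam R n) (hZ : (one Z).t = B.s), Z = B.s → (cmp (one Z) B hZ).Rel B := by
    intro Z hZ e
    subst e
    exact one_cmp B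
  exact key _ _ h

/-- `A (A⁻¹ B) ~ B`. -/
theorem cmp_inv_cancel {n : ℕ} (A B : Fam R (n + 1)) (h : A.s = B.s) :
    (cmp A (cmp (inv A) B (by rw [inv_t, h])) (by rw [cmp_s, inv_s])).Rel B := by
  refine (assoc' A (inv A) B (inv_s A).symm (by rw [inv_t, h])).symm.trans ?_
  refine ((cmp_inv A).cmp_left B (by rw [cmp_t, inv_t, h])).trans ?_
  have key : ∀ (Z : Fam R n) (hZ : (one Z).t = B.s), Z = B.s → (cmp (one Z) B hZ).Rel B := by
    intro Z hZ e
    subst e
    exact one_cmp B
  exact key _ _ h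

end Fam

end Vale.Agent.P259
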